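import Vale.Agent.P337.AlgA

/-!
# The algebra `R[x] / (x_i ^ 5 - h_i)` is free with the box monomials as a basis (module B1), base
change (module B2)
-/

namespace Vale.Agent.P337

open MvPolynomial

variable {R : Type*} [CommRing R] {n : ℕ}

/-- the exponent of a box monomial -/
noncomputable def boxExp (k : Fin n → Fin 5) : Fin n →₀ ℕ :=
  Finsupp.equivFunOnFinite.symm fun i => (k i : ℕ)

theorem boxExp_apply (k : Fin n → Fin 5) (i : Fin n) : boxExp k i = (k i : ℕ) := rfl

theorem degree_boxExp (k : Fin n → Fin 5) : (boxExp k).degree = ∑ i, (k i : ℕ) := by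
  rw [Finsupp.degree_eq_sum]
  rfl

theorem mk_C_mul (h : Fin n → MvPolynomial (Fin n) R) (c : R) (g : MvPolynomial (Fin n) R) :
    Ideal.Quotient.mk (relIdeal h) (C c * g) = c • Ideal.Quotient.mk (relIdeal h) g := by
  rw [← MvPolynomial.smul_eq_C_mul]
  rfl

theorem box_span (h : Fin n → MvPolynomial (Fin n) R) (hd : ∀ i, (h i).totalDegree ≤ 3) :
    ∀ (d : ℕ) (s : Fin n →₀ ℕ), s.degree ≤ d →
      Ideal.Quotient.mk (relIdeal h) (monomial s 1) ∈ Submodule.span R (Set.range
        fun k : Fin n → Fin 5 => Ideal.Quotient.mk (relIdeal h) (monomial (boxExp k) 1)) := by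
  intro d
  induction d with
  | zero =>
    intro s hs
    have h0 : s = 0 := by
      have := Finsupp.degree_eq_zero_iff s
      exact this.mp (by omega)
    apply Submodule.subset_span
    refine ⟨fun _ => 0, ?_⟩
    have : boxExp (fun _ : Fin n => (0 : Fin 5)) = s := by
      rw [h0]; ext i; simp [boxExp_apply]
    simp only [this]
  | succ d ih =>
    intro s hs
    by_cases hbox : ∀ i, s i < 5
    · apply Submodule.subset_span
      refine ⟨fun i => ⟨s i, hbox i⟩, ?_⟩
      have : boxExp (fun i => (⟨s i, hbox i⟩ : Fin 5)) = s := by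
        ext i; simp [boxExp_apply]
      simp only [this]
    · push Not at hbox
      obtain ⟨i, hi⟩ := hbox
      set s' : Fin n →₀ ℕ := s - Finsupp.single i 5 with hs'
      have hs5 : s' + Finsupp.single i 5 = s := by
        rw [hs']
        apply tsub_add_cancel_of_le
        rw [Finsupp.single_le_iff]
        exact hi
      have hdeg : s'.degree + 5 = s.degree := by
        rw [← hs5]
        simp [Finsupp.degree_single]
      have e1 : (monomial s (1 : R)) = monomial s' 1 * X i ^ 5 := by
        rw [MvPolynomial.X_pow_eq_monomial, monomial_mul, mul_one, hs5]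
      have e2 : Ideal.Quotient.mk (relIdeal h) (monomial s (1 : R)) =
          Ideal.Quotient.mk (relIdeal h) (monomial s' 1 * h i) := by
        rw [e1, Ideal.Quotient.eq, ← mul_sub]
        exact Ideal.mul_mem_left _ _ (Ideal.subset_span ⟨i, rfl⟩)
      rw [e2]
      have e3 : (monomial s' (1 : R)) * h i =
          ∑ m ∈ (h i).support, C (coeff m (h i)) * monomial (s' + m) 1 := by
        conv_lhs => rw [(h i).as_sum, Finset.mul_sum]
        apply Finset.sum_congr rfl
        intro m _
        rw [monomial_mul, one_mul, C_mul_monomial, mul_one]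
      rw [e3, map_sum]
      apply Submodule.sum_mem
      intro m hm
      rw [mk_C_mul]
      apply Submodule.smul_mem
      apply ih
      have hm3 : m.degree ≤ 3 := by
        have := MvPolynomial.le_totalDegree hm
        have h2 := hd i
        rw [Finsupp.degree_eq_sum]
        rw [Finsupp.sum_fintype _ _ (fun _ => rfl)] at this
        omega
      rw [map_add]
      omega

theorem box_indep (h : Fin n → MvPolynomial (Fin n) R) (hd : ∀ i, (h i).totalDegree ≤ 3) :
    LinearIndependent R
      fun k : Fin n → Fin 5 => Ideal.Quotient.mk (relIdeal h) (monomial (boxExp k) 1) := by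
  rw [Fintype.linearIndependent_iff]
  intro g hg
  have hmem : ∑ k, C (g k) * monomial (boxExp k) (1 : R) ∈ relIdeal h := by
    rw [← Ideal.Quotient.eq_zero_iff_mem, map_sum, ← hg]
    exact Finset.sum_congr rfl fun k _ => mk_C_mul h _ _
  -- descending induction on the degree
  suffices H : ∀ (e : ℕ) (k : Fin n → Fin 5), 4 * n - (boxExp k).degree ≤ e → g k = 0 from
    fun k => H _ k le_rfl
  have hle : ∀ k : Fin n → Fin 5, (boxExp k).degree ≤ 4 * n := by
    intro k
    rw [degree_boxExp]
    calc ∑ i, (k i : ℕ) ≤ ∑ _i : Fin n, 4 := Finset.sum_le_sum fun i _ => by omega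
      _ = 4 * n := by simp [mul_comm]
  intro e
  induction e using Nat.strong_induction_on with
  | _ e ih =>
  intro k hk
  set c : Fin n →₀ ℕ := Finsupp.equivFunOnFinite.symm fun i => 4 - (k i : ℕ) with hc
  have hci : ∀ i, c i = 4 - (k i : ℕ) := fun i => rfl
  have hcdeg : c.degree + (boxExp k).degree = 4 * n := by
    rw [degree_boxExp, Finsupp.degree_eq_sum, ← Finset.sum_add_distrib]
    calc ∑ i, (c i + (k i : ℕ)) = ∑ _i : Fin n, 4 :=
          Finset.sum_congr rfl fun i _ => by rw [hci]; omega
      _ = 4 * n := by simp [mul_comm]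
  have h1 : rho h (∑ k', C (g k') * monomial (c + boxExp k') (1 : R)) = 0 := by
    apply rho_ideal h hd
    have e1 : ∑ k', C (g k') * monomial (c + boxExp k') (1 : R) =
        monomial c 1 * ∑ k, C (g k) * monomial (boxExp k) (1 : R) := by
      rw [Finset.mul_sum]
      apply Finset.sum_congr rfl
      intro k' _
      rw [mul_left_comm, monomial_mul, one_mul]
    rw [e1]
    exact Ideal.mul_mem_left _ _ hmem
  have hrho0 : rho h 0 = 0 := rho_ideal h hd 0 (Ideal.zero_mem _)
  have hrsum : ∀ (S : Finset (Fin n → Fin 5)) (f : (Fin n → Fin 5) → MvPolynomial (Fin n) R),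
      rho h (∑ k' ∈ S, f k') = ∑ k' ∈ S, rho h (f k') := by
    classical
    intro S f
    induction S using Finset.induction_on with
    | empty => simp [hrho0]
    | insert a S ha ihS => rw [Finset.sum_insert ha, Finset.sum_insert ha, rho_add h hd, ihS]
  rw [hrsum] at h1
  have h2 : ∀ k' ∈ (Finset.univ : Finset (Fin n → Fin 5)),
      rho h (C (g k') * monomial (c + boxExp k') (1 : R)) = if k' = k then g k else 0 := by
    intro k' _
    rw [rho_smul h hd]
    by_cases hkk : k' = k
    · subst hkk
      rw [if_pos rfl, rho_monomial h hd _ (by rw [map_add]; omega), if_pos, mul_one]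
      ext i
      rw [Finsupp.add_apply, hci, boxExp_apply]
      show 4 - (k' i : ℕ) + (k' i : ℕ) = 4
      omega
    · rw [if_neg hkk]
      by_cases hdk : (boxExp k').degree ≤ (boxExp k).degree
      · rw [rho_monomial h hd _ (by rw [map_add]; omega), if_neg, mul_zero]
        intro heq
        apply hkk
        funext i
        have := DFunLike.congr_fun heq i
        rw [Finsupp.add_apply, hci, boxExp_apply] at this
        have h4 : 4 - (k i : ℕ) + (k' i : ℕ) = 4 := this
        apply Fin.ext
        omega
      · have : g k' = 0 := by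
          apply ih (4 * n - (boxExp k').degree) _ k' le_rfl
          have := hle k'
          omega
        rw [this, zero_mul]
  rw [Finset.sum_congr rfl h2] at h1
  simpa using h1

/-- module B1: the box monomials are a basis (spanning: rewriting lowers the degree; independence:
the matrix `rho (x^b x^(4-b'))` is unitriangular for the order by degree) -/
theorem exists_basis (h : Fin n → MvPolynomial (Fin n) R) (hd : ∀ i, (h i).totalDegree ≤ 3) :
    ∃ b : Module.Basis (Fin n → Fin 5) R (Alg h), ∀ k, b k =
      Ideal.Quotient.mk (relIdeal h) (monomial (Finsupp.equivFunOnFinite.symm fun i => (k i : ℕ)) 1) := by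
  refine ⟨Module.Basis.mk (box_indep h hd) ?_, fun k => ?_⟩
  · rintro x -
    obtain ⟨g, rfl⟩ := Ideal.Quotient.mk_surjective x
    rw [g.as_sum, map_sum]
    apply Submodule.sum_mem
    intro m _
    have : monomial m (coeff m g) = C (coeff m g) * monomial m (1 : R) := by
      rw [C_mul_monomial, mul_one]
    rw [this, mk_C_mul]
    exact Submodule.smul_mem _ _ (box_span h hd _ m le_rfl)
  · rw [Module.Basis.mk_apply]
    rfl

/-- base change of the algebra -/
noncomputable def algMap {R' : Type*} [CommRing R'] (f : R →+* R')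
    (h : Fin n → MvPolynomial (Fin n) R) : Alg h →+* Alg (fun i => map f (h i)) :=
  Ideal.Quotient.lift (relIdeal h)
    ((Ideal.Quotient.mk (relIdeal (fun i => map f (h i)))).comp (map f)) (by
      intro a ha
      rw [RingHom.comp_apply, Ideal.Quotient.eq_zero_iff_mem]
      have h1 : relIdeal h ≤ (relIdeal (fun i => map f (h i))).comap (map f) := by
        unfold relIdeal
        rw [Ideal.span_le]
        rintro _ ⟨i, rfl⟩
        simp only [SetLike.mem_coe, Ideal.mem_comap, map_sub, map_pow, map_X]
        exact Ideal.subset_span ⟨i, rfl⟩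
      exact h1 ha)

theorem algMap_mk {R' : Type*} [CommRing R'] (f : R →+* R')
    (h : Fin n → MvPolynomial (Fin n) R) (g : MvPolynomial (Fin n) R) :
    algMap f h (Ideal.Quotient.mk (relIdeal h) g) =
      Ideal.Quotient.mk (relIdeal (fun i => map f (h i))) (map f g) := rfl

theorem algMap_smul {R' : Type*} [CommRing R'] (f : R →+* R')
    (h : Fin n → MvPolynomial (Fin n) R) (c : R) (a : Alg h) :
    algMap f h (c • a) = f c • algMap f h a := by
  obtain ⟨g, rfl⟩ := Ideal.Quotient.mk_surjective a
  rw [← mk_C_mul, algMap_mk, algMap_mk, map_mul, map_C, mk_C_mul]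

/-- module B2: base change -/
theorem nm_map {R' : Type*} [CommRing R'] (f : R →+* R') (h : Fin n → MvPolynomial (Fin n) R)
    (hd : ∀ i, (h i).totalDegree ≤ 3) (H : MvPolynomial (Fin n) R) :
    nm (fun i => map f (h i)) (map f H) = f (nm h H) := by
  classical
  obtain ⟨b, hb⟩ := exists_basis h hd
  have hd' : ∀ i, (map f (h i)).totalDegree ≤ 3 := fun i =>
    (Finset.sup_mono (support_map_subset f (h i))).trans (hd i)
  obtain ⟨b', hb'⟩ := exists_basis (fun i => map f (h i)) hd'
  have hbb : ∀ k, algMap f h (b k) = b' k := by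
    intro k
    rw [hb, hb', algMap_mk, map_monomial, map_one]
  have hrepr : ∀ (a : Alg h) k, b'.repr (algMap f h a) k = f (b.repr a k) := by
    intro a k
    have h1 : algMap f h a = ∑ i, f (b.repr a i) • b' i := by
      conv_lhs => rw [← b.sum_repr a, map_sum]
      exact Finset.sum_congr rfl fun i _ => by rw [algMap_smul, hbb]
    rw [h1, b'.repr_sum_self]
  unfold nm
  rw [Algebra.norm_eq_matrix_det b, Algebra.norm_eq_matrix_det b', RingHom.map_det]
  congr 1
  ext i j
  have h2 : algMap f h (Ideal.Quotient.mk (relIdeal h) H * b j) =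
      Ideal.Quotient.mk (relIdeal (fun i => map f (h i))) (map f H) * b' j := by
    rw [map_mul, hbb, algMap_mk]
  rw [RingHom.mapMatrix_apply, Matrix.map_apply, Algebra.leftMulMatrix_eq_repr_mul,
    Algebra.leftMulMatrix_eq_repr_mul, ← hrepr, h2]

theorem nm_mul (h : Fin n → MvPolynomial (Fin n) R) (H H' : MvPolynomial (Fin n) R) :
    nm h (H * H') = nm h H * nm h H' := by
  simp [nm, map_mul]

theorem nm_C (h : Fin n → MvPolynomial (Fin n) R) (hd : ∀ i, (h i).totalDegree ≤ 3) (c : R) :
    nm h (C c) = c ^ 5 ^ n := by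
  obtain ⟨b, hb⟩ := exists_basis h hd
  have h1 : Ideal.Quotient.mk (relIdeal h) (C c) = algebraMap R (Alg h) c := rfl
  unfold nm
  rw [h1, Algebra.norm_algebraMap_of_basis b]
  simp

/-- a polynomial vanishing at an `R`-point of the algebra (`R` a field) has norm `0` -/
theorem nm_eq_zero {K : Type*} [Field K] (h : Fin n → MvPolynomial (Fin n) K)
    (hd : ∀ i, (h i).totalDegree ≤ 3) (x : Fin n → K) (hx : ∀ i, x i ^ 5 = eval x (h i))
    (H : MvPolynomial (Fin n) K) (hH : eval x H = 0) : nm h H = 0 := by
  obtain ⟨b, hb⟩ := exists_basis h hd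
  have hker : ∀ a ∈ relIdeal h, eval x a = 0 := by
    intro a ha
    have h1 : relIdeal h ≤ RingHom.ker (eval x) := by
      unfold relIdeal
      rw [Ideal.span_le]
      rintro _ ⟨i, rfl⟩
      simp only [SetLike.mem_coe, RingHom.mem_ker, map_sub, map_pow, eval_X, hx i, sub_self]
    exact h1 ha
  set ε : Alg h →+* K := Ideal.Quotient.lift (relIdeal h) (eval x) hker with hε
  have hεmk : ∀ g, ε (Ideal.Quotient.mk (relIdeal h) g) = eval x g := fun g => rfl
  by_contra hne
  have hdet : LinearMap.det (Algebra.lmul K (Alg h) (Ideal.Quotient.mk (relIdeal h) H)) ≠ 0 := by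
    have := hne
    unfold nm at this
    rwa [Algebra.norm_apply] at this
  obtain ⟨y, hy⟩ := (LinearEquiv.ofIsUnitDet (f := Algebra.lmul K (Alg h)
    (Ideal.Quotient.mk (relIdeal h) H)) (v := b) (v' := b) (by
      rw [LinearMap.det_toMatrix]
      exact isUnit_iff_ne_zero.mpr hdet)).surjective 1
  have hy' : Ideal.Quotient.mk (relIdeal h) H * y = 1 := hy
  have := congrArg ε hy'
  rw [map_mul, hεmk, hH, zero_mul, map_one] at this
  exact zero_ne_one this

end Vale.Agent.P337
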