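import Vale.Agent.P337.Inst

/-!
# The functional `rho` (module B0)
-/

namespace Vale.Agent.P337

open MvPolynomial

variable {R : Type*} [CommRing R] {n : ℕ}

/-- the functional `ρ(g) = ∑_k coefficient of ∏ x_i ^ (5 k_i + 4) in g ∏ h_i ^ k_i`; only `k` with
`k_i ≤ deg g` matter if `deg h_i ≤ 3` -/
noncomputable def rho (h : Fin n → MvPolynomial (Fin n) R) (g : MvPolynomial (Fin n) R) : R :=
  ∑ k : Fin n → Fin (g.totalDegree + 1),
    coeff (Finsupp.equivFunOnFinite.symm fun i => 5 * (k i : ℕ) + 4) (g * ∏ i, h i ^ (k i : ℕ))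

/-- one term -/
noncomputable def rhoT (h : Fin n → MvPolynomial (Fin n) R) (g : MvPolynomial (Fin n) R)
    (k : Fin n → ℕ) : R :=
  coeff (Finsupp.equivFunOnFinite.symm fun i => 5 * k i + 4) (g * ∏ i, h i ^ k i)

theorem rhoT_zero (h : Fin n → MvPolynomial (Fin n) R) (hd : ∀ i, (h i).totalDegree ≤ 3)
    (g : MvPolynomial (Fin n) R) (k : Fin n → ℕ) (hk : g.totalDegree < 2 * ∑ i, k i + 4 * n) :
    rhoT h g k = 0 := by
  unfold rhoT
  apply coeff_eq_zero_of_totalDegree_lt
  have h1 : (g * ∏ i, h i ^ k i).totalDegree ≤ g.totalDegree + ∑ i, k i * 3 := by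
    refine (totalDegree_mul _ _).trans (Nat.add_le_add_left ?_ _)
    refine (totalDegree_finsetProd _ _).trans ?_
    apply Finset.sum_le_sum
    intro i _
    exact (totalDegree_pow _ _).trans (Nat.mul_le_mul_left _ (hd i))
  have h2 : ∑ i ∈ (Finsupp.equivFunOnFinite.symm fun i : Fin n => 5 * k i + 4).support,
      (Finsupp.equivFunOnFinite.symm fun i : Fin n => 5 * k i + 4) i = ∑ i, (5 * k i + 4) := by
    rw [Finset.sum_subset (Finset.subset_univ _)]
    · rfl
    · intro i _ hi
      exact Finsupp.notMem_support_iff.1 hi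
  rw [h2, Finset.sum_add_distrib, ← Finset.mul_sum, Finset.sum_const, Finset.card_univ,
    Fintype.card_fin, smul_eq_mul]
  rw [← Finset.sum_mul] at h1
  omega

theorem rho_sum_fin (f : (Fin n → ℕ) → R) (B : ℕ) :
    ∑ k : Fin n → Fin (B + 1), f (fun i => (k i : ℕ)) =
      ∑ k ∈ Fintype.piFinset (fun _ : Fin n => Finset.range (B + 1)), f k := by
  refine Finset.sum_bij' (fun (k : Fin n → Fin (B + 1)) _ => fun i => (k i : ℕ))
    (fun (k : Fin n → ℕ) hk => fun i =>
      (⟨k i, Finset.mem_range.1 ((Fintype.mem_piFinset.1 hk) i)⟩ : Fin (B + 1))) ?_ ?_ ?_ ?_ ?_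
  · intro k _
    rw [Fintype.mem_piFinset]
    intro i
    rw [Finset.mem_range]
    exact (k i).isLt
  · intro k _
    exact Finset.mem_univ _
  · intro k _
    rfl
  · intro k _
    rfl
  · intro k _
    rfl

theorem rho_eq_sum (h : Fin n → MvPolynomial (Fin n) R) (hd : ∀ i, (h i).totalDegree ≤ 3)
    (g : MvPolynomial (Fin n) R) (B : ℕ) (hB : g.totalDegree ≤ B) :
    rho h g = ∑ k ∈ Fintype.piFinset (fun _ : Fin n => Finset.range (B + 1)), rhoT h g k := by
  have h1 : rho h g = ∑ k ∈ Fintype.piFinset (fun _ : Fin n => Finset.range (g.totalDegree + 1)),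
      rhoT h g k := by
    rw [← rho_sum_fin]
    rfl
  rw [h1]
  apply Finset.sum_subset
  · intro k hk
    rw [Fintype.mem_piFinset] at hk ⊢
    intro i
    have := hk i
    rw [Finset.mem_range] at this ⊢
    omega
  · intro k _ hk
    rw [Fintype.mem_piFinset] at hk
    push Not at hk
    obtain ⟨i, hi⟩ := hk
    rw [Finset.mem_range, not_lt] at hi
    apply rhoT_zero h hd
    have h2 : k i ≤ ∑ i, k i := Finset.single_le_sum (fun _ _ => Nat.zero_le _) (Finset.mem_univ i)
    omega

/-- more summands do not change `rho` -/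
theorem rho_eq (h : Fin n → MvPolynomial (Fin n) R) (hd : ∀ i, (h i).totalDegree ≤ 3)
    (g : MvPolynomial (Fin n) R) (B : ℕ) (hB : g.totalDegree ≤ B) :
    rho h g = ∑ k : Fin n → Fin (B + 1),
      coeff (Finsupp.equivFunOnFinite.symm fun i => 5 * (k i : ℕ) + 4)
        (g * ∏ i, h i ^ (k i : ℕ)) := by
  rw [rho_eq_sum h hd g B hB, ← rho_sum_fin]
  rfl

theorem rho_add (h : Fin n → MvPolynomial (Fin n) R) (hd : ∀ i, (h i).totalDegree ≤ 3)
    (g g' : MvPolynomial (Fin n) R) : rho h (g + g') = rho h g + rho h g' := by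
  set B := g.totalDegree + g'.totalDegree + (g + g').totalDegree with hB
  rw [rho_eq_sum h hd g B (by omega), rho_eq_sum h hd g' B (by omega),
    rho_eq_sum h hd (g + g') B (by omega), ← Finset.sum_add_distrib]
  apply Finset.sum_congr rfl
  intro k _
  unfold rhoT
  rw [add_mul, coeff_add]

theorem rho_smul (h : Fin n → MvPolynomial (Fin n) R) (hd : ∀ i, (h i).totalDegree ≤ 3) (c : R)
    (g : MvPolynomial (Fin n) R) : rho h (C c * g) = c * rho h g := by
  set B := g.totalDegree + (C c * g).totalDegree with hB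
  rw [rho_eq_sum h hd g B (by omega), rho_eq_sum h hd (C c * g) B (by omega), Finset.mul_sum]
  apply Finset.sum_congr rfl
  intro k _
  unfold rhoT
  rw [mul_assoc, coeff_C_mul]

theorem rho_zero (h : Fin n → MvPolynomial (Fin n) R) (hd : ∀ i, (h i).totalDegree ≤ 3) :
    rho h 0 = 0 := by
  have := rho_smul h hd 0 0
  rwa [mul_zero, zero_mul] at this

/-- the telescoping identity -/
theorem rhoT_shift (h : Fin n → MvPolynomial (Fin n) R) (a : MvPolynomial (Fin n) R) (i : Fin n)
    (k : Fin n → ℕ) :
    rhoT h (a * X i ^ 5) (fun j => k j + if j = i then 1 else 0) = rhoT h (a * h i) k := by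
  classical
  unfold rhoT
  have h1 : (a * X i ^ 5 * ∏ j, h j ^ (k j + if j = i then 1 else 0)) =
      (a * h i * ∏ j, h j ^ k j) * monomial (Finsupp.single i 5) 1 := by
    have h2 : ∏ j, h j ^ (k j + if j = i then 1 else 0) = (∏ j, h j ^ k j) * h i := by
      have h4 : ∀ j, h j ^ (k j + if j = i then 1 else 0) = h j ^ k j * (if j = i then h j else 1) := by
        intro j
        by_cases hj : j = i
        · rw [if_pos hj, if_pos hj, pow_succ]
        · rw [if_neg hj, if_neg hj, add_zero, mul_one]
      rw [Finset.prod_congr rfl (fun j _ => h4 j), Finset.prod_mul_distrib, Finset.prod_ite_eq',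
        if_pos (Finset.mem_univ i)]
    rw [h2, X_pow_eq_monomial]
    ring
  have h3 : (Finsupp.equivFunOnFinite.symm fun j : Fin n => 5 * (k j + if j = i then 1 else 0) + 4) =
      (Finsupp.equivFunOnFinite.symm fun j : Fin n => 5 * k j + 4) + Finsupp.single i 5 := by
    ext j
    simp only [Finsupp.equivFunOnFinite_symm_apply_apply, Finsupp.add_apply, Finsupp.single_apply]
    by_cases hj : j = i
    · rw [if_pos hj, if_pos hj.symm]; ring
    · rw [if_neg hj, if_neg (fun h => hj h.symm)]; ring
  rw [h1, h3, coeff_mul_monomial, mul_one]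

theorem rhoT_X_zero (h : Fin n → MvPolynomial (Fin n) R) (a : MvPolynomial (Fin n) R) (i : Fin n)
    (k : Fin n → ℕ) (hk : k i = 0) : rhoT h (a * X i ^ 5) k = 0 := by
  unfold rhoT
  have h1 : (a * X i ^ 5 * ∏ j, h j ^ k j) =
      (a * ∏ j, h j ^ k j) * monomial (Finsupp.single i 5) 1 := by
    rw [X_pow_eq_monomial]
    ring
  rw [h1, coeff_mul_monomial', if_neg]
  intro hle
  have := hle i
  rw [Finsupp.single_eq_same] at this
  simp only [Finsupp.equivFunOnFinite_symm_apply_apply] at this
  omega

theorem rho_rel (h : Fin n → MvPolynomial (Fin n) R) (hd : ∀ i, (h i).totalDegree ≤ 3)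
    (a : MvPolynomial (Fin n) R) (i : Fin n) : rho h (a * (X i ^ 5 - h i)) = 0 := by
  classical
  have h0 : rho h (a * X i ^ 5) = rho h (a * h i) := by
    set B := (a * X i ^ 5).totalDegree + (a * h i).totalDegree with hB
    -- enlarge the box by one
    rw [rho_eq_sum h hd (a * X i ^ 5) (B + 1) (by omega), rho_eq_sum h hd (a * h i) (B + 1) (by omega)]
    -- split off `k i = 0` in the first sum, `k i = B + 1` in the second one
    rw [← Finset.sum_filter_add_sum_filter_not _ (fun k : Fin n → ℕ => k i = 0)]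
    rw [← Finset.sum_filter_add_sum_filter_not
      (Fintype.piFinset fun _ : Fin n => Finset.range (B + 1 + 1)) (fun k : Fin n → ℕ => k i = B + 1)
      (fun k => rhoT h (a * h i) k)]
    rw [Finset.sum_eq_zero (fun k hk => rhoT_X_zero h a i k (Finset.mem_filter.1 hk).2)]
    rw [Finset.sum_eq_zero (s := (Fintype.piFinset fun _ : Fin n => Finset.range (B + 1 + 1)).filter
      (fun k : Fin n → ℕ => k i = B + 1)) (fun k hk => by
        apply rhoT_zero h hd
        have h2 : k i ≤ ∑ i, k i :=
          Finset.single_le_sum (fun _ _ => Nat.zero_le _) (Finset.mem_univ i)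
        have h3 := (Finset.mem_filter.1 hk).2
        omega)]
    rw [zero_add, zero_add]
    symm
    refine Finset.sum_bij' (fun (k : Fin n → ℕ) _ => fun j => k j + if j = i then 1 else 0)
      (fun (k : Fin n → ℕ) _ => fun j => k j - if j = i then 1 else 0) ?_ ?_ ?_ ?_ ?_
    · intro k hk
      rw [Finset.mem_filter, Fintype.mem_piFinset] at hk ⊢
      refine ⟨?_, by simp⟩
      intro j
      have h1 := hk.1 j
      rw [Finset.mem_range] at h1 ⊢
      by_cases hj : j = i
      · subst hj
        have h2 := hk.2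
        rw [if_pos rfl]
        omega
      · rw [if_neg hj]
        omega
    · intro k hk
      rw [Finset.mem_filter, Fintype.mem_piFinset] at hk ⊢
      refine ⟨?_, ?_⟩
      · intro j
        have h1 := hk.1 j
        rw [Finset.mem_range] at h1 ⊢
        omega
      · have h1 := hk.1 i
        rw [Finset.mem_range] at h1
        have h2 := hk.2
        simp only [if_true]
        omega
    · intro k _
      funext j
      simp
    · intro k hk
      funext j
      have h2 := (Finset.mem_filter.1 hk).2
      by_cases hj : j = i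
      · subst hj
        simp only [if_true]
        omega
      · simp [hj]
    · intro k _
      exact (rhoT_shift h a i k).symm
  have h1 : rho h (a * h i + a * (X i ^ 5 - h i)) = rho h (a * h i) + rho h (a * (X i ^ 5 - h i)) :=
    rho_add h hd _ _
  have h2 : a * h i + a * (X i ^ 5 - h i) = a * X i ^ 5 := by ring
  rw [h2, h0] at h1
  exact left_eq_add.1 h1

/-- `rho` vanishes on the ideal (telescoping sum in `k_i`) -/
theorem rho_ideal (h : Fin n → MvPolynomial (Fin n) R) (hd : ∀ i, (h i).totalDegree ≤ 3)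
    (g : MvPolynomial (Fin n) R) (hg : g ∈ relIdeal h) : rho h g = 0 := by
  have key : ∀ g ∈ relIdeal h, ∀ a, rho h (a * g) = 0 := by
    intro g hg
    unfold relIdeal at hg
    induction hg using Submodule.span_induction with
    | mem x hx =>
      obtain ⟨i, rfl⟩ := hx
      intro a
      exact rho_rel h hd a i
    | zero => intro a; rw [mul_zero]; exact rho_zero h hd
    | add x y _ _ hx hy =>
      intro a
      rw [mul_add, rho_add h hd, hx, hy, add_zero]
    | smul b x _ hx =>
      intro a
      rw [smul_eq_mul, ← mul_assoc]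
      exact hx (a * b)
  have := key g hg 1
  rwa [one_mul] at this

/-- `rho` of monomials of small degree -/
theorem rho_monomial (h : Fin n → MvPolynomial (Fin n) R) (hd : ∀ i, (h i).totalDegree ≤ 3)
    (s : Fin n →₀ ℕ) (hs : s.degree ≤ 4 * n) :
    rho h (monomial s 1) = if s = Finsupp.equivFunOnFinite.symm (fun _ => 4) then 1 else 0 := by
  classical
  have hdeg : (monomial s (1 : R)).totalDegree ≤ s.degree := totalDegree_monomial_le s 1
  rw [rho_eq_sum h hd _ _ le_rfl]
  rw [Finset.sum_eq_single (fun _ => 0)]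
  · unfold rhoT
    simp only [mul_zero, zero_add, pow_zero, Finset.prod_const_one, mul_one]
    rw [coeff_monomial]
  · intro k _ hk
    apply rhoT_zero h hd
    obtain ⟨i, hi⟩ : ∃ i, k i ≠ 0 := by
      by_contra hcon
      push Not at hcon
      exact hk (funext hcon)
    have h2 : k i ≤ ∑ i, k i := Finset.single_le_sum (fun _ _ => Nat.zero_le _) (Finset.mem_univ i)
    omega
  · intro hk
    exfalso
    apply hk
    rw [Fintype.mem_piFinset]
    intro i
    rw [Finset.mem_range]
    omega

end Vale.Agent.P337
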