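import Vale.Agent.P337.ArithE

/-!
# The library of functions computable in the counting hierarchy

H3 is in ArithA, ArithB, ArithC; H4 (`FCH.iter`, `FCH.powMod` with the hypothesis `0 < m`,
`FCH.powMod0`, `FCH.pow_bdd`) in ArithD; H5 (`FCH.prodMod`) in ArithE.
-/
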