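import Vale.Agent.P337.ArithA0

/-!
# Functions in the counting hierarchy: substitution, comparison, bounded quantifiers (module H3a)
-/

namespace Vale.Agent.P337

variable {α : Type} {k l : ℕ} {S T : List α → (Fin k → ℕ) → Prop}
  {f g h b : List α → (Fin k → ℕ) → ℕ}

theorem FCH.congr (hf : FCH f) (e : ∀ w a, f w a = g w a) : FCH g := by
  have : f = g := by funext w a; exact e w a
  exact this ▸ hf

theorem FCH.const (n : ℕ) : FCH (α := α) (k := k) fun _ _ => n := by
  refine ⟨fun r => ⟨Polynomial.C n, fun w a _ => ?_⟩, ?_⟩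
  · rw [Polynomial.eval_C]
    exact Nat.lt_two_pow_self
  · exact (InCH.eq_const_var (0 : Fin (k + 1)) n).congr fun w a => eq_comm

theorem FCH.proj (i : Fin k) : FCH (α := α) fun _ a => a i :=
  ⟨fun r => ⟨r, fun _ _ h => h i⟩, InCH.eq_var i.succ 0⟩

/-- a function with values of polynomial length and with a graph in CH -/
theorem FCH.of_graph (hb : PolyBdd f) (h : InCH (k := k + 1) fun w b => f w (Fin.tail b) = b 0) :
    FCH f := ⟨hb, h⟩

theorem FCH.rename {f : List α → (Fin l → ℕ) → ℕ} (hf : FCH f) (σ : Fin l → Fin k) :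
    FCH fun w a => f w (fun i => a (σ i)) := by
  refine ⟨fun r => ?_, ?_⟩
  · obtain ⟨s, hs⟩ := hf.1 r
    exact ⟨s, fun w a ha => hs w _ fun i => ha (σ i)⟩
  · refine (InCH.rename hf.2 (Fin.cons 0 fun i => (σ i).succ)).congr fun w a => ?_
    rfl

/-- substitution of one function for the first variable -/
theorem InCH.subst_one {T : List α → (Fin k → ℕ) → ℕ → Prop}
    (hT : InCH (k := k + 1) fun w b => T w (Fin.tail b) (b 0)) (hg : FCH g) :
    InCH fun w a => T w a (g w a) := by
  refine InCH.local fun r => ?_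
  obtain ⟨s, hs⟩ := hg.1 r
  refine ⟨fun w a => ∃ y < 2 ^ s.eval w.length, g w a = y ∧ T w a y, ?_, fun w a ha => ?_⟩
  · exact InCH.exists_pow (InCH.and hg.2 hT) s
  · constructor
    · intro h
      exact ⟨g w a, hs w a ha, rfl, h⟩
    · rintro ⟨y, -, rfl, h⟩
      exact h

theorem InCH.subst_many : ∀ (l : ℕ) {T : List α → (Fin l → ℕ) → (Fin k → ℕ) → Prop}
    (_ : InCH (k := l + k) fun w b => T w (fun i => b (Fin.castAdd k i)) fun j => b (Fin.natAdd l j))
    {g : Fin l → List α → (Fin k → ℕ) → ℕ} (_ : ∀ i, FCH (g i)),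
    InCH fun w a => T w (fun i => g i w a) a
  | 0, T, hT, g, _ => by
    refine (InCH.rename hT (fun i => (finCongr (Nat.zero_add k)) i)).congr fun w a => ?_
    have e1 : (fun i : Fin 0 => a (finCongr (Nat.zero_add k) (Fin.castAdd k i))) =
        fun i => g i w a := funext fun i => i.elim0
    have e2 : (fun j : Fin k => a (finCongr (Nat.zero_add k) (Fin.natAdd 0 j))) = a := by
      funext j
      congr 1
      exact Fin.ext (by simp)
    rw [e1, e2]
  | l + 1, T, hT, g, hg => by
    -- replace the first variable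
    have h1 : InCH (k := (l + k) + 1) fun w b =>
        T w (Fin.cons (b 0) fun i : Fin l => b (Fin.castAdd k i).succ)
          fun j => b (Fin.natAdd l j).succ := by
      refine (InCH.rename hT (finCongr (by omega : l + 1 + k = l + k + 1))).congr fun w b => ?_
      have e1 : (fun i : Fin (l + 1) => b (finCongr (by omega : l + 1 + k = l + k + 1)
          (Fin.castAdd k i))) = Fin.cons (b 0) fun i : Fin l => b (Fin.castAdd k i).succ := by
        funext i
        refine Fin.cases ?_ (fun i => ?_) i
        · rw [Fin.cons_zero]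
          congr 1
        · rw [Fin.cons_succ]
          congr 1
      have e2 : (fun j : Fin k => b (finCongr (by omega : l + 1 + k = l + k + 1)
          (Fin.natAdd (l + 1) j))) = fun j => b (Fin.natAdd l j).succ := by
        funext j
        congr 1
        exact Fin.ext (by simp; omega)
      rw [e1, e2]
    have hg0 : FCH (k := l + k) fun w b => g 0 w fun j => b (Fin.natAdd l j) :=
      FCH.rename (hg 0) _
    have h2 := InCH.subst_one (k := l + k)
      (T := fun w b y => T w (Fin.cons y fun i : Fin l => b (Fin.castAdd k i))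
        fun j => b (Fin.natAdd l j)) h1 hg0
    have h3 := InCH.subst_many l
      (T := fun w c a => T w (Fin.cons (g 0 w a) c) a) h2 (fun i => hg i.succ)
    refine h3.congr fun w a => ?_
    have e : (Fin.cons (g 0 w a) fun i : Fin l => g i.succ w a : Fin (l + 1) → ℕ) =
        fun i => g i w a := by
      funext i
      refine Fin.cases ?_ (fun i => ?_) i
      · rfl
      · rfl
    rw [e]

/-- substitution of functions into a relation -/
theorem InCH.comp {S : List α → (Fin l → ℕ) → Prop} (hS : InCH S)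
    {g : Fin l → List α → (Fin k → ℕ) → ℕ} (hg : ∀ i, FCH (g i)) :
    InCH fun w a => S w (fun i => g i w a) :=
  InCH.subst_many l (T := fun w c _ => S w c) (InCH.rename hS (Fin.castAdd k)) hg

/-- a common polynomial bound -/
theorem exists_common_bound {f : Fin l → List α → (Fin k → ℕ) → ℕ} (hf : ∀ i, PolyBdd (f i))
    (r : Polynomial ℕ) : ∃ s : Polynomial ℕ, ∀ w a, (∀ i, a i < 2 ^ r.eval w.length) →
      ∀ i, f i w a < 2 ^ s.eval w.length := by
  choose s hs using fun i => hf i r
  refine ⟨∑ i, s i, fun w a ha i => (hs i w a ha).trans_le ?_⟩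
  refine Nat.pow_le_pow_right (by norm_num) ?_
  rw [Polynomial.eval_finsetSum]
  exact Finset.single_le_sum (f := fun i => (s i).eval w.length) (fun _ _ => Nat.zero_le _)
    (Finset.mem_univ i)

theorem FCH.comp {f : List α → (Fin l → ℕ) → ℕ} (hf : FCH f)
    {g : Fin l → List α → (Fin k → ℕ) → ℕ} (hg : ∀ i, FCH (g i)) :
    FCH fun w a => f w (fun i => g i w a) := by
  refine ⟨fun r => ?_, ?_⟩
  · obtain ⟨s, hs⟩ := exists_common_bound (fun i => (hg i).1) r
    obtain ⟨s', hs'⟩ := hf.1 s
    exact ⟨s', fun w a ha => hs' w _ (hs w a ha)⟩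
  · have h1 := InCH.comp (k := k + 1) hf.2
      (g := Fin.cons (fun _ b => b 0) fun i w b => g i w (Fin.tail b)) (fun i => by
        refine Fin.cases ?_ (fun i => ?_) i
        · exact FCH.proj 0
        · exact FCH.rename (hg i) Fin.succ)
    exact h1.congr fun w b => Iff.rfl

theorem InCH.lt (hf : FCH f) (hg : FCH g) : InCH fun w a => f w a < g w a :=
  (InCH.comp (InCH.lt_var (α := α) (0 : Fin 2) 1) (g := ![f, g]) (fun i => by
    refine Fin.cases ?_ (fun i => ?_) i
    · exact hf
    · have : i = 0 := Subsingleton.elim _ _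
      subst this
      exact hg)).congr fun w a => Iff.rfl

theorem InCH.le (hf : FCH f) (hg : FCH g) : InCH fun w a => f w a ≤ g w a :=
  (InCH.not (InCH.lt hg hf)).congr fun _ _ => not_lt

theorem InCH.eq (hf : FCH f) (hg : FCH g) : InCH fun w a => f w a = g w a :=
  (InCH.and (InCH.le hf hg) (InCH.le hg hf)).congr fun _ _ => le_antisymm_iff.symm

/-- bounded quantifiers -/
theorem InCH.exists_lt {S : List α → (Fin k → ℕ) → ℕ → Prop} (hb : FCH b)
    (hS : InCH (k := k + 1) fun w c => S w (Fin.tail c) (c 0)) :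
    InCH fun w a => ∃ y < b w a, S w a y := by
  refine InCH.local fun r => ?_
  obtain ⟨s, hs⟩ := hb.1 r
  refine ⟨fun w a => ∃ y < 2 ^ s.eval w.length, y < b w a ∧ S w a y, ?_, fun w a ha => ?_⟩
  · exact InCH.exists_pow (S := fun w a y => y < b w a ∧ S w a y)
      (InCH.and (InCH.lt (FCH.proj 0) (FCH.rename hb Fin.succ)) hS) s
  · constructor
    · rintro ⟨y, hy, h⟩
      exact ⟨y, hy.trans (hs w a ha), hy, h⟩
    · rintro ⟨y, -, hy, h⟩
      exact ⟨y, hy, h⟩

theorem InCH.forall_lt {S : List α → (Fin k → ℕ) → ℕ → Prop} (hb : FCH b)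
    (hS : InCH (k := k + 1) fun w c => S w (Fin.tail c) (c 0)) :
    InCH fun w a => ∀ y < b w a, S w a y :=
  (InCH.not (InCH.exists_lt (S := fun w a y => ¬ S w a y) hb (InCH.not hS))).congr fun w a => by
    simp only [not_exists, not_and, not_not]

/-- a bounded function whose sections are in CH -/
theorem FCH.of_lt (hb : PolyBdd f) (h : InCH (k := k + 1) fun w b => b 0 < f w (Fin.tail b)) :
    FCH f := by
  refine ⟨hb, ?_⟩
  have h1 : InCH (k := (k + 1) + 1) fun w (c : Fin ((k + 1) + 1) → ℕ) =>
      c 0 < f w (Fin.tail (Fin.tail c)) :=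
    InCH.rename h (Fin.cons 0 fun i : Fin k => i.succ.succ)
  have h2 := InCH.forall_lt (k := k + 1) (S := fun w b y => y < f w (Fin.tail b))
    (FCH.proj (0 : Fin (k + 1))) h1
  refine (InCH.and (InCH.not h) h2).congr fun w b => ?_
  constructor
  · rintro ⟨h3, h4⟩
    refine le_antisymm (not_lt.1 h3) ?_
    by_contra h5
    exact lt_irrefl _ (h4 _ (not_le.1 h5))
  · intro h3
    rw [h3]
    exact ⟨lt_irrefl _, fun y hy => hy⟩

open Classical in
theorem FCH.ite (hS : InCH S) (hf : FCH f) (hg : FCH g) :
    FCH fun w a => if S w a then f w a else g w a := by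
  refine ⟨fun r => ?_, ?_⟩
  · obtain ⟨s, hs⟩ := hf.1 r
    obtain ⟨s', hs'⟩ := hg.1 r
    refine ⟨s + s', fun w a ha => ?_⟩
    rw [Polynomial.eval_add]
    show (if S w a then f w a else g w a) < _
    split_ifs
    · exact (hs w a ha).trans_le (Nat.pow_le_pow_right (by norm_num) (by omega))
    · exact (hs' w a ha).trans_le (Nat.pow_le_pow_right (by norm_num) (by omega))
  · have h1 : InCH (k := k + 1) fun w b => S w (Fin.tail b) := InCH.rename hS Fin.succ
    refine (InCH.or (InCH.and h1 hf.2) (InCH.and (InCH.not h1) hg.2)).congr fun w b => ?_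
    by_cases h2 : S w (Fin.tail b) <;> simp [h2]

end Vale.Agent.P337
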