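import Vale.Agent.P337.Cnt

/-!
# Substitution of the constant `0`, existential quantifiers (module H3a, first part)
-/

namespace Vale.Agent.P337

namespace ArithA

variable {α : Type} {k l : ℕ}

theorem majL_congr {S S' : List (ℕ × ℕ) → Prop} (ms : List ℕ) : ∀ {l l' : List (ℕ × ℕ)},
    (∀ e, S (l ++ e) ↔ S' (l' ++ e)) →
    (MajL ms S l ↔ MajL ms S' l') ∧ (NoTie ms S l ↔ NoTie ms S' l') := by
  induction ms with
  | nil =>
    intro l l' h
    have h0 := h []
    rw [List.append_nil, List.append_nil] at h0
    exact ⟨h0, Iff.rfl⟩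
  | cons m ms ih =>
    intro l l' h
    have h1 : ∀ y, (MajL ms S (l ++ [(y, m)]) ↔ MajL ms S' (l' ++ [(y, m)])) ∧
        (NoTie ms S (l ++ [(y, m)]) ↔ NoTie ms S' (l' ++ [(y, m)])) := fun y =>
      ih fun e => by
        have := h ((y, m) :: e)
        simpa using this
    have h2 : (fun y => MajL ms S (l ++ [(y, m)])) = fun y => MajL ms S' (l' ++ [(y, m)]) :=
      funext fun y => propext (h1 y).1
    have h3 : (fun y => y < 2 ^ m ∧ MajL ms S (l ++ [(y, m)])) =
        fun y => y < 2 ^ m ∧ MajL ms S' (l' ++ [(y, m)]) :=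
      funext fun y => by rw [congrFun h2 y]
    refine ⟨?_, ?_⟩
    · show Maj m _ ↔ Maj m _
      rw [h2]
    · show (2 ^ m ≠ 2 * Nat.card {y : ℕ // (fun y => y < 2 ^ m ∧ MajL ms S (l ++ [(y, m)])) y} ∧ _) ↔ _
      rw [h3]
      exact and_congr Iff.rfl (forall_congr' fun y => imp_congr Iff.rfl (h1 y).2)

theorem card_lt_pow (m : ℕ) : Nat.card {y : ℕ // y < 2 ^ m ∧ True} = 2 ^ m := by
  have e : {y : ℕ // y < 2 ^ m ∧ True} ≃ Fin (2 ^ m) :=
    (Equiv.subtypeEquivRight fun y => by simp).trans Fin.equivSubtype.symm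
  rw [Nat.card_congr e, Nat.card_fin]

theorem maj_const (m : ℕ) (p : Prop) : Maj m (fun _ => p) ↔ p := by
  have h0 : 0 < 2 ^ m := Nat.pos_of_ne_zero (by positivity)
  unfold Maj
  by_cases hp : p
  · simp only [hp, card_lt_pow, iff_true]
    omega
  · simp only [hp, and_false, iff_false]
    rw [Nat.card_of_isEmpty]
    omega

theorem tie_const (m : ℕ) (p : Prop) : 2 ^ m ≠ 2 * Nat.card {y : ℕ // y < 2 ^ m ∧ p} := by
  have h0 : 0 < 2 ^ m := Nat.pos_of_ne_zero (by positivity)
  by_cases hp : p
  · simp only [hp, card_lt_pow]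
    omega
  · simp only [hp, and_false]
    rw [Nat.card_of_isEmpty]
    omega

theorem foldr_max_le (l : List ℕ) (m : ℕ) : l.foldr max 0 ≤ m ↔ ∀ a ∈ l, a ≤ m := by
  induction l with
  | nil => simp
  | cons a l ih => simp [ih]

theorem cols_congr (w : List α) {l l' : List (ℕ × ℕ)}
    (h : ∀ m, m ∈ l.map Prod.snd ↔ m ∈ l'.map Prod.snd) : cols w l = cols w l' := by
  have key : ∀ m, cols w l ≤ m ↔ cols w l' ≤ m := by
    intro m
    unfold cols
    rw [max_le_iff, max_le_iff, foldr_max_le, foldr_max_le]
    exact and_congr Iff.rfl (forall_congr' fun a => imp_congr (h a) Iff.rfl)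
  exact le_antisymm ((key _).2 le_rfl) ((key _).1 le_rfl)

/-- the automaton for the substitution of `0`; the track number `k` only marks the position -/
def zeroAut (A : Aut α) (k : ℕ) : Aut α where
  Q := A.Q
  fin := A.fin
  init := A.init
  step q c L := A.step q c (((L.getD k none).map fun _ => false) :: (L.take k ++ L.drop (k + 1)))
  acc := A.acc

theorem zeroAut_accepts (A : Aut α) (w : List α) (l e : List (ℕ × ℕ)) (y m : ℕ) (hl : l.length = k) :
    (zeroAut A k).accepts w (l ++ [(y, m)] ++ e) ↔ A.accepts w ((0, m) :: l ++ e) := by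
  have hrun : ∀ i, (zeroAut A k).run w (l ++ [(y, m)] ++ e) i = A.run w ((0, m) :: l ++ e) i := by
    intro i
    induction i with
    | zero => rfl
    | succ i ih =>
      show A.step ((zeroAut A k).run w (l ++ [(y, m)] ++ e) i) w[i]? _ = A.step _ _ _
      rw [ih]
      congr 1
      have hlen : (l.map (digit i)).length = k := by rw [List.length_map, hl]
      rw [List.map_append, List.map_append, List.map_cons, List.map_nil, List.append_assoc,
        List.singleton_append]
      have h1 : (l.map (digit i) ++ digit i (y, m) :: e.map (digit i)).getD k none = digit i (y, m) := by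
        rw [List.getD_append_right _ _ _ _ hlen.le, hlen, Nat.sub_self, List.getD_cons_zero]
      have h2 : (l.map (digit i) ++ digit i (y, m) :: e.map (digit i)).take k = l.map (digit i) := by
        rw [List.take_append_of_le_length hlen.ge, ← hlen, List.take_length]
      have h3 : (l.map (digit i) ++ digit i (y, m) :: e.map (digit i)).drop (k + 1) =
          e.map (digit i) := by
        have : k + 1 = (l.map (digit i)).length + 1 := by rw [hlen]
        rw [this, List.drop_append, List.drop_of_length_le (by omega)]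
        simp
      rw [h1, h2, h3]
      simp only [List.cons_append, List.map_cons, List.map_append]
      congr 1
      unfold digit
      dsimp only
      split_ifs <;> simp
  have hcols : cols w (l ++ [(y, m)] ++ e) = cols w ((0, m) :: l ++ e) :=
    cols_congr w fun a => by
      simp only [List.map_append, List.map_cons, List.map_nil, List.mem_append, List.mem_cons,
        List.not_mem_nil, or_false, List.cons_append]
      tauto
  show A.acc ((zeroAut A k).run w _ (cols w _)) = true ↔ _
  rw [hrun, hcols]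
  rfl

end ArithA

open ArithA

variable {α : Type} {k l : ℕ}

/-- substitution of `0` for the first variable -/
theorem InCH.subst_zero {S : List α → (Fin (k + 1) → ℕ) → Prop} (h : InCH S) :
    InCH fun w a => S w (Fin.cons 0 a) := by
  intro r
  obtain ⟨ms, A, hA⟩ := h r
  refine ⟨r :: ms, zeroAut A k, fun w a ha => ?_⟩
  have h1 := hA w (Fin.cons 0 a) (fun i => by
    refine Fin.cases ?_ (fun i => ?_) i
    · rw [Fin.cons_zero]; positivity
    · rw [Fin.cons_succ]; exact ha i)
  have e0 : (List.ofFn fun i => ((Fin.cons 0 a : Fin (k + 1) → ℕ) i, r.eval w.length)) =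
      (0, r.eval w.length) :: List.ofFn fun i => (a i, r.eval w.length) := by
    rw [List.ofFn_succ]
    simp only [Fin.cons_zero, Fin.cons_succ]
  rw [e0] at h1
  have h2 : ∀ y, (MajL (ms.map fun m => m.eval w.length) ((zeroAut A k).accepts w)
        ((List.ofFn fun i => (a i, r.eval w.length)) ++ [(y, r.eval w.length)]) ↔
      MajL (ms.map fun m => m.eval w.length) (A.accepts w)
        ((0, r.eval w.length) :: List.ofFn fun i => (a i, r.eval w.length))) ∧
      (NoTie (ms.map fun m => m.eval w.length) ((zeroAut A k).accepts w)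
        ((List.ofFn fun i => (a i, r.eval w.length)) ++ [(y, r.eval w.length)]) ↔
      NoTie (ms.map fun m => m.eval w.length) (A.accepts w)
        ((0, r.eval w.length) :: List.ofFn fun i => (a i, r.eval w.length))) := fun y =>
    majL_congr _ fun e => zeroAut_accepts A w _ e y _ (by simp)
  have h3 := fun y => (h2 y).1
  refine ⟨⟨?_, fun y _ => ((h2 y).2).2 h1.1⟩, ?_⟩
  · show 2 ^ r.eval w.length ≠ 2 * Nat.card {y : ℕ // y < 2 ^ r.eval w.length ∧
      MajL (ms.map fun m => m.eval w.length) ((zeroAut A k).accepts w) _}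
    simp only [h3]
    exact tie_const _ _
  · show S w (Fin.cons 0 a) ↔ _
    rw [h1.2]
    symm
    show Maj _ (fun y => MajL (ms.map fun m => m.eval w.length) ((zeroAut A k).accepts w) _) ↔ _
    simp only [h3]
    exact maj_const _ _

/-- the existential quantifier over numbers with polynomially many digits -/
theorem InCH.exists_pow {S : List α → (Fin k → ℕ) → ℕ → Prop}
    (h : InCH (k := k + 1) fun w b => S w (Fin.tail b) (b 0)) (r : Polynomial ℕ) :
    InCH fun w a => ∃ y < 2 ^ r.eval w.length, S w a y := by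
  have h1 : InCH (k := (k + 1) + 1) fun w c => S w (Fin.tail (Fin.tail c)) (c 0) :=
    InCH.rename h (Fin.cons 0 fun i : Fin k => i.succ.succ)
  have h2 := InCH.card_gt (S := fun w (b : Fin (k + 1) → ℕ) y => S w (Fin.tail b) y) h1 r 0
  refine (InCH.subst_zero h2).congr fun w a => ?_
  simp only [Fin.cons_zero, Fin.tail_cons]
  have hfin : Finite {y : ℕ // y < 2 ^ r.eval w.length ∧ S w a y} :=
    Set.Finite.subset (Set.finite_Iio (2 ^ r.eval w.length)) fun y hy => hy.1
  rw [Nat.card_pos_iff]
  constructor
  · rintro ⟨⟨y, hy⟩, _⟩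
    exact ⟨y, hy.1, hy.2⟩
  · rintro ⟨y, hy1, hy2⟩
    exact ⟨⟨⟨y, hy1, hy2⟩⟩, hfin⟩

/-- it is enough to have for every bound of the variables a relation in CH that agrees -/
theorem InCH.local {S : List α → (Fin k → ℕ) → Prop}
    (h : ∀ r : Polynomial ℕ, ∃ T : List α → (Fin k → ℕ) → Prop, InCH T ∧
      ∀ w a, (∀ i, a i < 2 ^ r.eval w.length) → (S w a ↔ T w a)) : InCH S := by
  intro r
  obtain ⟨T, hT, he⟩ := h r
  obtain ⟨ms, A, hA⟩ := hT r
  exact ⟨ms, A, fun w a ha => ⟨(hA w a ha).1, (he w a ha).trans (hA w a ha).2⟩⟩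

end Vale.Agent.P337
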