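import Vale.Agent.P337.ArithA

/-!
# The library of functions computable in the counting hierarchy: counting, sums, products,
quotients (module H3b)
-/

namespace Vale.Agent.P337

variable {α : Type} {k l : ℕ} {S T : List α → (Fin k → ℕ) → Prop}
  {f g h b : List α → (Fin k → ℕ) → ℕ}

/-! ### auxiliary facts -/

/-- it is enough to have a description for inputs of polynomial length -/
theorem InCH.arBbdd (h : ∀ r : Polynomial ℕ, ∃ T : List α → (Fin k → ℕ) → Prop, InCH T ∧
    ∀ w a, (∀ i, a i < 2 ^ r.eval w.length) → (S w a ↔ T w a)) : InCH S := by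
  intro r
  obtain ⟨T, hT, hST⟩ := h r
  obtain ⟨ms, A, hA⟩ := hT r
  exact ⟨ms, A, fun w a ha => ⟨(hA w a ha).1, (hST w a ha).trans (hA w a ha).2⟩⟩

theorem FCH.arBtail (hf : FCH f) : FCH (k := k + 1) fun w c => f w (Fin.tail c) :=
  hf.comp (g := fun i _ c => c i.succ) (fun _ => FCH.proj _)

theorem InCH.arBtail (hS : InCH S) : InCH (k := k + 1) fun w c => S w (Fin.tail c) :=
  hS.rename (fun i => i.succ)

/-- skip the second variable -/
theorem InCH.arBskip {S : List α → (Fin k → ℕ) → ℕ → Prop}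
    (h : InCH (k := k + 1) fun w c => S w (Fin.tail c) (c 0)) :
    InCH (k := k + 2) fun w c => S w (Fin.tail (Fin.tail c)) (c 0) :=
  h.rename (k := k + 2) (Fin.cons 0 fun i => i.succ.succ)

theorem FCH.arBskip {F : List α → (Fin k → ℕ) → ℕ → ℕ}
    (h : FCH (k := k + 1) fun w c => F w (Fin.tail c) (c 0)) :
    FCH (k := k + 2) fun w c => F w (Fin.tail (Fin.tail c)) (c 0) := by
  have := h.comp (k := k + 2)
    (g := Fin.cons (fun _ c => c 0) fun (i : Fin k) (_ : List α) c => c i.succ.succ)
    (fun i => by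
      refine Fin.cases ?_ ?_ i
      · exact FCH.proj _
      · intro i
        exact FCH.proj _)
  exact this

/-- substitute a function for the distinguished variable -/
theorem InCH.arBsubst {S : List α → (Fin k → ℕ) → ℕ → Prop}
    (h : InCH (k := k + 1) fun w c => S w (Fin.tail c) (c 0)) (hf : FCH f) :
    InCH fun w a => S w a (f w a) := by
  have := h.comp (k := k) (g := Fin.cons f fun (i : Fin k) (_ : List α) c => c i)
    (fun i => by
      refine Fin.cases ?_ ?_ i
      · exact hf
      · intro i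
        exact FCH.proj _)
  exact this

theorem FCH.arBsubst {F : List α → (Fin k → ℕ) → ℕ → ℕ}
    (h : FCH (k := k + 1) fun w c => F w (Fin.tail c) (c 0)) (hf : FCH f) :
    FCH fun w a => F w a (f w a) := by
  have := h.comp (k := k) (g := Fin.cons f fun (i : Fin k) (_ : List α) c => c i)
    (fun i => by
      refine Fin.cases ?_ ?_ i
      · exact hf
      · intro i
        exact FCH.proj _)
  exact this

theorem arB_card_pow_le (S : ℕ → Prop) (n : ℕ) : Nat.card {y : ℕ // y < 2 ^ n ∧ S y} ≤ 2 ^ n := by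
  classical
  have : Nat.card {y : ℕ // y < 2 ^ n ∧ S y} =
      ((Finset.range (2 ^ n)).filter fun y => S y).card := by
    apply Nat.subtype_card
    intro x
    simp
  rw [this]
  exact (Finset.card_filter_le _ _).trans (by simp)

theorem arB_polyBdd (S : List α → (Fin k → ℕ) → ℕ → Prop) (r : Polynomial ℕ) :
    PolyBdd fun w a => Nat.card {y : ℕ // y < 2 ^ r.eval w.length ∧ S w a y} := by
  intro _
  refine ⟨r + 1, fun w a _ => ?_⟩
  refine (arB_card_pow_le _ _).trans_lt ?_
  apply Nat.pow_lt_pow_right (by norm_num)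
  simp

theorem InCH.arBcard {S : List α → (Fin k → ℕ) → ℕ → Prop}
    (h : InCH (k := k + 1) fun w c => S w (Fin.tail c) (c 0)) (r : Polynomial ℕ) :
    FCH fun w a => Nat.card {y : ℕ // y < 2 ^ r.eval w.length ∧ S w a y} := by
  apply FCH.of_lt (arB_polyBdd S r)
  exact InCH.card_gt (S := fun w c y => S w (Fin.tail c) y) h.arBskip r 0

/-- existence of a number of polynomial length -/
theorem InCH.arBexists {S : List α → (Fin k → ℕ) → ℕ → Prop}
    (h : InCH (k := k + 1) fun w c => S w (Fin.tail c) (c 0)) (r : Polynomial ℕ) :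
    InCH fun w a => ∃ y < 2 ^ r.eval w.length, S w a y := by
  refine InCH.congr (InCH.lt (FCH.const 0) (h.arBcard r)) (fun w a => ?_)
  have : Finite {y : ℕ // y < 2 ^ r.eval w.length ∧ S w a y} :=
    ((Set.finite_Iio (2 ^ r.eval w.length)).subset (fun y hy => hy.1)).to_subtype
  rw [Nat.card_pos_iff]
  constructor
  · rintro ⟨⟨y, hy1, hy2⟩, _⟩
    exact ⟨y, hy1, hy2⟩
  · rintro ⟨y, hy1, hy2⟩
    exact ⟨⟨⟨y, hy1, hy2⟩⟩, this⟩

open Classical in
/-- counting -/
theorem FCH.card {S : List α → (Fin k → ℕ) → ℕ → Prop} (hb : FCH b)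
    (hS : InCH (k := k + 1) fun w c => S w (Fin.tail c) (c 0)) :
    FCH fun w a => ((Finset.range (b w a)).filter fun y => S w a y).card := by
  have hpb : PolyBdd fun w a => ((Finset.range (b w a)).filter fun y => S w a y).card := by
    intro r
    obtain ⟨s, hs⟩ := hb.1 r
    refine ⟨s, fun w a ha => ?_⟩
    refine lt_of_le_of_lt ?_ (hs w a ha)
    exact (Finset.card_filter_le _ _).trans (by simp)
  apply FCH.of_lt hpb
  apply InCH.arBbdd
  intro r
  obtain ⟨s, hs⟩ := hb.1 r
  refine ⟨fun w c => c 0 < Nat.card {y : ℕ // y < 2 ^ s.eval w.length ∧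
    (y < b w (Fin.tail c) ∧ S w (Fin.tail c) y)}, ?_, ?_⟩
  · exact InCH.card_gt (S := fun w c y => y < b w (Fin.tail c) ∧ S w (Fin.tail c) y)
      ((InCH.lt (FCH.proj 0) hb.arBtail.arBtail).and hS.arBskip) s 0
  · intro w c hc
    have h1 := hs w (Fin.tail c) (fun i => hc i.succ)
    have : Nat.card {y : ℕ // y < 2 ^ s.eval w.length ∧
        (y < b w (Fin.tail c) ∧ S w (Fin.tail c) y)} =
        ((Finset.range (b w (Fin.tail c))).filter fun y => S w (Fin.tail c) y).card := by
      apply Nat.subtype_card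
      intro x
      simp only [Finset.mem_filter, Finset.mem_range]
      constructor
      · rintro ⟨h2, h3⟩
        exact ⟨h2.trans h1, h2, h3⟩
      · rintro ⟨_, h2, h3⟩
        exact ⟨h2, h3⟩
    beta_reduce
    rw [this]

theorem FCH.add (hf : FCH f) (hg : FCH g) : FCH fun w a => f w a + g w a := by
  apply FCH.of_graph
  · intro r
    obtain ⟨s, hs⟩ := hf.1 r
    obtain ⟨t, ht⟩ := hg.1 r
    refine ⟨s + t + 1, fun w a ha => ?_⟩
    have h1 := hs w a ha
    have h2 := ht w a ha
    have h3 : 2 ^ s.eval w.length ≤ 2 ^ (s.eval w.length + t.eval w.length) :=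
      Nat.pow_le_pow_right (by norm_num) (by omega)
    have h4 : 2 ^ t.eval w.length ≤ 2 ^ (s.eval w.length + t.eval w.length) :=
      Nat.pow_le_pow_right (by norm_num) (by omega)
    have h5 : (s + t + 1).eval w.length = s.eval w.length + t.eval w.length + 1 := by simp
    rw [h5, pow_succ]
    beta_reduce
    omega
  · have h1 : InCH (α := α) fun (_ : List α) (c : Fin 3 → ℕ) => c 0 + c 1 = c 2 := InCH.add_var 0 1 2
    have := h1.comp (k := k + 1) (g := ![fun w c => f w (Fin.tail c), fun w c => g w (Fin.tail c),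
      fun w c => c 0]) (fun i => by
        fin_cases i
        · exact hf.arBtail
        · exact hg.arBtail
        · exact FCH.proj 0)
    exact this

theorem FCH.sub (hf : FCH f) (hg : FCH g) : FCH fun w a => f w a - g w a := by
  apply FCH.of_graph
  · intro r
    obtain ⟨s, hs⟩ := hf.1 r
    exact ⟨s, fun w a ha => (Nat.sub_le _ _).trans_lt (hs w a ha)⟩
  · refine InCH.congr (InCH.or (InCH.eq hf.arBtail ((FCH.proj 0).add hg.arBtail))
      ((InCH.lt hf.arBtail hg.arBtail).and (InCH.eq (FCH.proj 0) (FCH.const 0)))) (fun w c => ?_)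
    omega

/-! ### division by a power of two -/

/-- all digits of `x` below the digit marked by the one-hot number `m` are zero -/
theorem InCH.lowZero (hf : FCH f) (hg : FCH g) :
    InCH fun w a => ∀ u < g w a, ¬ ∃ n, u = 2 ^ n ∧ (f w a).testBit n = true := by
  apply InCH.forall_lt (S := fun w a u => ¬ ∃ n, u = 2 ^ n ∧ (f w a).testBit n = true) hg
  apply InCH.not
  have h1 : InCH (α := α) fun (_ : List α) (c : Fin 2 → ℕ) =>
    ∃ n, c 0 = 2 ^ n ∧ (c 1).testBit n = true := InCH.bit_onehot 1 0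
  have := h1.comp (k := k + 1) (g := ![fun w c => c 0, fun w c => f w (Fin.tail c)]) (fun i => by
        fin_cases i
        · exact FCH.proj 0
        · exact hf.arBtail)
  exact this

theorem lowZero_iff (x n : ℕ) :
    (∀ u < 2 ^ n, ¬ ∃ n', u = 2 ^ n' ∧ x.testBit n' = true) ↔ 2 ^ n ∣ x := by
  constructor
  · intro h
    apply (Nat.dvd_iff_mod_eq_zero).mpr
    apply Nat.eq_of_testBit_eq
    intro i
    rw [Nat.testBit_mod_two_pow, Nat.zero_testBit]
    by_cases hi : i < n
    · have := h (2 ^ i) (Nat.pow_lt_pow_right (by norm_num) hi)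
      have h2 : ¬ x.testBit i = true := fun h3 => this ⟨i, rfl, h3⟩
      simp [h2]
    · simp [hi]
  · rintro ⟨y, rfl⟩ u hu ⟨n', rfl, hb⟩
    have hn : n' < n := (Nat.pow_lt_pow_iff_right (by norm_num)).mp hu
    rw [Nat.testBit_two_pow_mul] at hb
    simp at hb
    omega

/-- the quotient by the one-hot number `m`: the number of `t ∈ (0, x]` with digits zero below `m` -/
def LZ (x m : ℕ) : Prop := ∀ u < m, ¬ ∃ n, u = 2 ^ n ∧ x.testBit n = true

open Classical in
noncomputable def dvo (x m : ℕ) : ℕ :=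
  ((Finset.range (x + 1)).filter fun t => 0 < t ∧ LZ t m).card

open Classical in
noncomputable def mdo (x m : ℕ) : ℕ :=
  ((Finset.range x).filter fun t => dvo t m = dvo x m).card

theorem dvo_eq (x n : ℕ) : dvo x (2 ^ n) = x / 2 ^ n := by
  classical
  rw [dvo, ← Nat.Ioc_filter_dvd_card_eq_div x (2 ^ n)]
  congr 1
  ext t
  have hl : LZ t (2 ^ n) ↔ 2 ^ n ∣ t := lowZero_iff t n
  simp only [Finset.mem_filter, Finset.mem_range, Finset.mem_Ioc, hl]
  constructor
  · rintro ⟨h1, h2, h3⟩
    exact ⟨⟨h2, by omega⟩, h3⟩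
  · rintro ⟨⟨h1, h2⟩, h3⟩
    exact ⟨by omega, h1, h3⟩

theorem mdo_eq (x n : ℕ) : mdo x (2 ^ n) = x % 2 ^ n := by
  classical
  have h : ((Finset.range x).filter fun t => dvo t (2 ^ n) = dvo x (2 ^ n)) =
      Finset.Ico (2 ^ n * (x / 2 ^ n)) x := by
    ext t
    simp only [Finset.mem_filter, Finset.mem_range, Finset.mem_Ico, dvo_eq]
    have hp : 0 < 2 ^ n := by positivity
    constructor
    · rintro ⟨h1, h2⟩
      refine ⟨?_, h1⟩
      rw [← h2]
      exact Nat.mul_div_le t (2 ^ n)
    · rintro ⟨h1, h2⟩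
      refine ⟨h2, le_antisymm (Nat.div_le_div_right h2.le) ?_⟩
      rw [Nat.le_div_iff_mul_le hp, mul_comm]
      exact h1
  rw [mdo, h, Nat.card_Ico]
  have := Nat.div_add_mod x (2 ^ n)
  omega

theorem FCH.dvoF (hf : FCH f) (hg : FCH g) : FCH fun w a => dvo (f w a) (g w a) := by
  have h1 : InCH (k := k + 1) fun w c => 0 < c 0 ∧ LZ (c 0) (g w (Fin.tail c)) :=
    (InCH.lt (FCH.const 0) (FCH.proj 0)).and (InCH.lowZero (FCH.proj 0) hg.arBtail)
  refine FCH.congr (FCH.card (S := fun w a t => 0 < t ∧ LZ t (g w a)) (hf.add (FCH.const 1)) h1)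
    (fun w a => ?_)
  rw [dvo]
  congr

theorem FCH.mdoF (hf : FCH f) (hg : FCH g) : FCH fun w a => mdo (f w a) (g w a) := by
  have h1 : InCH (k := k + 1) fun w c => dvo (c 0) (g w (Fin.tail c)) =
      dvo (f w (Fin.tail c)) (g w (Fin.tail c)) :=
    InCH.eq ((FCH.proj 0).dvoF hg.arBtail) (hf.arBtail.dvoF hg.arBtail)
  refine FCH.congr (FCH.card (S := fun w a t => dvo t (g w a) = dvo (f w a) (g w a)) hf h1)
    (fun w a => ?_)
  rw [mdo]
  congr

/-! ### sums -/

theorem arB_card_pairs (b N m : ℕ) (F : ℕ → ℕ) (hm : 0 < m) (hN : b * m ≤ 2 ^ N)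
    (hF : ∀ y < b, F y ≤ m) :
    Nat.card {z : ℕ // z < 2 ^ N ∧ (z / m < b ∧ z % m < F (z / m))} =
      ∑ y ∈ Finset.range b, F y := by
  classical
  have h1 : Nat.card {z : ℕ // z < 2 ^ N ∧ (z / m < b ∧ z % m < F (z / m))} =
      ((Finset.range (2 ^ N)).filter fun z => z / m < b ∧ z % m < F (z / m)).card := by
    apply Nat.subtype_card
    intro x
    simp
  rw [h1, Finset.card_eq_sum_card_fiberwise (f := fun z => z / m) (t := Finset.range b)]
  · apply Finset.sum_congr rfl
    intro y hy
    rw [Finset.mem_range] at hy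
    have h2 : (((Finset.range (2 ^ N)).filter fun z => z / m < b ∧ z % m < F (z / m)).filter
        fun z => z / m = y) = (Finset.range (F y)).image fun v => y * m + v := by
      ext z
      simp only [Finset.mem_filter, Finset.mem_range, Finset.mem_image]
      constructor
      · rintro ⟨⟨_, _, h3⟩, h4⟩
        refine ⟨z % m, ?_, ?_⟩
        · rw [← h4]
          exact h3
        · rw [← h4, mul_comm]
          exact Nat.div_add_mod z m
      · rintro ⟨v, hv, rfl⟩
        have hvm : v < m := lt_of_lt_of_le hv (hF y hy)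
        have hd : (y * m + v) / m = y := by
          rw [mul_comm, Nat.mul_add_div hm, Nat.div_eq_of_lt hvm, add_zero]
        have hr : (y * m + v) % m = v := by
          rw [mul_comm, Nat.mul_add_mod, Nat.mod_eq_of_lt hvm]
        rw [hd, hr]
        refine ⟨⟨?_, hy, hv⟩, rfl⟩
        have : (y + 1) * m ≤ b * m := Nat.mul_le_mul_right m hy
        have h5 : (y + 1) * m = y * m + m := by ring
        omega
    rw [h2, Finset.card_image_of_injective _ (fun v v' h => by
      have h : y * m + v = y * m + v' := h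
      omega), Finset.card_range]
  · intro z hz
    simp only [Finset.coe_filter, Finset.mem_range, Set.mem_ofPred_eq] at hz
    simp only [Finset.coe_range, Set.mem_Iio]
    exact hz.2.1

theorem FCH.sum {F : List α → (Fin k → ℕ) → ℕ → ℕ} (hb : FCH b)
    (hF : FCH (k := k + 1) fun w c => F w (Fin.tail c) (c 0)) :
    FCH fun w a => ∑ y ∈ Finset.range (b w a), F w a y := by
  -- common bounds
  have hbd : ∀ r : Polynomial ℕ, ∃ s t : Polynomial ℕ, ∀ w a,
      (∀ i, a i < 2 ^ r.eval w.length) → b w a < 2 ^ s.eval w.length ∧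
        ∀ y < b w a, F w a y < 2 ^ t.eval w.length := by
    intro r
    obtain ⟨s, hs⟩ := hb.1 r
    obtain ⟨t, ht⟩ := hF.1 (r + s)
    refine ⟨s, t, fun w a ha => ⟨hs w a ha, fun y hy => ?_⟩⟩
    have hc : ∀ i, (Fin.cons y a : Fin (k + 1) → ℕ) i < 2 ^ (r + s).eval w.length := by
      have e : (r + s).eval w.length = r.eval w.length + s.eval w.length := by simp
      rw [e]
      intro i
      refine Fin.cases ?_ ?_ i
      · rw [Fin.cons_zero]
        refine (hy.trans (hs w a ha)).trans_le ?_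
        exact Nat.pow_le_pow_right (by norm_num) (by omega)
      · intro i
        rw [Fin.cons_succ]
        refine (ha i).trans_le ?_
        exact Nat.pow_le_pow_right (by norm_num) (by omega)
    have := ht w (Fin.cons y a) hc
    simpa using this
  apply FCH.of_graph
  · intro r
    obtain ⟨s, t, h⟩ := hbd r
    refine ⟨s + t + 1, fun w a ha => ?_⟩
    obtain ⟨h1, h2⟩ := h w a ha
    have h3 : ∑ y ∈ Finset.range (b w a), F w a y ≤ b w a * 2 ^ t.eval w.length := by
      refine (Finset.sum_le_card_nsmul _ _ _ (fun y hy => (h2 y (Finset.mem_range.mp hy)).le)).trans ?_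
      simp
    have h4 : b w a * 2 ^ t.eval w.length ≤ 2 ^ s.eval w.length * 2 ^ t.eval w.length :=
      Nat.mul_le_mul_right _ h1.le
    have h5 : (s + t + 1).eval w.length = s.eval w.length + t.eval w.length + 1 := by simp
    rw [h5, pow_succ, pow_add]
    have h6 : 0 < 2 ^ s.eval w.length * 2 ^ t.eval w.length := by positivity
    beta_reduce
    omega
  · apply InCH.arBbdd
    intro r
    obtain ⟨s, t, h⟩ := hbd r
    refine ⟨fun w c => ∃ m < 2 ^ (t + 1).eval w.length, (∃ n, m = 2 ^ n) ∧
      (∀ y < b w (Fin.tail c), F w (Fin.tail c) y ≤ m) ∧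
      Nat.card {z : ℕ // z < 2 ^ (s + t).eval w.length ∧ (dvo z m < b w (Fin.tail c) ∧
        mdo z m < F w (Fin.tail c) (dvo z m))} = c 0, ?_, ?_⟩
    · apply InCH.arBexists (S := fun w c m => (∃ n, m = 2 ^ n) ∧
        (∀ y < b w (Fin.tail c), F w (Fin.tail c) y ≤ m) ∧
        Nat.card {z : ℕ // z < 2 ^ (s + t).eval w.length ∧ (dvo z m < b w (Fin.tail c) ∧
          mdo z m < F w (Fin.tail c) (dvo z m))} = c 0)
      have s1 : FCH (k := k + 2) fun w c => F w (Fin.tail (Fin.tail c)) (c 0) := hF.arBskip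
      have s2 : FCH (k := k + 3) fun w c => F w (Fin.tail (Fin.tail (Fin.tail c))) (c 0) :=
        FCH.arBskip (F := fun w c y => F w (Fin.tail c) y) s1
      have s3 : FCH (k := k + 4) fun w c =>
          F w (Fin.tail (Fin.tail (Fin.tail (Fin.tail c)))) (c 0) :=
        FCH.arBskip (F := fun w c y => F w (Fin.tail (Fin.tail c)) y) s2
      refine InCH.and (InCH.onehot 0) (InCH.and ?_ (InCH.eq ?_ (FCH.proj 1)))
      · exact InCH.forall_lt (S := fun w d y => F w (Fin.tail (Fin.tail d)) y ≤ d 0) hb.arBtail.arBtail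
          (InCH.le s2 (FCH.proj 1))
      · have h3 : FCH (k := k + 3) fun w e =>
            F w (Fin.tail (Fin.tail (Fin.tail e))) (dvo (e 0) (e 1)) :=
          FCH.arBsubst (F := fun w e y => F w (Fin.tail (Fin.tail (Fin.tail e))) y) s3
            ((FCH.proj 0).dvoF (FCH.proj 1))
        exact InCH.arBcard (S := fun w d z => dvo z (d 0) < b w (Fin.tail (Fin.tail d)) ∧
          mdo z (d 0) < F w (Fin.tail (Fin.tail d)) (dvo z (d 0)))
          (InCH.and (InCH.lt ((FCH.proj 0).dvoF (FCH.proj 1)) hb.arBtail.arBtail.arBtail)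
            (InCH.lt ((FCH.proj 0).mdoF (FCH.proj 1)) h3)) (s + t)
    · intro w c hc
      obtain ⟨h1, h2⟩ := h w (Fin.tail c) (fun i => hc i.succ)
      have est : (s + t).eval w.length = s.eval w.length + t.eval w.length := by simp
      have et1 : (t + 1).eval w.length = t.eval w.length + 1 := by simp
      have key : ∀ n, n ≤ t.eval w.length → (∀ y < b w (Fin.tail c), F w (Fin.tail c) y ≤ 2 ^ n) →
          Nat.card {z : ℕ // z < 2 ^ (s + t).eval w.length ∧ (dvo z (2 ^ n) < b w (Fin.tail c) ∧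
            mdo z (2 ^ n) < F w (Fin.tail c) (dvo z (2 ^ n)))} =
          ∑ y ∈ Finset.range (b w (Fin.tail c)), F w (Fin.tail c) y := by
        intro n hn hle
        rw [← arB_card_pairs (b w (Fin.tail c)) ((s + t).eval w.length) (2 ^ n)
          (F w (Fin.tail c)) (by positivity) ?_ hle]
        · simp only [dvo_eq, mdo_eq]
        · rw [est, pow_add]
          exact Nat.mul_le_mul h1.le (Nat.pow_le_pow_right (by norm_num) hn)
      beta_reduce
      constructor
      · intro heq
        refine ⟨2 ^ t.eval w.length, ?_, ⟨_, rfl⟩, fun y hy => (h2 y hy).le, ?_⟩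
        · rw [et1]
          exact Nat.pow_lt_pow_right (by norm_num) (Nat.lt_succ_self _)
        · rw [key _ le_rfl (fun y hy => (h2 y hy).le)]
          exact heq
      · rintro ⟨m, hm, ⟨n, rfl⟩, hle, hcard⟩
        have hn : n ≤ t.eval w.length := by
          rw [et1] at hm
          have := (Nat.pow_lt_pow_iff_right (by norm_num : 1 < 2)).mp hm
          omega
        rw [key n hn hle] at hcard
        exact hcard

/-- multiplication: the sum of a constant -/
theorem FCH.mul (hf : FCH f) (hg : FCH g) : FCH fun w a => f w a * g w a := by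
  refine FCH.congr (FCH.sum (F := fun w a _ => g w a) hf hg.arBtail) (fun w a => ?_)
  simp

/-! ### divisibility, quotients -/

theorem InCH.dvd (hf : FCH f) (hg : FCH g) : InCH fun w a => f w a ∣ g w a := by
  refine InCH.congr (InCH.exists_lt (S := fun w a y => f w a * y = g w a) (hg.add (FCH.const 1))
    (InCH.eq (hf.arBtail.mul (FCH.proj 0)) hg.arBtail)) (fun w a => ?_)
  constructor
  · rintro ⟨y, _, hy⟩
    exact ⟨y, hy.symm⟩
  · rintro ⟨y, hy⟩
    rcases Nat.eq_zero_or_pos (f w a) with h0 | h0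
    · refine ⟨0, by omega, ?_⟩
      rw [hy, h0]
      simp
    · refine ⟨y, ?_, hy.symm⟩
      have : y ≤ f w a * y := Nat.le_mul_of_pos_left y h0
      omega

theorem FCH.div (hf : FCH f) (hg : FCH g) : FCH fun w a => f w a / g w a := by
  classical
  have h1 : InCH (k := k + 1) fun w c => 0 < c 0 ∧ g w (Fin.tail c) ∣ c 0 :=
    (InCH.lt (FCH.const 0) (FCH.proj 0)).and (InCH.dvd hg.arBtail (FCH.proj 0))
  refine FCH.congr (FCH.card (S := fun w a t => 0 < t ∧ g w a ∣ t) (hf.add (FCH.const 1)) h1)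
    (fun w a => ?_)
  rw [← Nat.Ioc_filter_dvd_card_eq_div (f w a) (g w a)]
  congr 1
  ext t
  simp only [Finset.mem_filter, Finset.mem_range, Finset.mem_Ioc]
  constructor
  · rintro ⟨h1, h2, h3⟩
    exact ⟨⟨h2, by omega⟩, h3⟩
  · rintro ⟨⟨h1, h2⟩, h3⟩
    exact ⟨by omega, h1, h3⟩

theorem FCH.mod (hf : FCH f) (hg : FCH g) : FCH fun w a => f w a % g w a := by
  refine FCH.congr (hf.sub (hg.mul (hf.div hg))) (fun w a => ?_)
  have := Nat.div_add_mod (f w a) (g w a)
  omega

theorem InCH.prime (hf : FCH f) : InCH fun w a => (f w a).Prime := by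
  refine InCH.congr (InCH.and (InCH.le (FCH.const 2) hf)
    (InCH.forall_lt (S := fun w a m => m ∣ f w a → m = 1) hf
      (InCH.imp (InCH.dvd (FCH.proj 0) hf.arBtail) (InCH.eq (FCH.proj 0) (FCH.const 1)))))
    (fun w a => ?_)
  exact Nat.prime_def_lt.symm

end Vale.Agent.P337
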