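import Vale.Agent.P337.ArithB

/-!
# The library of functions computable in the counting hierarchy, module H3c:
length, polynomials, powers of two, letters, division by powers of two
-/

namespace Vale.Agent.P337

variable {α : Type} {k l : ℕ} {S T : List α → (Fin k → ℕ) → Prop}
  {f g h b : List α → (Fin k → ℕ) → ℕ}

theorem FCH.weaken (hf : FCH f) : FCH (k := k + 1) fun w c => f w (Fin.tail c) :=
  FCH.comp hf (g := fun i _ c => c i.succ) fun i => FCH.proj i.succ

theorem Nat_card_onehot (m : ℕ) :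
    Nat.card {y : ℕ // y < 2 ^ m ∧ ∃ n < m, y = 2 ^ n} = m := by
  have e : Fin m ≃ {y : ℕ // y < 2 ^ m ∧ ∃ n < m, y = 2 ^ n} := by
    refine Equiv.ofBijective (fun i => ⟨2 ^ (i : ℕ), Nat.pow_lt_pow_right (by norm_num) i.2,
      i, i.2, rfl⟩) ⟨?_, ?_⟩
    · intro i j hij
      have h1 : 2 ^ (i : ℕ) = 2 ^ (j : ℕ) := congrArg Subtype.val hij
      exact Fin.ext (Nat.pow_right_injective le_rfl h1)
    · rintro ⟨y, hy, n, hn, rfl⟩
      exact ⟨⟨n, hn⟩, rfl⟩
  rw [← Nat.card_congr e, Nat.card_eq_fintype_card, Fintype.card_fin]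

/-- the length of the word -/
theorem FCH.length : FCH (α := α) (k := k) fun w _ => w.length := by
  refine FCH.of_lt ?_ ?_
  · intro r
    refine ⟨Polynomial.X, fun w a _ => ?_⟩
    rw [Polynomial.eval_X]
    exact Nat.lt_two_pow_self
  · have h1 := InCH.card_gt (k := k + 1) (α := α) (S := fun w _ y => ∃ n < w.length, y = 2 ^ n)
      (InCH.onehot_length (0 : Fin (k + 1 + 1))) Polynomial.X 0
    refine h1.congr fun w c => ?_
    rw [Polynomial.eval_X, Nat_card_onehot]

/-- a polynomial of the length of the word -/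
theorem FCH.poly (q : Polynomial ℕ) : FCH (α := α) (k := k) fun w _ => q.eval w.length := by
  induction q using Polynomial.induction_on with
  | C n =>
    simp only [Polynomial.eval_C]
    exact FCH.const n
  | add p q hp hq =>
    simp only [Polynomial.eval_add]
    exact FCH.add hp hq
  | monomial n c hn =>
    have h1 := FCH.mul hn (FCH.length (α := α) (k := k))
    refine FCH.congr h1 fun w a => ?_
    simp only [Polynomial.eval_mul, Polynomial.eval_C, Polynomial.eval_pow, Polynomial.eval_X]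
    ring

/-- a power of two with a polynomial exponent -/
theorem FCH.two_pow (q : Polynomial ℕ) :
    FCH (α := α) (k := k) fun w _ => 2 ^ q.eval w.length := by
  refine FCH.of_lt ?_ ?_
  · intro r
    refine ⟨q + 1, fun w a _ => ?_⟩
    rw [Polynomial.eval_add, Polynomial.eval_one]
    exact Nat.pow_lt_pow_right (by norm_num) (Nat.lt_succ_self _)
  · have h1 := InCH.card_gt (k := k + 1) (α := α) (S := fun _ _ _ => True)
      (InCH.const True) q 0
    refine h1.congr fun w c => ?_
    have : Nat.card {y : ℕ // y < 2 ^ q.eval w.length ∧ True} = 2 ^ q.eval w.length := by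
      have e : {y : ℕ // y < 2 ^ q.eval w.length ∧ True} ≃ Fin (2 ^ q.eval w.length) :=
        ⟨fun y => ⟨y.1, y.2.1⟩, fun y => ⟨y.1, y.2, trivial⟩, fun _ => rfl, fun _ => rfl⟩
      rw [Nat.card_congr e, Nat.card_eq_fintype_card, Fintype.card_fin]
    rw [this]

open Classical in
/-- the exponent of a one-hot number -/
theorem card_onehot_lt (n : ℕ) :
    ((Finset.range (2 ^ n)).filter fun y => ∃ m, y = 2 ^ m).card = n := by
  have h1 : (Finset.range (2 ^ n)).filter (fun y => ∃ m, y = 2 ^ m) =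
      (Finset.range n).image fun m => 2 ^ m := by
    ext y
    simp only [Finset.mem_filter, Finset.mem_range, Finset.mem_image]
    constructor
    · rintro ⟨hy, m, rfl⟩
      exact ⟨m, (Nat.pow_lt_pow_iff_right (by norm_num)).1 hy, rfl⟩
    · rintro ⟨m, hm, rfl⟩
      exact ⟨Nat.pow_lt_pow_right (by norm_num) hm, m, rfl⟩
  rw [h1, Finset.card_image_of_injective _ (Nat.pow_right_injective le_rfl), Finset.card_range]

open Classical in
theorem FCH.expo (hf : FCH f) :
    FCH fun w a => ((Finset.range (f w a)).filter fun y => ∃ m, y = 2 ^ m).card :=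
  FCH.card (S := fun _ _ y => ∃ m, y = 2 ^ m) hf (InCH.onehot 0)

/-- `h = 2 ^ g` -/
theorem InCH.eq_two_pow (hh : FCH h) (hg : FCH g) : InCH fun w a => h w a = 2 ^ g w a := by
  classical
  have h1 : InCH fun w a => ∃ m, h w a = 2 ^ m :=
    InCH.comp (l := 1) (S := fun _ b => ∃ m, b 0 = 2 ^ m) (InCH.onehot 0) (g := fun _ => h)
      fun _ => hh
  refine (InCH.and h1 (InCH.eq (FCH.expo hh) hg)).congr fun w a => ?_
  constructor
  · rintro ⟨⟨m, hm⟩, h2⟩
    rw [hm, card_onehot_lt] at h2
    rw [hm, h2]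
  · intro h2
    refine ⟨⟨_, h2⟩, ?_⟩
    rw [h2, card_onehot_lt]

/-- the letter at a position given as a number -/
theorem InCH.letter [DecidableEq α] (c : α) (hf : FCH f) :
    InCH fun w a => w[f w a]? = some c := by
  have h1 : InCH (k := k + 1) fun w b => (∃ n, b 0 = 2 ^ n ∧ w[n]? = some c) ∧
      b 0 = 2 ^ f w (Fin.tail b) :=
    InCH.and (InCH.letter_onehot 0 c) (InCH.eq_two_pow (FCH.proj 0) (FCH.weaken hf))
  refine (InCH.exists_lt (b := fun w _ => 2 ^ Polynomial.X.eval w.length)
    (S := fun w a y => (∃ n, y = 2 ^ n ∧ w[n]? = some c) ∧ y = 2 ^ f w a)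
    (FCH.two_pow Polynomial.X) h1).congr fun w a => ?_
  constructor
  · rintro ⟨y, _, ⟨n, h2, h3⟩, h4⟩
    have : n = f w a := Nat.pow_right_injective le_rfl (h2.symm.trans h4)
    rw [← this, h3]
  · intro h2
    refine ⟨2 ^ f w a, ?_, ⟨f w a, rfl, h2⟩, rfl⟩
    rw [Polynomial.eval_X]
    refine Nat.pow_lt_pow_right (by norm_num) ?_
    exact (List.getElem?_eq_some_iff.1 h2).1

/-- `2 ^ g ≤ h` -/
theorem InCH.two_pow_le (hg : FCH g) (hh : FCH h) : InCH fun w a => 2 ^ g w a ≤ h w a := by
  have h1 : InCH (k := k + 1) fun w b => b 0 = 2 ^ g w (Fin.tail b) :=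
    InCH.eq_two_pow (FCH.proj 0) (FCH.weaken hg)
  refine (InCH.exists_lt (b := fun w a => h w a + 1) (S := fun w a y => y = 2 ^ g w a)
    (FCH.add hh (FCH.const 1)) h1).congr fun w a => ?_
  constructor
  · rintro ⟨y, hy, rfl⟩
    exact Nat.lt_succ_iff.1 hy
  · intro h2
    exact ⟨_, Nat.lt_succ_iff.2 h2, rfl⟩

/-- the division by a power of two (`0` if the exponent is large) and the remainder -/
theorem FCH.div_two_pow (hf : FCH f) (hg : FCH g) : FCH fun w a => f w a / 2 ^ g w a := by
  classical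
  have h1 : InCH (k := k + 1) fun w c =>
      2 ^ g w (Fin.tail c) ≤ f w (Fin.tail c) / (c 0 + 1) :=
    InCH.two_pow_le (FCH.weaken hg) (FCH.div (FCH.weaken hf) (FCH.add (FCH.proj 0) (FCH.const 1)))
  refine (FCH.card (S := fun w a y => 2 ^ g w a ≤ f w a / (y + 1)) hf h1).congr fun w a => ?_
  have h2 : (Finset.range (f w a)).filter (fun y => 2 ^ g w a ≤ f w a / (y + 1)) =
      Finset.range (f w a / 2 ^ g w a) := by
    ext y
    simp only [Finset.mem_filter, Finset.mem_range]
    rw [Nat.le_div_iff_mul_le (Nat.succ_pos y)]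
    constructor
    · rintro ⟨_, h3⟩
      rw [← Nat.succ_le_iff, Nat.le_div_iff_mul_le (by positivity)]
      rw [mul_comm]; exact h3
    · intro h3
      have h4 := h3
      rw [← Nat.succ_le_iff, Nat.le_div_iff_mul_le (by positivity)] at h3
      refine ⟨lt_of_lt_of_le h4 (Nat.div_le_self _ _), ?_⟩
      rw [mul_comm]; exact h3
  have h3 := congrArg Finset.card h2
  rw [Finset.card_range] at h3
  convert h3

theorem FCH.mod_two_pow (hf : FCH f) (hg : FCH g) : FCH fun w a => f w a % 2 ^ g w a := by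
  classical
  -- `2 ^ g` if it is at most `f`, otherwise `0`
  have h1 : InCH (k := k + 2) fun w c => c 0 = 2 ^ g w (Fin.tail (Fin.tail c)) :=
    InCH.eq_two_pow (FCH.proj 0) (FCH.weaken (FCH.weaken hg))
  have h2 : InCH (k := k + 2) fun w c => c 0 = 2 ^ g w (Fin.tail (Fin.tail c)) ∧ c 1 < c 0 :=
    InCH.and h1 (InCH.lt_var 1 0)
  have h3 : InCH (k := k + 1) fun w c =>
      ∃ z < f w (Fin.tail c) + 1, z = 2 ^ g w (Fin.tail c) ∧ c 0 < z :=
    InCH.exists_lt (b := fun w c => f w (Fin.tail c) + 1)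
      (S := fun w c z => z = 2 ^ g w (Fin.tail c) ∧ c 0 < z)
      (FCH.add (FCH.weaken hf) (FCH.const 1)) h2
  have h4 := FCH.card (S := fun w a y => ∃ z < f w a + 1, z = 2 ^ g w a ∧ y < z) hf h3
  have h5 := FCH.ite (InCH.two_pow_le hg hf) (FCH.mod hf h4) hf
  refine h5.congr fun w a => ?_
  by_cases hle : 2 ^ g w a ≤ f w a
  · rw [if_pos hle]
    congr 1
    have h6 : (Finset.range (f w a)).filter (fun y => ∃ z < f w a + 1, z = 2 ^ g w a ∧ y < z) =
        Finset.range (2 ^ g w a) := by
      ext y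
      simp only [Finset.mem_filter, Finset.mem_range]
      constructor
      · rintro ⟨_, z, _, rfl, h⟩
        exact h
      · intro h
        exact ⟨lt_of_lt_of_le h hle, _, Nat.lt_succ_iff.2 hle, rfl, h⟩
    have h7 := congrArg Finset.card h6
    rw [Finset.card_range] at h7
    convert h7
  · rw [if_neg hle, Nat.mod_eq_of_lt (not_le.1 hle)]

end Vale.Agent.P337
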