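import Vale.Agent.P337.ArithC

/-!
# Recursion of polynomial length, modular powers (module H4)
-/

namespace Vale.Agent.P337

variable {α : Type} {k l : ℕ} {S T : List α → (Fin k → ℕ) → Prop}
  {f g h b : List α → (Fin k → ℕ) → ℕ}

/-- it suffices to describe a relation for every bound on the lengths separately -/
theorem InCH.of_local {S : List α → (Fin k → ℕ) → Prop}
    (h : ∀ r : Polynomial ℕ, ∃ T : List α → (Fin k → ℕ) → Prop, InCH T ∧
      ∀ w a, (∀ i, a i < 2 ^ r.eval w.length) → (S w a ↔ T w a)) : InCH S := by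
  intro r
  obtain ⟨T, hT, hST⟩ := h r
  obtain ⟨ms, A, hA⟩ := hT r
  exact ⟨ms, A, fun w a ha => ⟨(hA w a ha).1, (hST w a ha).trans (hA w a ha).2⟩⟩

theorem FCH.of_local {f : List α → (Fin k → ℕ) → ℕ} (hb : PolyBdd f)
    (h : ∀ r : Polynomial ℕ, ∃ g, FCH g ∧
      ∀ w a, (∀ i, a i < 2 ^ r.eval w.length) → f w a = g w a) : FCH f := by
  refine ⟨hb, InCH.of_local fun r => ?_⟩
  obtain ⟨g, hg, e⟩ := h r
  exact ⟨_, hg.2, fun w b hb => by rw [e w (Fin.tail b) (fun i => hb _)]⟩

theorem FCH.ite_dec [∀ w a, Decidable (S w a)] (hS : InCH S) (hf : FCH f) (hg : FCH g) :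
    FCH fun w a => if S w a then f w a else g w a :=
  (FCH.ite hS hf hg).congr fun w a => by by_cases h : S w a <;> simp [h]

theorem FCH.min (hf : FCH f) (hg : FCH g) : FCH fun w a => Min.min (f w a) (g w a) := by
  classical
  refine (FCH.ite (InCH.le hf hg) hf hg).congr fun w a => ?_
  by_cases h : f w a ≤ g w a
  · simp [h]
  · simp [h, le_of_not_ge h]

theorem FCH.comp2 {H : List α → (Fin (k + 2) → ℕ) → ℕ} (hH : FCH H)
    {u v : List α → (Fin l → ℕ) → ℕ} (hu : FCH u) (hv : FCH v) (σ : Fin k → Fin l) :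
    FCH fun w c => H w (Fin.cons (u w c) (Fin.cons (v w c) fun i => c (σ i))) := by
  have := hH.comp (g := Fin.cons u (Fin.cons v fun i w c => c (σ i)))
    (fun i => Fin.cases (by simpa using hu)
      (fun i => Fin.cases (by simpa using hv) (fun i => by simpa using FCH.proj _) i) i)
  refine this.congr fun w c => ?_
  congr 1
  funext i
  refine Fin.cases (by simp) (fun i => Fin.cases (by simp) (fun i => by simp) i) i

theorem exists_blocks (B : ℕ) (Q : ℕ) :
    ∀ F : ℕ → ℕ, (∀ j, F j < B) → ∃ Y < B ^ Q, ∀ i < Q, Y / B ^ i % B = F i := by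
  induction Q with
  | zero => exact fun F _ => ⟨0, by simp, by simp⟩
  | succ Q ih =>
    intro F hF
    have hB : 0 < B := lt_of_le_of_lt (Nat.zero_le _) (hF 0)
    obtain ⟨Y, hY, hY'⟩ := ih (fun j => F (j + 1)) (fun j => hF _)
    refine ⟨F 0 + B * Y, ?_, fun i hi => ?_⟩
    · calc F 0 + B * Y < B + B * Y := Nat.add_lt_add_right (hF 0) _
        _ = B * (Y + 1) := by ring
        _ ≤ B * B ^ Q := Nat.mul_le_mul_left _ hY
        _ = B ^ (Q + 1) := by ring
    · rcases i with _ | i
      · simp [Nat.mod_eq_of_lt (hF 0)]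
      · rw [pow_succ', ← Nat.div_div_eq_div_mul]
        have : (F 0 + B * Y) / B = Y := by
          rw [Nat.add_mul_div_left _ _ hB, Nat.div_eq_of_lt (hF 0), zero_add]
        rw [this]
        exact hY' i (by omega)

/-- recursion of polynomial length with values of polynomial length -/
theorem FCH.iter {F : List α → (Fin k → ℕ) → ℕ → ℕ} {G : List α → (Fin k → ℕ) → ℕ}
    {H : List α → (Fin (k + 2) → ℕ) → ℕ} (hG : FCH G) (hH : FCH H)
    (h0 : ∀ w a, F w a 0 = G w a)
    (hs : ∀ w a i, F w a (i + 1) = H w (Fin.cons i (Fin.cons (F w a i) a)))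
    (hb : ∀ r : Polynomial ℕ, ∃ s : Polynomial ℕ, ∀ w a i, (∀ j, a j < 2 ^ r.eval w.length) →
      F w a i < 2 ^ s.eval w.length)
    (q : Polynomial ℕ) (hg : FCH g) :
    FCH fun w a => F w a (Min.min (g w a) (q.eval w.length)) := by
  refine ⟨fun r => ?_, InCH.of_local fun r => ?_⟩
  · obtain ⟨s, hs⟩ := hb r
    exact ⟨s, fun w a ha => hs w a _ ha⟩
  obtain ⟨s, hs'⟩ := hb r
  refine ⟨fun w c => ∃ Y < 2 ^ ((q + 1) * s).eval w.length,
     (Y % 2 ^ s.eval w.length = G w (Fin.tail c) ∧
      ∀ i < Min.min (g w (Fin.tail c)) (q.eval w.length),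
        Y / 2 ^ ((i + 1) * s.eval w.length) % 2 ^ s.eval w.length =
          H w (Fin.cons i (Fin.cons (Y / 2 ^ (i * s.eval w.length) % 2 ^ s.eval w.length)
            (Fin.tail c)))) ∧
      Y / 2 ^ (Min.min (g w (Fin.tail c)) (q.eval w.length) * s.eval w.length) %
        2 ^ s.eval w.length = c 0, ?_, ?_⟩
  · refine InCH.exists_lt (FCH.two_pow _) (InCH.and (InCH.and ?_ ?_) ?_)
    · exact InCH.eq (FCH.mod_two_pow (FCH.proj 0) (FCH.poly s))
        (hG.comp (g := fun i w c => c i.succ.succ) fun i => FCH.proj _)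
    · refine InCH.forall_lt (b := fun w c => Min.min (g w (Fin.tail (Fin.tail c)))
        (q.eval w.length)) (FCH.min (hg.comp (g := fun i w c => c i.succ.succ)
          fun i => FCH.proj _) (FCH.poly q)) ?_
      refine InCH.eq (f := fun w c => (c 1) / 2 ^ ((c 0 + 1) * s.eval w.length) %
          2 ^ s.eval w.length) (g := fun w c => H w (Fin.cons (c 0) (Fin.cons
            (c 1 / 2 ^ (c 0 * s.eval w.length) % 2 ^ s.eval w.length)
            (fun i => c i.succ.succ.succ)))) ?_ ?_
      · exact FCH.mod_two_pow (FCH.div_two_pow (FCH.proj 1)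
          (FCH.mul (FCH.add (FCH.proj 0) (FCH.const 1)) (FCH.poly s))) (FCH.poly s)
      · exact FCH.comp2 hH (FCH.proj 0) (FCH.mod_two_pow (FCH.div_two_pow (FCH.proj 1)
          (FCH.mul (FCH.proj 0) (FCH.poly s))) (FCH.poly s)) _
    · exact InCH.eq (f := fun w (c : Fin (k + 2) → ℕ) => c 0 /
        2 ^ (Min.min (g w (Fin.tail (Fin.tail c))) (q.eval w.length) * s.eval w.length) %
          2 ^ s.eval w.length) (g := fun w c => c 1)
        (FCH.mod_two_pow (FCH.div_two_pow (FCH.proj 0) (FCH.mul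
          (FCH.min (hg.comp (g := fun i w c => c i.succ.succ) fun i => FCH.proj _) (FCH.poly q))
          (FCH.poly s))) (FCH.poly s)) (FCH.proj 1)
  · intro w c hc
    have hF : ∀ i, F w (Fin.tail c) i < 2 ^ s.eval w.length :=
      fun i => hs' w _ i fun j => hc _
    set N := 2 ^ s.eval w.length with hN
    have hpow : ∀ i, 2 ^ (i * s.eval w.length) = N ^ i := fun i => by
      rw [hN, ← pow_mul, mul_comm]
    simp only [Polynomial.eval_mul, Polynomial.eval_add, Polynomial.eval_one, hpow]
    constructor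
    · intro e
      obtain ⟨Y, hY, hY'⟩ := exists_blocks N (q.eval w.length + 1) _ hF
      refine ⟨Y, hY, ⟨?_, ?_⟩, ?_⟩
      · have := hY' 0 (by omega)
        rw [pow_zero, Nat.div_one] at this
        rw [this, h0]
      · intro i hi
        have hi' := lt_of_lt_of_le hi (min_le_right _ _)
        rw [hY' (i + 1) (by omega), hY' i (by omega), hs]
      · rw [hY' _ (by have := min_le_right (g w (Fin.tail c)) (q.eval w.length); omega)]
        exact e
    · rintro ⟨Y, hY, ⟨h1, h2⟩, h3⟩
      rw [← h3]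
      have key : ∀ i ≤ Min.min (g w (Fin.tail c)) (q.eval w.length),
          F w (Fin.tail c) i = Y / N ^ i % N := by
        intro i
        induction i with
        | zero => intro _; rw [h0, ← h1]; simp [hN]
        | succ i ih =>
          intro hi
          rw [hs, h2 i (by omega), ih (by omega)]
      exact key _ le_rfl

theorem powMod_step (x E S i m : ℕ) (hi : i < S) :
    x ^ (E / 2 ^ (S - (i + 1))) % m =
      (x ^ (E / 2 ^ (S - i)) % m) * (x ^ (E / 2 ^ (S - i)) % m) *
        (if E / 2 ^ (S - (i + 1)) % 2 = 1 then x else 1) % m := by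
  have h1 : E / 2 ^ (S - i) = E / 2 ^ (S - (i + 1)) / 2 := by
    rw [Nat.div_div_eq_div_mul, ← pow_succ]
    congr 2
    omega
  rw [h1]
  set u := E / 2 ^ (S - (i + 1))
  have h2 : x ^ u = x ^ (u / 2) * x ^ (u / 2) * (if u % 2 = 1 then x else 1) := by
    rcases Nat.mod_two_eq_zero_or_one u with h | h
    · have : u = u / 2 + u / 2 := by omega
      rw [if_neg (by omega), mul_one, ← pow_add, ← this]
    · have : u = u / 2 + u / 2 + 1 := by omega
      rw [if_pos h, ← pow_add, ← pow_succ, ← this]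
  rw [h2]
  conv_lhs => rw [Nat.mul_mod, Nat.mul_mod (x ^ (u / 2))]
  conv_rhs => rw [Nat.mul_mod, Nat.mul_mod (x ^ (u / 2) % m)]
  simp

/-- modular powers -/
theorem FCH.powMod {m e : List α → (Fin k → ℕ) → ℕ} (hf : FCH f) (he : FCH e) (hm : FCH m)
    (h0 : ∀ w a, 0 < m w a) : FCH fun w a => f w a ^ e w a % m w a := by
  classical
  refine FCH.of_local (fun r => ?_) fun r => ?_
  · obtain ⟨s, hs⟩ := hm.1 r
    exact ⟨s, fun w a ha => lt_trans (Nat.mod_lt _ (h0 w a)) (hs w a ha)⟩
  obtain ⟨s, hs⟩ := he.1 r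
  refine ⟨fun w a => f w a ^ (e w a % 2 ^ s.eval w.length / 2 ^ (s.eval w.length -
    Min.min (s.eval w.length) (s.eval w.length))) % m w a, ?_, fun w a ha => ?_⟩
  · have hE : FCH fun w a => e w a % 2 ^ s.eval w.length := FCH.mod_two_pow he (FCH.poly s)
    have hB : FCH (k := k + 2) fun w c => e w (fun i => c i.succ.succ) % 2 ^ s.eval w.length /
        2 ^ (s.eval w.length - (c 0 + 1)) % 2 :=
      FCH.mod (FCH.div_two_pow (hE.comp (g := fun i w c => c i.succ.succ) fun i => FCH.proj _)
        (FCH.sub (FCH.poly s) (FCH.add (FCH.proj 0) (FCH.const 1)))) (FCH.const 2)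
    have hM : FCH (k := k + 2) fun w c => m w (fun i => c i.succ.succ) :=
      hm.comp (g := fun i w c => c i.succ.succ) fun i => FCH.proj _
    have hX : FCH (k := k + 2) fun w c => f w (fun i => c i.succ.succ) :=
      hf.comp (g := fun i w c => c i.succ.succ) fun i => FCH.proj _
    refine FCH.iter (F := fun w a i => f w a ^ (e w a % 2 ^ s.eval w.length / 2 ^
        (s.eval w.length - i)) % m w a) (G := fun w a => 1 % m w a)
      (H := fun w c => if c 0 < s.eval w.length then
        c 1 * c 1 * (if e w (fun i => c i.succ.succ) % 2 ^ s.eval w.length /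
        2 ^ (s.eval w.length - (c 0 + 1)) % 2 = 1 then f w (fun i => c i.succ.succ) else 1) %
          m w (fun i => c i.succ.succ) else c 1)
      (FCH.mod (FCH.const 1) hm)
      (FCH.ite_dec (InCH.lt (FCH.proj 0) (FCH.poly s)) (FCH.mod (FCH.mul (FCH.mul (FCH.proj 1)
        (FCH.proj 1)) (FCH.ite_dec (InCH.eq hB (FCH.const 1)) hX (FCH.const 1))) hM) (FCH.proj 1))
      (fun w a => ?_) (fun w a i => ?_) (fun r => ?_) s (FCH.poly s)
    · simp [Nat.div_eq_of_lt (Nat.mod_lt (e w a) (show 0 < 2 ^ s.eval w.length by positivity))]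
    · by_cases hi : i < s.eval w.length
      · have := powMod_step (f w a) (e w a % 2 ^ s.eval w.length) (s.eval w.length) i (m w a) hi
        rw [this]
        simp [hi]
      · have e1 : s.eval w.length - (i + 1) = s.eval w.length - i := by omega
        simp [hi, e1]
    · obtain ⟨s, hs⟩ := hm.1 r
      exact ⟨s, fun w a i ha => lt_trans (Nat.mod_lt _ (h0 w a)) (hs w a ha)⟩
  · simp [Nat.mod_eq_of_lt (hs w a ha)]

/-- modular powers without hypotheses -/
theorem FCH.powMod0 {m e : List α → (Fin k → ℕ) → ℕ} (hf : FCH f) (he : FCH e) (hm : FCH m) :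
    FCH fun w a => if m w a = 0 then 0 else f w a ^ e w a % m w a := by
  classical
  have h1 : FCH fun w a => if m w a = 0 then 1 else m w a :=
    (FCH.ite (InCH.eq hm (FCH.const 0)) (FCH.const 1) hm).congr fun w a => by
      by_cases h : m w a = 0 <;> simp [h]
  refine (FCH.ite (InCH.eq hm (FCH.const 0)) (FCH.const 0)
    (FCH.powMod hf he h1 fun w a => ?_)).congr fun w a => ?_
  · by_cases h : m w a = 0
    · simp [h]
    · simpa [h] using Nat.pos_of_ne_zero h
  · by_cases h : m w a = 0 <;> simp [h]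

/-- true powers with a bounded result -/
theorem FCH.pow_bdd {e : List α → (Fin k → ℕ) → ℕ} (hf : FCH f) (he : FCH e)
    (hb : PolyBdd fun w a => f w a ^ e w a) : FCH fun w a => f w a ^ e w a := by
  refine FCH.of_local hb fun r => ?_
  obtain ⟨s, hs⟩ := hb r
  refine ⟨_, FCH.powMod hf he (FCH.two_pow s) fun w a => by positivity, fun w a ha => ?_⟩
  exact (Nat.mod_eq_of_lt (hs w a ha)).symm

end Vale.Agent.P337
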