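import Vale.Agent.P337.ArithD

/-!
# Products modulo a prime by discrete logarithms (module H5)
-/

namespace Vale.Agent.P337

namespace H5

variable {α : Type} {k : ℕ}

theorem fch_tail {f : List α → (Fin k → ℕ) → ℕ} (hf : FCH f) :
    FCH (k := k + 1) fun w c => f w (Fin.tail c) :=
  FCH.comp hf (fun i => FCH.proj i.succ)

/-- the least number below `b` with a property -/
noncomputable def leastN (b : ℕ) (S : ℕ → Prop) : ℕ :=
  (@Finset.filter ℕ (fun t => ∀ t' < t + 1, ¬ S t') (fun _ => Classical.propDecidable _)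
    (Finset.range b)).card

theorem leastN_spec {b : ℕ} {S : ℕ → Prop} (h : ∃ t < b, S t) : S (leastN b S) := by
  classical
  have h' : ∃ t, S t := h.imp fun _ ht => ht.2
  obtain ⟨t, htb, ht⟩ := h
  have hle : Nat.find h' ≤ t := Nat.find_le ht
  have e : (Finset.range b).filter (fun t => ∀ t' < t + 1, ¬ S t') =
      Finset.range (Nat.find h') := by
    ext s
    rw [Finset.mem_filter, Finset.mem_range, Finset.mem_range]
    constructor
    · rintro ⟨-, hs⟩
      by_contra hc
      exact hs (Nat.find h') (by omega) (Nat.find_spec h')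
    · intro hs
      exact ⟨by omega, fun t' ht' => Nat.find_min h' (by omega)⟩
  have e2 : leastN b S = Nat.find h' := by
    unfold leastN
    rw [← Finset.card_range (Nat.find h'), ← e]
    congr!
  rw [e2]
  exact Nat.find_spec h'

theorem fch_leastN {b : List α → (Fin k → ℕ) → ℕ} {S : List α → (Fin k → ℕ) → ℕ → Prop}
    (hb : FCH b) (hS : InCH (k := k + 1) fun w c => S w (Fin.tail c) (c 0)) :
    FCH fun w a => leastN (b w a) (S w a) := by
  let σ : Fin (k + 1) → Fin (k + 1 + 1) := Fin.cases 0 fun i => i.succ.succ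
  have h1 : InCH (α := α) (k := k + 1 + 1) fun w d => ¬ S w (Fin.tail (Fin.tail d)) (d 0) :=
    (hS.rename σ).not
  have h2 : InCH (α := α) (k := k + 1) fun w c => ∀ t' < c 0 + 1, ¬ S w (Fin.tail c) t' :=
    InCH.forall_lt (b := fun _ c => c 0 + 1) (S := fun w c t' => ¬ S w (Fin.tail c) t')
      (FCH.add (FCH.proj 0) (FCH.const 1)) h1
  exact FCH.card (S := fun w a t => ∀ t' < t + 1, ¬ S w a t') hb h2

/-- modular powers, with the value `0` for the modulus `0` -/
def pm (P g e : ℕ) : ℕ := if P = 0 then 0 else g ^ e % P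

theorem fch_pm {P G E : List α → (Fin k → ℕ) → ℕ} (hP : FCH P) (hG : FCH G) (hE : FCH E) :
    FCH fun w a => pm (P w a) (G w a) (E w a) := FCH.powMod0 hG hE hP

theorem pm_eq {P g e : ℕ} (hP : 0 < P) : pm P g e = g ^ e % P := by
  rw [pm, if_neg hP.ne']

/-- `g` generates the nonzero residues modulo `P` -/
def Gen (P g : ℕ) : Prop := ∀ x < P, (0 < x → ∃ e < P, pm P g e = x)

theorem inCH_gen {P G : List α → (Fin k → ℕ) → ℕ} (hP : FCH P) (hG : FCH G) :
    InCH fun w a => Gen (P w a) (G w a) := by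
  have h1 : InCH (α := α) (k := k + 1 + 1) fun w d =>
      pm (P w (Fin.tail (Fin.tail d))) (G w (Fin.tail (Fin.tail d))) (d 0) = d 1 :=
    InCH.eq (fch_pm (fch_tail (fch_tail hP)) (fch_tail (fch_tail hG)) (FCH.proj 0))
      (FCH.proj 1)
  have h2 : InCH (α := α) (k := k + 1) fun w c =>
      ∃ e < P w (Fin.tail c), pm (P w (Fin.tail c)) (G w (Fin.tail c)) e = c 0 :=
    InCH.exists_lt (b := fun w c => P w (Fin.tail c))
      (S := fun w c e => pm (P w (Fin.tail c)) (G w (Fin.tail c)) e = c 0) (fch_tail hP) h1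
  have h3 : InCH (α := α) (k := k + 1) fun w c =>
      (0 < c 0 → ∃ e < P w (Fin.tail c), pm (P w (Fin.tail c)) (G w (Fin.tail c)) e = c 0) :=
    InCH.imp (InCH.lt (FCH.const 0) (FCH.proj 0)) h2
  exact InCH.forall_lt (S := fun w a x => (0 < x → ∃ e < P w a, pm (P w a) (G w a) e = x)) hP h3

/-- the least generator -/
noncomputable def lgen (P : ℕ) : ℕ := leastN P (Gen P)

theorem fch_lgen {P : List α → (Fin k → ℕ) → ℕ} (hP : FCH P) : FCH fun w a => lgen (P w a) :=
  fch_leastN (S := fun w a t => Gen (P w a) t) hP (inCH_gen (fch_tail hP) (FCH.proj 0))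

/-- the discrete logarithm -/
noncomputable def dlog (P g x : ℕ) : ℕ := leastN P fun e => pm P g e = x % P

theorem fch_dlog {P G X : List α → (Fin k → ℕ) → ℕ} (hP : FCH P) (hG : FCH G) (hX : FCH X) :
    FCH fun w a => dlog (P w a) (G w a) (X w a) :=
  fch_leastN (S := fun w a e => pm (P w a) (G w a) e = X w a % P w a) hP
    (InCH.eq (fch_pm (fch_tail hP) (fch_tail hG) (FCH.proj 0))
      (FCH.mod (fch_tail hX) (fch_tail hP)))

theorem exists_gen {P : ℕ} (hP : P.Prime) : ∃ g < P, Gen P g := by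
  have : Fact P.Prime := ⟨hP⟩
  have : NeZero P := ⟨hP.ne_zero⟩
  obtain ⟨u, hu⟩ := IsCyclic.exists_generator (α := (ZMod P)ˣ)
  refine ⟨(u : ZMod P).val, ZMod.val_lt _, fun x hx hx0 => ?_⟩
  have hxne : (x : ZMod P) ≠ 0 := by
    intro h
    rw [ZMod.natCast_eq_zero_iff] at h
    exact absurd (Nat.le_of_dvd hx0 h) (by omega)
  have h1 := hu (Units.mk0 (x : ZMod P) hxne)
  rw [mem_zpowers_iff_mem_range_orderOf, Finset.mem_image] at h1
  obtain ⟨e, he, heq⟩ := h1
  have he' : e < P := by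
    have h2 := Finset.mem_range.mp he
    have h3 : orderOf u ≤ Fintype.card (ZMod P)ˣ := orderOf_le_card_univ
    rw [ZMod.card_units] at h3
    omega
  refine ⟨e, he', ?_⟩
  rw [pm_eq hP.pos]
  have h4 : (((u : ZMod P).val ^ e : ℕ) : ZMod P) = (x : ZMod P) := by
    have h5 := congrArg (fun v : (ZMod P)ˣ => (v : ZMod P)) heq
    simp only [Units.val_pow_eq_pow_val, Units.val_mk0] at h5
    rw [Nat.cast_pow, ZMod.natCast_zmod_val, h5]
  rw [ZMod.natCast_eq_natCast_iff'] at h4
  rw [h4, Nat.mod_eq_of_lt hx]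

theorem prod_eq {P : ℕ} (hP : P.Prime) (s : Finset ℕ) (F : ℕ → ℕ) (hF : ∀ y ∈ s, F y % P ≠ 0) :
    lgen P ^ (∑ y ∈ s, dlog P (lgen P) (F y)) % P = (∏ y ∈ s, F y) % P := by
  have hg : Gen P (lgen P) := leastN_spec (exists_gen hP)
  have hd : ∀ y ∈ s, lgen P ^ dlog P (lgen P) (F y) % P = F y % P := by
    intro y hy
    have h1 := hg (F y % P) (Nat.mod_lt _ hP.pos) (Nat.pos_of_ne_zero (hF y hy))
    have h2 : pm P (lgen P) (dlog P (lgen P) (F y)) = F y % P := leastN_spec h1
    rwa [pm_eq hP.pos] at h2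
  rw [← Finset.prod_pow_eq_pow_sum, Finset.prod_nat_mod, Finset.prod_congr rfl hd,
    ← Finset.prod_nat_mod]

end H5

open H5

variable {α : Type} {k : ℕ} {b : List α → (Fin k → ℕ) → ℕ}

open Classical in
theorem FCH.prodMod {F : List α → (Fin k → ℕ) → ℕ → ℕ} {p : List α → (Fin k → ℕ) → ℕ}
    (hp : FCH p) (hb : FCH b) (hF : FCH (k := k + 1) fun w c => F w (Fin.tail c) (c 0)) :
    FCH fun w a => if (p w a).Prime then (∏ y ∈ Finset.range (b w a), F w a y) % p w a else 0 := by
  have h0 : InCH (α := α) fun w a => ∃ y < b w a, F w a y % p w a = 0 :=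
    InCH.exists_lt (S := fun w a y => F w a y % p w a = 0) hb
      (InCH.eq (FCH.mod hF (fch_tail hp)) (FCH.const 0))
  have h1 : FCH (α := α) fun w a =>
      ∑ y ∈ Finset.range (b w a), dlog (p w a) (lgen (p w a)) (F w a y) :=
    FCH.sum (F := fun w a y => dlog (p w a) (lgen (p w a)) (F w a y)) hb
      (fch_dlog (fch_tail hp) (fch_tail (fch_lgen hp)) hF)
  refine (FCH.ite (InCH.prime hp) (FCH.ite h0 (FCH.const 0) (fch_pm hp (fch_lgen hp) h1))
      (FCH.const 0)).congr fun w a => ?_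
  by_cases hP : (p w a).Prime
  · rw [if_pos hP, if_pos hP]
    by_cases hz : ∃ y < b w a, F w a y % p w a = 0
    · rw [if_pos hz]
      obtain ⟨y, hy, hy0⟩ := hz
      exact (Nat.mod_eq_zero_of_dvd ((Nat.dvd_of_mod_eq_zero hy0).trans
        (Finset.dvd_prod_of_mem _ (Finset.mem_range.mpr hy)))).symm
    · rw [if_neg hz]
      push Not at hz
      rw [pm_eq hP.pos]
      exact prod_eq hP _ _ fun y hy => hz y (Finset.mem_range.mp hy)
  · rw [if_neg hP, if_neg hP]

end Vale.Agent.P337
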