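import Mathlib

/-!
# Comparing the sizes of large numbers given modulo short primes (modules F1, F2)
-/

namespace Vale.Agent.P337

/-- the primes between `2 ^ P` and `2 ^ (2 P)` -/
def prs (P : ℕ) : Finset ℕ := (Finset.Ioc (2 ^ P) (2 ^ (2 * P))).filter Nat.Prime

/-- module F1: their product is large (every prime power in `(2N).choose N` is at most `2N`) -/
theorem prod_prs (P : ℕ) (hP : 20 ≤ P) : 2 ^ 2 ^ P ≤ ∏ p ∈ prs P, p := by
  have hle : 2 ^ P ≤ 2 ^ (2 * P) := Nat.pow_le_pow_right (by norm_num) (by omega)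
  -- the product of all primes up to `2 ^ (2 P)`
  have hsplit : Chebyshev.theta ((2 ^ (2 * P) : ℕ) : ℝ) =
      Chebyshev.theta ((2 ^ P : ℕ) : ℝ) + ∑ p ∈ prs P, Real.log p := by
    unfold Chebyshev.theta
    rw [Nat.floor_natCast, Nat.floor_natCast]
    unfold prs
    rw [← Finset.sum_union]
    · refine Finset.sum_congr ?_ fun _ _ => rfl
      ext p
      simp only [Finset.mem_filter, Finset.mem_union, Finset.mem_Ioc]
      constructor
      · rintro ⟨⟨h1, h2⟩, h3⟩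
        rcases le_or_gt p (2 ^ P) with h | h
        · exact Or.inl ⟨⟨h1, h⟩, h3⟩
        · exact Or.inr ⟨⟨h, h2⟩, h3⟩
      · rintro (⟨⟨h1, h2⟩, h3⟩ | ⟨⟨h1, h2⟩, h3⟩)
        · exact ⟨⟨h1, h2.trans hle⟩, h3⟩
        · exact ⟨⟨h3.pos, h2⟩, h3⟩
    · rw [Finset.disjoint_left]
      intro p h1 h2
      simp only [Finset.mem_filter, Finset.mem_Ioc] at h1 h2
      omega
  have h1 := Chebyshev.theta_ge (2 ^ (2 * P))
  have h2 := Chebyshev.theta_le_log4_mul_x (x := ((2 ^ P : ℕ) : ℝ)) (Nat.cast_nonneg _)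
  have hlog : ∑ p ∈ prs P, Real.log p = Real.log ((∏ p ∈ prs P, p : ℕ) : ℝ) := by
    rw [Nat.cast_prod, Real.log_prod]
    intro p hp
    have : p.Prime := (Finset.mem_filter.1 hp).2
    exact Nat.cast_ne_zero.2 this.ne_zero
  rw [hlog] at hsplit
  have hl4 : Real.log 4 = 2 * Real.log 2 := by
    rw [show (4 : ℝ) = 2 ^ 2 by norm_num, Real.log_pow]; norm_num
  have hL : 0 < Real.log 2 := Real.log_pos (by norm_num)
  have e1 : Real.log (((2 ^ (2 * P) : ℕ) : ℝ)) = 2 * P * Real.log 2 := by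
    push_cast
    rw [Real.log_pow]; push_cast; ring
  have e2 : Real.sqrt ((2 ^ (2 * P) : ℕ) : ℝ) = 2 ^ P := by
    push_cast
    rw [mul_comm, pow_mul]
    exact Real.sqrt_sq (by positivity)
  have e3 : Real.log (((2 ^ (2 * P) : ℕ) : ℝ) + 1) ≤ (2 * P + 1) * Real.log 2 := by
    have : (((2 ^ (2 * P) : ℕ) : ℝ) + 1) ≤ 2 ^ (2 * P + 1) := by
      push_cast
      have : (1 : ℝ) ≤ 2 ^ (2 * P) := one_le_pow₀ (by norm_num)
      rw [pow_succ]; linarith
    calc _ ≤ Real.log (2 ^ (2 * P + 1)) := Real.log_le_log (by positivity) this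
      _ = _ := by rw [Real.log_pow]; push_cast; ring
  rw [e1, e2] at h1
  rw [hl4] at h2
  push_cast at h1 h2 hsplit e3
  -- numeric inequality
  have hnum : ((2 : ℝ) ^ P) * (4 * P + 3) + (2 * P + 1) ≤ 2 ^ (2 * P) := by
    have hN : ∀ P : ℕ, 20 ≤ P → 4 * P + 4 ≤ 2 ^ P := by
      intro P hP
      induction P, hP using Nat.le_induction with
      | base => norm_num
      | succ n hn ih => rw [pow_succ]; omega
    have h3 := hN P hP
    have h4 : ((4 * P + 4 : ℕ) : ℝ) ≤ ((2 ^ P : ℕ) : ℝ) := Nat.cast_le.2 h3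
    push_cast at h4
    have h5 : (2 : ℝ) ^ (2 * P) = 2 ^ P * 2 ^ P := by rw [← pow_add]; congr 1; ring
    rw [h5]
    have h6 : (0 : ℝ) < 2 ^ P := by positivity
    have h7 : (0 : ℝ) ≤ P := Nat.cast_nonneg _
    nlinarith
  have hfin : ((2 ^ P : ℕ) : ℝ) * Real.log 2 ≤ Real.log ((∏ p ∈ prs P, p : ℕ) : ℝ) := by
    push_cast
    have := mul_le_mul_of_nonneg_right hnum hL.le
    nlinarith
  have hpos : (0 : ℝ) < ((∏ p ∈ prs P, p : ℕ) : ℝ) := by
    rw [Nat.cast_prod]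
    refine Finset.prod_pos fun p hp => ?_
    have : p.Prime := (Finset.mem_filter.1 hp).2
    exact Nat.cast_pos.2 this.pos
  rw [← Real.log_pow] at hfin
  have h8 := (Real.log_le_log_iff (by positivity) hpos).1 hfin
  exact_mod_cast h8

/-- an inverse of the product of the other primes modulo `p` -/
def hinv (P p : ℕ) : ℕ := (∏ r ∈ (prs P).erase p, r) ^ (p - 2) % p

/-- the approximation of the fractional part of `2^j X / M`, from the residues `X p` of `X`
modulo the primes `p`, with `2 P + 10` binary digits -/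
def apx (P : ℕ) (X : ℕ → ℕ) (j : ℕ) : ℕ :=
  (∑ p ∈ prs P, (2 ^ (2 * P + 10) * ((2 ^ j * X p * hinv P p) % p)) / p) % 2 ^ (2 * P + 10)

/-- the approximation lies in `[3/32, 1/2]` -/
def Qtest (P : ℕ) (X : ℕ → ℕ) (j : ℕ) : Prop :=
  3 * 2 ^ (2 * P + 10) ≤ 32 * apx P X j ∧ 2 * apx P X j ≤ 2 ^ (2 * P + 10)

/-- the comparison -/
def Cmp (P : ℕ) (X Y : ℕ → ℕ) : Prop :=
  ∃ j < 2 ^ (3 * P), Qtest P X j ∧ ∀ i < j + 4, ¬ Qtest P Y i

end Vale.Agent.P337
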