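import Vale.Agent.P337.CRR

/-!
# Comparing the sizes of large numbers given modulo short primes (module F2)
-/

namespace Vale.Agent.P337

variable {P : ℕ}

theorem prime_prs {p : ℕ} (h : p ∈ prs P) : p.Prime := (Finset.mem_filter.1 h).2

theorem le_prs {p : ℕ} (h : p ∈ prs P) : p ≤ 2 ^ (2 * P) :=
  (Finset.mem_Ioc.1 (Finset.mem_filter.1 h).1).2

theorem card_prs (P : ℕ) : (prs P).card ≤ 2 ^ (2 * P) := by
  refine (Finset.card_filter_le _ _).trans ?_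
  rw [Nat.card_Ioc]; exact Nat.sub_le _ _

theorem hinv_spec {p : ℕ} (hp : p ∈ prs P) :
    hinv P p * ∏ r ∈ (prs P).erase p, r ≡ 1 [MOD p] := by
  have hpp := prime_prs hp
  have := Fact.mk hpp
  set Q := ∏ r ∈ (prs P).erase p, r with hQ
  have hcop : ¬ p ∣ Q := by
    intro hd
    obtain ⟨r, hr, hd'⟩ := (Prime.dvd_finsetProd_iff hpp.prime _).1 hd
    have hr' := Finset.mem_erase.1 hr
    exact hr'.1 ((Nat.prime_dvd_prime_iff_eq hpp (prime_prs hr'.2)).1 hd').symm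
  have h2 : p - 2 + 1 = p - 1 := by have := hpp.two_le; omega
  rw [← ZMod.natCast_eq_natCast_iff]
  unfold hinv
  rw [Nat.cast_mul, ZMod.natCast_mod, Nat.cast_pow, ← hQ, ← pow_succ, h2, Nat.cast_one]
  apply ZMod.pow_card_sub_one_eq_one
  intro h0
  rw [ZMod.natCast_eq_zero_iff] at h0
  exact hcop h0

/-- the Chinese remainder sum -/
def crS (P : ℕ) (x : ℕ → ℕ) (j : ℕ) : ℕ :=
  ∑ r ∈ prs P, ((2 ^ j * x r * hinv P r) % r) * ∏ s ∈ (prs P).erase r, s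

theorem crS_modEq {X : ℕ} {x : ℕ → ℕ} (hx : ∀ p ∈ prs P, x p % p = X % p) (j : ℕ) :
    crS P x j ≡ 2 ^ j * X [MOD ∏ p ∈ prs P, p] := by
  rw [← Int.natCast_modEq_iff]
  apply Int.ModEq.symm
  rw [Int.modEq_iff_dvd, Nat.cast_prod]
  apply Finset.prod_dvd_of_coprime
  · intro a ha b hb hab
    exact Nat.isCoprime_iff_coprime.2
      ((Nat.coprime_primes (prime_prs (Finset.mem_coe.1 ha)) (prime_prs (Finset.mem_coe.1 hb))).2 hab)
  intro p hp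
  rw [← Int.modEq_iff_dvd, Int.natCast_modEq_iff]
  apply Nat.ModEq.symm
  unfold crS
  rw [← Finset.add_sum_erase _ _ hp]
  have h1 : ∑ r ∈ (prs P).erase p, ((2 ^ j * x r * hinv P r) % r) * ∏ s ∈ (prs P).erase r, s ≡ 0
      [MOD p] := by
    rw [Nat.modEq_zero_iff_dvd]
    refine Finset.dvd_sum fun r hr => ?_
    refine Dvd.dvd.mul_left ?_ _
    refine Finset.dvd_prod_of_mem _ ?_
    rw [Finset.mem_erase]
    exact ⟨fun h => (Finset.mem_erase.1 hr).1 h.symm, hp⟩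
  have h2 : ((2 ^ j * x p * hinv P p) % p) * ∏ s ∈ (prs P).erase p, s ≡ 2 ^ j * X [MOD p] := by
    calc ((2 ^ j * x p * hinv P p) % p) * ∏ s ∈ (prs P).erase p, s
        ≡ (2 ^ j * x p * hinv P p) * ∏ s ∈ (prs P).erase p, s [MOD p] :=
          (Nat.mod_modEq _ _).mul_right _
      _ = (2 ^ j * x p) * (hinv P p * ∏ s ∈ (prs P).erase p, s) := by ring
      _ ≡ (2 ^ j * x p) * 1 [MOD p] := (hinv_spec hp).mul_left _
      _ = 2 ^ j * x p := by ring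
      _ ≡ 2 ^ j * X [MOD p] := Nat.ModEq.mul_left _ (hx p hp)
  simpa using h2.add h1

theorem prodM_pos (P : ℕ) : 0 < ∏ p ∈ prs P, p := Finset.prod_pos fun _ hp => (prime_prs hp).pos

/-- the real value of the sum -/
theorem crS_real (x : ℕ → ℕ) (j : ℕ) :
    (crS P x j : ℝ) / ((∏ p ∈ prs P, p : ℕ) : ℝ) =
      ∑ r ∈ prs P, (((2 ^ j * x r * hinv P r) % r : ℕ) : ℝ) / r := by
  have hM : ((∏ p ∈ prs P, p : ℕ) : ℝ) ≠ 0 := Nat.cast_ne_zero.2 (prodM_pos P).ne'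
  unfold crS
  rw [Nat.cast_sum, Finset.sum_div]
  refine Finset.sum_congr rfl fun r hr => ?_
  have hr0 : (r : ℝ) ≠ 0 := Nat.cast_ne_zero.2 (prime_prs hr).ne_zero
  rw [div_eq_div_iff hM hr0, Nat.cast_mul, mul_assoc, ← Nat.cast_mul _ r,
    Finset.prod_erase_mul _ _ hr]

theorem floor_sum (x : ℕ → ℕ) (j B : ℕ) :
    ((∑ p ∈ prs P, (2 ^ B * ((2 ^ j * x p * hinv P p) % p)) / p : ℕ) : ℝ) ≤
        2 ^ B * ((crS P x j : ℝ) / ((∏ p ∈ prs P, p : ℕ) : ℝ)) ∧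
      2 ^ B * ((crS P x j : ℝ) / ((∏ p ∈ prs P, p : ℕ) : ℝ)) - 2 ^ (2 * P) ≤
      ((∑ p ∈ prs P, (2 ^ B * ((2 ^ j * x p * hinv P p) % p)) / p : ℕ) : ℝ) := by
  rw [crS_real, Nat.cast_sum, Finset.mul_sum]
  constructor
  · refine Finset.sum_le_sum fun p hp => ?_
    refine Nat.cast_div_le.trans ?_
    push_cast
    rw [mul_div_assoc]
  · have h1 : ∑ p ∈ prs P, ((2 : ℝ) ^ B * ((((2 ^ j * x p * hinv P p) % p : ℕ) : ℝ) / p) - 1) ≤
        ∑ p ∈ prs P, (((2 ^ B * ((2 ^ j * x p * hinv P p) % p)) / p : ℕ) : ℝ) := by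
      refine Finset.sum_le_sum fun p hp => ?_
      have hp0 : 0 < p := (prime_prs hp).pos
      have hp1 : (0 : ℝ) < p := Nat.cast_pos.2 hp0
      set A := (2 ^ j * x p * hinv P p) % p
      have h2 : 2 ^ B * A < p * ((2 ^ B * A) / p + 1) := by
        have := Nat.lt_mul_div_succ (2 ^ B * A) hp0
        exact this
      have h3 : ((2 ^ B * A : ℕ) : ℝ) < ((p * ((2 ^ B * A) / p + 1) : ℕ) : ℝ) := Nat.cast_lt.2 h2
      rw [Nat.cast_mul p, Nat.cast_add, Nat.cast_one] at h3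
      have h4 : (2 : ℝ) ^ B * ((A : ℝ) / p) = ((2 ^ B * A : ℕ) : ℝ) / p := by
        push_cast; ring
      rw [h4, sub_le_iff_le_add, div_le_iff₀ hp1]
      linarith
    rw [Finset.sum_sub_distrib, Finset.sum_const, nsmul_eq_mul, mul_one] at h1
    have h5 : ((prs P).card : ℝ) ≤ 2 ^ (2 * P) := by
      have := card_prs P
      exact_mod_cast this
    linarith

theorem apx_spec {X : ℕ} {x : ℕ → ℕ} (hx : ∀ p ∈ prs P, x p % p = X % p) {j : ℕ}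
    (hj : 2 ^ j * X < ∏ p ∈ prs P, p) {V : ℝ}
    (hV : V = 2 ^ (2 * P + 10) * ((2 ^ j * X : ℕ) : ℝ) / ((∏ p ∈ prs P, p : ℕ) : ℝ)) :
    (V - 2 ^ (2 * P) ≤ (apx P x j : ℝ) ∧ (apx P x j : ℝ) ≤ V) ∨
      ((2 : ℝ) ^ (2 * P + 10) - 2 ^ (2 * P) ≤ (apx P x j : ℝ) ∧ V < 2 ^ (2 * P)) := by
  set M := ∏ p ∈ prs P, p with hM
  have hM0 : 0 < M := prodM_pos P
  have hM1 : (0 : ℝ) < M := Nat.cast_pos.2 hM0
  set S := crS P x j with hS
  have hmod : S % M = 2 ^ j * X := by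
    have := crS_modEq hx j
    rw [← hM, ← hS] at this
    unfold Nat.ModEq at this
    rw [this, Nat.mod_eq_of_lt hj]
  obtain ⟨t, ht⟩ : ∃ t, t = S / M := ⟨_, rfl⟩
  have hSt : S = M * t + 2 ^ j * X := by
    rw [← hmod, ht]; exact (Nat.div_add_mod S M).symm
  set B := 2 * P + 10 with hB
  set F := ∑ p ∈ prs P, (2 ^ B * ((2 ^ j * x p * hinv P p) % p)) / p with hF
  have happ : apx P x j = F % 2 ^ B := rfl
  obtain ⟨f1, f2⟩ := floor_sum (P := P) x j B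
  rw [← hM, ← hS, ← hF] at f1 f2
  have e1 : (2 : ℝ) ^ B * ((S : ℝ) / M) = 2 ^ B * t + V := by
    rw [hV, hSt]
    push_cast
    field_simp
  rw [e1] at f1 f2
  have hV1 : V < 2 ^ B := by
    rw [hV, div_lt_iff₀ hM1]
    have : ((2 ^ j * X : ℕ) : ℝ) < M := Nat.cast_lt.2 hj
    exact mul_lt_mul_of_pos_left this (by positivity)
  have hV0 : 0 ≤ V := by rw [hV]; positivity
  have hB2 : (2 : ℝ) ^ (2 * P) * 1024 = 2 ^ B := by rw [hB, pow_add]; norm_num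
  have hpp : (0 : ℝ) < 2 ^ (2 * P) := by positivity
  rcases le_or_gt (2 ^ B * t) F with h | h
  · left
    obtain ⟨R, hR⟩ := Nat.exists_eq_add_of_le h
    have hR2 : (F : ℝ) = 2 ^ B * t + R := by rw [hR]; push_cast; ring
    have hR3 : (R : ℝ) ≤ V := by linarith
    have hR4 : R < 2 ^ B := by
      have : (R : ℝ) < 2 ^ B := lt_of_le_of_lt hR3 hV1
      exact_mod_cast this
    have : apx P x j = R := by
      rw [happ, hR, Nat.mul_add_mod, Nat.mod_eq_of_lt hR4]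
    rw [this]
    constructor <;> linarith
  · right
    have hFr : (F : ℝ) < 2 ^ B * t := by exact_mod_cast h
    have ht1 : 1 ≤ t := by
      rcases Nat.eq_zero_or_pos t with h0 | h0
      · rw [h0] at h; simp at h
      · exact h0
    obtain ⟨t', rfl⟩ : ∃ t', t = t' + 1 := ⟨t - 1, by omega⟩
    have hlow : 2 ^ B * t' ≤ F := by
      have : ((2 ^ B * t' : ℕ) : ℝ) ≤ (F : ℝ) := by
        push_cast at f2 ⊢
        nlinarith
      exact_mod_cast this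
    obtain ⟨R, hR⟩ := Nat.exists_eq_add_of_le hlow
    have hR2 : (F : ℝ) = 2 ^ B * t' + R := by rw [hR]; push_cast; ring
    have hR4 : R < 2 ^ B := by
      rw [hR, Nat.mul_add] at h
      omega
    have : apx P x j = R := by
      rw [happ, hR, Nat.mul_add_mod, Nat.mod_eq_of_lt hR4]
    rw [this]
    push_cast at f1 f2 hFr
    have hm : (2 : ℝ) ^ B * ((t' : ℝ) + 1) = 2 ^ B * t' + 2 ^ B := by ring
    rw [hm] at f2 hFr
    constructor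
    · linarith
    · linarith

theorem not_Qtest {X : ℕ} {x : ℕ → ℕ} (hx : ∀ p ∈ prs P, x p % p = X % p) {j : ℕ}
    (hj : 32 * (2 ^ j * X) < 3 * ∏ p ∈ prs P, p) : ¬ Qtest P x j := by
  rintro ⟨h1, h2⟩
  have hM0 : 0 < ∏ p ∈ prs P, p := prodM_pos P
  have hM1 : (0 : ℝ) < ((∏ p ∈ prs P, p : ℕ) : ℝ) := Nat.cast_pos.2 hM0
  have hB2 : (2 : ℝ) ^ (2 * P) * 1024 = 2 ^ (2 * P + 10) := by rw [pow_add]; norm_num
  have hpp : (0 : ℝ) < 2 ^ (2 * P) := by positivity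
  have h1r : (3 : ℝ) * 2 ^ (2 * P + 10) ≤ 32 * (apx P x j : ℝ) := by exact_mod_cast h1
  have h2r : (2 : ℝ) * (apx P x j : ℝ) ≤ 2 ^ (2 * P + 10) := by exact_mod_cast h2
  have hjr : (32 : ℝ) * ((2 ^ j * X : ℕ) : ℝ) < 3 * ((∏ p ∈ prs P, p : ℕ) : ℝ) := by
    exact_mod_cast hj
  rcases apx_spec hx (j := j) (by omega) rfl with ⟨a, b⟩ | ⟨a, b⟩
  · have : 2 ^ (2 * P + 10) * ((2 ^ j * X : ℕ) : ℝ) / ((∏ p ∈ prs P, p : ℕ) : ℝ) <
        2 ^ (2 * P + 10) * (3 / 32) := by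
      rw [div_lt_iff₀ hM1, mul_assoc]
      refine mul_lt_mul_of_pos_left ?_ (by positivity)
      linarith
    linarith
  · linarith

theorem Qtest_of {X : ℕ} {x : ℕ → ℕ} (hx : ∀ p ∈ prs P, x p % p = X % p) {j : ℕ}
    (h1 : 97 * ∏ p ∈ prs P, p ≤ 1024 * (2 ^ j * X)) (h2 : 2 * (2 ^ j * X) ≤ ∏ p ∈ prs P, p) :
    Qtest P x j := by
  have hM0 : 0 < ∏ p ∈ prs P, p := prodM_pos P
  have hM1 : (0 : ℝ) < ((∏ p ∈ prs P, p : ℕ) : ℝ) := Nat.cast_pos.2 hM0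
  have hB2 : (2 : ℝ) ^ (2 * P) * 1024 = 2 ^ (2 * P + 10) := by rw [pow_add]; norm_num
  have hpp : (0 : ℝ) < 2 ^ (2 * P) := by positivity
  have h1r : (97 : ℝ) * ((∏ p ∈ prs P, p : ℕ) : ℝ) ≤ 1024 * ((2 ^ j * X : ℕ) : ℝ) := by
    exact_mod_cast h1
  have h2r : (2 : ℝ) * ((2 ^ j * X : ℕ) : ℝ) ≤ ((∏ p ∈ prs P, p : ℕ) : ℝ) := by
    exact_mod_cast h2
  have a1 : 2 ^ (2 * P + 10) * (97 / 1024) ≤
      2 ^ (2 * P + 10) * ((2 ^ j * X : ℕ) : ℝ) / ((∏ p ∈ prs P, p : ℕ) : ℝ) := by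
    rw [le_div_iff₀ hM1, mul_assoc]
    refine mul_le_mul_of_nonneg_left ?_ (by positivity)
    linarith
  have a2 : 2 ^ (2 * P + 10) * ((2 ^ j * X : ℕ) : ℝ) / ((∏ p ∈ prs P, p : ℕ) : ℝ) ≤
      2 ^ (2 * P + 10) * (1 / 2) := by
    rw [div_le_iff₀ hM1, mul_assoc]
    refine mul_le_mul_of_nonneg_left ?_ (by positivity)
    linarith
  rcases apx_spec hx (j := j) (by omega) rfl with ⟨a, b⟩ | ⟨a, b⟩
  · constructor
    · have : (3 : ℝ) * 2 ^ (2 * P + 10) ≤ 32 * (apx P x j : ℝ) := by linarith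
      exact_mod_cast this
    · have : (2 : ℝ) * (apx P x j : ℝ) ≤ 2 ^ (2 * P + 10) := by linarith
      exact_mod_cast this
  · linarith

/-- there is a place where the test is passed, and the value there is small -/
theorem exists_Qtest {X : ℕ} {x : ℕ → ℕ} (hx : ∀ p ∈ prs P, x p % p = X % p) {i : ℕ}
    (hi : 3 * ∏ p ∈ prs P, p ≤ 32 * (2 ^ i * X)) (h0 : 16 * X < ∏ p ∈ prs P, p) :
    ∃ j ≤ i + 1, Qtest P x j ∧ 16 * (2 ^ j * X) ≤ 4 * ∏ p ∈ prs P, p := by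
  classical
  have hex : ∃ i, 3 * ∏ p ∈ prs P, p ≤ 32 * (2 ^ i * X) := ⟨i, hi⟩
  set j := Nat.find hex with hj
  have hj1 : 3 * ∏ p ∈ prs P, p ≤ 32 * (2 ^ j * X) := Nat.find_spec hex
  have hji : j ≤ i := Nat.find_min' hex hi
  have hM0 : 0 < ∏ p ∈ prs P, p := prodM_pos P
  have hj2 : 16 * (2 ^ j * X) < 3 * ∏ p ∈ prs P, p := by
    rcases Nat.eq_zero_or_pos j with h | h
    · rw [h]; omega
    · obtain ⟨j', hj'⟩ : ∃ j', j = j' + 1 := ⟨j - 1, by omega⟩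
      have := Nat.find_min hex (m := j') (by omega)
      rw [hj', pow_succ]
      have e : 2 ^ j' * 2 * X = 2 * (2 ^ j' * X) := by ring
      rw [e]; omega
  rcases le_or_gt (97 * ∏ p ∈ prs P, p) (1024 * (2 ^ j * X)) with h | h
  · exact ⟨j, by omega, Qtest_of hx h (by omega), by omega⟩
  · have e : 2 ^ (j + 1) * X = 2 * (2 ^ j * X) := by ring
    refine ⟨j + 1, by omega, Qtest_of hx ?_ ?_, ?_⟩
    · rw [e]; omega
    · rw [e]; omega
    · rw [e]; omega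

/-- module F2 -/
theorem cmp_true (P : ℕ) (hP : 20 ≤ P) (X Y : ℕ) (hX : 16 * X < ∏ p ∈ prs P, p)
    (hY : 0 < Y) (hXY : 100 * Y ≤ X) (x y : ℕ → ℕ) (hx : ∀ p ∈ prs P, x p % p = X % p)
    (hy : ∀ p ∈ prs P, y p % p = Y % p) : Cmp P x y := by
  have hM0 : 0 < ∏ p ∈ prs P, p := prodM_pos P
  have hMle : ∏ p ∈ prs P, p ≤ 2 ^ (2 * P * 2 ^ (2 * P)) := by
    calc ∏ p ∈ prs P, p ≤ ∏ p ∈ prs P, 2 ^ (2 * P) := Finset.prod_le_prod' fun p hp => le_prs hp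
      _ = (2 ^ (2 * P)) ^ (prs P).card := Finset.prod_const _
      _ ≤ (2 ^ (2 * P)) ^ 2 ^ (2 * P) := Nat.pow_le_pow_right (by positivity) (card_prs P)
      _ = _ := by rw [← pow_mul]
  obtain ⟨j, hj1, hj2, hj3⟩ := exists_Qtest hx (i := 2 * P * 2 ^ (2 * P)) (by
    have : 1 ≤ X := by omega
    calc 3 * ∏ p ∈ prs P, p ≤ 3 * 2 ^ (2 * P * 2 ^ (2 * P)) := by omega
      _ ≤ 32 * (2 ^ (2 * P * 2 ^ (2 * P)) * 1) := by omega
      _ ≤ 32 * (2 ^ (2 * P * 2 ^ (2 * P)) * X) :=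
        Nat.mul_le_mul_left _ (Nat.mul_le_mul_left _ this)) hX
  refine ⟨j, ?_, hj2, ?_⟩
  · have hN : ∀ P : ℕ, 20 ≤ P → 4 * P + 4 ≤ 2 ^ P := by
      intro P hP
      induction P, hP using Nat.le_induction with
      | base => norm_num
      | succ n hn ih => rw [pow_succ]; omega
    have h3 := hN P hP
    have e : 2 ^ (3 * P) = 2 ^ P * 2 ^ (2 * P) := by rw [← pow_add]; congr 1; ring
    rw [e]
    have h4 : 1 ≤ 2 ^ (2 * P) := Nat.one_le_two_pow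
    calc j ≤ 2 * P * 2 ^ (2 * P) + 1 := hj1
      _ ≤ 2 * P * 2 ^ (2 * P) + 2 ^ (2 * P) := by omega
      _ = (2 * P + 1) * 2 ^ (2 * P) := by ring
      _ < 2 ^ P * 2 ^ (2 * P) := Nat.mul_lt_mul_of_pos_right (by omega) (by omega)
  · intro i hi
    apply not_Qtest hy
    have h5 : 2 ^ i * Y ≤ 2 ^ (j + 3) * Y :=
      Nat.mul_le_mul_right _ (Nat.pow_le_pow_right (by norm_num) (by omega))
    have h6 : 2 ^ (j + 3) * Y = 8 * (2 ^ j * Y) := by ring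
    have h7 : 100 * (2 ^ j * Y) ≤ 2 ^ j * X := by
      calc 100 * (2 ^ j * Y) = 2 ^ j * (100 * Y) := by ring
        _ ≤ _ := Nat.mul_le_mul_left _ hXY
    omega

theorem cmp_false (P : ℕ) (hP : 20 ≤ P) (X Y : ℕ) (hX : 0 < X)
    (hY : 16 * Y < ∏ p ∈ prs P, p) (hXY : 4 * X ≤ 9 * Y) (x y : ℕ → ℕ)
    (hx : ∀ p ∈ prs P, x p % p = X % p) (hy : ∀ p ∈ prs P, y p % p = Y % p) : ¬ Cmp P x y := by
  rintro ⟨j, _, hj1, hj2⟩
  have hM0 : 0 < ∏ p ∈ prs P, p := prodM_pos P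
  have h1 : 3 * ∏ p ∈ prs P, p ≤ 32 * (2 ^ j * X) := by
    by_contra h
    exact not_Qtest hx (by omega) hj1
  have h2 : 4 * (2 ^ j * X) ≤ 9 * (2 ^ j * Y) := by
    calc 4 * (2 ^ j * X) = 2 ^ j * (4 * X) := by ring
      _ ≤ 2 ^ j * (9 * Y) := Nat.mul_le_mul_left _ hXY
      _ = _ := by ring
  have h3 : 2 ^ (j + 2) * Y = 4 * (2 ^ j * Y) := by ring
  obtain ⟨i, hi1, hi2, _⟩ := exists_Qtest hy (i := j + 2) (by rw [h3]; omega) hY
  exact hj2 i (by omega) hi2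

end Vale.Agent.P337
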