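import Vale.Agent.P337.ClusterD

/-!
# The cluster filters (module D)
-/

namespace Vale.Agent.P337

open Complex

variable {n D : ℕ}

/-- `A(z)` for the coordinate `c` -/
noncomputable def ptA (pts : Fin D → Fin n → ℂ) (q s k : ℕ) (c : Fin n) (z : ℂ) : ℂ :=
  ∏ j, facA q s k (pts j c - z)

/-- `A1(z)` for the coordinate `c` -/
noncomputable def ptA1 (pts : Fin D → Fin n → ℂ) (q s k : ℕ) (c : Fin n) (z : ℂ) : ℂ :=
  ∏ j, facA1 q s k (pts j c - z)

/-- the product of the numerators of the filters at a point -/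
noncomputable def ptU (pts : Fin D → Fin n → ℂ) (q s t : ℕ) (x : Fin n → ℂ) : ℂ :=
  ∏ c, ∏ k ∈ Finset.range (cK0 q + 1), fU q D t (ptA pts q s k c (x c))

/-- the product of the denominators of the filters at a point -/
noncomputable def ptV (pts : Fin D → Fin n → ℂ) (q s t : ℕ) (x : Fin n → ℂ) : ℂ :=
  ∏ c, ∏ k ∈ Finset.range (cK0 q + 1),
    fV q D t (ptA pts q s k c (x c)) (ptA1 pts q s k c (x c))

/-- `X1 = ∏_i ((2 G_i + 1) V_i + Θ U_i)` -/
noncomputable def ptX1 (pts : Fin D → Fin n → ℂ) (G : Fin D → ℂ) (Θ q s t : ℕ) : ℂ :=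
  ∏ i, ((2 * G i + 1) * ptV pts q s t (pts i) + Θ * ptU pts q s t (pts i))

/-- `X2 = ∏_i (2 G_i + 1) V_i` -/
noncomputable def ptX2 (pts : Fin D → Fin n → ℂ) (G : Fin D → ℂ) (q s t : ℕ) : ℂ :=
  ∏ i, ((2 * G i + 1) * ptV pts q s t (pts i))

section

open Finset

/-- number of pairs (coordinate, radius) -/
theorem card_pairs_le (q : ℕ) (hq : 10 ≤ q) (hn : n ≤ 2 ^ q) :
    n * (cK0 q + 1) ≤ 2 ^ (2 * q + 2) := by
  have h1 := lin_le_two_pow q hq
  have h2 : cK0 q + 1 ≤ 4 * 2 ^ q := by unfold cK0; omega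
  calc n * (cK0 q + 1) ≤ 2 ^ q * (4 * 2 ^ q) := Nat.mul_le_mul hn h2
    _ = 2 ^ (2 * q + 2) := by rw [pow_add, two_mul, pow_add]; ring

/-- the shift `s` is good -/
def GoodS (pts : Fin D → Fin n → ℂ) (q s : ℕ) : Prop :=
  ∀ c, ∀ k ≤ cK0 q, Gap (fun j => pts j c) (cR q s k) (cg q)

/-- the shift `t` is good -/
def GoodT (pts : Fin D → Fin n → ℂ) (q s t : ℕ) : Prop :=
  ∀ c, ∀ k ≤ cK0 q, ∀ i, cg2 q ≤ |‖cv (fun j => pts j c) q s k (pts i c)‖ / cβ q t - 1|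

open Classical in
theorem goodS_count (q : ℕ) (hq : 10 ≤ q) (hn : n ≤ 2 ^ q) (hD : D ≤ 2 ^ q)
    (pts : Fin D → Fin n → ℂ) :
    3 * cS q ≤ 4 * ((range (cS q)).filter (fun s => GoodS pts q s)).card := by
  have hcard : Fintype.card (Fin n × Fin D × Fin D × Fin (cK0 q + 1)) ≤ 2 ^ (4 * q + 2) := by
    simp only [Fintype.card_prod, Fintype.card_fin]
    calc n * (D * (D * (cK0 q + 1))) = (n * (cK0 q + 1)) * (D * D) := by ring
      _ ≤ 2 ^ (2 * q + 2) * (2 ^ q * 2 ^ q) :=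
        Nat.mul_le_mul (card_pairs_le q hq hn) (Nat.mul_le_mul hD hD)
      _ = 2 ^ (4 * q + 2) := by rw [← pow_add, ← pow_add]; congr 1; omega
  have hS0 : 0 < cS q := by unfold cS; positivity
  have hSr : (0 : ℝ) < cS q := by exact_mod_cast hS0
  set a : Fin n × Fin D × Fin D × Fin (cK0 q + 1) → ℝ := fun x =>
    ‖pts x.2.1 x.1 - pts x.2.2.1 x.1‖ / ((cS q : ℝ) * 2 ^ (cK0 q - x.2.2.2.1) / 2 ^ cL q) with ha
  have h1 : 48 * (Fintype.card (Fin n × Fin D × Fin D × Fin (cK0 q + 1)) : ℝ) * cg q ≤ 1 := by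
    have h2 : (Fintype.card (Fin n × Fin D × Fin D × Fin (cK0 q + 1)) : ℝ) ≤ 2 ^ (4 * q + 2) := by
      exact_mod_cast hcard
    have h3 : (2 : ℝ) ^ (4 * q + 2) * cg q = 1 / 64 := by
      have : (2 : ℝ) ^ (4 * q + 8) = 2 ^ (4 * q + 2) * 64 := by
        rw [show (64 : ℝ) = 2 ^ 6 by norm_num, ← pow_add]
      unfold cg
      rw [this]
      field_simp
    have h4 := cg_pos q
    nlinarith
  have h2 : 8 * Fintype.card (Fin n × Fin D × Fin D × Fin (cK0 q + 1)) ≤ cS q := by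
    have : cS q = 2 ^ (4 * q + 2) * 64 := by
      rw [show (64 : ℕ) = 2 ^ 6 by norm_num, ← pow_add, cS]
    omega
  have h3 := good_count a (cg q) (cg_pos q) (cg_le q) (cS q) hS0 h1 h2
  have h4 : (range (cS q)).filter (fun s => ¬ GoodS pts q s) ⊆
      (range (cS q)).filter (fun s : ℕ => ∃ i, |a i / (1 + (s : ℝ) / cS q) - 1| < cg q) := by
    intro s hs
    rw [mem_filter] at hs ⊢
    refine ⟨hs.1, ?_⟩
    have h5 := hs.2
    unfold GoodS Gap at h5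
    push Not at h5
    obtain ⟨c, k, hk, i, j, hij⟩ := h5
    refine ⟨(c, i, j, ⟨k, by omega⟩), ?_⟩
    have h6 : a (c, i, j, ⟨k, by omega⟩) / (1 + (s : ℝ) / cS q) =
        ‖pts i c - pts j c‖ / cR q s k := by
      rw [ha]
      simp only
      unfold cR cRho
      push_cast
      field_simp
    rw [h6]
    exact hij
  have h5 := card_le_card h4
  have h6 := card_filter_add_card_filter_not (s := range (cS q))
    (fun s => GoodS pts q s)
  rw [card_range] at h6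
  omega

open Classical in
theorem goodT_count (q : ℕ) (hq : 10 ≤ q) (hn : n ≤ 2 ^ q) (hD : D ≤ 2 ^ q)
    (pts : Fin D → Fin n → ℂ) (s : ℕ) :
    3 * cT q ≤ 4 * ((range (cT q)).filter (fun t => GoodT pts q s t)).card := by
  have hcard : Fintype.card (Fin n × Fin D × Fin (cK0 q + 1)) ≤ 2 ^ (3 * q + 2) := by
    simp only [Fintype.card_prod, Fintype.card_fin]
    calc n * (D * (cK0 q + 1)) = (n * (cK0 q + 1)) * D := by ring
      _ ≤ 2 ^ (2 * q + 2) * 2 ^ q := Nat.mul_le_mul (card_pairs_le q hq hn) hD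
      _ = 2 ^ (3 * q + 2) := by rw [← pow_add]; congr 1; omega
  have hS0 : 0 < cT q := cT_pos q
  have hSr : (0 : ℝ) < cT q := by exact_mod_cast hS0
  set a : Fin n × Fin D × Fin (cK0 q + 1) → ℝ := fun x =>
    ‖cv (fun j => pts j x.1) q s x.2.2.1 (pts x.2.1 x.1)‖ / 2 with ha
  have h1 : 48 * (Fintype.card (Fin n × Fin D × Fin (cK0 q + 1)) : ℝ) * cg2 q ≤ 1 := by
    have h2 : (Fintype.card (Fin n × Fin D × Fin (cK0 q + 1)) : ℝ) ≤ 2 ^ (3 * q + 2) := by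
      exact_mod_cast hcard
    have h3 : (2 : ℝ) ^ (3 * q + 2) * cg2 q = 1 / 64 := by
      have : (2 : ℝ) ^ (3 * q + 8) = 2 ^ (3 * q + 2) * 64 := by
        rw [show (64 : ℝ) = 2 ^ 6 by norm_num, ← pow_add]
      unfold cg2
      rw [this]
      field_simp
    have h4 := cg2_pos q
    nlinarith
  have h2 : 8 * Fintype.card (Fin n × Fin D × Fin (cK0 q + 1)) ≤ cT q := by
    have : cT q = 2 ^ (3 * q + 2) * 64 := by
      rw [show (64 : ℕ) = 2 ^ 6 by norm_num, ← pow_add, cT]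
    omega
  have h3 := good_count a (cg2 q) (cg2_pos q) (by linarith [cg2_le q]) (cT q) hS0 h1 h2
  have h4 : (range (cT q)).filter (fun t => ¬ GoodT pts q s t) ⊆
      (range (cT q)).filter (fun t : ℕ => ∃ i, |a i / (1 + (t : ℝ) / cT q) - 1| < cg2 q) := by
    intro t ht
    rw [mem_filter] at ht ⊢
    refine ⟨ht.1, ?_⟩
    have h5 := ht.2
    unfold GoodT at h5
    push Not at h5
    obtain ⟨c, k, hk, i, hij⟩ := h5
    refine ⟨(c, i, ⟨k, by omega⟩), ?_⟩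
    have h6 : a (c, i, ⟨k, by omega⟩) / (1 + (t : ℝ) / cT q) =
        ‖cv (fun j => pts j c) q s k (pts i c)‖ / cβ q t := by
      rw [ha]
      simp only
      unfold cβ
      rw [div_div]
    rw [h6]
    exact hij
  have h5 := card_le_card h4
  have h6 := card_filter_add_card_filter_not (s := range (cT q))
    (fun t => GoodT pts q s t)
  rw [card_range] at h6
  omega

/-- the product of the second filters at a point -/
noncomputable def ptS (pts : Fin D → Fin n → ℂ) (q s t : ℕ) (i : Fin D) : ℂ :=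
  ∏ x ∈ (univ : Finset (Fin n)) ×ˢ range (cK0 q + 1), cTf (fun j => pts j x.1) q s t x.2 (pts i x.1)

/-- the error of the second filters -/
noncomputable def cE (q : ℕ) : ℝ := 2 * ((1 + cg2 q) ^ cK2 q)⁻¹

theorem cE_pos (q : ℕ) : 0 < cE q := by
  have := cg2_pos q
  unfold cE
  positivity

/-- the error of the product of the second filters -/
noncomputable def cE' (q : ℕ) : ℝ := 2 ^ (2 * q + 4) * cE q

theorem cE'_le (q : ℕ) (hq : 10 ≤ q) :
    cE' q * ((2 : ℝ) ^ 2 ^ q * 2 ^ 2 ^ q) ≤ (2 ^ (q + 10))⁻¹ := by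
  have h1 := two_pow_le_filter2 q
  have h2 : ((1 + cg2 q) ^ cK2 q)⁻¹ ≤ (2 ^ (4 * 2 ^ q))⁻¹ := inv_anti₀ (by positivity) h1
  have h3 : (2 : ℝ) ^ (4 * 2 ^ q) = 2 ^ 2 ^ q * 2 ^ 2 ^ q * 2 ^ (2 * 2 ^ q) := by
    rw [← pow_add, ← pow_add]
    congr 1
    ring
  have h4 : cE' q * ((2 : ℝ) ^ 2 ^ q * 2 ^ 2 ^ q) ≤ 2 ^ (2 * q + 5) * (2 ^ (2 * 2 ^ q))⁻¹ := by
    unfold cE' cE
    calc (2 : ℝ) ^ (2 * q + 4) * (2 * ((1 + cg2 q) ^ cK2 q)⁻¹) * (2 ^ 2 ^ q * 2 ^ 2 ^ q)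
        ≤ (2 : ℝ) ^ (2 * q + 4) * (2 * (2 ^ (4 * 2 ^ q))⁻¹) * (2 ^ 2 ^ q * 2 ^ 2 ^ q) := by
          gcongr
      _ = 2 ^ (2 * q + 5) * (2 ^ (2 * 2 ^ q))⁻¹ := by
          rw [h3, pow_succ 2 (2 * q + 4)]
          field_simp
  refine h4.trans ?_
  have h5 : (2 : ℝ) ^ (2 * q + 5) * 2 ^ (q + 10) ≤ 2 ^ (2 * 2 ^ q) := by
    rw [← pow_add]
    apply pow_le_pow_right₀ (by norm_num)
    have := lin_le_two_pow q hq
    omega
  rw [← div_eq_mul_inv, div_le_iff₀ (by positivity), ← div_eq_inv_mul, le_div_iff₀ (by positivity)]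
  exact h5

theorem ptS_near (q s t : ℕ) (hq : 10 ≤ q) (hn : n ≤ 2 ^ q) (pts : Fin D → Fin n → ℂ) (i : Fin D)
    (hT : GoodT pts q s t) :
    ((∀ c, ∀ k ≤ cK0 q, ‖cTf (fun j => pts j c) q s t k (pts i c) - 1‖ ≤ cE q) ∧
      ‖ptS pts q s t i - 1‖ ≤ cE' q) ∨ ‖ptS pts q s t i‖ ≤ cE' q := by
  have hE := cE_pos q
  have hE' := cE'_le q hq
  have hcard : (((univ : Finset (Fin n)) ×ˢ range (cK0 q + 1)).card : ℝ) ≤ 2 ^ (2 * q + 2) := by
    rw [card_product, card_univ, Fintype.card_fin, card_range]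
    exact_mod_cast card_pairs_le q hq hn
  have h16 : (2 : ℝ) ^ (2 * q + 4) = 4 * 2 ^ (2 * q + 2) := by
    rw [show (4 : ℝ) = 2 ^ 2 by norm_num, ← pow_add]
    congr 1
    omega
  have hE1 : cE' q ≤ 1 := by
    have h1 : (1 : ℝ) ≤ 2 ^ 2 ^ q * 2 ^ 2 ^ q := by
      have : (1 : ℝ) ≤ 2 ^ 2 ^ q := one_le_pow₀ (by norm_num)
      nlinarith
    have h2 : ((2 : ℝ) ^ (q + 10))⁻¹ ≤ 1 := inv_le_one_of_one_le₀ (one_le_pow₀ (by norm_num))
    have h3 : 0 ≤ cE' q := by unfold cE'; positivity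
    nlinarith
  have h4 : (1 : ℝ) ≤ 2 ^ (2 * q + 2) := one_le_pow₀ (by norm_num)
  have hm : (((univ : Finset (Fin n)) ×ˢ range (cK0 q + 1)).card : ℝ) * cE q ≤ 1 := by
    refine le_trans ?_ hE1
    unfold cE'
    rw [h16]
    nlinarith
  have hnear : ∀ x ∈ (univ : Finset (Fin n)) ×ˢ range (cK0 q + 1),
      ‖cTf (fun j => pts j x.1) q s t x.2 (pts i x.1) - 1‖ ≤ cE q ∨
      ‖cTf (fun j => pts j x.1) q s t x.2 (pts i x.1)‖ ≤ cE q := by
    intro x hx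
    rw [mem_product, mem_range] at hx
    exact (cTf_near (fun j => pts j x.1) q s t x.2 (pts i x.1)
      (hT x.1 x.2 (by omega) i)).2
  rcases prod_near _ _ (cE q) hE.le hm hnear with ⟨h1, h2⟩ | h1
  · left
    refine ⟨fun c k hk => h1 (c, k) (mem_product.2 ⟨mem_univ _, mem_range.2 (by omega)⟩),
      h2.trans ?_⟩
    unfold cE'
    rw [h16]
    nlinarith
  · right
    refine h1.trans ?_
    unfold cE'
    rw [h16]
    nlinarith

theorem ptS_one (q s t : ℕ) (hq : 10 ≤ q) (hn : n ≤ 2 ^ q) (pts : Fin D → Fin n → ℂ) (i : Fin D)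
    (h : ∀ c, ∀ k ≤ cK0 q, ‖cTf (fun j => pts j c) q s t k (pts i c) - 1‖ ≤ cE q) :
    ‖ptS pts q s t i - 1‖ ≤ cE' q := by
  have hE := cE_pos q
  have hE' := cE'_le q hq
  have hcard : (((univ : Finset (Fin n)) ×ˢ range (cK0 q + 1)).card : ℝ) ≤ 2 ^ (2 * q + 2) := by
    rw [card_product, card_univ, Fintype.card_fin, card_range]
    exact_mod_cast card_pairs_le q hq hn
  have h16 : (2 : ℝ) ^ (2 * q + 4) = 4 * 2 ^ (2 * q + 2) := by
    rw [show (4 : ℝ) = 2 ^ 2 by norm_num, ← pow_add]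
    congr 1
    omega
  have hE1 : cE' q ≤ 1 := by
    have h1 : (1 : ℝ) ≤ 2 ^ 2 ^ q * 2 ^ 2 ^ q := by
      have : (1 : ℝ) ≤ 2 ^ 2 ^ q := one_le_pow₀ (by norm_num)
      nlinarith
    have h2 : ((2 : ℝ) ^ (q + 10))⁻¹ ≤ 1 := inv_le_one_of_one_le₀ (one_le_pow₀ (by norm_num))
    have h3 : 0 ≤ cE' q := by unfold cE'; positivity
    nlinarith
  have hsum : ∑ x ∈ (univ : Finset (Fin n)) ×ˢ range (cK0 q + 1),
      ‖cTf (fun j => pts j x.1) q s t x.2 (pts i x.1) - 1‖ ≤ 2 ^ (2 * q + 2) * cE q := by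
    calc ∑ x ∈ (univ : Finset (Fin n)) ×ˢ range (cK0 q + 1),
        ‖cTf (fun j => pts j x.1) q s t x.2 (pts i x.1) - 1‖
        ≤ ∑ _x ∈ (univ : Finset (Fin n)) ×ˢ range (cK0 q + 1), cE q := by
          apply sum_le_sum
          intro x hx
          rw [mem_product, mem_range] at hx
          exact h x.1 x.2 (by omega)
      _ = (((univ : Finset (Fin n)) ×ˢ range (cK0 q + 1)).card : ℝ) * cE q := by
          rw [sum_const, nsmul_eq_mul]
      _ ≤ _ := mul_le_mul_of_nonneg_right hcard hE.le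
  have hb : 2 ^ (2 * q + 2) * cE q ≤ 1 := by
    refine le_trans ?_ hE1
    unfold cE'
    rw [h16]
    have : 0 ≤ 2 ^ (2 * q + 2) * cE q := by positivity
    nlinarith
  have h2 := norm_prod_one_add_sub_one _ (fun x : Fin n × ℕ =>
    cTf (fun j => pts j x.1) q s t x.2 (pts i x.1) - 1) (hsum.trans hb)
  have h3 : ∏ x ∈ (univ : Finset (Fin n)) ×ˢ range (cK0 q + 1),
      (1 + (cTf (fun j => pts j x.1) q s t x.2 (pts i x.1) - 1)) = ptS pts q s t i := by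
    unfold ptS
    exact prod_congr rfl fun x _ => by ring
  rw [h3] at h2
  refine h2.trans ?_
  unfold cE'
  rw [h16]
  have : 0 ≤ 2 ^ (2 * q + 2) * cE q := by positivity
  nlinarith

theorem ptUV (q s t : ℕ) (hD0 : 0 < D) (pts : Fin D → Fin n → ℂ) (i : Fin D)
    (hS : GoodS pts q s) (hT : GoodT pts q s t) :
    ptV pts q s t (pts i) ≠ 0 ∧ ptU pts q s t (pts i) = ptV pts q s t (pts i) * ptS pts q s t i := by
  have hA : ∀ c, ∀ k ∈ range (cK0 q + 1), ptA pts q s k c (pts i c) ≠ 0 := by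
    intro c k hk
    rw [mem_range] at hk
    exact cA_ne_zero (fun j => pts j c) q s k i (hS c k (by omega))
  have hfac : ∀ c, ∀ k ∈ range (cK0 q + 1),
      fV q D t (ptA pts q s k c (pts i c)) (ptA1 pts q s k c (pts i c)) ≠ 0 ∧
      fU q D t (ptA pts q s k c (pts i c)) =
      fV q D t (ptA pts q s k c (pts i c)) (ptA1 pts q s k c (pts i c)) *
        cTf (fun j => pts j c) q s t k (pts i c) := by
    intro c k hk
    have h1 := hA c k hk
    rw [mem_range] at hk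
    have h2 := (cTf_near (fun j => pts j c) q s t k (pts i c) (hT c k (by omega) i)).1
    have h3 := fV_eq q D t hD0 (ptA pts q s k c (pts i c)) (ptA1 pts q s k c (pts i c)) h1
    have h4 : (chs^[cMu q] (2 ^ cNu q * (ptA1 pts q s k c (pts i c) - ptA pts q s k c (pts i c)) /
        (D * ptA pts q s k c (pts i c)))) = cv (fun j => pts j c) q s k (pts i c) := rfl
    rw [h4] at h3
    refine ⟨?_, ?_⟩
    · rw [h3]
      exact mul_ne_zero (fU_ne_zero q D t hD0 _ h1) h2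
    · rw [h3, cTf, mul_assoc, mul_inv_cancel₀ h2, mul_one]
  refine ⟨?_, ?_⟩
  · unfold ptV
    rw [prod_ne_zero_iff]
    intro c _
    rw [prod_ne_zero_iff]
    intro k hk
    exact (hfac c k hk).1
  · unfold ptU ptV ptS
    rw [prod_product, ← prod_mul_distrib]
    apply prod_congr rfl
    intro c _
    rw [← prod_mul_distrib]
    exact prod_congr rfl fun k hk => (hfac c k hk).2

theorem prod_true {κ : ℝ} (hD0 : 0 < D) (hκ0 : 0 < κ) (hDκ : (D : ℝ) * κ ≤ 1 / 1024)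
    (r : Fin D → ℂ) (hlow : ∀ i, 1 - κ ≤ ‖1 + r i‖) (i0 : Fin D) (hbig : 20 ≤ ‖1 + r i0‖) :
    10 ≤ ‖∏ i, (1 + r i)‖ := by
  have hDr : (1 : ℝ) ≤ D := by exact_mod_cast hD0
  have hκ1 : κ ≤ 1 / 1024 := by nlinarith
  rw [norm_prod, ← mul_prod_erase univ _ (mem_univ i0)]
  have h1 : (1 - κ) ^ (D - 1) ≤ ∏ i ∈ univ.erase i0, ‖1 + r i‖ := by
    calc (1 - κ) ^ (D - 1) = ∏ _i ∈ univ.erase i0, (1 - κ) := by
          rw [prod_const, card_erase_of_mem (mem_univ _), card_univ, Fintype.card_fin]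
      _ ≤ ∏ i ∈ univ.erase i0, ‖1 + r i‖ :=
          prod_le_prod (fun i _ => by linarith) (fun i _ => hlow i)
  have h2 : 1 / 2 ≤ (1 - κ) ^ (D - 1) := by
    have h3 := one_add_mul_le_pow (a := -κ) (by linarith) (D - 1)
    have h4 : ((D - 1 : ℕ) : ℝ) ≤ D := by exact_mod_cast Nat.sub_le _ _
    have h5 : (1 : ℝ) + -κ = 1 - κ := by ring
    rw [h5] at h3
    nlinarith
  have h3 : (1 : ℝ) / 2 ≤ ∏ i ∈ univ.erase i0, ‖1 + r i‖ := h2.trans h1
  nlinarith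

theorem prod_false (hD0 : 0 < D) (r : Fin D → ℂ) (hrb : ∀ i, ‖r i‖ ≤ 1 / (8 * D)) :
    ‖∏ i, (1 + r i)‖ ≤ 3 / 2 ∧ 1 / 2 ≤ ‖∏ i, (1 + r i)‖ := by
  have hDr : (0 : ℝ) < D := by exact_mod_cast hD0
  have hsum : ∑ i, ‖r i‖ ≤ 1 / 8 := by
    calc ∑ i, ‖r i‖ ≤ ∑ _i : Fin D, 1 / (8 * (D : ℝ)) := sum_le_sum fun i _ => hrb i
      _ = 1 / 8 := by
          rw [sum_const, card_univ, Fintype.card_fin, nsmul_eq_mul]
          field_simp
  have h1 := norm_prod_one_add_sub_one univ r (hsum.trans (by norm_num))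
  have h2 := norm_le_norm_add_norm_sub' (∏ i, (1 + r i)) 1
  have h3 := norm_sub_norm_le (1 : ℂ) (∏ i, (1 + r i))
  rw [norm_one] at h2 h3
  rw [norm_sub_rev] at h3
  constructor <;> linarith

theorem near_bound (Θ v S N : ℝ) (D : ℝ) (hΘ : 0 ≤ Θ) (hD : 0 ≤ D) (hS : S ≤ 2)
    (hN : 2 * v + 3 / 4 ≤ N) (hv : 512 * Θ * D ≤ v) : Θ * S * (8 * D) ≤ N := by
  have h6 : Θ * S ≤ Θ * 2 := mul_le_mul_of_nonneg_left hS hΘ
  have h7 : Θ * S * (8 * D) ≤ Θ * 2 * (8 * D) := mul_le_mul_of_nonneg_right h6 (by positivity)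
  have h8 : 0 ≤ Θ * D := by positivity
  nlinarith

theorem true_point (Θ : ℕ) (hΘ7r : (128 : ℝ) ≤ Θ) (g : ℂ) (v : ℝ) (hv : 0 ≤ v) (hG1 : g.im = 0)
    (hG2 : v ≤ g.re) (hG0 : 2 ^ 7 * g.re ≤ Θ) : 41 ≤ ‖1 + (Θ : ℂ) / (2 * g + 1)‖ := by
  have h3 : (2 * g + 1) = ((2 * g.re + 1 : ℝ) : ℂ) := by
    apply Complex.ext
    · simp
    · simp [hG1]
  have h4 : 0 < 2 * g.re + 1 := by linarith
  have h5 : 40 ≤ (Θ : ℝ) / (2 * g.re + 1) := by
    rw [le_div_iff₀ h4]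
    norm_num at hG0
    linarith
  rw [h3]
  have h7 : (1 : ℂ) + Θ / ((2 * g.re + 1 : ℝ) : ℂ) =
      ((1 + Θ / (2 * g.re + 1) : ℝ) : ℂ) := by push_cast; ring
  rw [h7, Complex.norm_real, Real.norm_eq_abs]
  refine le_trans ?_ (le_abs_self _)
  linarith

theorem re_point (Θ : ℕ) (w : ℂ) (hw : 0 ≤ w.re) : 1 ≤ ‖1 + (Θ : ℂ) / w‖ := by
  refine le_trans ?_ (Complex.re_le_norm _)
  have h4 : (1 + (Θ : ℂ) / w).re = 1 + Θ * (w.re / Complex.normSq w) := by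
    rw [Complex.add_re, Complex.one_re, div_eq_mul_inv, ← Complex.ofReal_natCast,
      Complex.re_ofReal_mul, Complex.inv_re]
  rw [h4]
  have h6 : 0 ≤ w.re / Complex.normSq w := div_nonneg hw (Complex.normSq_nonneg _)
  have h7 : (0 : ℝ) ≤ Θ * (w.re / Complex.normSq w) := by positivity
  linarith

open Classical in
theorem good_pairs_count (q : ℕ) (hq : 10 ≤ q) (hn : n ≤ 2 ^ q) (hD : D ≤ 2 ^ q)
    (pts : Fin D → Fin n → ℂ) :
    9 * (cS q * cT q) ≤ 16 * ((range (cS q) ×ˢ range (cT q)).filter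
      (fun st => GoodS pts q st.1 ∧ GoodT pts q st.1 st.2)).card := by
  have h1 := goodS_count q hq hn hD pts
  have h2 : ∑ s ∈ (range (cS q)).filter (fun s => GoodS pts q s),
      ((range (cT q)).filter (fun t => GoodT pts q s t)).card =
      ((range (cS q) ×ˢ range (cT q)).filter
        (fun st => GoodS pts q st.1 ∧ GoodT pts q st.1 st.2)).card := by
    rw [← card_sigma]
    apply card_bij (fun x _ => (x.1, x.2))
    · rintro ⟨s, t⟩ h
      simp only [mem_sigma, mem_filter] at h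
      simp only [mem_filter, mem_product]
      exact ⟨⟨h.1.1, h.2.1⟩, h.1.2, h.2.2⟩
    · rintro ⟨s, t⟩ _ ⟨s', t'⟩ _ h
      simp only [Prod.mk.injEq] at h
      obtain ⟨rfl, rfl⟩ := h
      rfl
    · rintro ⟨s, t⟩ h
      simp only [mem_filter, mem_product] at h
      refine ⟨⟨s, t⟩, ?_, rfl⟩
      simp only [mem_sigma, mem_filter]
      exact ⟨⟨h.1.1, h.2.1⟩, h.1.2, h.2.2⟩
  rw [← h2]
  have h3 : ((range (cS q)).filter (fun s => GoodS pts q s)).card * (3 * cT q) ≤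
      4 * ∑ s ∈ (range (cS q)).filter (fun s => GoodS pts q s),
      ((range (cT q)).filter (fun t => GoodT pts q s t)).card := by
    rw [mul_sum, ← smul_eq_mul, ← sum_const]
    apply sum_le_sum
    intro s _
    exact goodT_count q hq hn hD pts s
  nlinarith

end

/-- module D -/
theorem cluster_main (q : ℕ) (hq : 10 ≤ q) (hn : n ≤ 2 ^ q) (hD0 : 0 < D) (hD : D ≤ 2 ^ q)
    (pts : Fin D → Fin n → ℂ)
    (hconj : ∀ c, ∃ σ : Equiv.Perm (Fin D), ∀ j, pts (σ j) c = (starRingEnd ℂ) (pts j c))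
    (hR : ∀ j c, ‖pts j c‖ ≤ 2 ^ 2 ^ q) (G : Fin D → ℂ) (v : ℝ) (hv : 0 ≤ v)
    (hreal : ∀ i, (∀ c, (pts i c).im = 0) → (G i).im = 0 ∧ v ≤ (G i).re)
    (hnear : ∀ i, (∀ c, |(pts i c).im| ≤ ((2 : ℝ) ^ 2 ^ q)⁻¹) → v - 1 / 8 ≤ (G i).re)
    (hell : ∀ i, ((2 : ℝ) ^ 2 ^ q)⁻¹ ≤ ‖2 * G i + 1‖) (Θ : ℕ) (hΘ : Θ ≤ 2 ^ 2 ^ q) :
    ∃ good : Finset (ℕ × ℕ), good ⊆ Finset.range (cS q) ×ˢ Finset.range (cT q) ∧
      9 * (cS q * cT q) ≤ 16 * good.card ∧ ∀ st ∈ good,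
        ptX2 pts G q st.1 st.2 ≠ 0 ∧
        (2 ^ 7 ≤ Θ → (∃ i, (∀ c, (pts i c).im = 0) ∧ 2 ^ 7 * (G i).re ≤ Θ) →
          10 * ‖ptX2 pts G q st.1 st.2‖ ≤ ‖ptX1 pts G Θ q st.1 st.2‖) ∧
        (2 ^ 9 * Θ * D ≤ v →
          ‖ptX1 pts G Θ q st.1 st.2‖ ≤ 3 / 2 * ‖ptX2 pts G q st.1 st.2‖ ∧
          1 / 2 * ‖ptX2 pts G q st.1 st.2‖ ≤ ‖ptX1 pts G Θ q st.1 st.2‖) := by
  classical
  choose σ hσ using hconj
  refine ⟨(Finset.range (cS q) ×ˢ Finset.range (cT q)).filter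
    (fun st => GoodS pts q st.1 ∧ GoodT pts q st.1 st.2), Finset.filter_subset _ _, ?_, ?_⟩
  · exact good_pairs_count q hq hn hD pts
  rintro ⟨s, t⟩ hst
  rw [Finset.mem_filter, Finset.mem_product, Finset.mem_range, Finset.mem_range] at hst
  obtain ⟨⟨hs, ht⟩, hS, hT⟩ := hst
  simp only at hs ht hS hT ⊢
  have hell0 : ∀ i, 2 * G i + 1 ≠ 0 := by
    intro i h0
    have h1 := hell i
    rw [h0, norm_zero] at h1
    have h2 : (0 : ℝ) < ((2 : ℝ) ^ 2 ^ q)⁻¹ := by positivity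
    linarith
  have hX2 : ptX2 pts G q s t ≠ 0 := by
    unfold ptX2
    rw [Finset.prod_ne_zero_iff]
    intro i _
    exact mul_ne_zero (hell0 i) (ptUV q s t hD0 pts i hS hT).1
  -- the quotient
  set r : Fin D → ℂ := fun i => Θ * ptS pts q s t i / (2 * G i + 1) with hr
  have hX1 : ptX1 pts G Θ q s t = ptX2 pts G q s t * ∏ i, (1 + r i) := by
    unfold ptX1 ptX2
    rw [← Finset.prod_mul_distrib]
    apply Finset.prod_congr rfl
    intro i _
    rw [(ptUV q s t hD0 pts i hS hT).2, hr]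
    have := hell0 i
    field_simp
  set κ : ℝ := (2 ^ (q + 10))⁻¹ with hκ
  have hκ0 : 0 < κ := by positivity
  have hDr : (1 : ℝ) ≤ D := by exact_mod_cast hD0
  have hDκ : (D : ℝ) * κ ≤ 1 / 1024 := by
    have h1 : (D : ℝ) ≤ 2 ^ q := by exact_mod_cast hD
    have h2 : κ = (2 ^ q)⁻¹ * (1 / 1024) := by
      rw [hκ, pow_add, mul_inv]
      norm_num
    rw [h2, ← mul_assoc]
    have h3 : (D : ℝ) * (2 ^ q)⁻¹ ≤ 1 := by
      rw [← div_eq_mul_inv, div_le_one (by positivity)]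
      exact h1
    nlinarith
  have hκ1 : κ ≤ 1 / 1024 := by nlinarith
  have hE := cE_pos q
  have hE'0 : 0 < cE' q := by unfold cE'; positivity
  have hE' := cE'_le q hq
  have hΘr : (Θ : ℝ) ≤ 2 ^ 2 ^ q := by exact_mod_cast hΘ
  have hP : (1 : ℝ) ≤ 2 ^ 2 ^ q := one_le_pow₀ (by norm_num)
  -- small multiples of the inverse of `2 G + 1`
  have hsmall : ∀ i (z : ℂ), ‖z‖ ≤ cE' q → ‖Θ * z / (2 * G i + 1)‖ ≤ κ := by
    intro i z hz
    have hpos : 0 < ‖2 * G i + 1‖ := norm_pos_iff.2 (hell0 i)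
    rw [norm_div, norm_mul, Complex.norm_natCast, div_le_iff₀ hpos]
    have h1 : (Θ : ℝ) * ‖z‖ ≤ 2 ^ 2 ^ q * cE' q := by
      apply mul_le_mul hΘr hz (norm_nonneg _) (by positivity)
    have h2 : cE' q * (2 : ℝ) ^ 2 ^ q ≤ κ * ((2 : ℝ) ^ 2 ^ q)⁻¹ := by
      rw [← div_eq_mul_inv, le_div_iff₀ (by positivity), mul_assoc]
      exact hE'
    have h3 : κ * ((2 : ℝ) ^ 2 ^ q)⁻¹ ≤ κ * ‖2 * G i + 1‖ :=
      mul_le_mul_of_nonneg_left (hell i) hκ0.le
    linarith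
  have hE'1 : cE' q ≤ κ := by
    have h1 : (1 : ℝ) ≤ (2 : ℝ) ^ 2 ^ q * 2 ^ 2 ^ q := by nlinarith
    nlinarith
  -- far points
  have hfar : ∀ i, ¬ (∀ c, |(pts i c).im| ≤ ((2 : ℝ) ^ 2 ^ q)⁻¹) → ‖r i‖ ≤ κ := by
    intro i hi
    push Not at hi
    obtain ⟨c, hc⟩ := hi
    apply hsmall
    rcases ptS_near q s t hq hn pts i hT with ⟨h1, _⟩ | h1
    · obtain ⟨k, hk, h2⟩ := cTf_far (fun j => pts j c) q s t hq hD0 hD (σ c) (hσ c) i hs ht
        (fun k hk => hS c k hk) (hR i c) hc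
      have h3 := h1 c k hk
      have h4 := norm_sub_norm_le (1 : ℂ) (cTf (fun j => pts j c) q s t k (pts i c))
      rw [norm_one, norm_sub_rev] at h4
      change ‖cTf (fun j => pts j c) q s t k (pts i c)‖ ≤ cE q at h2
      have h5 : cE q ≤ cE' q := by
        unfold cE'
        have : (1 : ℝ) ≤ 2 ^ (2 * q + 4) := one_le_pow₀ (by norm_num)
        nlinarith
      linarith
    · exact h1
  -- near points
  have hnearG : ∀ i, (∀ c, |(pts i c).im| ≤ ((2 : ℝ) ^ 2 ^ q)⁻¹) →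
      2 * v + 3 / 4 ≤ (2 * G i + 1).re := by
    intro i hi
    have h1 := hnear i hi
    have h2 : (2 * G i + 1).re = 2 * (G i).re + 1 := by simp
    rw [h2]
    linarith
  have hposre : ∀ i, (∀ c, |(pts i c).im| ≤ ((2 : ℝ) ^ 2 ^ q)⁻¹) → ∀ z : ℂ, ‖z - 1‖ ≤ cE' q →
      1 - κ ≤ ‖1 + Θ * z / (2 * G i + 1)‖ := by
    intro i hi z hz
    have h1 := hsmall i (z - 1) hz
    have h2 : 1 + Θ * z / (2 * G i + 1) =
        (1 + Θ / (2 * G i + 1)) + Θ * (z - 1) / (2 * G i + 1) := by ring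
    have h3 : 1 ≤ ‖1 + (Θ : ℂ) / (2 * G i + 1)‖ :=
      re_point Θ _ (by have := hnearG i hi; linarith)
    rw [h2]
    have h8 := norm_sub_le_norm_add (1 + (Θ : ℂ) / (2 * G i + 1)) (Θ * (z - 1) / (2 * G i + 1))
    linarith
  have hlow : ∀ i, 1 - κ ≤ ‖1 + r i‖ := by
    intro i
    have htri : ‖r i‖ ≤ κ → 1 - κ ≤ ‖1 + r i‖ := by
      intro h
      have := norm_sub_le_norm_add (1 : ℂ) (r i)
      rw [norm_one] at this
      linarith
    by_cases hi : ∀ c, |(pts i c).im| ≤ ((2 : ℝ) ^ 2 ^ q)⁻¹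
    · rcases ptS_near q s t hq hn pts i hT with ⟨_, h1⟩ | h1
      · exact hposre i hi _ h1
      · exact htri (hsmall i _ h1)
    · exact htri (hfar i hi)
  refine ⟨hX2, ?_, ?_⟩
  · rintro hΘ7 ⟨i0, hi0, hG0⟩
    have hΘ7r : (128 : ℝ) ≤ Θ := by
      have h1 : 128 ≤ Θ := by norm_num at hΘ7; exact hΘ7
      exact_mod_cast h1
    have hS1 : ‖ptS pts q s t i0 - 1‖ ≤ cE' q := by
      apply ptS_one q s t hq hn pts i0
      intro c k hk
      exact cTf_real (fun j => pts j c) q s t k hq hD0 hD (σ c) (hσ c) i0 (hS c k hk) (hi0 c)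
    have hbig : 20 ≤ ‖1 + r i0‖ := by
      obtain ⟨hG1, hG2⟩ := hreal i0 hi0
      have h1 := hsmall i0 (ptS pts q s t i0 - 1) hS1
      have h2 : 1 + r i0 = (1 + Θ / (2 * G i0 + 1)) +
          Θ * (ptS pts q s t i0 - 1) / (2 * G i0 + 1) := by rw [hr]; ring
      have h6 : 41 ≤ ‖1 + (Θ : ℂ) / (2 * G i0 + 1)‖ :=
        true_point Θ hΘ7r (G i0) v hv hG1 hG2 hG0
      rw [h2]
      have h8 := norm_sub_le_norm_add (1 + (Θ : ℂ) / (2 * G i0 + 1))
        (Θ * (ptS pts q s t i0 - 1) / (2 * G i0 + 1))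
      linarith
    rw [hX1, norm_mul, mul_comm]
    exact mul_le_mul_of_nonneg_left (prod_true hD0 hκ0 hDκ r hlow i0 hbig) (norm_nonneg _)
  · intro hvΘ
    have hrb : ∀ i, ‖r i‖ ≤ 1 / (8 * D) := by
      intro i
      rw [le_div_iff₀ (by positivity)]
      by_cases hi : ∀ c, |(pts i c).im| ≤ ((2 : ℝ) ^ 2 ^ q)⁻¹
      · have h1 := hnearG i hi
        have h2 : ‖ptS pts q s t i‖ ≤ 2 := by
          rcases ptS_near q s t hq hn pts i hT with ⟨_, h1⟩ | h1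
          · have := norm_le_norm_add_norm_sub' (ptS pts q s t i) 1
            rw [norm_one] at this
            linarith
          · linarith
        have h3 : 2 * v + 3 / 4 ≤ ‖2 * G i + 1‖ := h1.trans (Complex.re_le_norm _)
        have h4 : 0 < ‖2 * G i + 1‖ := norm_pos_iff.2 (hell0 i)
        have h5 : ‖r i‖ = Θ * ‖ptS pts q s t i‖ / ‖2 * G i + 1‖ := by
          rw [hr, norm_div, norm_mul, Complex.norm_natCast]
        rw [h5, div_mul_eq_mul_div, div_le_one h4]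
        norm_num at hvΘ
        exact near_bound Θ v _ _ D (Nat.cast_nonneg _) (by linarith) h2 h3 hvΘ
      · have h1 := hfar i hi
        nlinarith
    obtain ⟨h1, h2⟩ := prod_false hD0 r hrb
    rw [hX1, norm_mul]
    have h4 : 0 ≤ ‖ptX2 pts G q s t‖ := norm_nonneg _
    constructor
    · rw [mul_comm (3 / 2 : ℝ)]
      exact mul_le_mul_of_nonneg_left h1 h4
    · rw [mul_comm (1 / 2 : ℝ)]
      exact mul_le_mul_of_nonneg_left h2 h4

end Vale.Agent.P337
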