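import Mathlib

/-!
# Cluster part, basic lemmas: Chebyshev iteration, filters, products close to one
-/

namespace Vale.Agent.P337

open Finset

/-- Chebyshev step -/
def chs (v : ℂ) : ℂ := 2 * v ^ 2 - 1

/-- sum of the distances to the foci `1`, `-1` -/
noncomputable def ell (v : ℂ) : ℝ := ‖v - 1‖ + ‖v + 1‖

theorem ell_nonneg (v : ℂ) : 0 ≤ ell v := by
  unfold ell; positivity

theorem ell_sq (v : ℂ) : ell v ^ 2 = 2 * ‖v‖ ^ 2 + 2 + 2 * (‖v - 1‖ * ‖v + 1‖) := by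
  unfold ell
  have h1 : ‖v - 1‖ ^ 2 = (v.re - 1) ^ 2 + v.im ^ 2 := by
    rw [← Complex.normSq_eq_norm_sq, Complex.normSq_apply]
    simp; ring
  have h2 : ‖v + 1‖ ^ 2 = (v.re + 1) ^ 2 + v.im ^ 2 := by
    rw [← Complex.normSq_eq_norm_sq, Complex.normSq_apply]
    simp; ring
  have h3 : ‖v‖ ^ 2 = v.re ^ 2 + v.im ^ 2 := by
    rw [← Complex.normSq_eq_norm_sq, Complex.normSq_apply]
    ring
  have : (‖v - 1‖ + ‖v + 1‖) ^ 2 = ‖v - 1‖ ^ 2 + ‖v + 1‖ ^ 2 + 2 * (‖v - 1‖ * ‖v + 1‖) := by ring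
  rw [this, h1, h2, h3]; ring

theorem ell_chs (v : ℂ) : ell (chs v) = ell v ^ 2 - 2 := by
  rw [ell_sq]
  have h1 : chs v - 1 = 2 * ((v - 1) * (v + 1)) := by unfold chs; ring
  have h2 : chs v + 1 = 2 * v ^ 2 := by unfold chs; ring
  rw [ell, h1, h2]
  simp
  ring

theorem four_le_ell_sq (v : ℂ) : 4 + 4 * v.im ^ 2 ≤ ell v ^ 2 := by
  rw [ell_sq]
  have h3 : ‖v‖ ^ 2 = v.re ^ 2 + v.im ^ 2 := by
    rw [← Complex.normSq_eq_norm_sq, Complex.normSq_apply]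
    ring
  have h4 : 1 - v.re ^ 2 + v.im ^ 2 ≤ ‖v - 1‖ * ‖v + 1‖ := by
    have h5 : (1 - v ^ 2).re = 1 - v.re ^ 2 + v.im ^ 2 := by
      rw [pow_two]; simp; ring
    have h6 := Complex.re_le_norm (1 - v ^ 2)
    have h7 : ‖1 - v ^ 2‖ = ‖v - 1‖ * ‖v + 1‖ := by
      rw [← norm_mul, ← norm_neg]; congr 1; ring
    linarith
  nlinarith

theorem two_le_ell (v : ℂ) : 2 ≤ ell v := by
  have h := four_le_ell_sq v
  have h0 := ell_nonneg v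
  nlinarith [sq_nonneg v.im]

theorem ell_iter (v : ℂ) (m : ℕ) : 2 + 4 ^ (m + 1) * v.im ^ 2 ≤ ell (chs^[m + 1] v) := by
  induction m with
  | zero =>
    have h := four_le_ell_sq v
    simp only [zero_add, Function.iterate_one, pow_one]
    rw [ell_chs]; linarith
  | succ m ih =>
    rw [Function.iterate_succ_apply', ell_chs]
    have h2 := two_le_ell (chs^[m + 1] v)
    have h3 : 0 ≤ 4 ^ (m + 1) * v.im ^ 2 := by positivity
    have h4 : (4 : ℝ) ^ (m + 1 + 1) = 4 * 4 ^ (m + 1) := by ring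
    rw [h4]
    nlinarith

theorem norm_ge_of_ell (v : ℂ) : ell v ≤ 2 * ‖v‖ + 2 := by
  unfold ell
  have h1 := norm_sub_le v 1
  have h2 := norm_add_le v 1
  rw [norm_one] at h1 h2
  linarith

/-- real numbers in `[-1,1]` stay there -/
theorem chs_iter_real (v : ℂ) (hv : v.im = 0) (h : |v.re| ≤ 1) (m : ℕ) :
    (chs^[m] v).im = 0 ∧ |(chs^[m] v).re| ≤ 1 := by
  induction m with
  | zero => exact ⟨hv, h⟩
  | succ m ih =>
    rw [Function.iterate_succ_apply']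
    obtain ⟨h1, h2⟩ := ih
    set w := chs^[m] v
    have h3 : (chs w).im = 0 := by
      unfold chs
      rw [pow_two]
      simp [h1]
    have h4 : (chs w).re = 2 * w.re ^ 2 - 1 := by
      unfold chs
      rw [pow_two]
      simp [h1]
      ring
    refine ⟨h3, ?_⟩
    rw [h4]
    rw [abs_le] at h2 ⊢
    constructor <;> nlinarith

/-- a point off the real line escapes -/
theorem five_le_iter (v : ℂ) (m : ℕ) (η : ℝ) (hη : 0 ≤ η) (hv : η ≤ |v.im|)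
    (hm : 10 ≤ 4 ^ (m + 1) * η ^ 2) : 5 ≤ ‖chs^[m + 1] v‖ := by
  have h1 := ell_iter v m
  have h2 := norm_ge_of_ell (chs^[m + 1] v)
  have h3 : η ^ 2 ≤ v.im ^ 2 := by
    rw [← sq_abs v.im]
    exact pow_le_pow_left₀ hη hv 2
  have h4 : (4 : ℝ) ^ (m + 1) * η ^ 2 ≤ 4 ^ (m + 1) * v.im ^ 2 :=
    mul_le_mul_of_nonneg_left h3 (by positivity)
  linarith

/-! ### filters -/

theorem one_sub_pow_le (g : ℝ) (hg : 0 < g) (hg1 : g ≤ 1) (K : ℕ) :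
    (1 - g) ^ K ≤ ((1 + g) ^ K)⁻¹ := by
  rw [← one_div, le_div_iff₀ (by positivity), ← mul_pow]
  apply pow_le_one₀ <;> nlinarith

/-- the filter is close to one inside -/
theorem filt_in {δ : ℂ} {g : ℝ} {K : ℕ} (hg : 0 < g) (hg1 : g ≤ 1) (hK : 2 ≤ (1 + g) ^ K)
    (h : ‖δ‖ ≤ 1 - g) : 1 + δ ^ K ≠ 0 ∧ ‖(1 + δ ^ K)⁻¹ - 1‖ ≤ 2 * ((1 + g) ^ K)⁻¹ := by
  set ε : ℝ := ((1 + g) ^ K)⁻¹ with hε
  have hε0 : 0 < ε := by positivity
  have hε2 : ε ≤ 1 / 2 := by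
    rw [hε, one_div]
    exact inv_anti₀ (by norm_num) hK
  have h1 : ‖δ ^ K‖ ≤ ε := by
    rw [norm_pow]
    exact (pow_le_pow_left₀ (norm_nonneg _) h K).trans (one_sub_pow_le g hg hg1 K)
  have h2 : 1 / 2 ≤ ‖1 + δ ^ K‖ := by
    have h3 := norm_sub_norm_le (1 : ℂ) (-δ ^ K)
    rw [norm_one, norm_neg, sub_neg_eq_add] at h3
    linarith
  have hne : 1 + δ ^ K ≠ 0 := by
    intro h0
    rw [h0, norm_zero] at h2
    norm_num at h2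
  refine ⟨hne, ?_⟩
  have h4 : (1 + δ ^ K)⁻¹ - 1 = -(δ ^ K) / (1 + δ ^ K) := by
    field_simp
    ring
  rw [h4, norm_div, norm_neg]
  rw [div_le_iff₀ (by linarith)]
  nlinarith

/-- the filter is tiny outside -/
theorem filt_out {δ : ℂ} {g : ℝ} {K : ℕ} (hg : 0 < g) (hg1 : g ≤ 1) (hK : 2 ≤ (1 + g) ^ K)
    (h : 1 + g ≤ ‖δ‖) : 1 + δ ^ K ≠ 0 ∧ ‖(1 + δ ^ K)⁻¹‖ ≤ 2 * ((1 + g) ^ K)⁻¹ ∧
      ‖(1 + δ ^ K)⁻¹ * δ‖ ≤ 4 * ((1 + g) ^ K)⁻¹ := by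
  have h1 : (1 + g) ^ K ≤ ‖δ‖ ^ K := pow_le_pow_left₀ (by linarith) h K
  have h2 : ‖δ‖ ^ K / 2 ≤ ‖1 + δ ^ K‖ := by
    have h3 := norm_sub_norm_le (δ ^ K) (-1 : ℂ)
    rw [norm_neg, norm_one, sub_neg_eq_add, norm_pow, add_comm] at h3
    linarith
  have hpos : 0 < ‖1 + δ ^ K‖ := by linarith
  have hne : 1 + δ ^ K ≠ 0 := norm_pos_iff.1 hpos
  have hK0 : K ≠ 0 := by
    rintro rfl
    norm_num at hK
  obtain ⟨L, rfl⟩ := Nat.exists_eq_succ_of_ne_zero hK0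
  have hδ : 0 < ‖δ‖ := by linarith
  refine ⟨hne, ?_, ?_⟩
  · rw [norm_inv, ← div_eq_mul_inv, inv_le_comm₀ hpos (by positivity), inv_div]
    linarith
  · rw [norm_mul, norm_inv, ← div_eq_inv_mul, div_le_iff₀ hpos]
    have h5 : (1 + g) ^ L ≤ ‖δ‖ ^ L := pow_le_pow_left₀ (by linarith) h L
    have h6 : ‖δ‖ ^ (L + 1) = ‖δ‖ ^ L * ‖δ‖ := pow_succ _ _
    have h7 : (1 + g) ^ (L + 1) = (1 + g) ^ L * (1 + g) := pow_succ _ _
    have h8 : ‖δ‖ ≤ 2 * ((1 + g) ^ L)⁻¹ * (‖δ‖ ^ (L + 1) / 2) := by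
      rw [h6]
      have : 2 * ((1 + g) ^ L)⁻¹ * (‖δ‖ ^ L * ‖δ‖ / 2) =
          (((1 + g) ^ L)⁻¹ * ‖δ‖ ^ L) * ‖δ‖ := by ring
      rw [this]
      have h9 : 1 ≤ ((1 + g) ^ L)⁻¹ * ‖δ‖ ^ L := by
        rw [← div_eq_inv_mul, le_div_iff₀ (by positivity), one_mul]
        exact h5
      nlinarith
    have h10 : 2 * ((1 + g) ^ L)⁻¹ ≤ 4 * ((1 + g) ^ (L + 1))⁻¹ := by
      rw [h7, mul_inv]
      have h11 : 1 / 2 ≤ (1 + g)⁻¹ := by
        rw [one_div]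
        exact inv_anti₀ (by linarith) (by linarith)
      have h12 : 0 < ((1 + g) ^ L)⁻¹ := by positivity
      have h13 := mul_le_mul_of_nonneg_left h11 h12.le
      linarith
    calc ‖δ‖ ≤ 2 * ((1 + g) ^ L)⁻¹ * (‖δ‖ ^ (L + 1) / 2) := h8
      _ ≤ 4 * ((1 + g) ^ (L + 1))⁻¹ * ‖1 + δ ^ (L + 1)‖ := by
          apply mul_le_mul h10 h2 (by positivity) (by positivity)

/-! ### products close to one -/

theorem norm_prod_one_add_sub_one {ι : Type*} (s : Finset ι) (y : ι → ℂ)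
    (h : ∑ i ∈ s, ‖y i‖ ≤ 1) : ‖∏ i ∈ s, (1 + y i) - 1‖ ≤ 2 * ∑ i ∈ s, ‖y i‖ := by
  have h1 := Finset.norm_prod_one_add_sub_one_le s y
  have h0 : 0 ≤ ∑ i ∈ s, ‖y i‖ := sum_nonneg fun i _ => norm_nonneg _
  have h2 := Real.abs_exp_sub_one_le (x := ∑ i ∈ s, ‖y i‖) (by rwa [abs_of_nonneg h0])
  rw [abs_of_nonneg h0] at h2
  exact h1.trans ((le_abs_self _).trans h2)

theorem norm_prod_one_add_sub {ι : Type*} (s : Finset ι) (y : ι → ℂ)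
    (h : ∑ i ∈ s, ‖y i‖ ≤ 1) :
    ‖∏ i ∈ s, (1 + y i) - 1 - ∑ i ∈ s, y i‖ ≤ (∑ i ∈ s, ‖y i‖) ^ 2 := by
  classical
  induction s using Finset.induction_on with
  | empty => simp
  | insert a s ha ih =>
    rw [prod_insert ha, sum_insert ha, sum_insert ha]
    rw [sum_insert ha] at h
    have h0 : 0 ≤ ∑ i ∈ s, ‖y i‖ := sum_nonneg fun i _ => norm_nonneg _
    have ha0 := norm_nonneg (y a)
    have hs : ∑ i ∈ s, ‖y i‖ ≤ 1 := by linarith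
    have h1 := ih hs
    have h2 := norm_prod_one_add_sub_one s y hs
    set P := ∏ i ∈ s, (1 + y i)
    set S1 := ∑ i ∈ s, y i
    set σ := ∑ i ∈ s, ‖y i‖
    have h3 : (1 + y a) * P - 1 - (y a + S1) = (P - 1 - S1) + y a * (P - 1) := by ring
    rw [h3]
    calc ‖(P - 1 - S1) + y a * (P - 1)‖ ≤ ‖P - 1 - S1‖ + ‖y a * (P - 1)‖ := norm_add_le _ _
      _ ≤ σ ^ 2 + ‖y a‖ * (2 * σ) := by
          rw [norm_mul]
          exact add_le_add h1 (mul_le_mul_of_nonneg_left h2 ha0)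
      _ ≤ (‖y a‖ + σ) ^ 2 := by nlinarith

end Vale.Agent.P337
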