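import Vale.Agent.P337.ClusterA

/-!
# Cluster part: counting of the bad shifts, products of numbers close to `0` or `1`, clusters
-/

namespace Vale.Agent.P337

open Finset

/-- one value spoils few shifts -/
theorem bad_count (a : ℝ) (g : ℝ) (hg : 0 < g) (hg1 : g ≤ 1 / 4) (S : ℕ) (hS : 0 < S) :
    (((range S).filter (fun s : ℕ => |a / (1 + (s : ℝ) / S) - 1| < g)).card : ℝ) ≤
      6 * g * S + 1 := by
  set B := (range S).filter (fun s : ℕ => |a / (1 + (s : ℝ) / S) - 1| < g) with hB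
  have hSr : (0 : ℝ) < S := by exact_mod_cast hS
  by_cases hne : B.Nonempty
  swap
  · rw [not_nonempty_iff_eq_empty.1 hne]
    simp
    positivity
  set m := B.min' hne with hm
  have hmB : m ∈ B := B.min'_mem hne
  have hsub : B ⊆ Icc m (m + ⌊6 * g * S⌋₊) := by
    intro s hs
    have hms : m ≤ s := B.min'_le s hs
    rw [mem_Icc]
    refine ⟨hms, ?_⟩
    rw [hB, mem_filter, mem_range] at hs hmB
    obtain ⟨hs1, hs2⟩ := hs
    obtain ⟨hm1, hm2⟩ := hmB
    have hb : (0 : ℝ) < 1 + (m : ℝ) / S := by positivity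
    have hb' : (0 : ℝ) < 1 + (s : ℝ) / S := by positivity
    have h1 : a < (1 + g) * (1 + (m : ℝ) / S) := by
      rw [← div_lt_iff₀ hb]
      have := (abs_lt.1 hm2).2
      linarith
    have h2 : (1 - g) * (1 + (s : ℝ) / S) < a := by
      rw [← lt_div_iff₀ hb']
      have := (abs_lt.1 hs2).1
      linarith
    have h3 : (m : ℝ) / S ≤ 1 := by
      rw [div_le_one hSr]
      exact_mod_cast hm1.le
    have h4 : (1 - g) * ((s : ℝ) / S - (m : ℝ) / S) < 4 * g := by nlinarith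
    have h5 : 0 ≤ (s : ℝ) / S - (m : ℝ) / S := by
      rw [sub_nonneg]
      gcongr
    have h6 : (s : ℝ) / S - (m : ℝ) / S ≤ 6 * g := by nlinarith
    have h7 : ((s - m : ℕ) : ℝ) ≤ 6 * g * S := by
      rw [Nat.cast_sub hms]
      have h8 : (s : ℝ) / S - (m : ℝ) / S = ((s : ℝ) - m) / S := by ring
      rw [h8, div_le_iff₀ hSr] at h6
      exact h6
    have h9 := Nat.le_floor h7
    omega
  have h1 := card_le_card hsub
  rw [Nat.card_Icc] at h1
  have h2 : B.card ≤ ⌊6 * g * S⌋₊ + 1 := by omega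
  have h3 : ((⌊6 * g * S⌋₊ : ℕ) : ℝ) ≤ 6 * g * S := Nat.floor_le (by positivity)
  calc (B.card : ℝ) ≤ ((⌊6 * g * S⌋₊ + 1 : ℕ) : ℝ) := by exact_mod_cast h2
    _ ≤ 6 * g * S + 1 := by push_cast; linarith

/-- finitely many values spoil at most a quarter of the shifts -/
theorem good_count {ι : Type*} [Fintype ι] (a : ι → ℝ) (g : ℝ) (hg : 0 < g) (hg1 : g ≤ 1 / 4)
    (S : ℕ) (hS : 0 < S) (h1 : 48 * (Fintype.card ι : ℝ) * g ≤ 1)
    (h2 : 8 * Fintype.card ι ≤ S) :
    4 * ((range S).filter (fun s : ℕ => ∃ i, |a i / (1 + (s : ℝ) / S) - 1| < g)).card ≤ S := by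
  classical
  have hsub : (range S).filter (fun s : ℕ => ∃ i, |a i / (1 + (s : ℝ) / S) - 1| < g) ⊆
      (univ : Finset ι).biUnion
        (fun i => (range S).filter (fun s : ℕ => |a i / (1 + (s : ℝ) / S) - 1| < g)) := by
    intro s hs
    rw [mem_filter] at hs
    obtain ⟨hs1, i, hi⟩ := hs
    rw [mem_biUnion]
    exact ⟨i, mem_univ _, mem_filter.2 ⟨hs1, hi⟩⟩
  have h3 := (card_le_card hsub).trans card_biUnion_le
  have h4 : ((∑ i : ι, ((range S).filter
      (fun s : ℕ => |a i / (1 + (s : ℝ) / S) - 1| < g)).card : ℕ) : ℝ) ≤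
      ∑ _i : ι, (6 * g * S + 1) := by
    push_cast
    exact sum_le_sum fun i _ => bad_count (a i) g hg hg1 S hS
  rw [sum_const, nsmul_eq_mul, card_univ] at h4
  have h5 : (8 : ℝ) * Fintype.card ι ≤ S := by exact_mod_cast h2
  have hSr : (0 : ℝ) < S := by exact_mod_cast hS
  have h6 : (4 : ℝ) * ((range S).filter
      (fun s : ℕ => ∃ i, |a i / (1 + (s : ℝ) / S) - 1| < g)).card ≤ S := by
    have h7 : (((range S).filter
      (fun s : ℕ => ∃ i, |a i / (1 + (s : ℝ) / S) - 1| < g)).card : ℝ) ≤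
      (Fintype.card ι : ℝ) * (6 * g * S + 1) := by
      refine le_trans ?_ h4
      exact_mod_cast h3
    have h8 : (Fintype.card ι : ℝ) * (6 * g * S + 1) ≤ S / 4 := by
      have : (Fintype.card ι : ℝ) * (6 * g * S + 1) =
        (48 * (Fintype.card ι : ℝ) * g) * S / 8 + (8 * Fintype.card ι) / 8 := by ring
      rw [this]
      nlinarith
    linarith
  exact_mod_cast h6

/-- product of numbers close to zero or one -/
theorem prod_near {ι : Type*} (s : Finset ι) (T : ι → ℂ) (e : ℝ) (he : 0 ≤ e)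
    (hm : (s.card : ℝ) * e ≤ 1) (h : ∀ i ∈ s, ‖T i - 1‖ ≤ e ∨ ‖T i‖ ≤ e) :
    ((∀ i ∈ s, ‖T i - 1‖ ≤ e) ∧ ‖∏ i ∈ s, T i - 1‖ ≤ 2 * (s.card : ℝ) * e) ∨
    ‖∏ i ∈ s, T i‖ ≤ 3 * e := by
  classical
  by_cases hall : ∀ i ∈ s, ‖T i - 1‖ ≤ e
  · left
    refine ⟨hall, ?_⟩
    have h1 : ∑ i ∈ s, ‖T i - 1‖ ≤ s.card * e := by
      calc ∑ i ∈ s, ‖T i - 1‖ ≤ ∑ _i ∈ s, e := sum_le_sum hall
        _ = s.card * e := by rw [sum_const, nsmul_eq_mul]
    have h2 := norm_prod_one_add_sub_one s (fun i => T i - 1) (h1.trans hm)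
    have h3 : ∏ i ∈ s, (1 + (T i - 1)) = ∏ i ∈ s, T i := prod_congr rfl fun i _ => by ring
    rw [h3] at h2
    linarith
  · right
    push Not at hall
    obtain ⟨i, hi, hi2⟩ := hall
    have hi3 : ‖T i‖ ≤ e := by
      rcases h i hi with h | h
      · exact absurd h (not_le.2 hi2)
      · exact h
    have hbd : ∀ l ∈ s, ‖T l‖ ≤ 1 + e := by
      intro l hl
      rcases h l hl with h | h
      · have := norm_le_norm_add_norm_sub' (T l) 1
        rw [norm_one] at this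
        linarith
      · linarith
    rw [← mul_prod_erase s T hi, norm_mul, norm_prod]
    have h4 : ∏ l ∈ s.erase i, ‖T l‖ ≤ ∏ _l ∈ s.erase i, Real.exp e := by
      apply prod_le_prod
      · intro l _
        exact norm_nonneg _
      · intro l hl
        have := hbd l (mem_of_mem_erase hl)
        have h5 := Real.add_one_le_exp e
        linarith
    rw [prod_const, ← Real.exp_nat_mul] at h4
    have h6 : ((s.erase i).card : ℝ) * e ≤ 1 := by
      refine le_trans ?_ hm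
      gcongr
      exact erase_subset _ _
    have h7 : Real.exp (((s.erase i).card : ℝ) * e) ≤ 3 := by
      have := Real.exp_le_exp.2 h6
      have h8 := Real.exp_one_lt_three
      linarith
    calc ‖T i‖ * ∏ l ∈ s.erase i, ‖T l‖ ≤ e * 3 := by
          apply mul_le_mul hi3 (h4.trans h7) (prod_nonneg fun l _ => norm_nonneg _) he
      _ = 3 * e := by ring

/-! ### clusters -/

/-- the points at distance less than `ρ` -/
noncomputable def clus {D : ℕ} (α : Fin D → ℂ) (ρ : ℝ) (z : ℂ) : Finset (Fin D) :=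
  univ.filter (fun j => ‖α j - z‖ < ρ)

/-- no distance of two points is close to `ρ` -/
def Gap {D : ℕ} (α : Fin D → ℂ) (ρ g : ℝ) : Prop := ∀ i j, g ≤ |‖α i - α j‖ / ρ - 1|

theorem Gap.le_of_lt {D : ℕ} {α : Fin D → ℂ} {ρ g : ℝ} (h : Gap α ρ g) (hρ : 0 < ρ)
    {i j : Fin D} (hij : ‖α i - α j‖ < ρ) : ‖α i - α j‖ ≤ (1 - g) * ρ := by
  have h1 := h i j
  have h2 : ‖α i - α j‖ / ρ < 1 := by rwa [div_lt_one hρ]
  rw [abs_of_nonpos (by linarith)] at h1
  rw [← div_le_iff₀ hρ]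
  linarith

theorem Gap.ge_of_ge {D : ℕ} {α : Fin D → ℂ} {ρ g : ℝ} (h : Gap α ρ g) (hρ : 0 < ρ)
    {i j : Fin D} (hij : ρ ≤ ‖α i - α j‖) : (1 + g) * ρ ≤ ‖α i - α j‖ := by
  have h1 := h i j
  have h2 : 1 ≤ ‖α i - α j‖ / ρ := by rwa [one_le_div hρ]
  rw [abs_of_nonneg (by linarith)] at h1
  rw [← le_div_iff₀ hρ]
  linarith

theorem clus_conj {D : ℕ} (α : Fin D → ℂ) (σ : Equiv.Perm (Fin D))
    (hσ : ∀ j, α (σ j) = (starRingEnd ℂ) (α j)) (ρ g : ℝ) (hρ : 0 < ρ) (hgap : Gap α ρ g)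
    (i : Fin D) (hi : 2 * |(α i).im| < g * ρ) :
    ∑ j ∈ clus α ρ (α i), (α j).im = 0 := by
  classical
  set C := clus α ρ (α i) with hC
  set C' := clus α ρ ((starRingEnd ℂ) (α i)) with hC'
  have hmap : C.map σ.toEmbedding = C' := by
    ext j
    rw [mem_map_equiv, hC, hC', clus, clus, mem_filter, mem_filter]
    simp only [mem_univ, true_and]
    have h1 : α j - (starRingEnd ℂ) (α i) = (starRingEnd ℂ) (α (σ.symm j) - α i) := by
      rw [map_sub, ← hσ (σ.symm j), Equiv.apply_symm_apply]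
    rw [h1, Complex.norm_conj]
  have hsub : C ⊆ C' := by
    intro j hj
    rw [hC, clus, mem_filter] at hj
    rw [hC', clus, mem_filter]
    refine ⟨mem_univ _, ?_⟩
    have h1 := hgap.le_of_lt hρ hj.2
    have h2 : α j - (starRingEnd ℂ) (α i) = (α j - α i) + (α i - (starRingEnd ℂ) (α i)) := by ring
    have h3 : ‖α i - (starRingEnd ℂ) (α i)‖ = 2 * |(α i).im| := by
      rw [Complex.sub_conj, norm_mul, Complex.norm_I, mul_one, Complex.norm_real, Real.norm_eq_abs,
        abs_mul]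
      norm_num
    calc ‖α j - (starRingEnd ℂ) (α i)‖ ≤ ‖α j - α i‖ + ‖α i - (starRingEnd ℂ) (α i)‖ := by
          rw [h2]; exact norm_add_le _ _
      _ < (1 - g) * ρ + g * ρ := by
          rw [h3]; exact add_lt_add_of_le_of_lt h1 hi
      _ = ρ := by ring
  have heq : C = C' := by
    apply eq_of_subset_of_card_le hsub
    rw [← hmap, card_map]
  have h4 : ∑ j ∈ C', (α j).im = -∑ j ∈ C, (α j).im := by
    rw [← hmap, sum_map, ← sum_neg_distrib]
    apply sum_congr rfl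
    intro j _
    change (α (σ j)).im = _
    rw [hσ, Complex.conj_im]
  rw [← heq] at h4
  linarith

end Vale.Agent.P337
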