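import Mathlib

/-!
# The parameters of the cluster filters and the generic formulas
(all parameters are functions of one number `q`; `q ≥ 10`)
-/

namespace Vale.Agent.P337

/-- number of values of the first parameter `s` -/
def cS (q : ℕ) : ℕ := 2 ^ (4 * q + 8)
/-- number of values of the second parameter `t` -/
def cT (q : ℕ) : ℕ := 2 ^ (3 * q + 8)
/-- scaling: the actual radii are `cRho q s k / 2 ^ cL q` -/
def cL (q : ℕ) : ℕ := 2 ^ q
/-- the radii have the indices `0, …, cK0 q` -/
def cK0 (q : ℕ) : ℕ := 2 * 2 ^ q + 2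
/-- the exponent of the first filter -/
def cK (q : ℕ) : ℕ := 2 ^ (5 * q + 8)
/-- the infinitesimal is `2 ^ (- cNu q)` -/
def cNu (q : ℕ) : ℕ := 6 * q + 14
/-- the number of Chebyshev steps -/
def cMu (q : ℕ) : ℕ := 5 * q + 13
/-- the exponent of the second filter -/
def cK2 (q : ℕ) : ℕ := 2 ^ (4 * q + 10)

/-- the numerator of the radius number `k` -/
def cRho (q s k : ℕ) : ℕ := (cS q + s) * 2 ^ (cK0 q - k)

section generic

variable {R : Type*} [CommRing R]

/-- the factor of `A` for the difference `d = α_j - z` -/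
def facA (q s k : ℕ) (d : R) : R :=
  2 ^ cNu q * ((cRho q s k : R) ^ cK q + (2 ^ cL q * d) ^ cK q)

/-- the factor of `A1` for the difference `d = α_j - z` -/
def facA1 (q s k : ℕ) (d : R) : R :=
  facA q s k d + (cRho q s k : R) ^ (cK q - 1) * (2 ^ cL q * d)

/-- the numerators of the Chebyshev iteration `a / b ↦ 2 (a / b) ^ 2 - 1` with the denominators
`b ^ (2 ^ m)` -/
def chA (a b : R) : ℕ → R
  | 0 => a
  | m + 1 => 2 * chA a b m ^ 2 - (b ^ 2 ^ m) ^ 2

/-- the numerator of the second filter, from the value `A` -/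
def fU (q D t : ℕ) (A : R) : R :=
  (2 * ((cT q : R) + t) * (D * A) ^ 2 ^ cMu q) ^ cK2 q

/-- the denominator of the second filter, from the values `A`, `A1` -/
def fV (q D t : ℕ) (A A1 : R) : R :=
  fU q D t A + (cT q * chA (2 ^ cNu q * (A1 - A)) (D * A) (cMu q)) ^ cK2 q

end generic

end Vale.Agent.P337
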