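import Vale.Agent.P337.ClusterB
import Vale.Agent.P337.Params

/-!
# Cluster part: the first filter
-/

namespace Vale.Agent.P337

open Finset

/-- the logarithmic derivative of the filter product is close to the mean offset of the cluster -/
theorem wt_close {D : ℕ} (hD : 0 < D) (δ : Fin D → ℂ) (g u : ℝ) (K : ℕ) (hg : 0 < g)
    (hg1 : g ≤ 1) (hK : 2 ≤ (1 + g) ^ K) (hu : 0 < u) (huD : 2 * (D * u) ≤ 1)
    (hgap : ∀ j, ‖δ j‖ ≤ 1 - g ∨ 1 + g ≤ ‖δ j‖) :
    (∀ j, 1 + δ j ^ K ≠ 0) ∧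
    ‖(∏ j, (1 + u * ((1 + δ j ^ K)⁻¹ * δ j)) - 1) / (u * D) -
      (∑ j ∈ univ.filter (fun j => ‖δ j‖ < 1), δ j) / D‖ ≤ 4 * (u * D) + 4 * ((1 + g) ^ K)⁻¹ := by
  classical
  set ε : ℝ := ((1 + g) ^ K)⁻¹ with hε
  have hε0 : 0 < ε := by positivity
  have hε2 : ε ≤ 1 / 2 := by
    rw [hε, one_div]
    exact inv_anti₀ (by norm_num) hK
  have hDr : (0 : ℝ) < D := by exact_mod_cast hD
  have hDc : (D : ℂ) ≠ 0 := by exact_mod_cast hD.ne'
  have huc : (u : ℂ) ≠ 0 := by exact_mod_cast hu.ne'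
  have hne : ∀ j, 1 + δ j ^ K ≠ 0 := by
    intro j
    rcases hgap j with h | h
    · exact (filt_in hg hg1 hK h).1
    · exact (filt_out hg hg1 hK h).1
  refine ⟨hne, ?_⟩
  set F : Fin D → ℂ := fun j => (1 + δ j ^ K)⁻¹ * δ j with hF
  have hFd : ∀ j, ‖F j - (if ‖δ j‖ < 1 then δ j else 0)‖ ≤ 4 * ε := by
    intro j
    rcases hgap j with h | h
    · rw [if_pos (by linarith)]
      have h1 := (filt_in hg hg1 hK h).2
      have h2 : F j - δ j = ((1 + δ j ^ K)⁻¹ - 1) * δ j := by rw [hF]; ring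
      rw [h2, norm_mul]
      have h3 : ‖δ j‖ ≤ 1 := by linarith
      calc ‖(1 + δ j ^ K)⁻¹ - 1‖ * ‖δ j‖ ≤ (2 * ε) * 1 :=
            mul_le_mul h1 h3 (norm_nonneg _) (by positivity)
        _ ≤ 4 * ε := by linarith
    · rw [if_neg (by linarith), sub_zero]
      exact (filt_out hg hg1 hK h).2.2
  have hFb : ∀ j, ‖F j‖ ≤ 2 := by
    intro j
    rcases hgap j with h | h
    · have h1 := (filt_in hg hg1 hK h).2
      have h3 : ‖δ j‖ ≤ 1 := by linarith
      have h4 : ‖(1 + δ j ^ K)⁻¹‖ ≤ 2 := by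
        have := norm_le_norm_add_norm_sub' ((1 + δ j ^ K)⁻¹) 1
        rw [norm_one] at this
        linarith
      rw [hF]
      simp only
      rw [norm_mul]
      calc ‖(1 + δ j ^ K)⁻¹‖ * ‖δ j‖ ≤ 2 * 1 :=
            mul_le_mul h4 h3 (norm_nonneg _) (by norm_num)
        _ = 2 := by norm_num
    · have h1 := (filt_out hg hg1 hK h).2.2
      rw [hF]
      simp only
      linarith
  have hsum : ∑ j, ‖(u : ℂ) * F j‖ ≤ 2 * (u * D) := by
    calc ∑ j, ‖(u : ℂ) * F j‖ ≤ ∑ _j : Fin D, u * 2 := by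
          apply sum_le_sum
          intro j _
          rw [norm_mul, Complex.norm_real, Real.norm_eq_abs, abs_of_pos hu]
          exact mul_le_mul_of_nonneg_left (hFb j) hu.le
      _ = 2 * (u * D) := by
          rw [sum_const, card_univ, Fintype.card_fin, nsmul_eq_mul]
          ring
  have hsum0 : 0 ≤ ∑ j, ‖(u : ℂ) * F j‖ := sum_nonneg fun _ _ => norm_nonneg _
  have h1 := norm_prod_one_add_sub univ (fun j => (u : ℂ) * F j) (by linarith)
  have h2 : ∑ j, (u : ℂ) * F j = u * ∑ j, F j := by rw [mul_sum]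
  set P := ∏ j, (1 + (u : ℂ) * F j) with hP
  have h3 : (P - 1) / (u * D) - (∑ j ∈ univ.filter (fun j => ‖δ j‖ < 1), δ j) / D =
      (P - 1 - ∑ j, (u : ℂ) * F j) / (u * D) +
      (∑ j, (F j - (if ‖δ j‖ < 1 then δ j else 0))) / D := by
    rw [sum_sub_distrib, ← sum_filter, h2]
    field_simp
    ring
  change ‖(P - 1) / (u * D) - (∑ j ∈ univ.filter (fun j => ‖δ j‖ < 1), δ j) / D‖ ≤ _
  rw [h3]
  have huD0 : 0 < u * D := mul_pos hu hDr
  have h4 : ‖(P - 1 - ∑ j, (u : ℂ) * F j) / (u * D)‖ ≤ 4 * (u * D) := by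
    rw [norm_div, norm_mul, Complex.norm_real, Real.norm_eq_abs, abs_of_pos hu, Complex.norm_natCast,
      div_le_iff₀ huD0]
    calc ‖P - 1 - ∑ j, (u : ℂ) * F j‖ ≤ (∑ j, ‖(u : ℂ) * F j‖) ^ 2 := h1
      _ ≤ (2 * (u * D)) ^ 2 := pow_le_pow_left₀ hsum0 hsum 2
      _ = 4 * (u * D) * (u * D) := by ring
  have h5 : ‖(∑ j, (F j - (if ‖δ j‖ < 1 then δ j else 0))) / D‖ ≤ 4 * ε := by
    rw [norm_div, Complex.norm_natCast, div_le_iff₀ hDr]
    calc ‖∑ j, (F j - (if ‖δ j‖ < 1 then δ j else 0))‖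
        ≤ ∑ j, ‖F j - (if ‖δ j‖ < 1 then δ j else 0)‖ := norm_sum_le _ _
      _ ≤ ∑ _j : Fin D, 4 * ε := sum_le_sum fun j _ => hFd j
      _ = 4 * ε * D := by
          rw [sum_const, card_univ, Fintype.card_fin, nsmul_eq_mul]
          ring
  exact (norm_add_le _ _).trans (add_le_add h4 h5)

/-! ### one coordinate -/

/-- the product `A` -/
noncomputable def cA {D : ℕ} (α : Fin D → ℂ) (q s k : ℕ) (z : ℂ) : ℂ := ∏ j, facA q s k (α j - z)

/-- the product `A1` -/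
noncomputable def cA1 {D : ℕ} (α : Fin D → ℂ) (q s k : ℕ) (z : ℂ) : ℂ :=
  ∏ j, facA1 q s k (α j - z)

/-- the value of the first filter -/
noncomputable def cW {D : ℕ} (α : Fin D → ℂ) (q s k : ℕ) (z : ℂ) : ℂ :=
  2 ^ cNu q * (cA1 α q s k z - cA α q s k z) / (D * cA α q s k z)

/-- the radius -/
noncomputable def cR (q s k : ℕ) : ℝ := (cRho q s k : ℝ) / 2 ^ cL q

theorem cRho_pos (q s k : ℕ) : 0 < cRho q s k := by
  unfold cRho cS
  positivity

theorem cR_pos (q s k : ℕ) : 0 < cR q s k := by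
  unfold cR
  have := cRho_pos q s k
  positivity

theorem cK_pos (q : ℕ) : 1 ≤ cK q := Nat.one_le_two_pow

theorem facA_eq (q s k : ℕ) (d : ℂ) :
    facA q s k d = 2 ^ cNu q * (cRho q s k : ℂ) ^ cK q * (1 + (d / (cR q s k : ℝ)) ^ cK q) := by
  have h1 : (cRho q s k : ℂ) ≠ 0 := by exact_mod_cast (cRho_pos q s k).ne'
  have h2 : d / ((cR q s k : ℝ) : ℂ) = 2 ^ cL q * d / (cRho q s k : ℂ) := by
    unfold cR
    push_cast
    field_simp
  rw [h2, div_pow, facA]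
  field_simp

theorem facA1_eq (q s k : ℕ) (d : ℂ) :
    facA1 q s k d = 2 ^ cNu q * (cRho q s k : ℂ) ^ cK q *
      (1 + (d / (cR q s k : ℝ)) ^ cK q + ((2 ^ cNu q)⁻¹ : ℝ) * (d / (cR q s k : ℝ))) := by
  have h1 : (cRho q s k : ℂ) ≠ 0 := by exact_mod_cast (cRho_pos q s k).ne'
  have h2 : d / ((cR q s k : ℝ) : ℂ) = 2 ^ cL q * d / (cRho q s k : ℂ) := by
    unfold cR
    push_cast
    field_simp
  obtain ⟨L, hL⟩ : ∃ L, cK q = L + 1 := ⟨cK q - 1, by have := cK_pos q; omega⟩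
  rw [facA1, facA_eq, h2, hL, Nat.add_sub_cancel, mul_add (2 ^ cNu q * (cRho q s k : ℂ) ^ (L + 1))]
  push_cast
  field_simp
  ring

/-- the gap -/
noncomputable def cg (q : ℕ) : ℝ := (2 ^ (4 * q + 8))⁻¹

/-- the lower bound for the imaginary part -/
noncomputable def cη (q : ℕ) : ℝ := (2 ^ (5 * q + 11))⁻¹

theorem cg_pos (q : ℕ) : 0 < cg q := by unfold cg; positivity

theorem cη_pos (q : ℕ) : 0 < cη q := by unfold cη; positivity

theorem cg_le (q : ℕ) : cg q ≤ 1 / 4 := by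
  unfold cg
  rw [one_div]
  apply inv_anti₀ (by norm_num)
  calc (4 : ℝ) = 2 ^ 2 := by norm_num
    _ ≤ 2 ^ (4 * q + 8) := pow_le_pow_right₀ (by norm_num) (by omega)

theorem lin_le_two_pow (q : ℕ) (hq : 10 ≤ q) : 6 * q + 50 ≤ 2 ^ q := by
  induction q, hq using Nat.le_induction with
  | base => norm_num
  | succ q hq ih => rw [pow_succ]; omega

theorem two_le_one_add_pow (m : ℕ) : (2 : ℝ) ≤ (1 + (2 ^ m)⁻¹) ^ 2 ^ m := by
  have h := one_add_mul_le_pow (a := ((2 : ℝ) ^ m)⁻¹)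
    (by have : (0 : ℝ) < (2 ^ m)⁻¹ := by positivity
        linarith) (2 ^ m)
  have h2 : ((2 ^ m : ℕ) : ℝ) * ((2 : ℝ) ^ m)⁻¹ = 1 := by
    push_cast
    exact mul_inv_cancel₀ (by positivity)
  rw [h2] at h
  linarith

theorem two_pow_le_filter (q : ℕ) : (2 : ℝ) ^ 2 ^ q ≤ (1 + cg q) ^ cK q := by
  have h : cK q = 2 ^ (4 * q + 8) * 2 ^ q := by
    rw [← pow_add, cK]
    congr 1
    omega
  rw [h, pow_mul]
  exact pow_le_pow_left₀ (by norm_num) (two_le_one_add_pow _) _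

theorem filter_inv_le (q : ℕ) (hq : 10 ≤ q) :
    ((1 + cg q) ^ cK q)⁻¹ ≤ (2 ^ (5 * q + 14))⁻¹ := by
  apply inv_anti₀ (by positivity)
  refine le_trans ?_ (two_pow_le_filter q)
  apply pow_le_pow_right₀ (by norm_num)
  have := lin_le_two_pow q hq
  omega

theorem two_le_filter (q : ℕ) : 2 ≤ (1 + cg q) ^ cK q := by
  refine le_trans ?_ (two_pow_le_filter q)
  calc (2 : ℝ) = 2 ^ 1 := by norm_num
    _ ≤ 2 ^ 2 ^ q := pow_le_pow_right₀ (by norm_num) Nat.one_le_two_pow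

theorem err_le (q D : ℕ) (hq : 10 ≤ q) (hD : D ≤ 2 ^ q) :
    4 * ((2 ^ cNu q)⁻¹ * (D : ℝ)) + 4 * ((1 + cg q) ^ cK q)⁻¹ ≤ cη q := by
  have h1 := filter_inv_le q hq
  have h2 : (2 ^ cNu q)⁻¹ * (D : ℝ) ≤ (2 ^ (5 * q + 14))⁻¹ := by
    have h3 : (D : ℝ) ≤ 2 ^ q := by exact_mod_cast hD
    have h4 : ((2 : ℝ) ^ cNu q) = 2 ^ (5 * q + 14) * 2 ^ q := by
      rw [← pow_add, cNu]
      congr 1
      omega
    rw [h4, mul_inv, mul_assoc]
    have h5 : ((2 : ℝ) ^ q)⁻¹ * D ≤ 1 := by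
      rw [inv_mul_le_iff₀ (by positivity)]
      linarith
    calc ((2 : ℝ) ^ (5 * q + 14))⁻¹ * ((2 ^ q)⁻¹ * D) ≤ (2 ^ (5 * q + 14))⁻¹ * 1 :=
          mul_le_mul_of_nonneg_left h5 (by positivity)
      _ = _ := mul_one _
  have h6 : cη q = 8 * (2 ^ (5 * q + 14))⁻¹ := by
    have : (2 : ℝ) ^ (5 * q + 14) = 8 * 2 ^ (5 * q + 11) := by
      rw [show (8 : ℝ) = 2 ^ 3 by norm_num, ← pow_add]
      congr 1
      omega
    rw [cη, this, mul_inv]
    ring
  rw [h6]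
  linarith

theorem cη_le_cg (q : ℕ) : cη q ≤ cg q := by
  unfold cη cg
  apply inv_anti₀ (by positivity)
  exact pow_le_pow_right₀ (by norm_num) (by omega)

section coord

variable {D : ℕ} (α : Fin D → ℂ) (q s k : ℕ)

theorem cA_ne_zero (i : Fin D) (hgap : Gap α (cR q s k) (cg q)) : cA α q s k (α i) ≠ 0 := by
  unfold cA
  rw [prod_ne_zero_iff]
  intro j _
  rw [facA_eq]
  have hρ := cR_pos q s k
  have h1 : (cRho q s k : ℂ) ≠ 0 := by exact_mod_cast (cRho_pos q s k).ne'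
  refine mul_ne_zero (mul_ne_zero (pow_ne_zero _ two_ne_zero) (pow_ne_zero _ h1)) ?_
  have hnorm : ‖(α j - α i) / ((cR q s k : ℝ) : ℂ)‖ = ‖α j - α i‖ / cR q s k := by
    rw [norm_div, Complex.norm_real, Real.norm_eq_abs, abs_of_pos hρ]
  by_cases h : ‖α j - α i‖ < cR q s k
  · refine (filt_in (cg_pos q) (by linarith [cg_le q]) (two_le_filter q) ?_).1
    rw [hnorm, div_le_iff₀ hρ]
    exact hgap.le_of_lt hρ h
  · refine (filt_out (cg_pos q) (by linarith [cg_le q]) (two_le_filter q) ?_).1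
    rw [hnorm, le_div_iff₀ hρ]
    exact hgap.ge_of_ge hρ (not_lt.1 h)

theorem cW_close (hq : 10 ≤ q) (hD0 : 0 < D) (hD : D ≤ 2 ^ q) (i : Fin D)
    (hgap : Gap α (cR q s k) (cg q)) :
    ‖cW α q s k (α i) -
      (∑ j ∈ clus α (cR q s k) (α i), (α j - α i) / (cR q s k : ℝ)) / D‖ ≤ cη q := by
  have hρ := cR_pos q s k
  have hρc : ((cR q s k : ℝ) : ℂ) ≠ 0 := by exact_mod_cast hρ.ne'
  have h1 : (cRho q s k : ℂ) ≠ 0 := by exact_mod_cast (cRho_pos q s k).ne'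
  have hDc : (D : ℂ) ≠ 0 := by exact_mod_cast hD0.ne'
  have hDr : (0 : ℝ) < D := by exact_mod_cast hD0
  set δ : Fin D → ℂ := fun j => (α j - α i) / ((cR q s k : ℝ) : ℂ) with hδ
  have hnorm : ∀ j, ‖δ j‖ = ‖α j - α i‖ / cR q s k := by
    intro j
    rw [hδ]
    simp only
    rw [norm_div, Complex.norm_real, Real.norm_eq_abs, abs_of_pos hρ]
  have hgap2 : ∀ j, ‖δ j‖ ≤ 1 - cg q ∨ 1 + cg q ≤ ‖δ j‖ := by
    intro j
    by_cases h : ‖α j - α i‖ < cR q s k
    · left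
      rw [hnorm, div_le_iff₀ hρ]
      exact hgap.le_of_lt hρ h
    · right
      rw [hnorm, le_div_iff₀ hρ]
      exact hgap.ge_of_ge hρ (not_lt.1 h)
  have hu : (0 : ℝ) < (2 ^ cNu q)⁻¹ := by positivity
  have herr := err_le q D hq hD
  have hg := cg_pos q
  have hfil : 0 < ((1 + cg q) ^ cK q)⁻¹ := by positivity
  have hη1 : cη q ≤ 1 / 4 := (cη_le_cg q).trans (cg_le q)
  have huD : 2 * ((D : ℝ) * (2 ^ cNu q)⁻¹) ≤ 1 := by
    rw [mul_comm (D : ℝ)]
    linarith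
  obtain ⟨hne, hcl⟩ := wt_close hD0 δ (cg q) ((2 ^ cNu q)⁻¹) (cK q) hg (by linarith [cg_le q])
    (two_le_filter q) hu huD hgap2
  have hfilter : univ.filter (fun j => ‖δ j‖ < 1) = clus α (cR q s k) (α i) := by
    unfold clus
    ext j
    rw [mem_filter, mem_filter, hnorm, div_lt_one hρ]
  rw [hfilter] at hcl
  have hW : cW α q s k (α i) =
      (∏ j, (1 + (((2 ^ cNu q)⁻¹ : ℝ) : ℂ) * ((1 + δ j ^ cK q)⁻¹ * δ j)) - 1) /
        ((((2 ^ cNu q)⁻¹ : ℝ) : ℂ) * D) := by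
    have h2 : cA1 α q s k (α i) = cA α q s k (α i) *
        ∏ j, (1 + (((2 ^ cNu q)⁻¹ : ℝ) : ℂ) * ((1 + δ j ^ cK q)⁻¹ * δ j)) := by
      unfold cA cA1
      rw [← prod_mul_distrib]
      apply prod_congr rfl
      intro j _
      rw [facA_eq, facA1_eq]
      have h3 : (1 + δ j ^ cK q)⁻¹ * (1 + δ j ^ cK q) = 1 := inv_mul_cancel₀ (hne j)
      change 2 ^ cNu q * (cRho q s k : ℂ) ^ cK q *
        (1 + δ j ^ cK q + (((2 ^ cNu q)⁻¹ : ℝ) : ℂ) * δ j) =
        2 ^ cNu q * (cRho q s k : ℂ) ^ cK q * (1 + δ j ^ cK q) *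
        (1 + (((2 ^ cNu q)⁻¹ : ℝ) : ℂ) * ((1 + δ j ^ cK q)⁻¹ * δ j))
      linear_combination (-(2 ^ cNu q * (cRho q s k : ℂ) ^ cK q *
        ((((2 ^ cNu q)⁻¹ : ℝ) : ℂ) * δ j))) * h3
    have hA := cA_ne_zero α q s k i hgap
    rw [cW, h2]
    have h4 : (((2 ^ cNu q)⁻¹ : ℝ) : ℂ) = (2 ^ cNu q)⁻¹ := by push_cast; rfl
    rw [h4]
    field_simp
  rw [hW]
  exact hcl.trans herr

/-- `cW` is real at real points -/
theorem cW_real (σ : Equiv.Perm (Fin D)) (hσ : ∀ j, α (σ j) = (starRingEnd ℂ) (α j)) (z : ℂ)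
    (hz : z.im = 0) : (cW α q s k z).im = 0 := by
  rw [← Complex.conj_eq_iff_im]
  have hz' : (starRingEnd ℂ) z = z := Complex.conj_eq_iff_im.2 hz
  have h22 : (starRingEnd ℂ) 2 = 2 := map_ofNat _ 2
  have h1 : (starRingEnd ℂ) (cA α q s k z) = cA α q s k z := by
    unfold cA
    rw [map_prod, ← Equiv.prod_comp σ (fun j => facA q s k (α j - z))]
    apply prod_congr rfl
    intro j _
    unfold facA
    simp [hσ, hz', h22]
  have h2 : (starRingEnd ℂ) (cA1 α q s k z) = cA1 α q s k z := by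
    unfold cA1
    rw [map_prod, ← Equiv.prod_comp σ (fun j => facA1 q s k (α j - z))]
    apply prod_congr rfl
    intro j _
    unfold facA1 facA
    simp [hσ, hz', h22]
  unfold cW
  simp [h1, h2, h22]

theorem norm_cW_le (hq : 10 ≤ q) (hD0 : 0 < D) (hD : D ≤ 2 ^ q) (i : Fin D)
    (hgap : Gap α (cR q s k) (cg q)) : ‖cW α q s k (α i)‖ ≤ 1 := by
  have hρ := cR_pos q s k
  have hDr : (0 : ℝ) < D := by exact_mod_cast hD0
  have h1 := cW_close α q s k hq hD0 hD i hgap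
  set w := (∑ j ∈ clus α (cR q s k) (α i), (α j - α i) / (cR q s k : ℝ)) / (D : ℂ) with hw
  have h2 : ‖w‖ ≤ 1 - cg q := by
    rw [hw, norm_div, Complex.norm_natCast, div_le_iff₀ hDr]
    calc ‖∑ j ∈ clus α (cR q s k) (α i), (α j - α i) / (cR q s k : ℝ)‖
        ≤ ∑ j ∈ clus α (cR q s k) (α i), ‖(α j - α i) / ((cR q s k : ℝ) : ℂ)‖ := norm_sum_le _ _
      _ ≤ ∑ _j ∈ clus α (cR q s k) (α i), (1 - cg q) := by
          apply sum_le_sum
          intro j hj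
          rw [clus, mem_filter] at hj
          rw [norm_div, Complex.norm_real, Real.norm_eq_abs, abs_of_pos hρ, div_le_iff₀ hρ]
          exact hgap.le_of_lt hρ hj.2
      _ = (clus α (cR q s k) (α i)).card * (1 - cg q) := by rw [sum_const, nsmul_eq_mul]
      _ ≤ D * (1 - cg q) := by
          apply mul_le_mul_of_nonneg_right
          · have := card_le_univ (clus α (cR q s k) (α i))
            rw [Fintype.card_fin] at this
            exact_mod_cast this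
          · linarith [cg_le q]
      _ = (1 - cg q) * D := by ring
  have h3 := norm_le_norm_add_norm_sub' (cW α q s k (α i)) w
  have h4 := cη_le_cg q
  linarith

theorem im_cW_ge (hq : 10 ≤ q) (hD0 : 0 < D) (hD : D ≤ 2 ^ q) (σ : Equiv.Perm (Fin D))
    (hσ : ∀ j, α (σ j) = (starRingEnd ℂ) (α j)) (i : Fin D)
    (hgap : Gap α (cR q s k) (cg q)) (h1 : 2 * |(α i).im| < cg q * cR q s k)
    (h2 : cg q * cR q s k ≤ 4 * |(α i).im|) : cη q ≤ |(cW α q s k (α i)).im| := by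
  have hρ := cR_pos q s k
  have hDr : (0 : ℝ) < D := by exact_mod_cast hD0
  have hcl := cW_close α q s k hq hD0 hD i hgap
  set w := (∑ j ∈ clus α (cR q s k) (α i), (α j - α i) / (cR q s k : ℝ)) / (D : ℂ) with hw
  have hsum := clus_conj α σ hσ (cR q s k) (cg q) hρ hgap i h1
  have him : w.im = -((clus α (cR q s k) (α i)).card * (α i).im / (cR q s k * D)) := by
    have h3 : w = ((∑ j ∈ clus α (cR q s k) (α i), (α j - α i)) / (cR q s k : ℝ)) / (D : ℂ) := by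
      rw [hw, ← sum_div]
    have h4 : ∀ (x : ℂ) (r : ℝ), (x / (r : ℂ)).im = x.im / r := fun x r => Complex.div_ofReal_im x r
    have h5 : ∀ (x : ℂ) (r : ℕ), (x / (r : ℂ)).im = x.im / r := fun x r => by
      have := h4 x (r : ℝ)
      rw [Complex.ofReal_natCast] at this
      exact this
    rw [h3, h5, h4, Complex.im_sum]
    simp only [Complex.sub_im, sum_sub_distrib, hsum, sum_const, nsmul_eq_mul]
    field_simp
    ring
  have hc : (1 : ℝ) ≤ (clus α (cR q s k) (α i)).card := by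
    have : 0 < (clus α (cR q s k) (α i)).card := by
      apply card_pos.2
      refine ⟨i, ?_⟩
      rw [clus, mem_filter]
      refine ⟨mem_univ _, ?_⟩
      rw [sub_self, norm_zero]
      exact hρ
    exact_mod_cast this
  have hy : 0 ≤ |(α i).im| := abs_nonneg _
  have h6 : 2 * cη q ≤ |w.im| := by
    rw [him, abs_neg, abs_div, abs_mul, Nat.abs_cast, abs_of_pos (mul_pos hρ hDr),
      le_div_iff₀ (mul_pos hρ hDr)]
    have h7 : 2 * cη q * D ≤ cg q / 4 := by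
      have h8 : (D : ℝ) ≤ 2 ^ q := by exact_mod_cast hD
      have h9 : cg q / 4 = 2 * cη q * 2 ^ q := by
        have : (2 : ℝ) ^ (5 * q + 11) = 8 * (2 ^ (4 * q + 8) * 2 ^ q) := by
          rw [show (8 : ℝ) = 2 ^ 3 by norm_num, ← pow_add, ← pow_add]
          congr 1
          omega
        unfold cg cη
        rw [this]
        field_simp
        norm_num
      rw [h9]
      have := cη_pos q
      gcongr
    calc 2 * cη q * (cR q s k * D) = (2 * cη q * D) * cR q s k := by ring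
      _ ≤ cg q / 4 * cR q s k := mul_le_mul_of_nonneg_right h7 hρ.le
      _ ≤ |(α i).im| := by linarith
      _ ≤ (clus α (cR q s k) (α i)).card * |(α i).im| := by nlinarith
  have h10 : |w.im| - |(cW α q s k (α i)).im| ≤ cη q := by
    have h11 := abs_sub_abs_le_abs_sub w.im (cW α q s k (α i)).im
    have h12 : |w.im - (cW α q s k (α i)).im| ≤ ‖cW α q s k (α i) - w‖ := by
      have := Complex.abs_im_le_norm (cW α q s k (α i) - w)
      rw [Complex.sub_im, abs_sub_comm] at this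
      exact this
    linarith
  linarith

end coord

end Vale.Agent.P337
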