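import Vale.Agent.P337.ClusterC

/-!
# Cluster part: choice of the scale and the second filter
-/

namespace Vale.Agent.P337

open Finset

theorem cR_succ (q s k : ℕ) (hk : k + 1 ≤ cK0 q) : cR q s k = 2 * cR q s (k + 1) := by
  unfold cR cRho
  have h : cK0 q - k = cK0 q - (k + 1) + 1 := by omega
  rw [h, pow_succ]
  push_cast
  ring

theorem cS_inv (q : ℕ) : cg q * (cS q : ℝ) = 1 := by
  unfold cg cS
  push_cast
  exact inv_mul_cancel₀ (by positivity)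

theorem exists_scale (q s : ℕ) (hs : s < cS q) (y : ℝ) (hy : ((2 : ℝ) ^ 2 ^ q)⁻¹ < y)
    (hyR : y ≤ 2 ^ 2 ^ q) :
    ∃ k ≤ cK0 q, 2 * y < cg q * cR q s k ∧ cg q * cR q s k ≤ 4 * y := by
  classical
  have hS := cS_inv q
  have hg := cg_pos q
  have h0 : 2 * y < cg q * cR q s 0 := by
    have h1 : cg q * cR q s 0 = (cg q * (cS q : ℝ) + cg q * s) * (4 * 2 ^ 2 ^ q) := by
      unfold cR cRho cK0 cL
      rw [Nat.sub_zero]
      push_cast
      have h2 : (2 : ℝ) ^ (2 * 2 ^ q + 2) = 4 * 2 ^ 2 ^ q * 2 ^ 2 ^ q := by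
        rw [pow_add, two_mul, pow_add]
        ring
      rw [h2]
      field_simp
    rw [h1, hS]
    have h3 : 0 ≤ cg q * s := by positivity
    have h4 : (0 : ℝ) < 2 ^ 2 ^ q := by positivity
    nlinarith
  have hK : ¬ 2 * y < cg q * cR q s (cK0 q) := by
    rw [not_lt]
    have h1 : cg q * cR q s (cK0 q) = (cg q * (cS q : ℝ) + cg q * s) * ((2 : ℝ) ^ 2 ^ q)⁻¹ := by
      unfold cR cRho cL
      rw [Nat.sub_self, pow_zero]
      push_cast
      ring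
    rw [h1, hS]
    have h2 : cg q * s ≤ 1 := by
      rw [← hS]
      have : (s : ℝ) ≤ cS q := by exact_mod_cast hs.le
      gcongr
    have h4 : (0 : ℝ) < ((2 : ℝ) ^ 2 ^ q)⁻¹ := by positivity
    nlinarith
  have hex : ∃ k, ¬ 2 * y < cg q * cR q s k := ⟨_, hK⟩
  set m := Nat.find hex with hm
  have hm1 : ¬ 2 * y < cg q * cR q s m := Nat.find_spec hex
  have hm2 : m ≤ cK0 q := Nat.find_min' hex hK
  have hm0 : m ≠ 0 := by
    intro h
    rw [h] at hm1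
    exact hm1 h0
  obtain ⟨k, hk⟩ := Nat.exists_eq_succ_of_ne_zero hm0
  refine ⟨k, by omega, ?_, ?_⟩
  · have := Nat.find_min hex (m := k) (by omega)
    exact not_not.1 this
  · rw [cR_succ q s k (by omega)]
    rw [hk, Nat.succ_eq_add_one, not_lt] at hm1
    linarith

/-! ### the second filter -/

/-- the value after the Chebyshev iteration -/
noncomputable def cv {D : ℕ} (α : Fin D → ℂ) (q s k : ℕ) (z : ℂ) : ℂ :=
  chs^[cMu q] (cW α q s k z)

/-- the threshold -/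
noncomputable def cβ (q t : ℕ) : ℝ := 2 * (1 + (t : ℝ) / cT q)

/-- the second gap -/
noncomputable def cg2 (q : ℕ) : ℝ := (2 ^ (3 * q + 8))⁻¹

/-- the second filter -/
noncomputable def cTf {D : ℕ} (α : Fin D → ℂ) (q s t k : ℕ) (z : ℂ) : ℂ :=
  (1 + (cv α q s k z / (cβ q t : ℝ)) ^ cK2 q)⁻¹

theorem cT_pos (q : ℕ) : 0 < cT q := by unfold cT; positivity

theorem cβ_ge (q t : ℕ) : 2 ≤ cβ q t := by
  unfold cβ
  have : (0 : ℝ) ≤ (t : ℝ) / cT q := by positivity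
  linarith

theorem cβ_lt (q t : ℕ) (ht : t < cT q) : cβ q t < 4 := by
  unfold cβ
  have h1 : (t : ℝ) / cT q < 1 := by
    rw [div_lt_one (by exact_mod_cast cT_pos q)]
    exact_mod_cast ht
  linarith

theorem cg2_pos (q : ℕ) : 0 < cg2 q := by unfold cg2; positivity

theorem cg2_le (q : ℕ) : cg2 q ≤ 1 / 8 := by
  unfold cg2
  rw [one_div]
  apply inv_anti₀ (by norm_num)
  calc (8 : ℝ) = 2 ^ 3 := by norm_num
    _ ≤ 2 ^ (3 * q + 8) := pow_le_pow_right₀ (by norm_num) (by omega)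

theorem two_pow_le_filter2 (q : ℕ) : (2 : ℝ) ^ (4 * 2 ^ q) ≤ (1 + cg2 q) ^ cK2 q := by
  have h : cK2 q = 2 ^ (3 * q + 8) * (4 * 2 ^ q) := by
    rw [show 4 = 2 ^ 2 by norm_num, ← pow_add, ← pow_add, cK2]
    congr 1
    omega
  rw [h, pow_mul (1 + cg2 q) (2 ^ (3 * q + 8)) (4 * 2 ^ q)]
  exact pow_le_pow_left₀ (by norm_num) (two_le_one_add_pow _) _

theorem two_le_filter2 (q : ℕ) : 2 ≤ (1 + cg2 q) ^ cK2 q := by
  refine le_trans ?_ (two_pow_le_filter2 q)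
  calc (2 : ℝ) = 2 ^ 1 := by norm_num
    _ ≤ 2 ^ (4 * 2 ^ q) := pow_le_pow_right₀ (by norm_num) (by have := Nat.one_le_two_pow (n := q); omega)

theorem chA_eq (a b : ℂ) (hb : b ≠ 0) (m : ℕ) : chA a b m = b ^ 2 ^ m * chs^[m] (a / b) := by
  induction m with
  | zero =>
    simp only [chA, pow_zero, pow_one, Function.iterate_zero, id]
    field_simp
  | succ m ih =>
    rw [chA, ih, Function.iterate_succ_apply', chs, pow_succ 2 m, pow_mul]
    ring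

theorem fU_ne_zero (q D t : ℕ) (hD : 0 < D) (A : ℂ) (hA : A ≠ 0) : fU q D t A ≠ 0 := by
  unfold fU
  have h1 : (D : ℂ) ≠ 0 := by exact_mod_cast hD.ne'
  have h2 : ((cT q : ℂ) + t) ≠ 0 := by
    have : (0 : ℕ) < cT q + t := by have := cT_pos q; omega
    exact_mod_cast this.ne'
  exact pow_ne_zero _ (mul_ne_zero (mul_ne_zero two_ne_zero h2)
    (pow_ne_zero _ (mul_ne_zero h1 hA)))

theorem fV_eq (q D t : ℕ) (hD : 0 < D) (A A1 : ℂ) (hA : A ≠ 0) :
    fV q D t A A1 = fU q D t A *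
      (1 + (chs^[cMu q] (2 ^ cNu q * (A1 - A) / (D * A)) / (cβ q t : ℝ)) ^ cK2 q) := by
  have h1 : (D : ℂ) ≠ 0 := by exact_mod_cast hD.ne'
  have hb : (D : ℂ) * A ≠ 0 := mul_ne_zero h1 hA
  have hT : (cT q : ℂ) ≠ 0 := by exact_mod_cast (cT_pos q).ne'
  have h2 : ((cT q : ℂ) + t) ≠ 0 := by
    have : (0 : ℕ) < cT q + t := by have := cT_pos q; omega
    exact_mod_cast this.ne'
  have hβ : ((cβ q t : ℝ) : ℂ) = 2 * ((cT q : ℂ) + t) / cT q := by
    unfold cβ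
    push_cast
    field_simp
  unfold fV
  rw [chA_eq _ _ hb, mul_add, mul_one]
  congr 1
  unfold fU
  rw [← mul_pow, hβ]
  congr 1
  field_simp

section coord

variable {D : ℕ} (α : Fin D → ℂ) (q s t k : ℕ)

/-- dichotomy for the second filter -/
theorem cTf_near (z : ℂ) (h : cg2 q ≤ |‖cv α q s k z‖ / cβ q t - 1|) :
    1 + (cv α q s k z / (cβ q t : ℝ)) ^ cK2 q ≠ 0 ∧
    (‖cTf α q s t k z - 1‖ ≤ 2 * ((1 + cg2 q) ^ cK2 q)⁻¹ ∨
      ‖cTf α q s t k z‖ ≤ 2 * ((1 + cg2 q) ^ cK2 q)⁻¹) := by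
  have hβ : 0 < cβ q t := by linarith [cβ_ge q t]
  have hnorm : ‖cv α q s k z / ((cβ q t : ℝ) : ℂ)‖ = ‖cv α q s k z‖ / cβ q t := by
    rw [norm_div, Complex.norm_real, Real.norm_eq_abs, abs_of_pos hβ]
  rcases le_total 1 (‖cv α q s k z‖ / cβ q t) with h1 | h1
  · rw [abs_of_nonneg (by linarith)] at h
    have h2 := filt_out (cg2_pos q) (by linarith [cg2_le q]) (two_le_filter2 q)
      (δ := cv α q s k z / ((cβ q t : ℝ) : ℂ)) (by rw [hnorm]; linarith)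
    exact ⟨h2.1, Or.inr h2.2.1⟩
  · rw [abs_of_nonpos (by linarith)] at h
    have h2 := filt_in (cg2_pos q) (by linarith [cg2_le q]) (two_le_filter2 q)
      (δ := cv α q s k z / ((cβ q t : ℝ) : ℂ)) (by rw [hnorm]; linarith)
    exact ⟨h2.1, Or.inl h2.2⟩

/-- at real points the second filter is close to one -/
theorem cTf_real (hq : 10 ≤ q) (hD0 : 0 < D) (hD : D ≤ 2 ^ q) (σ : Equiv.Perm (Fin D))
    (hσ : ∀ j, α (σ j) = (starRingEnd ℂ) (α j)) (i : Fin D)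
    (hgap : Gap α (cR q s k) (cg q)) (hi : (α i).im = 0) :
    ‖cTf α q s t k (α i) - 1‖ ≤ 2 * ((1 + cg2 q) ^ cK2 q)⁻¹ := by
  have hβ : 0 < cβ q t := by linarith [cβ_ge q t]
  have h1 := cW_real α q s k σ hσ (α i) hi
  have h2 := norm_cW_le α q s k hq hD0 hD i hgap
  have h3 : |(cW α q s k (α i)).re| ≤ 1 := (Complex.abs_re_le_norm _).trans h2
  have h4 := chs_iter_real _ h1 h3 (cMu q)
  have h5 : ‖cv α q s k (α i)‖ ≤ 1 := by
    have h6 : cv α q s k (α i) = ((cv α q s k (α i)).re : ℂ) := by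
      apply Complex.ext
      · simp
      · rw [Complex.ofReal_im]; exact h4.1
    rw [h6, Complex.norm_real]
    exact h4.2
  refine (filt_in (cg2_pos q) (by linarith [cg2_le q]) (two_le_filter2 q) ?_).2
  rw [norm_div, Complex.norm_real, Real.norm_eq_abs, abs_of_pos hβ, div_le_iff₀ hβ]
  have := cg2_le q
  have := cβ_ge q t
  nlinarith

theorem cη_iter (q : ℕ) : 10 ≤ (4 : ℝ) ^ (5 * q + 12 + 1) * cη q ^ 2 := by
  have h1 : (4 : ℝ) ^ (5 * q + 12 + 1) = 16 * (2 ^ (5 * q + 11)) ^ 2 := by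
    rw [← pow_mul, show (16 : ℝ) = 2 ^ 4 by norm_num, show (4 : ℝ) = 2 ^ 2 by norm_num, ← pow_mul,
      ← pow_add]
    congr 1
    omega
  rw [h1, cη, inv_pow, mul_assoc, mul_inv_cancel₀ (by positivity)]
  norm_num

/-- far from the real line one of the second filters is tiny -/
theorem cTf_far (hq : 10 ≤ q) (hD0 : 0 < D) (hD : D ≤ 2 ^ q) (σ : Equiv.Perm (Fin D))
    (hσ : ∀ j, α (σ j) = (starRingEnd ℂ) (α j)) (i : Fin D) (hs : s < cS q) (ht : t < cT q)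
    (hgap : ∀ k ≤ cK0 q, Gap α (cR q s k) (cg q)) (hR : ‖α i‖ ≤ 2 ^ 2 ^ q)
    (hi : ((2 : ℝ) ^ 2 ^ q)⁻¹ < |(α i).im|) :
    ∃ k ≤ cK0 q, ‖cTf α q s t k (α i)‖ ≤ 2 * ((1 + cg2 q) ^ cK2 q)⁻¹ := by
  obtain ⟨k, hk, h1, h2⟩ := exists_scale q s hs _ hi ((Complex.abs_im_le_norm _).trans hR)
  refine ⟨k, hk, ?_⟩
  have h3 := im_cW_ge α q s k hq hD0 hD σ hσ i (hgap k hk) h1 h2
  have h4 := five_le_iter _ (5 * q + 12) (cη q) (cη_pos q).le h3 (cη_iter q)
  have h5 : 5 ≤ ‖cv α q s k (α i)‖ := h4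
  have hβ : 0 < cβ q t := by linarith [cβ_ge q t]
  have hβ4 := cβ_lt q t ht
  refine (filt_out (cg2_pos q) (by linarith [cg2_le q]) (two_le_filter2 q) ?_).2.1
  rw [norm_div, Complex.norm_real, Real.norm_eq_abs, abs_of_pos hβ, le_div_iff₀ hβ]
  have := cg2_le q
  nlinarith

end coord

end Vale.Agent.P337
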