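import Vale.Agent.P337.Defs

/-!
# Majority quantifiers over short numbers in front of automata
(module H1: basic closure properties)
-/

namespace Vale.Agent.P337

variable {α : Type}

/-- finite automata reading the word `w` and the binary digits of numbers in parallel,
position by position (the digits with the least significant one first) -/
structure Aut (α : Type) where
  Q : Type
  fin : Fintype Q
  init : Q
  step : Q → Option α → List (Option Bool) → Q
  acc : Q → Bool

/-- the digit number `i` of a number of which `t.2` digits are shown -/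
def digit (i : ℕ) (t : ℕ × ℕ) : Option Bool := if i < t.2 then some (t.1.testBit i) else none

/-- the state after `m` columns; the list consists of pairs (number, number of digits shown) -/
def Aut.run (A : Aut α) (w : List α) (l : List (ℕ × ℕ)) : ℕ → A.Q
  | 0 => A.init
  | m + 1 => A.step (A.run w l m) w[m]? (l.map (digit m))

/-- the number of columns -/
def cols (w : List α) (l : List (ℕ × ℕ)) : ℕ := max w.length ((l.map Prod.snd).foldr max 0)

def Aut.accepts (A : Aut α) (w : List α) (l : List (ℕ × ℕ)) : Prop :=
  A.acc (A.run w l (cols w l)) = true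

/-- more than half of the numbers below `2 ^ m` -/
def Maj (m : ℕ) (S : ℕ → Prop) : Prop := 2 ^ m < 2 * Nat.card {y : ℕ // y < 2 ^ m ∧ S y}

/-- majority quantifiers over numbers with the given numbers of digits; the new variables are
appended to the list -/
def MajL : List ℕ → (List (ℕ × ℕ) → Prop) → List (ℕ × ℕ) → Prop
  | [], S, l => S l
  | m :: ms, S, l => Maj m fun y => MajL ms S (l ++ [(y, m)])

/-- no majority quantifier is applied to a predicate that holds for exactly one half of the
numbers -/
def NoTie : List ℕ → (List (ℕ × ℕ) → Prop) → List (ℕ × ℕ) → Prop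
  | [], _, _ => True
  | m :: ms, S, l => (2 ^ m ≠ 2 * Nat.card {y : ℕ // y < 2 ^ m ∧ MajL ms S (l ++ [(y, m)])}) ∧
      ∀ y < 2 ^ m, NoTie ms S (l ++ [(y, m)])

/-- the relation `S(w; a)` of numbers of polynomial length is in the counting hierarchy: for every
polynomial bound `r` on the length of the numbers `a` it can be written with majority quantifiers
over numbers of polynomial length in front of an automaton. -/
def InCH {k : ℕ} (S : List α → (Fin k → ℕ) → Prop) : Prop :=
  ∀ r : Polynomial ℕ, ∃ (ms : List (Polynomial ℕ)) (A : Aut α),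
    ∀ (w : List α) (a : Fin k → ℕ), (∀ i, a i < 2 ^ r.eval w.length) →
      NoTie (ms.map fun m => m.eval w.length) (A.accepts w)
        (List.ofFn fun i => (a i, r.eval w.length)) ∧
      (S w a ↔ MajL (ms.map fun m => m.eval w.length) (A.accepts w)
        (List.ofFn fun i => (a i, r.eval w.length)))

/-- functions with values of polynomial length -/
def PolyBdd {k : ℕ} (f : List α → (Fin k → ℕ) → ℕ) : Prop :=
  ∀ r : Polynomial ℕ, ∃ s : Polynomial ℕ, ∀ w a, (∀ i, a i < 2 ^ r.eval w.length) →
    f w a < 2 ^ s.eval w.length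

/-- functions computable in the counting hierarchy -/
def FCH {k : ℕ} (f : List α → (Fin k → ℕ) → ℕ) : Prop :=
  PolyBdd f ∧ InCH (k := k + 1) fun w b => f w (Fin.tail b) = b 0


/-! ### counting -/

/-- number of solutions below `n` -/
noncomputable def cnt (n : ℕ) (S : ℕ → Prop) : ℕ := Nat.card {y : ℕ // y < n ∧ S y}

open Classical in
theorem cnt_eq_count (n : ℕ) (S : ℕ → Prop) : cnt n S = Nat.count S n := by
  rw [Nat.count_eq_card_filter_range, ← Nat.card_eq_finsetCard]
  apply Nat.card_congr
  exact Equiv.subtypeEquivRight (by intro x; simp)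

theorem cnt_congr' {n n' : ℕ} {S T : ℕ → Prop} (h : ∀ y, (y < n ∧ S y) ↔ (y < n' ∧ T y)) :
    cnt n S = cnt n' T :=
  Nat.card_congr (Equiv.subtypeEquivRight h)

theorem cnt_congr {n : ℕ} {S T : ℕ → Prop} (h : ∀ y < n, (S y ↔ T y)) : cnt n S = cnt n T :=
  cnt_congr' fun y => and_congr_right (h y)

theorem cnt_add (a b : ℕ) (S : ℕ → Prop) : cnt (a + b) S = cnt a S + cnt b fun y => S (a + y) := by
  classical
  simp only [cnt_eq_count]
  exact Nat.count_add S a b

theorem cnt_zero (S : ℕ → Prop) : cnt 0 S = 0 := by
  classical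
  simp [cnt_eq_count]

theorem cnt_not (n : ℕ) (S : ℕ → Prop) : (cnt n fun y => ¬ S y) + cnt n S = n := by
  classical
  simp only [cnt_eq_count]
  induction n with
  | zero => simp
  | succ n ih =>
    rw [Nat.count_succ, Nat.count_succ]
    by_cases h : S n <;> simp [h] <;> omega

theorem cnt_const (n : ℕ) (p : Prop) [Decidable p] : (cnt n fun _ => p) = if p then n else 0 := by
  classical
  rw [cnt_eq_count]
  induction n with
  | zero => simp
  | succ n ih =>
    rw [Nat.count_succ, ih]
    by_cases h : p <;> simp [h]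

theorem cnt_lt (n c : ℕ) : (cnt n fun y => y < c) = min n c := by
  classical
  rw [cnt_eq_count]
  induction n with
  | zero => simp
  | succ n ih =>
    rw [Nat.count_succ, ih]
    split_ifs <;> omega

/-! ### majority quantifiers -/

/-- the values of the variables of the quantifiers are admissible -/
abbrev Ok (ms : List ℕ) (ys : List (ℕ × ℕ)) : Prop :=
  List.Forall₂ (fun m t => t.2 = m ∧ t.1 < 2 ^ m) ms ys

theorem Maj_congr {m : ℕ} {S T : ℕ → Prop} (h : ∀ y < 2 ^ m, (S y ↔ T y)) : Maj m S ↔ Maj m T := by
  have := cnt_congr h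
  unfold cnt at this
  unfold Maj
  rw [this]

theorem MajL_congr : ∀ {ms : List ℕ} {S T : List (ℕ × ℕ) → Prop} {L l : List (ℕ × ℕ)},
    (∀ ys, Ok ms ys → (S (L ++ ys) ↔ T (l ++ ys))) → (MajL ms S L ↔ MajL ms T l)
  | [], S, T, L, l, h => by simpa [MajL] using h [] List.Forall₂.nil
  | m :: ms, S, T, L, l, h => by
    refine Maj_congr fun y hy => MajL_congr fun ys hys => ?_
    have := h ((y, m) :: ys) (List.Forall₂.cons ⟨rfl, hy⟩ hys)
    simpa using this

theorem NoTie_congr : ∀ {ms : List ℕ} {S T : List (ℕ × ℕ) → Prop} {L l : List (ℕ × ℕ)},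
    (∀ ys, Ok ms ys → (S (L ++ ys) ↔ T (l ++ ys))) → (NoTie ms S L ↔ NoTie ms T l)
  | [], S, T, L, l, h => Iff.rfl
  | m :: ms, S, T, L, l, h => by
    have key : ∀ y < 2 ^ m, ∀ ys, Ok ms ys →
        (S ((L ++ [(y, m)]) ++ ys) ↔ T ((l ++ [(y, m)]) ++ ys)) := by
      intro y hy ys hys
      have := h ((y, m) :: ys) (List.Forall₂.cons ⟨rfl, hy⟩ hys)
      simpa using this
    have h1 : cnt (2 ^ m) (fun y => MajL ms S (L ++ [(y, m)])) =
        cnt (2 ^ m) (fun y => MajL ms T (l ++ [(y, m)])) :=
      cnt_congr fun y hy => MajL_congr (key y hy)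
    unfold cnt at h1
    simp only [NoTie, h1]
    refine and_congr_right fun _ => forall_congr' fun y => forall_congr' fun hy => ?_
    exact NoTie_congr (key y hy)

theorem MajL_append : ∀ (ms ms' : List ℕ) (S : List (ℕ × ℕ) → Prop) (l : List (ℕ × ℕ)),
    MajL (ms ++ ms') S l = MajL ms (MajL ms' S) l
  | [], ms', S, l => rfl
  | m :: ms, ms', S, l => by simp only [List.cons_append, MajL, MajL_append ms ms']

theorem NoTie_append : ∀ (ms ms' : List ℕ) (S : List (ℕ × ℕ) → Prop) (l : List (ℕ × ℕ)),
    NoTie (ms ++ ms') S l ↔ NoTie ms (MajL ms' S) l ∧ ∀ ys, Ok ms ys → NoTie ms' S (l ++ ys)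
  | [], ms', S, l => by
    constructor
    · intro h
      refine ⟨trivial, fun ys hys => ?_⟩
      cases hys
      simpa using h
    · intro h
      simpa using h.2 [] List.Forall₂.nil
  | m :: ms, ms', S, l => by
    simp only [List.cons_append, NoTie, MajL_append, NoTie_append ms ms']
    constructor
    · rintro ⟨h1, h2⟩
      refine ⟨⟨h1, fun y hy => (h2 y hy).1⟩, fun ys hys => ?_⟩
      cases hys with
      | @cons _ t _ ys h hys =>
        obtain ⟨y, n⟩ := t
        obtain ⟨rfl, hy⟩ := h
        have := (h2 y hy).2 ys hys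
        simpa using this
    · rintro ⟨⟨h1, h2⟩, h3⟩
      refine ⟨h1, fun y hy => ⟨h2 y hy, fun ys hys => ?_⟩⟩
      have := h3 ((y, m) :: ys) (List.Forall₂.cons ⟨rfl, hy⟩ hys)
      simpa using this

theorem MajL_const (p : Prop) : ∀ (ms : List ℕ) (l : List (ℕ × ℕ)),
    (MajL ms (fun _ => p) l ↔ p) ∧ NoTie ms (fun _ => p) l
  | [], l => ⟨Iff.rfl, trivial⟩
  | m :: ms, l => by
    classical
    have h1 : cnt (2 ^ m) (fun y => MajL ms (fun _ => p) (l ++ [(y, m)])) =
        if p then 2 ^ m else 0 := by
      rw [← cnt_const (2 ^ m) p]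
      exact cnt_congr fun y _ => (MajL_const p ms _).1
    unfold cnt at h1
    have hp : 0 < 2 ^ m := by positivity
    simp only [MajL, NoTie, Maj, h1]
    by_cases h : p
    · simp only [h, if_true]
      exact ⟨by simp only [iff_true]; omega, by omega, fun y _ => (MajL_const True ms _).2⟩
    · simp only [h, if_false]
      exact ⟨by simp, by omega, fun y _ => (MajL_const False ms _).2⟩

theorem MajL_dummy {ms : List ℕ} {S : List (ℕ × ℕ) → Prop} {p : Prop} {l : List (ℕ × ℕ)}
    (h : ∀ ys, Ok ms ys → (S (l ++ ys) ↔ p)) : (MajL ms S l ↔ p) ∧ NoTie ms S l := by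
  have h' : ∀ ys, Ok ms ys → (S (l ++ ys) ↔ (fun _ => p) (l ++ ys)) := h
  exact ⟨(MajL_congr h').trans (MajL_const p ms l).1, (NoTie_congr h').2 (MajL_const p ms l).2⟩

theorem MajL_not : ∀ {ms : List ℕ} {S : List (ℕ × ℕ) → Prop} {l : List (ℕ × ℕ)},
    NoTie ms S l → (MajL ms (fun l => ¬ S l) l ↔ ¬ MajL ms S l) ∧ NoTie ms (fun l => ¬ S l) l
  | [], S, l, _ => ⟨Iff.rfl, trivial⟩
  | m :: ms, S, l, h => by
    obtain ⟨h1, h2⟩ := h
    have e : cnt (2 ^ m) (fun y => MajL ms (fun l => ¬ S l) (l ++ [(y, m)])) =
        cnt (2 ^ m) (fun y => ¬ MajL ms S (l ++ [(y, m)])) :=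
      cnt_congr fun y hy => (MajL_not (h2 y hy)).1
    have e2 := cnt_not (2 ^ m) (fun y => MajL ms S (l ++ [(y, m)]))
    simp only [MajL, NoTie, Maj]
    change (2 ^ m < 2 * cnt _ _ ↔ ¬ 2 ^ m < 2 * cnt _ _) ∧ 2 ^ m ≠ 2 * cnt _ _ ∧ _
    change 2 ^ m ≠ 2 * cnt _ _ at h1
    rw [e]
    refine ⟨?_, ?_, fun y hy => (MajL_not (h2 y hy)).2⟩
    · omega
    · omega

/-! ### runs of automata -/

theorem cols_le {w : List α} {l : List (ℕ × ℕ)} {m : ℕ} :
    cols w l ≤ m ↔ w.length ≤ m ∧ ∀ t ∈ l, t.2 ≤ m := by
  unfold cols
  rw [max_le_iff]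
  refine and_congr_right fun _ => ?_
  induction l with
  | nil => simp
  | cons t l ih => simp [ih]

theorem le_cols {w : List α} {l : List (ℕ × ℕ)} {t : ℕ × ℕ} (h : t ∈ l) : t.2 ≤ cols w l :=
  (cols_le.1 le_rfl).2 t h

theorem length_le_cols {w : List α} {l : List (ℕ × ℕ)} : w.length ≤ cols w l :=
  (cols_le.1 le_rfl).1

theorem digit_eq_none {m : ℕ} {t : ℕ × ℕ} : digit m t = none ↔ t.2 ≤ m := by
  unfold digit
  split_ifs with h
  · simp; omega
  · simp; omega

/-- nothing is shown in this column -/
def blank (o : Option α) (ds : List (Option Bool)) : Bool := o.isNone && ds.all Option.isNone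

theorem blank_iff {w : List α} {l : List (ℕ × ℕ)} {m : ℕ} :
    blank w[m]? (l.map (digit m)) = true ↔ cols w l ≤ m := by
  rw [cols_le]
  simp [blank, digit_eq_none]

/-- the automaton reading transformed digits, stopping at the first blank column -/
def Aut.trans (A : Aut α) (T : List (Option Bool) → List (Option Bool)) : Aut α where
  Q := A.Q
  fin := A.fin
  init := A.init
  step q o ds := if blank o (T ds) then q else A.step q o (T ds)
  acc := A.acc

theorem Aut.trans_run (A : Aut α) (T : List (Option Bool) → List (Option Bool)) (w : List α)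
    (L l : List (ℕ × ℕ)) (h : ∀ m, T (L.map (digit m)) = l.map (digit m)) (m : ℕ) :
    (A.trans T).run w L m = A.run w l (min m (cols w l)) := by
  induction m with
  | zero => simp [Aut.run, Aut.trans]
  | succ m ih =>
    by_cases hb : blank w[m]? (l.map (digit m)) = true
    · have e : (A.trans T).run w L (m + 1) = (A.trans T).run w L m := by
        have hb' := hb
        rw [← h] at hb'
        exact if_pos hb'
      rw [e, ih]
      rw [blank_iff] at hb
      congr 1
      omega
    · have e : (A.trans T).run w L (m + 1) =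
          A.step ((A.trans T).run w L m) w[m]? (T (L.map (digit m))) := by
        have hb' := hb
        rw [← h] at hb'
        exact if_neg hb'
      rw [e, ih, h]
      rw [blank_iff] at hb
      have e1 : min m (cols w l) = m := by omega
      have e2 : min (m + 1) (cols w l) = m + 1 := by omega
      rw [e1, e2]
      rfl

theorem Aut.trans_accepts (A : Aut α) {T : List (Option Bool) → List (Option Bool)} {w : List α}
    {L l : List (ℕ × ℕ)} (h : ∀ m, T (L.map (digit m)) = l.map (digit m))
    (hc : ∀ t ∈ l, t.2 ≤ cols w L) : (A.trans T).accepts w L ↔ A.accepts w l := by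
  have hc' : cols w l ≤ cols w L := cols_le.2 ⟨length_le_cols, hc⟩
  unfold Aut.accepts
  rw [A.trans_run T w L l h, min_eq_right hc']
  rfl

/-- Boolean combination -/
def Aut.prod (A B : Aut α) (f : Bool → Bool → Bool) : Aut α where
  Q := A.Q × B.Q
  fin := letI := A.fin; letI := B.fin; inferInstance
  init := (A.init, B.init)
  step q o ds := (A.step q.1 o ds, B.step q.2 o ds)
  acc q := f (A.acc q.1) (B.acc q.2)

theorem Aut.prod_run (A B : Aut α) (f : Bool → Bool → Bool) (w : List α) (l : List (ℕ × ℕ))
    (m : ℕ) : (A.prod B f).run w l m = (A.run w l m, B.run w l m) := by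
  induction m with
  | zero => rfl
  | succ m ih =>
    change (A.prod B f).step ((A.prod B f).run w l m) _ _ = _
    rw [ih]
    rfl

/-- recognizable relations -/
def Rec (P : List α → List (ℕ × ℕ) → Prop) : Prop :=
  ∃ A : Aut α, ∀ w l, A.accepts w l ↔ P w l

theorem Rec.aut (A : Aut α) : Rec A.accepts := ⟨A, fun _ _ => Iff.rfl⟩

theorem Rec.const (p : Prop) : Rec (α := α) fun _ _ => p := by
  classical
  refine ⟨⟨Unit, inferInstance, (), fun _ _ _ => (), fun _ => decide p⟩, fun w l => ?_⟩
  simp [Aut.accepts]

theorem Rec.not {P : List α → List (ℕ × ℕ) → Prop} (h : Rec P) : Rec fun w l => ¬ P w l := by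
  obtain ⟨A, hA⟩ := h
  refine ⟨A.prod A fun b _ => !b, fun w l => ?_⟩
  change _ ↔ ¬ P w l
  rw [← hA]
  unfold Aut.accepts
  rw [Aut.prod_run]
  simp [Aut.prod]

theorem Rec.and {P P' : List α → List (ℕ × ℕ) → Prop} (h : Rec P) (h' : Rec P') :
    Rec fun w l => P w l ∧ P' w l := by
  obtain ⟨A, hA⟩ := h
  obtain ⟨B, hB⟩ := h'
  refine ⟨A.prod B fun b c => b && c, fun w l => ?_⟩
  change _ ↔ P w l ∧ P' w l
  rw [← hA, ← hB]
  unfold Aut.accepts
  rw [Aut.prod_run]
  simp [Aut.prod]

theorem Rec.congr {P P' : List α → List (ℕ × ℕ) → Prop} (h : Rec P)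
    (e : ∀ w l, P w l ↔ P' w l) : Rec P' := by
  obtain ⟨A, hA⟩ := h
  exact ⟨A, fun w l => (hA w l).trans (e w l)⟩

theorem Rec.or {P P' : List α → List (ℕ × ℕ) → Prop} (h : Rec P) (h' : Rec P') :
    Rec fun w l => P w l ∨ P' w l :=
  (h.not.and h'.not).not.congr fun w l => by tauto

theorem Rec.ite {P P' P'' : List α → List (ℕ × ℕ) → Prop} (h : Rec P) (h' : Rec P')
    (h'' : Rec P'') : Rec fun w l => (P w l → P' w l) ∧ (¬ P w l → P'' w l) :=
  ((h.not.or h').and (h.or h'')).congr fun w l => by tauto

/-! ### special automata -/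

/-- the digit on track `i`, `0` if nothing is shown -/
def gb (ds : List (Option Bool)) (i : ℕ) : Bool := (ds[i]?.join).getD false

theorem gb_map {l : List (ℕ × ℕ)} {i x n : ℕ} (h : l[i]? = some (x, n)) (hx : x < 2 ^ n) (m : ℕ) :
    gb (l.map (digit m)) i = x.testBit m := by
  simp only [gb, List.getElem?_map, h, Option.map_some, digit]
  split_ifs with hm
  · rfl
  · have : x < 2 ^ m := hx.trans_le (Nat.pow_le_pow_right (by norm_num) (by omega))
    rw [Nat.testBit_lt_two_pow this]
    rfl

theorem mod_succ (x m : ℕ) : x % 2 ^ (m + 1) = x % 2 ^ m + 2 ^ m * (x.testBit m).toNat := by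
  rw [Nat.mod_pow_succ, Nat.toNat_testBit]

theorem mem_of_getElem? {l : List (ℕ × ℕ)} {i : ℕ} {t : ℕ × ℕ} (h : l[i]? = some t) : t ∈ l :=
  List.mem_of_getElem? h

theorem mod_cols {l : List (ℕ × ℕ)} {i x n : ℕ} (h : l[i]? = some (x, n)) (hx : x < 2 ^ n)
    (w : List α) : x % 2 ^ cols w l = x :=
  Nat.mod_eq_of_lt (hx.trans_le (Nat.pow_le_pow_right (by norm_num)
    (le_cols (w := w) (mem_of_getElem? h))))

/-- remembers the last three digits shown on track `t` -/
def regAut (t : ℕ) (j : Fin 3) : Aut α where
  Q := Fin 3 → Bool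
  fin := inferInstance
  init := fun _ => false
  step q _ ds := match ds[t]? with
    | some (some b) => ![q 1, q 2, b]
    | _ => q
  acc q := q j

theorem regAut_accepts (t : ℕ) (j : Fin 3) {w : List α} {l : List (ℕ × ℕ)} {x n : ℕ}
    (h : l[t]? = some (x, n + 3)) : (regAut t j).accepts w l ↔ x.testBit (n + j) = true := by
  have key : ∀ m, (regAut (α := α) t j).run w l m =
      fun i : Fin 3 => decide (3 ≤ min m (n + 3) + i) && x.testBit (min m (n + 3) + i - 3) := by
    intro m
    induction m with
    | zero =>
      funext i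
      have : ¬ (3 ≤ min 0 (n + 3) + (i : ℕ)) := by omega
      simp only [Aut.run, regAut, this, decide_false, Bool.false_and]
    | succ m ih =>
      have e : (regAut (α := α) t j).run w l (m + 1) =
        (regAut (α := α) t j).step ((regAut (α := α) t j).run w l m) w[m]? (l.map (digit m)) := rfl
      rw [e, ih]
      by_cases hm : m < n + 3
      · have e1 : min m (n + 3) = m := by omega
        have e2 : min (m + 1) (n + 3) = m + 1 := by omega
        simp only [regAut, List.getElem?_map, h, Option.map_some, digit, if_pos hm, e1, e2]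
        funext i
        fin_cases i
        · simp
        · simp
        · simp
      · have e1 : min m (n + 3) = n + 3 := by omega
        have e2 : min (m + 1) (n + 3) = n + 3 := by omega
        simp only [regAut, List.getElem?_map, h, Option.map_some, digit, if_neg hm, e1, e2]
  have hc : n + 3 ≤ cols w l := le_cols (w := w) (mem_of_getElem? h)
  unfold Aut.accepts
  rw [key, min_eq_right hc]
  simp only [regAut]
  rw [show n + 3 + (j : ℕ) - 3 = n + j by omega]
  simp
  intro _
  omega

/-- comparison of tracks -/
def ltAut (i j : ℕ) : Aut α where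
  Q := Bool
  fin := inferInstance
  init := false
  step q _ ds := if gb ds i = gb ds j then q else gb ds j
  acc q := q

theorem ltAut_accepts {i j : ℕ} {w : List α} {l : List (ℕ × ℕ)} {x y n n' : ℕ}
    (hi : l[i]? = some (x, n)) (hx : x < 2 ^ n) (hj : l[j]? = some (y, n')) (hy : y < 2 ^ n') :
    (ltAut i j).accepts w l ↔ x < y := by
  have key : ∀ m, (ltAut (α := α) i j).run w l m = decide (x % 2 ^ m < y % 2 ^ m) := by
    intro m
    induction m with
    | zero => simp [Aut.run, ltAut, Nat.mod_one]
    | succ m ih =>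
      have e : (ltAut (α := α) i j).run w l (m + 1) =
        (ltAut (α := α) i j).step ((ltAut (α := α) i j).run w l m) w[m]? (l.map (digit m)) := rfl
      rw [e, ih, mod_succ x, mod_succ y]
      simp only [ltAut, gb_map hi hx, gb_map hj hy]
      have h1 : x % 2 ^ m < 2 ^ m := Nat.mod_lt _ (by positivity)
      have h2 : y % 2 ^ m < 2 ^ m := Nat.mod_lt _ (by positivity)
      cases x.testBit m <;> cases y.testBit m <;> simp <;> omega
  unfold Aut.accepts
  rw [key, mod_cols hi hx, mod_cols hj hy]
  simp [ltAut]

/-- addition of tracks; the state consists of the carry and of the comparison so far -/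
def addAut (i j k : ℕ) : Aut α where
  Q := Bool × Bool
  fin := inferInstance
  init := (false, true)
  step q _ ds := (decide (2 ≤ (gb ds i).toNat + (gb ds j).toNat + q.1.toNat),
    q.2 && decide (((gb ds i).toNat + (gb ds j).toNat + q.1.toNat) % 2 = (gb ds k).toNat))
  acc q := !q.1 && q.2

theorem addAut_accepts {i j k : ℕ} {w : List α} {l : List (ℕ × ℕ)} {x y z n n' n'' : ℕ}
    (hi : l[i]? = some (x, n)) (hx : x < 2 ^ n) (hj : l[j]? = some (y, n')) (hy : y < 2 ^ n')
    (hk : l[k]? = some (z, n'')) (hz : z < 2 ^ n'') :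
    (addAut i j k).accepts w l ↔ x + y = z := by
  have key : ∀ m, (addAut (α := α) i j k).run w l m =
      (decide (2 ^ m ≤ x % 2 ^ m + y % 2 ^ m),
        decide ((x % 2 ^ m + y % 2 ^ m) % 2 ^ m = z % 2 ^ m)) := by
    intro m
    induction m with
    | zero => simp [Aut.run, addAut, Nat.mod_one]
    | succ m ih =>
      have e : (addAut (α := α) i j k).run w l (m + 1) =
        (addAut (α := α) i j k).step ((addAut (α := α) i j k).run w l m) w[m]?
          (l.map (digit m)) := rfl
      rw [e, ih, mod_succ x, mod_succ y, mod_succ z, pow_succ]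
      simp only [addAut, gb_map hi hx, gb_map hj hy, gb_map hk hz]
      have h0 : 0 < 2 ^ m := by positivity
      have h1 : x % 2 ^ m < 2 ^ m := Nat.mod_lt _ h0
      have h2 : y % 2 ^ m < 2 ^ m := Nat.mod_lt _ h0
      have h3 : z % 2 ^ m < 2 ^ m := Nat.mod_lt _ h0
      generalize x % 2 ^ m = X at *
      generalize y % 2 ^ m = Y at *
      generalize z % 2 ^ m = Z at *
      generalize 2 ^ m = P at *
      have hmod : ∀ s, s < 2 * P → s % P = if P ≤ s then s - P else s := by
        intro s hs
        split_ifs with h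
        · rw [Nat.mod_eq_sub_mod h, Nat.mod_eq_of_lt (by omega)]
        · exact Nat.mod_eq_of_lt (by omega)
      have hmod2 : ∀ s, s < 2 * (P * 2) → s % (P * 2) = if P * 2 ≤ s then s - P * 2 else s := by
        intro s hs
        split_ifs with h
        · rw [Nat.mod_eq_sub_mod h, Nat.mod_eq_of_lt (by omega)]
        · exact Nat.mod_eq_of_lt (by omega)
      rw [hmod (X + Y) (by omega)]
      by_cases hc : P ≤ X + Y
      · simp only [hc, if_true, decide_true, Bool.toNat_true]
        cases x.testBit m <;> cases y.testBit m <;> cases z.testBit m <;>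
          simp only [Bool.toNat_false, Bool.toNat_true, mul_zero, mul_one, add_zero] <;>
          rw [hmod2 _ (by omega)] <;> split_ifs <;> simp <;> omega
      · simp only [hc, if_false, decide_false, Bool.toNat_false]
        cases x.testBit m <;> cases y.testBit m <;> cases z.testBit m <;>
          simp only [Bool.toNat_false, Bool.toNat_true, mul_zero, mul_one, add_zero] <;>
          rw [hmod2 _ (by omega)] <;> split_ifs <;> simp <;> omega
  unfold Aut.accepts
  rw [key, mod_cols hi hx, mod_cols hj hy, mod_cols hk hz]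
  simp only [addAut, Bool.and_eq_true, Bool.not_eq_true', decide_eq_false_iff_not, not_le,
    decide_eq_true_eq]
  have hz' : z < 2 ^ cols w l := hz.trans_le (Nat.pow_le_pow_right (by norm_num)
    (le_cols (w := w) (mem_of_getElem? hk)))
  constructor
  · rintro ⟨h1, h2⟩
    rwa [Nat.mod_eq_of_lt h1] at h2
  · rintro rfl
    exact ⟨hz', Nat.mod_eq_of_lt hz'⟩

/-- comparison of a track with a constant -/
def constAut (i n : ℕ) : Aut α where
  Q := Option (Fin (n + 1))
  fin := inferInstance
  init := some (Fin.last n)
  step q _ ds := match q with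
    | none => none
    | some v => if decide (v.1 % 2 = 1) = gb ds i then
        some ⟨v.1 / 2, lt_of_le_of_lt (Nat.div_le_self _ _) v.2⟩ else none
  acc q := match q with
    | none => false
    | some v => decide (v.1 = 0)

theorem constAut_accepts {i c : ℕ} {w : List α} {l : List (ℕ × ℕ)} {x n : ℕ}
    (hi : l[i]? = some (x, n)) (hx : x < 2 ^ n) :
    (constAut i c).accepts w l ↔ x = c := by
  have key : ∀ m, (constAut (α := α) i c).run w l m =
      if x % 2 ^ m = c % 2 ^ m then
        some ⟨c / 2 ^ m, lt_of_le_of_lt (Nat.div_le_self _ _) (Nat.lt_succ_self c)⟩ else none := by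
    intro m
    induction m with
    | zero => simp [Aut.run, constAut, Nat.mod_one, Fin.last]
    | succ m ih =>
      have e : (constAut (α := α) i c).run w l (m + 1) =
        (constAut (α := α) i c).step ((constAut (α := α) i c).run w l m) w[m]?
          (l.map (digit m)) := rfl
      rw [e, ih, mod_succ x, mod_succ c]
      simp only [constAut, gb_map hi hx]
      have h0 : 0 < 2 ^ m := by positivity
      have h1 : x % 2 ^ m < 2 ^ m := Nat.mod_lt _ h0
      have h2 : c % 2 ^ m < 2 ^ m := Nat.mod_lt _ h0
      by_cases h : x % 2 ^ m = c % 2 ^ m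
      · simp only [h, if_true]
        rw [← Nat.testBit_eq_decide_div_mod_eq]
        by_cases hb : c.testBit m = x.testBit m
        · rw [if_pos hb, hb, if_pos rfl]
          simp only [Nat.div_div_eq_div_mul, pow_succ]
        · rw [if_neg hb, if_neg]
          intro h'
          apply hb
          cases hc : c.testBit m <;> cases hx' : x.testBit m <;> simp_all
      · simp only [h, if_false]
        rw [if_neg]
        intro h'
        cases hc : c.testBit m <;> cases hx' : x.testBit m <;> simp_all <;> omega
  unfold Aut.accepts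
  rw [key, mod_cols hi hx]
  by_cases h : x = c % 2 ^ cols w l
  · rw [if_pos h]
    simp only [constAut, decide_eq_true_eq]
    constructor
    · intro h'
      have := Nat.div_add_mod c (2 ^ cols w l)
      rw [h', mul_zero, zero_add] at this
      omega
    · rintro rfl
      exact Nat.div_eq_of_lt (hx.trans_le (Nat.pow_le_pow_right (by norm_num)
        (le_cols (w := w) (mem_of_getElem? hi))))
  · rw [if_neg h]
    simp only [constAut]
    constructor
    · intro h'; simp at h'
    · rintro rfl
      exact absurd (Nat.mod_eq_of_lt (hx.trans_le (Nat.pow_le_pow_right (by norm_num)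
        (le_cols (w := w) (mem_of_getElem? hi))))).symm h

/-- all digits `1` of track `i` are in columns where track `t` shows something -/
def powAut (i t : ℕ) : Aut α where
  Q := Bool
  fin := inferInstance
  init := true
  step q _ ds := q && !(gb ds i && (ds[t]?.join).isNone)
  acc q := q

theorem powAut_accepts {i t : ℕ} {w : List α} {l : List (ℕ × ℕ)} {x n y r : ℕ}
    (hi : l[i]? = some (x, n)) (hx : x < 2 ^ n) (ht : l[t]? = some (y, r)) :
    (powAut i t).accepts w l ↔ x < 2 ^ r := by
  have key : ∀ m, (powAut (α := α) i t).run w l m = true ↔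
      ∀ j < m, x.testBit j = true → j < r := by
    intro m
    induction m with
    | zero => simp [Aut.run, powAut]
    | succ m ih =>
      have e : (powAut (α := α) i t).run w l (m + 1) = true ↔
          ((powAut (α := α) i t).run w l m = true ∧ (gb (l.map (digit m)) i = false ∨
            (((l.map (digit m))[t]?).join).isNone = false)) := by
        have gen : ∀ p q r : Bool, (p && !(q && r)) = true ↔
            (p = true ∧ (q = false ∨ r = false)) := by decide
        exact gen _ _ _
      have e2 : (((l.map (digit m))[t]?).join).isNone = true ↔ r ≤ m := by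
        simp [List.getElem?_map, ht, digit_eq_none]
      rw [e, ih, gb_map hi hx]
      constructor
      · rintro ⟨h1, h2⟩ j hj hb
        rcases Nat.lt_succ_iff_lt_or_eq.1 hj with h | rfl
        · exact h1 j h hb
        · rcases h2 with h2 | h2
          · rw [hb] at h2; exact absurd h2 (by decide)
          · by_contra hc
            rw [e2.2 (by omega)] at h2
            exact absurd h2 (by decide)
      · intro h
        refine ⟨fun j hj => h j (by omega), ?_⟩
        by_cases hb : x.testBit m = true
        · right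
          have := h m (by omega) hb
          by_contra hc
          rw [Bool.not_eq_false, e2] at hc
          omega
        · left; simpa using hb
  unfold Aut.accepts
  change (powAut (α := α) i t).run w l (cols w l) = true ↔ _
  rw [key]
  constructor
  · intro h
    apply Nat.lt_pow_two_of_testBit
    intro j hj
    by_contra hb
    rw [Bool.not_eq_false] at hb
    by_cases hc : j < cols w l
    · have := h j hc hb
      omega
    · have h1 : n ≤ cols w l := le_cols (w := w) (mem_of_getElem? hi)
      have h2 : x < 2 ^ j := hx.trans_le (Nat.pow_le_pow_right (by norm_num) (by omega))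
      rw [Nat.testBit_lt_two_pow h2] at hb
      exact absurd hb (by decide)
  · intro h j _ hb
    by_contra hc
    have h2 : x < 2 ^ j := h.trans_le (Nat.pow_le_pow_right (by norm_num) (by omega))
    rw [Nat.testBit_lt_two_pow h2] at hb
    exact absurd hb (by decide)

/-- exactly one digit `1` on track `j`, in a column satisfying `p` -/
def oneAut (j : ℕ) (p : Option α → List (Option Bool) → Bool) : Aut α where
  Q := Fin 3
  fin := inferInstance
  init := 0
  step q o ds := if gb ds j then (if q = 0 ∧ p o ds = true then 1 else 2) else q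
  acc q := decide (q = 1)

theorem oneAut_accepts {j : ℕ} {p : Option α → List (Option Bool) → Bool} {w : List α}
    {l : List (ℕ × ℕ)} {x n : ℕ} (hj : l[j]? = some (x, n)) (hx : x < 2 ^ n) :
    (oneAut j p).accepts w l ↔ ∃ m, x = 2 ^ m ∧ p w[m]? (l.map (digit m)) = true := by
  have key : ∀ M, ((oneAut j p).run w l M = (0 : Fin 3) ↔ x % 2 ^ M = 0) ∧
      ((oneAut j p).run w l M = (1 : Fin 3) ↔
        ∃ m, x % 2 ^ M = 2 ^ m ∧ p w[m]? (l.map (digit m)) = true) := by
    intro M
    induction M with
    | zero =>
      constructor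
      · simp [Aut.run, oneAut, Nat.mod_one]
      · simp only [Aut.run, oneAut, pow_zero, Nat.mod_one]
        constructor
        · intro h; exact absurd h (by decide)
        · rintro ⟨m, h, _⟩
          exact absurd h (by positivity)
    | succ M ih =>
      have e : (oneAut j p).run w l (M + 1) =
        (oneAut j p).step ((oneAut j p).run w l M) w[M]? (l.map (digit M)) := rfl
      have h0 : 0 < 2 ^ M := by positivity
      have h1 : x % 2 ^ M < 2 ^ M := Nat.mod_lt _ h0
      rw [e, mod_succ x]
      simp only [oneAut, gb_map hj hx]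
      cases hb : x.testBit M
      · simp only [Bool.toNat_false, mul_zero, add_zero]
        exact ih
      · simp only [if_true, Bool.toNat_true, mul_one]
        obtain ⟨ih1, ih2⟩ := ih
        constructor
        · constructor
          · intro h
            split_ifs at h <;> exact absurd h (by decide)
          · intro h; omega
        · constructor
          · intro h
            split_ifs at h with hc
            · refine ⟨M, ?_, hc.2⟩
              have := ih1.1 hc.1
              omega
            · exact absurd h (by decide)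
          · rintro ⟨m, hm, hp⟩
            have hmM : M ≤ m := by
              by_contra hlt
              have : 2 ^ m < 2 ^ M := Nat.pow_lt_pow_right (by norm_num) (by omega)
              omega
            have hmM' : m ≤ M := by
              by_contra hlt
              have : 2 ^ (M + 1) ≤ 2 ^ m := Nat.pow_le_pow_right (by norm_num) (by omega)
              rw [pow_succ] at this
              omega
            obtain rfl : m = M := le_antisymm hmM' hmM
            have h2 : x % 2 ^ m = 0 := by omega
            rw [if_pos ⟨ih1.2 h2, hp⟩]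
  unfold Aut.accepts
  have := (key (cols w l)).2
  rw [mod_cols hj hx] at this
  rw [← this]
  simp [oneAut]


theorem getElem?_base {k : ℕ} (a : Fin k → ℕ) (r : ℕ) (i : Fin k) (L : List (ℕ × ℕ)) :
    ((List.ofFn fun i => (a i, r)) ++ L)[(i : ℕ)]? = some (a i, r) := by
  rw [List.getElem?_append_left (by simp)]
  simp

theorem getElem?_ofFn' {k : ℕ} (a : Fin k → ℕ) (r : ℕ) (i : Fin k) :
    (List.ofFn fun i => (a i, r))[(i : ℕ)]? = some (a i, r) := by
  simp

open Classical in
theorem cnt_eight (p q : Prop) :
    cnt 8 (fun b => (b < 2 ∧ p) ∨ (2 ≤ b ∧ b < 4 ∧ q) ∨ b = 4) =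
      (if p then 2 else 0) + (if q then 2 else 0) + 1 := by
  by_cases hp : p <;> by_cases hq : q <;> simp [cnt_eq_count, Nat.count_succ, hp, hq]

theorem sel1 {β : Type} (A B C : List β) (x : β) {k n : ℕ} (h : A.length = k) (h' : B.length = n) :
    (A ++ [x] ++ B ++ C).take k ++ ((A ++ [x] ++ B ++ C).drop (k + 1)).take n = A ++ B := by
  subst h h'
  have e : (A ++ [x] ++ B ++ C).drop (A.length + 1) = B ++ C := by
    rw [List.append_assoc, List.drop_left' (by simp)]
  rw [e, List.take_left' rfl, List.append_assoc, List.append_assoc, List.take_left' rfl]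

theorem sel2 {β : Type} (A B C : List β) (x : β) {k n : ℕ} (h : A.length = k) (h' : B.length = n) :
    (A ++ [x] ++ B ++ C).take k ++ (A ++ [x] ++ B ++ C).drop (k + 1 + n) = A ++ C := by
  subst h h'
  rw [List.drop_left' (by simp; omega), List.append_assoc, List.append_assoc,
    List.take_left' rfl]

section api
variable {k l : ℕ} {S T : List α → (Fin k → ℕ) → Prop} {f g : List α → (Fin k → ℕ) → ℕ}

/-! ### H1: the basic closure properties -/

theorem InCH.congr (h : InCH S) (e : ∀ w a, S w a ↔ T w a) : InCH T := by
  have : S = T := by funext w a; exact propext (e w a)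
  exact this ▸ h

theorem InCH.const (p : Prop) : InCH (α := α) (k := k) fun _ _ => p := by
  obtain ⟨A, hA⟩ := Rec.const (α := α) p
  exact fun r => ⟨[], A, fun w a _ => ⟨trivial, (hA w _).symm⟩⟩

theorem InCH.not (h : InCH S) : InCH fun w a => ¬ S w a := by
  intro r
  obtain ⟨ms, A, hA⟩ := h r
  obtain ⟨B, hB⟩ := (Rec.aut A).not
  refine ⟨ms, B, fun w a ha => ?_⟩
  obtain ⟨h1, h2⟩ := hA w a ha
  have e : B.accepts w = fun l => ¬ A.accepts w l := by
    funext l; exact propext (hB w l)
  obtain ⟨h3, h4⟩ := MajL_not h1
  rw [e]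
  exact ⟨h4, (not_congr h2).trans h3.symm⟩

/-- a common quantifier prefix, first a quantifier over three bits: the conjunction is true for
`2 [S] + 2 [T] + 1` of the eight values -/
theorem InCH.and (h : InCH S) (h' : InCH T) : InCH fun w a => S w a ∧ T w a := by
  classical
  intro r
  obtain ⟨ms, A, hA⟩ := h r
  obtain ⟨ms', A', hA'⟩ := h' r
  obtain ⟨B, hB⟩ := Rec.ite (Rec.aut (regAut (α := α) k 2))
    ((Rec.aut (regAut (α := α) k 1)).not.and (Rec.aut (regAut (α := α) k 0)).not)
    (Rec.ite (Rec.aut (regAut (α := α) k 1))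
      (Rec.aut (A'.trans fun ds => ds.take k ++ ds.drop (k + 1 + ms.length)))
      (Rec.aut (A.trans fun ds => ds.take k ++ (ds.drop (k + 1)).take ms.length)))
  refine ⟨Polynomial.C 3 :: (ms ++ ms'), B, fun w a ha => ?_⟩
  obtain ⟨t1, e1⟩ := hA w a ha
  obtain ⟨t2, e2⟩ := hA' w a ha
  set R := r.eval w.length with hR
  set l0 : List (ℕ × ℕ) := List.ofFn fun i => (a i, R) with hl0
  have hlen : l0.length = k := by simp [hl0]
  set Ms := ms.map fun m => m.eval w.length with hMs
  set Ms' := ms'.map fun m => m.eval w.length with hMs'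
  have hMlen : Ms.length = ms.length := by simp [hMs]
  have hB' : ∀ b < 8, ∀ ys, Ok Ms ys → ∀ ys', Ok Ms' ys' →
      (B.accepts w (l0 ++ [(b, 3)] ++ ys ++ ys') ↔
        (b < 2 ∧ A.accepts w (l0 ++ ys)) ∨ (2 ≤ b ∧ b < 4 ∧ A'.accepts w (l0 ++ ys')) ∨
          b = 4) := by
    intro b hb ys hys ys' hys'
    have hyl : ys.length = ms.length := by rw [← hMlen]; exact hys.length_eq.symm
    have hk : (l0 ++ [(b, 3)] ++ ys ++ ys')[k]? = some (b, 0 + 3) := by
      rw [List.append_assoc, List.append_assoc, List.getElem?_append_right (by omega), hlen]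
      simp
    refine (hB w _).trans ?_
    beta_reduce
    rw [regAut_accepts k 2 hk, regAut_accepts k 1 hk, regAut_accepts k 0 hk]
    have c1 : (A.trans fun ds => ds.take k ++ (ds.drop (k + 1)).take ms.length).accepts w
        (l0 ++ [(b, 3)] ++ ys ++ ys') ↔ A.accepts w (l0 ++ ys) := by
      apply Aut.trans_accepts
      · intro m
        simp only [List.map_append, List.map_cons, List.map_nil]
        exact sel1 _ _ _ _ (by simp [hlen]) (by simp [hyl])
      · intro t ht
        apply le_cols
        simp only [List.mem_append] at ht ⊢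
        tauto
    have c2 : (A'.trans fun ds => ds.take k ++ ds.drop (k + 1 + ms.length)).accepts w
        (l0 ++ [(b, 3)] ++ ys ++ ys') ↔ A'.accepts w (l0 ++ ys') := by
      apply Aut.trans_accepts
      · intro m
        simp only [List.map_append, List.map_cons, List.map_nil]
        exact sel2 _ _ _ _ (by simp [hlen]) (by simp [hyl])
      · intro t ht
        apply le_cols
        simp only [List.mem_append] at ht ⊢
        tauto
    rw [c1, c2]
    interval_cases b <;> simp [Nat.testBit, Nat.shiftRight_succ]
  have hq : ∀ b < 8,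
      (MajL (Ms ++ Ms') (B.accepts w) (l0 ++ [(b, 3)]) ↔
        (b < 2 ∧ MajL Ms (A.accepts w) l0) ∨ (2 ≤ b ∧ b < 4 ∧ MajL Ms' (A'.accepts w) l0) ∨
          b = 4) ∧ NoTie (Ms ++ Ms') (B.accepts w) (l0 ++ [(b, 3)]) := by
    intro b hb
    rw [MajL_append, NoTie_append]
    rcases lt_or_ge b 2 with h2 | h2
    · have d : ∀ ys, Ok Ms ys → (MajL Ms' (B.accepts w) (l0 ++ [(b, 3)] ++ ys) ↔
          A.accepts w (l0 ++ ys)) ∧ NoTie Ms' (B.accepts w) (l0 ++ [(b, 3)] ++ ys) := by
        intro ys hys
        refine MajL_dummy fun ys' hys' => (hB' b hb ys hys ys' hys').trans ?_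
        constructor
        · rintro (h | h | h)
          · exact h.2
          · omega
          · omega
        · intro h; exact Or.inl ⟨h2, h⟩
      refine ⟨(MajL_congr fun ys hys => (d ys hys).1).trans ?_,
        (NoTie_congr fun ys hys => (d ys hys).1).2 t1, fun ys hys => (d ys hys).2⟩
      constructor
      · intro h; exact Or.inl ⟨h2, h⟩
      · rintro (h | h | h)
        · exact h.2
        · omega
        · omega
    · rcases lt_or_ge b 4 with h4 | h4
      · have d : ∀ ys, Ok Ms ys → ∀ ys', Ok Ms' ys' →
            (B.accepts w (l0 ++ [(b, 3)] ++ ys ++ ys') ↔ A'.accepts w (l0 ++ ys')) := by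
          intro ys hys ys' hys'
          refine (hB' b hb ys hys ys' hys').trans ?_
          constructor
          · rintro (h | h | h)
            · omega
            · exact h.2.2
            · omega
          · intro h; exact Or.inr (Or.inl ⟨h2, h4, h⟩)
        have d1 := MajL_dummy (ms := Ms) (S := MajL Ms' (B.accepts w)) (l := l0 ++ [(b, 3)])
          (p := MajL Ms' (A'.accepts w) l0) fun ys hys => MajL_congr (d ys hys)
        refine ⟨d1.1.trans ?_, d1.2, fun ys hys => (NoTie_congr (d ys hys)).2 t2⟩
        constructor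
        · intro h; exact Or.inr (Or.inl ⟨h2, h4, h⟩)
        · rintro (h | h | h)
          · omega
          · exact h.2.2
          · omega
      · have d : ∀ ys, Ok Ms ys → ∀ ys', Ok Ms' ys' →
            (B.accepts w (l0 ++ [(b, 3)] ++ ys ++ ys') ↔ b = 4) := by
          intro ys hys ys' hys'
          refine (hB' b hb ys hys ys' hys').trans ?_
          constructor
          · rintro (h | h | h)
            · omega
            · omega
            · exact h
          · intro h; exact Or.inr (Or.inr h)
        have d1 := MajL_dummy (ms := Ms) (S := MajL Ms' (B.accepts w)) (l := l0 ++ [(b, 3)])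
          (p := b = 4) fun ys hys => (MajL_dummy (d ys hys)).1
        refine ⟨d1.1.trans ?_, d1.2, fun ys hys => (MajL_dummy (d ys hys)).2⟩
        constructor
        · intro h; exact Or.inr (Or.inr h)
        · rintro (h | h | h)
          · omega
          · omega
          · exact h
  have hc : cnt (2 ^ 3) (fun b => MajL (Ms ++ Ms') (B.accepts w) (l0 ++ [(b, 3)])) =
      (if MajL Ms (A.accepts w) l0 then 2 else 0) +
        (if MajL Ms' (A'.accepts w) l0 then 2 else 0) + 1 := by
    rw [← cnt_eight]
    exact cnt_congr fun b hb => (hq b hb).1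
  have em : (Polynomial.C 3 :: (ms ++ ms')).map (fun m => m.eval w.length) = 3 :: (Ms ++ Ms') := by
    simp [hMs, hMs']
  rw [em]
  unfold cnt at hc
  simp only [NoTie, MajL, Maj, hc]
  rw [e1, e2]
  refine ⟨⟨?_, fun b hb => (hq b hb).2⟩, ?_⟩
  · split_ifs <;> norm_num
  · by_cases h1 : MajL Ms (A.accepts w) l0 <;> by_cases h2 : MajL Ms' (A'.accepts w) l0 <;>
      simp [h1, h2]

theorem InCH.or (h : InCH S) (h' : InCH T) : InCH fun w a => S w a ∨ T w a :=
  (h.not.and h'.not).not.congr fun w a => by tauto

theorem InCH.imp (h : InCH S) (h' : InCH T) : InCH fun w a => (S w a → T w a) :=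
  (h.not.or h').congr fun w a => by tauto

theorem InCH.iff (h : InCH S) (h' : InCH T) : InCH fun w a => (S w a ↔ T w a) :=
  ((h.imp h').and (h'.imp h)).congr fun w a => by tauto

/-- every relation recognized by an automaton (for every number of digits shown) -/
theorem InCH.of_aut (A : Aut α)
    (h : ∀ (r : ℕ) (w : List α) (a : Fin k → ℕ), (∀ i, a i < 2 ^ r) →
      (S w a ↔ A.accepts w (List.ofFn fun i => (a i, r)))) : InCH S :=
  fun r => ⟨[], A, fun w a ha => ⟨trivial, h _ w a ha⟩⟩

/-- comparison of variables -/
theorem InCH.lt_var (i j : Fin k) : InCH (α := α) fun _ a => a i < a j :=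
  InCH.of_aut (ltAut i j) fun r _ a ha =>
    (ltAut_accepts (getElem?_ofFn' a r i) (ha i) (getElem?_ofFn' a r j) (ha j)).symm

theorem InCH.eq_var (i j : Fin k) : InCH (α := α) fun _ a => a i = a j :=
  ((InCH.lt_var i j).not.and (InCH.lt_var j i).not).congr fun _ a => by omega

/-- addition of variables -/
theorem InCH.add_var (i j l : Fin k) : InCH (α := α) fun _ a => a i + a j = a l :=
  InCH.of_aut (addAut i j l) fun r _ a ha =>
    (addAut_accepts (getElem?_ofFn' a r i) (ha i) (getElem?_ofFn' a r j) (ha j)
      (getElem?_ofFn' a r l) (ha l)).symm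

/-- the variable is `0`, the variable is `1` -/
theorem InCH.eq_const_var (i : Fin k) (n : ℕ) : InCH (α := α) fun _ a => a i = n :=
  InCH.of_aut (constAut i n) fun r _ a ha =>
    (constAut_accepts (getElem?_ofFn' a r i) (ha i)).symm

/-- renaming of variables -/
theorem InCH.rename {S : List α → (Fin l → ℕ) → Prop} (h : InCH S) (σ : Fin l → Fin k) :
    InCH fun w a => S w (fun i => a (σ i)) := by
  intro r
  obtain ⟨ms, A, hA⟩ := h r
  refine ⟨ms, A.trans fun ds => (List.ofFn fun i => (ds[(σ i : ℕ)]?).getD none) ++ ds.drop k,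
    fun w a ha => ?_⟩
  obtain ⟨t, e⟩ := hA w (fun i => a (σ i)) fun i => ha (σ i)
  have key : ∀ ys : List (ℕ × ℕ),
      ((A.trans fun ds => (List.ofFn fun i => (ds[(σ i : ℕ)]?).getD none) ++ ds.drop k).accepts w
        ((List.ofFn fun i => (a i, r.eval w.length)) ++ ys) ↔
        A.accepts w ((List.ofFn fun i => (a (σ i), r.eval w.length)) ++ ys)) := by
    intro ys
    apply Aut.trans_accepts
    · intro m
      simp only [List.map_append, List.map_ofFn]
      rw [List.drop_left' (by simp)]
      congr 1
      congr 1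
      funext i
      rw [List.getElem?_append_left (by simp)]
      simp
    · intro u hu
      apply le_cols
      simp only [List.mem_append, List.mem_ofFn] at hu ⊢
      rcases hu with ⟨i, rfl⟩ | hu
      · exact Or.inl ⟨σ i, rfl⟩
      · exact Or.inr hu
  exact ⟨(NoTie_congr fun ys _ => key ys).2 t, e.trans (MajL_congr fun ys _ => key ys).symm⟩

/-- the variable has at most `r` digits -/
theorem InCH.lt_pow (i : Fin k) (r : Polynomial ℕ) :
    InCH fun (w : List α) a => a i < 2 ^ r.eval w.length := by
  intro r'
  refine ⟨[r], powAut i k, fun w a ha => ?_⟩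
  have := MajL_dummy (ms := [r.eval w.length]) (S := (powAut (α := α) i k).accepts w)
    (p := a i < 2 ^ r.eval w.length) (l := List.ofFn fun i => (a i, r'.eval w.length)) (by
      intro ys hys
      cases hys with
      | @cons _ t _ ys h hys =>
        cases hys
        obtain ⟨y, n⟩ := t
        obtain ⟨rfl, hy⟩ := h
        refine powAut_accepts (getElem?_base a _ i _) (ha i) (y := y) ?_
        rw [List.getElem?_append_right (by simp)]
        simp)
  exact ⟨this.2, this.1.symm⟩

/-- the digits shown on all tracks of which the track `t` shows a digit -/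
def pad (d x : Option Bool) : Option Bool := if d.isSome then some (x.getD false) else none

theorem pad_digit {d n R : ℕ} {m : ℕ} {x y : ℕ} (h : ∀ j < R, (x.testBit j && decide (j < n)) = y.testBit j) :
    pad (digit m (d, R)) (digit m (x, n)) = digit m (y, R) := by
  unfold pad digit
  by_cases hm : m < R
  · simp only [hm, if_true, Option.isSome_some]
    rw [← h m hm]
    by_cases hn : m < n <;> simp [hn]
  · simp [hm]

theorem cnt_eight_mul (N : ℕ) (P : ℕ → Prop) :
    cnt (8 * N) P = cnt N (fun y => P (N * 0 + y)) + cnt N (fun y => P (N * 1 + y)) +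
      cnt N (fun y => P (N * 2 + y)) + cnt N (fun y => P (N * 3 + y)) +
      cnt N (fun y => P (N * 4 + y)) + cnt N (fun y => P (N * 5 + y)) +
      cnt N (fun y => P (N * 6 + y)) + cnt N (fun y => P (N * 7 + y)) := by
  have e : 8 * N = N * 0 + N + N + N + N + N + N + N + N := by ring
  rw [e, cnt_add, cnt_add, cnt_add, cnt_add, cnt_add, cnt_add, cnt_add, cnt_add]
  have e0 : cnt (N * 0) P = 0 := by rw [mul_zero]; exact cnt_zero P
  rw [e0, zero_add, show N * 0 + N = N * 1 by ring, show N * 1 + N = N * 2 by ring,
    show N * 2 + N = N * 3 by ring, show N * 3 + N = N * 4 by ring,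
    show N * 4 + N = N * 5 by ring, show N * 5 + N = N * 6 by ring,
    show N * 6 + N = N * 7 by ring]

/-- the number of solutions with polynomially many digits is larger than a variable: one
quantifier over numbers with `R + 3` digits (`R ≥ r` the common length), preceded or followed by a
dummy quantifier of length `R` (which marks the position `R`), `R + 3` digits = number `y < 2^R` and
three tag bits, the number of accepted values is `2 #S + (2^(R+2) - 2 c - 1)`, where `c` is the
value of the variable -/
theorem InCH.card_gt {S : List α → (Fin k → ℕ) → ℕ → Prop}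
    (h : InCH (k := k + 1) fun w b => S w (Fin.tail b) (b 0)) (r : Polynomial ℕ) (i : Fin k) :
    InCH fun w a => a i < Nat.card {y : ℕ // y < 2 ^ r.eval w.length ∧ S w a y} := by
  classical
  intro r'
  obtain ⟨ms, A, hA⟩ := (h.and (InCH.lt_pow 0 r)) (r + r')
  -- the digits for the automaton `A`
  let T : List (Option Bool) → List (Option Bool) := fun ds =>
    pad (ds[k]?.join) (ds[k + 1]?.join) :: (ds.take k).map (pad (ds[k]?.join)) ++ ds.drop (k + 2)
  let T' : List (Option Bool) → List (Option Bool) := fun ds =>
    [pad (ds[k]?.join) (ds[k + 1]?.join), pad (ds[k]?.join) (ds[(i : ℕ)]?.join)]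
  obtain ⟨B, hB⟩ := Rec.ite (Rec.aut (regAut (α := α) (k + 1) 2))
    ((Rec.aut (regAut (α := α) (k + 1) 1)).not.and
      ((Rec.aut (regAut (α := α) (k + 1) 0)).not.or
        (Rec.aut ((constAut (α := α) 0 0).trans T')).not))
    (Rec.ite (Rec.aut (regAut (α := α) (k + 1) 1))
      (Rec.aut ((ltAut (α := α) 0 1).trans T')).not
      (Rec.aut (A.trans T)))
  refine ⟨(r + r') :: (r + r' + Polynomial.C 3) :: ms, B, fun w a ha => ?_⟩
  set n := w.length with hn
  set R := (r + r').eval n with hR
  have hRe : R = r.eval n + r'.eval n := by rw [hR, Polynomial.eval_add]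
  have ha' : ∀ i, a i < 2 ^ R := fun i =>
    (ha i).trans_le (Nat.pow_le_pow_right (by norm_num) (by omega))
  set l0 : List (ℕ × ℕ) := List.ofFn fun i => (a i, r'.eval n) with hl0
  have hlen : l0.length = k := by simp [hl0]
  set Ms := ms.map fun m => m.eval w.length with hMs
  set N := 2 ^ R with hN
  have hN0 : 0 < N := by positivity
  -- the list for the automaton `A`
  let l1 : ℕ → List (ℕ × ℕ) := fun y => List.ofFn fun j : Fin (k + 1) =>
    ((Fin.cons y a : Fin (k + 1) → ℕ) j, R)
  have hl1 : ∀ y, l1 y = (y, R) :: List.ofFn fun i => (a i, R) := by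
    intro y
    simp [l1, List.ofFn_succ]
  have hAy : ∀ y < N, NoTie Ms (A.accepts w) (l1 y) ∧
      ((S w a y ∧ y < 2 ^ r.eval n) ↔ MajL Ms (A.accepts w) (l1 y)) := by
    intro y hy
    have := hA w (Fin.cons y a : Fin (k + 1) → ℕ) (by
      intro j
      refine Fin.cases ?_ (fun j => ?_) j
      · exact hy
      · exact ha' j)
    exact this
  have hB' : ∀ d < N, ∀ t < 8, ∀ y < N, ∀ ys, Ok Ms ys →
      (B.accepts w (l0 ++ [(d, R)] ++ [(N * t + y, R + 3)] ++ ys) ↔
        (t < 2 ∧ A.accepts w (l1 y ++ ys)) ∨ (2 ≤ t ∧ t < 4 ∧ ¬ y < a i) ∨ t = 4 ∨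
          (t = 5 ∧ ¬ y = 0)) := by
    intro d hd t ht y hy ys hys
    have hk : (l0 ++ [(d, R)] ++ [(N * t + y, R + 3)] ++ ys)[k + 1]? =
        some (N * t + y, R + 3) := by
      rw [List.append_assoc, List.getElem?_append_right (by simp [hlen])]
      simp [hlen]
    have hk0 : (l0 ++ [(d, R)] ++ [(N * t + y, R + 3)] ++ ys)[k]? = some (d, R) := by
      rw [List.append_assoc, List.append_assoc, List.getElem?_append_right (by simp [hlen])]
      simp [hlen]
    have hki : (l0 ++ [(d, R)] ++ [(N * t + y, R + 3)] ++ ys)[(i : ℕ)]? =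
        some (a i, r'.eval n) := by
      rw [List.append_assoc, List.append_assoc]
      exact getElem?_base a _ i _
    have hbit : ∀ j, (N * t + y).testBit (R + j) = t.testBit j := by
      intro j
      have e : (N * t + y) / 2 ^ R = t := by
        rw [← hN, Nat.mul_add_div hN0, Nat.div_eq_of_lt hy, add_zero]
      rw [add_comm R j, ← Nat.testBit_div_two_pow, e]
    have hlow : ∀ j < R, ((N * t + y).testBit j && decide (j < R + 3)) = y.testBit j := by
      intro j hj
      have e : (N * t + y) % 2 ^ R = y := by
        rw [← hN, Nat.mul_add_mod, Nat.mod_eq_of_lt hy]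
      have := Nat.testBit_mod_two_pow (N * t + y) R j
      rw [e] at this
      rw [this]
      simp [hj, show j < R + 3 by omega]
    have hpa : ∀ (j : Fin k) (j' : ℕ), j' < R →
        ((a j).testBit j' && decide (j' < r'.eval n)) = (a j).testBit j' := by
      intro j j' _
      by_cases hj : j' < r'.eval n
      · simp [hj]
      · have : a j < 2 ^ j' := (ha j).trans_le (Nat.pow_le_pow_right (by norm_num) (by omega))
        rw [Nat.testBit_lt_two_pow this]
        rfl
    refine (hB w _).trans ?_
    beta_reduce
    rw [regAut_accepts (k + 1) 2 hk, regAut_accepts (k + 1) 1 hk, regAut_accepts (k + 1) 0 hk,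
      hbit, hbit, hbit]
    have c1 : (A.trans T).accepts w (l0 ++ [(d, R)] ++ [(N * t + y, R + 3)] ++ ys) ↔
        A.accepts w (l1 y ++ ys) := by
      apply Aut.trans_accepts
      · intro m
        simp only [T]
        rw [List.getElem?_map, List.getElem?_map, hk, hk0]
        simp only [Option.map_some, Option.join_some]
        rw [pad_digit hlow, hl1]
        have e1 : ((l0 ++ [(d, R)] ++ [(N * t + y, R + 3)] ++ ys).map (digit m)).take k =
            l0.map (digit m) := by
          rw [List.append_assoc, List.append_assoc, List.map_append, List.take_left' (by simp [hlen])]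
        have e2 : ((l0 ++ [(d, R)] ++ [(N * t + y, R + 3)] ++ ys).map (digit m)).drop (k + 2) =
            ys.map (digit m) := by
          rw [List.map_append, List.drop_left' (by simp [hlen])]
        rw [e1, e2]
        simp only [List.map_append, List.map_cons, List.cons_append, hl0, List.map_ofFn]
        congr 2
        congr 1
        funext j
        exact pad_digit (hpa j)
      · intro u hu
        rw [List.mem_append, hl1, List.mem_cons, List.mem_ofFn] at hu
        have hd' : (d, R) ∈ l0 ++ [(d, R)] ++ [(N * t + y, R + 3)] ++ ys := by simp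
        have hd2 : R ≤ cols w (l0 ++ [(d, R)] ++ [(N * t + y, R + 3)] ++ ys) :=
          le_cols (w := w) hd'
        rcases hu with (rfl | ⟨j, rfl⟩) | hu
        · exact hd2
        · exact hd2
        · exact le_cols (List.mem_append_right _ hu)
    have hT' : ∀ m, T' ((l0 ++ [(d, R)] ++ [(N * t + y, R + 3)] ++ ys).map (digit m)) =
        [(y, R), (a i, R)].map (digit m) := by
      intro m
      simp only [T']
      rw [List.getElem?_map, List.getElem?_map, List.getElem?_map, hk, hk0, hki]
      simp only [Option.map_some, Option.join_some, List.map_cons, List.map_nil]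
      rw [pad_digit hlow, pad_digit (hpa i)]
    have hT'c : ∀ u ∈ [(y, R), (a i, R)], u.2 ≤
        cols w (l0 ++ [(d, R)] ++ [(N * t + y, R + 3)] ++ ys) := by
      intro u hu
      have hd' : (d, R) ∈ l0 ++ [(d, R)] ++ [(N * t + y, R + 3)] ++ ys := by simp
      simp only [List.mem_cons, List.not_mem_nil, or_false] at hu
      have hd2 : R ≤ cols w (l0 ++ [(d, R)] ++ [(N * t + y, R + 3)] ++ ys) :=
        le_cols (w := w) hd'
      rcases hu with rfl | rfl
      · exact hd2
      · exact hd2
    have c2 : ((ltAut (α := α) 0 1).trans T').accepts w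
        (l0 ++ [(d, R)] ++ [(N * t + y, R + 3)] ++ ys) ↔ y < a i :=
      (Aut.trans_accepts _ hT' hT'c).trans
        (ltAut_accepts (n := R) (n' := R) (by simp) hy (by simp) (ha' i))
    have c3 : ((constAut (α := α) 0 0).trans T').accepts w
        (l0 ++ [(d, R)] ++ [(N * t + y, R + 3)] ++ ys) ↔ y = 0 :=
      (Aut.trans_accepts _ hT' hT'c).trans (constAut_accepts (n := R) (by simp) hy)
    rw [c1, c2, c3]
    interval_cases t <;> simp [Nat.testBit, Nat.shiftRight_succ]
  have hq : ∀ d < N, ∀ t < 8, ∀ y < N,
      (MajL Ms (B.accepts w) (l0 ++ [(d, R)] ++ [(N * t + y, R + 3)]) ↔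
        (t < 2 ∧ S w a y ∧ y < 2 ^ r.eval n) ∨ (2 ≤ t ∧ t < 4 ∧ ¬ y < a i) ∨ t = 4 ∨
          (t = 5 ∧ ¬ y = 0)) ∧
      NoTie Ms (B.accepts w) (l0 ++ [(d, R)] ++ [(N * t + y, R + 3)]) := by
    intro d hd t ht y hy
    rcases lt_or_ge t 2 with h2 | h2
    · have d1 : ∀ ys, Ok Ms ys →
          (B.accepts w (l0 ++ [(d, R)] ++ [(N * t + y, R + 3)] ++ ys) ↔
            A.accepts w (l1 y ++ ys)) := by
        intro ys hys
        refine (hB' d hd t ht y hy ys hys).trans ?_
        constructor
        · rintro (h | h | h | h)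
          · exact h.2
          · omega
          · omega
          · omega
        · intro h; exact Or.inl ⟨h2, h⟩
      refine ⟨((MajL_congr d1).trans (hAy y hy).2.symm).trans ?_,
        (NoTie_congr d1).2 (hAy y hy).1⟩
      constructor
      · intro h; exact Or.inl ⟨h2, h⟩
      · rintro (h | h | h | h)
        · exact h.2
        · omega
        · omega
        · omega
    · apply MajL_dummy
      intro ys hys
      refine (hB' d hd t ht y hy ys hys).trans ?_
      constructor
      · rintro (h | h | h | h)
        · omega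
        · exact Or.inr (Or.inl h)
        · exact Or.inr (Or.inr (Or.inl h))
        · exact Or.inr (Or.inr (Or.inr h))
      · rintro (h | h | h | h)
        · omega
        · exact Or.inr (Or.inl h)
        · exact Or.inr (Or.inr (Or.inl h))
        · exact Or.inr (Or.inr (Or.inr h))
  have hai : a i < N := ha' i
  have hcount : ∀ d < N,
      cnt (8 * N) (fun Y => MajL Ms (B.accepts w) (l0 ++ [(d, R)] ++ [(Y, R + 3)])) =
        2 * cnt (2 ^ r.eval n) (S w a) + 2 * (N - a i) + N + (N - 1) := by
    intro d hd
    have q01 : ∀ t < 2, cnt N (fun y =>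
        MajL Ms (B.accepts w) (l0 ++ [(d, R)] ++ [(N * t + y, R + 3)])) =
        cnt (2 ^ r.eval n) (S w a) := by
      intro t ht
      refine cnt_congr' fun y => ⟨fun h => ?_, fun h => ?_⟩
      · rcases (hq d hd t (by omega) y h.1).1.1 h.2 with h | h | h | h
        · exact ⟨h.2.2, h.2.1⟩
        · omega
        · omega
        · omega
      · have hy : y < N := h.1.trans_le (Nat.pow_le_pow_right (by norm_num) (by omega))
        exact ⟨hy, (hq d hd t (by omega) y hy).1.2 (Or.inl ⟨ht, h.2, h.1⟩)⟩
    have q23 : ∀ t, 2 ≤ t → t < 4 → cnt N (fun y =>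
        MajL Ms (B.accepts w) (l0 ++ [(d, R)] ++ [(N * t + y, R + 3)])) = N - a i := by
      intro t ht ht'
      have e1 := cnt_not N (fun y => y < a i)
      rw [cnt_lt] at e1
      rw [cnt_congr (T := fun y => ¬ y < a i)]
      · omega
      · intro y hy
        refine (hq d hd t (by omega) y hy).1.trans ?_
        omega
    have q4 : cnt N (fun y =>
        MajL Ms (B.accepts w) (l0 ++ [(d, R)] ++ [(N * 4 + y, R + 3)])) = N := by
      rw [cnt_congr (T := fun _ => True), cnt_const, if_pos trivial]
      intro y hy
      refine (hq d hd 4 (by omega) y hy).1.trans ?_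
      simp
    have q5 : cnt N (fun y =>
        MajL Ms (B.accepts w) (l0 ++ [(d, R)] ++ [(N * 5 + y, R + 3)])) = N - 1 := by
      have e1 := cnt_not N (fun y => y < 1)
      rw [cnt_lt] at e1
      rw [cnt_congr (T := fun y => ¬ y < 1)]
      · omega
      · intro y hy
        refine (hq d hd 5 (by omega) y hy).1.trans ?_
        omega
    have q67 : ∀ t, 6 ≤ t → t < 8 → cnt N (fun y =>
        MajL Ms (B.accepts w) (l0 ++ [(d, R)] ++ [(N * t + y, R + 3)])) = 0 := by
      intro t ht ht'
      rw [cnt_congr (T := fun _ => False), cnt_const, if_neg id]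
      intro y hy
      refine (hq d hd t (by omega) y hy).1.trans ⟨?_, False.elim⟩
      rintro (h | h | h | h) <;> omega
    rw [cnt_eight_mul, q01 0 (by norm_num), q01 1 (by norm_num), q23 2 (by norm_num) (by norm_num),
      q23 3 (by norm_num) (by norm_num), q4, q5, q67 6 (by norm_num) (by norm_num),
      q67 7 (by norm_num) (by norm_num)]
    omega
  have hd3 : ∀ d < N, (MajL ((R + 3) :: Ms) (B.accepts w) (l0 ++ [(d, R)]) ↔
      a i < cnt (2 ^ r.eval n) (S w a)) ∧
        NoTie ((R + 3) :: Ms) (B.accepts w) (l0 ++ [(d, R)]) := by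
    intro d hd
    have hc := hcount d hd
    have e8 : 2 ^ (R + 3) = 8 * N := by rw [pow_add, hN]; ring
    change (Maj (R + 3) _ ↔ _) ∧ (2 ^ (R + 3) ≠ 2 * cnt (2 ^ (R + 3)) _ ∧ _)
    change (2 ^ (R + 3) < 2 * cnt (2 ^ (R + 3)) _ ↔ _) ∧ _
    rw [e8, hc]
    refine ⟨by omega, by omega, ?_⟩
    intro Y hY
    have h1 : N * (Y / N) + Y % N = Y := Nat.div_add_mod Y N
    have h2 : Y / N < 8 := (Nat.div_lt_iff_lt_mul hN0).2 hY
    have := (hq d hd (Y / N) h2 (Y % N) (Nat.mod_lt _ hN0)).2
    rwa [h1] at this
  have em : (((r + r') :: (r + r' + Polynomial.C 3) :: ms).map fun m => m.eval w.length) =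
      [R] ++ ((R + 3) :: Ms) := by
    simp [hMs, hRe, hn]
  rw [em, NoTie_append, MajL_append]
  have hdum := MajL_dummy (ms := [R]) (S := MajL ((R + 3) :: Ms) (B.accepts w))
    (p := a i < cnt (2 ^ r.eval n) (S w a)) (l := l0) (by
      intro ys hys
      cases hys with
      | @cons _ t _ ys h hys =>
        cases hys
        obtain ⟨d, n'⟩ := t
        obtain ⟨h1, hd⟩ := h
        simp only at h1 hd
        rw [h1]
        exact (hd3 d hd).1)
  refine ⟨⟨hdum.2, fun ys hys => ?_⟩, hdum.1.symm⟩
  cases hys with
  | @cons _ t _ ys h hys =>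
    cases hys
    obtain ⟨d, n'⟩ := t
    obtain ⟨h1, hd⟩ := h
    simp only at h1 hd
    rw [h1]
    exact (hd3 d hd).2

/-- the word has at some position `n` with `2 ^ n` equal to the variable the letter `c` -/
theorem InCH.letter_onehot [DecidableEq α] (i : Fin k) (c : α) :
    InCH fun w a => ∃ n, a i = 2 ^ n ∧ w[n]? = some c :=
  InCH.of_aut (oneAut i fun o _ => decide (o = some c)) fun r _ a ha =>
    ((oneAut_accepts (getElem?_ofFn' a r i) (ha i)).trans (by simp)).symm

/-- the variable is of the form `2 ^ n` with `n` smaller than the length of the word -/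
theorem InCH.onehot_length (i : Fin k) :
    InCH (α := α) fun w a => ∃ n < w.length, a i = 2 ^ n :=
  InCH.of_aut (oneAut i fun o _ => o.isSome) fun r w a ha =>
    ((oneAut_accepts (getElem?_ofFn' a r i) (ha i)).trans (by
      simp only [Option.isSome_iff_exists, List.getElem?_eq_some_iff]
      constructor
      · rintro ⟨m, h1, _, h2, _⟩
        exact ⟨m, h2, h1⟩
      · rintro ⟨m, h1, h2⟩
        exact ⟨m, h2, _, h1, rfl⟩)).symm

/-- the variable is a power of two -/
theorem InCH.onehot (i : Fin k) : InCH (α := α) fun _ a => ∃ n, a i = 2 ^ n :=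
  InCH.of_aut (oneAut i fun _ _ => true) fun r _ a ha =>
    ((oneAut_accepts (getElem?_ofFn' a r i) (ha i)).trans (by simp)).symm

/-- the one-hot number `a j = 2 ^ n` marks a digit 1 of `a i` -/
theorem InCH.bit_onehot (i j : Fin k) :
    InCH (α := α) fun _ a => ∃ n, a j = 2 ^ n ∧ (a i).testBit n = true :=
  InCH.of_aut (oneAut j fun _ ds => gb ds i) fun r _ a ha =>
    ((oneAut_accepts (getElem?_ofFn' a r j) (ha j)).trans (by
      simp only [gb_map (getElem?_ofFn' a r i) (ha i)])).symm

end api

end Vale.Agent.P337
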