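import Mathlib

/-!
# The existential theory of the reals and the counting hierarchy
-/

namespace Vale.Agent.P337

/-! ### Existential sentences over the reals -/

/-- A monomial with an integer coefficient: the sign, the binary digits of the absolute value of
the coefficient (most significant first) and the list of the exponents of `x₀, x₁, x₂, …`. -/
structure Mono where
  neg : Bool
  digits : List Bool
  exps : List ℕ

/-- The number with the given binary digits, most significant first. -/
def binVal (l : List Bool) : ℕ := l.foldl (fun r b => 2 * r + b.toNat) 0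

/-- The product of `x i ^ e₀`, `x (i+1) ^ e₁`, … for the list `e₀, e₁, …`. -/
def powProd (x : ℕ → ℝ) : ℕ → List ℕ → ℝ
  | _, [] => 1
  | i, e :: l => x i ^ e * powProd x (i + 1) l

/-- The value of a monomial. -/
def Mono.val (x : ℕ → ℝ) (m : Mono) : ℝ :=
  (if m.neg then -1 else 1) * (binVal m.digits : ℝ) * powProd x 0 m.exps

/-- The value of a polynomial, given as an explicit list of monomials. -/
def polyVal (x : ℕ → ℝ) (p : List Mono) : ℝ := (p.map (Mono.val x)).sum

/-- Boolean formulas built with `AND`, `OR`, `NOT` from atoms `p = 0` and `p > 0`. -/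
inductive Fml : Type
  | eq (p : List Mono) : Fml
  | gt (p : List Mono) : Fml
  | not (φ : Fml) : Fml
  | and (φ ψ : Fml) : Fml
  | or (φ ψ : Fml) : Fml

/-- Truth of a formula at a real point. -/
def Fml.holds (x : ℕ → ℝ) : Fml → Prop
  | .eq p => polyVal x p = 0
  | .gt p => 0 < polyVal x p
  | .not φ => ¬ φ.holds x
  | .and φ ψ => φ.holds x ∧ ψ.holds x
  | .or φ ψ => φ.holds x ∨ ψ.holds x

/-- The alphabet of the encoding. -/
inductive Tok : Type
  | eq | gt | not | and | or | plus | minus | zero | one | var | next
  deriving DecidableEq

instance : Fintype Tok where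
  elems := {.eq, .gt, .not, .and, .or, .plus, .minus, .zero, .one, .var, .next}
  complete := by intro t; cases t <;> simp

/-- The encoding of a monomial: the sign, the binary digits of the coefficient, and the exponents
in unary, each of them followed by the symbol `next`. -/
def Mono.code (m : Mono) : List Tok :=
  (if m.neg then Tok.minus else Tok.plus) :: (m.digits.map fun b => if b then Tok.one else Tok.zero) ++
    m.exps.flatMap fun e => List.replicate e Tok.var ++ [Tok.next]

/-- The encoding of a formula in prefix notation. -/
def Fml.code : Fml → List Tok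
  | .eq p => Tok.eq :: p.flatMap Mono.code
  | .gt p => Tok.gt :: p.flatMap Mono.code
  | .not φ => Tok.not :: φ.code
  | .and φ ψ => Tok.and :: (φ.code ++ ψ.code)
  | .or φ ψ => Tok.or :: (φ.code ++ ψ.code)

/-- The existential theory of the reals: the set of the encodings of all formulas that hold at
some real point. -/
def ETR : Set (List Tok) := {w | ∃ φ : Fml, φ.code = w ∧ ∃ x : ℕ → ℝ, φ.holds x}

/-! ### The counting hierarchy -/

/-- A predicate on words over `Γ` is decidable in (deterministic) polynomial time. -/
def PolyTimeDec {Γ : Type} (R : List Γ → Bool) : Prop :=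
  ∃ M : Turing.TM2ComputableInPolyTime (id : List Γ → List Γ) (fun b : Bool => [b]) R,
    ∀ k, Finite (M.tm.Γ k)

/-- The code `w # y₁ # y₂ # … # y_k` of a word `w` and bit strings `y₁, …, y_k`. -/
def tupleCode {α : Type} (w : List α) (ys : List (List Bool)) : List (Option (α ⊕ Bool)) :=
  w.map (fun a => some (Sum.inl a)) ++
    ys.flatMap fun y => none :: y.map fun b => some (Sum.inr b)

/-- More than half of the bit strings `y` of length `m` satisfy `S`. -/
def Most (m : ℕ) (S : List Bool → Prop) : Prop :=
  2 ^ m < 2 * Nat.card {y : List Bool // y.length = m ∧ S y}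

/-- Nested majority quantifiers over bit strings `y₁, y₂, …` of the given lengths. -/
def MostL : List ℕ → (List (List Bool) → Prop) → Prop
  | [], S => S []
  | m :: ms, S => Most m fun y => MostL ms fun ys => S (y :: ys)

/-- The level `C_k` of the counting hierarchy: `w ∈ L` iff for most `y₁`, for most `y₂`, …, for most
`y_k`, the tuple `(w, y₁, …, y_k)` satisfies a predicate decidable in polynomial time; here `y_i`
ranges over the bit strings of length `m_i(|w|)` for a polynomial `m_i`. -/
def CHLevel (k : ℕ) {α : Type} (L : Set (List α)) : Prop :=
  ∃ (ms : List (Polynomial ℕ)) (R : List (Option (α ⊕ Bool)) → Bool), ms.length = k ∧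
    PolyTimeDec R ∧
    ∀ w, w ∈ L ↔ MostL (ms.map fun m => m.eval w.length) fun ys => R (tupleCode w ys) = true

/-- The counting hierarchy. -/
def CH {α : Type} (L : Set (List α)) : Prop := ∃ k, CHLevel k L

end Vale.Agent.P337
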