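import Vale.Agent.P337.Inst

/-!
# The minimum of `G` (module A3)
-/

namespace Vale.Agent.P337

open MvPolynomial

private theorem eval_z {n : ℕ} (x : Fin n → ℝ) (u : ℕ) :
    eval x (Inst.z (fun i => (X i : MvPolynomial (Fin n) ℝ)) u) = Inst.z x u := by
  unfold Inst.z
  split_ifs
  · exact map_one _
  · exact eval_X _
  · exact map_zero _

private theorem eval_pv (I : Inst) (x : Fin I.n → ℝ) (a : ℕ) :
    eval x (I.pv (fun i => (X i : MvPolynomial (Fin I.n) ℝ)) a) = I.pv x a := by
  unfold Inst.pv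
  rw [map_sum]
  refine Finset.sum_congr rfl fun u _ => ?_
  rw [map_sum]
  refine Finset.sum_congr rfl fun v _ => ?_
  rw [map_mul, map_mul, eval_z, eval_z, map_intCast]

theorem eval_F (I : Inst) (x : Fin I.n → ℝ) :
    eval x (I.F ℝ) = ∑ a ∈ Finset.range I.A, I.pv x a ^ 2 := by
  unfold Inst.F
  rw [map_sum]
  refine Finset.sum_congr rfl fun a _ => ?_
  rw [map_pow, eval_pv]

/-- `G` is the sum of the sixth powers plus `6 λ` times a sum of squares -/
theorem eval_G (I : Inst) (lam : ℝ) (x : Fin I.n → ℝ) :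
    eval x (I.G lam) = ∑ i, x i ^ 6 + 6 * lam * eval x (I.F ℝ) := by
  unfold Inst.G
  rw [map_add, map_sum, map_mul, eval_C]
  congr 1
  refine Finset.sum_congr rfl fun i _ => ?_
  rw [map_pow, eval_X]

private theorem eval_F_nonneg (I : Inst) (x : Fin I.n → ℝ) : 0 ≤ eval x (I.F ℝ) := by
  rw [eval_F]
  exact Finset.sum_nonneg fun a _ => sq_nonneg _

private theorem pow6 {t C : ℝ} (hC : 0 ≤ C) (h : t ^ 6 ≤ C) : |t| ≤ 1 + C := by
  by_contra hcon
  push Not at hcon
  have h1 : 1 ≤ |t| := by linarith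
  have h2 : |t| ≤ |t| ^ 6 := le_self_pow₀ h1 (by norm_num)
  have h3 : |t| ^ 6 = t ^ 6 := by
    rw [show (6 : ℕ) = 2 * 3 by norm_num, pow_mul, pow_mul, sq_abs]
  linarith

private theorem compactK (n : ℕ) {C : ℝ} (hC : 0 ≤ C) :
    IsCompact {x : Fin n → ℝ | ∑ i, x i ^ 6 ≤ C} := by
  have h1 : IsCompact (Set.pi Set.univ fun _ : Fin n => Set.Icc (-(1 + C)) (1 + C)) :=
    isCompact_univ_pi fun _ => isCompact_Icc
  refine h1.of_isClosed_subset ?_ ?_
  · exact isClosed_le (by fun_prop) continuous_const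
  · intro x hx i _
    have h2 : x i ^ 6 ≤ C := by
      refine le_trans ?_ hx
      exact Finset.single_le_sum (f := fun i => x i ^ 6)
        (fun j _ => by positivity) (Finset.mem_univ i)
    have h3 := pow6 hC h2
    exact abs_le.mp h3

private theorem hasDeriv {n : ℕ} (x : Fin n → ℝ) (i : Fin n) (p : MvPolynomial (Fin n) ℝ) (s : ℝ) :
    HasDerivAt (fun t => eval (Function.update x i t) p)
      (eval (Function.update x i s) (pderiv i p)) s := by
  induction p using MvPolynomial.induction_on with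
  | C a =>
    simp only [eval_C, pderiv_C, map_zero]
    exact hasDerivAt_const s a
  | add p q hp hq =>
    simp only [map_add]
    exact hp.add hq
  | mul_X p j hp =>
    simp only [map_mul, eval_X, pderiv_mul, map_add]
    have h1 : HasDerivAt (fun t => Function.update x i t j)
        (eval (Function.update x i s) (pderiv i (X j : MvPolynomial (Fin n) ℝ))) s := by
      by_cases hj : j = i
      · subst hj
        simp only [Function.update_self, pderiv_X_self, map_one]
        exact hasDerivAt_id s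
      · simp only [Function.update_of_ne hj, pderiv_X_of_ne hj, map_zero]
        exact hasDerivAt_const s _
    exact hp.mul h1

/-- the minimum is attained (`G` tends to infinity) and it is a critical point; the derivative of
`t ↦ eval (Function.update x i t) p` is the evaluation of `pderiv i p` (induction on `p`) -/
theorem exists_min (I : Inst) (lam : ℝ) (hlam : 0 ≤ lam) :
    ∃ x : Fin I.n → ℝ, (∀ y, eval x (I.G lam) ≤ eval y (I.G lam)) ∧
      ∀ i, x i ^ 5 = eval x (I.h lam i) := by
  have hcont : Continuous fun x : Fin I.n → ℝ => eval x (I.G lam) :=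
    MvPolynomial.continuous_eval _
  have hge : ∀ x : Fin I.n → ℝ, ∑ i, x i ^ 6 ≤ eval x (I.G lam) := by
    intro x
    rw [eval_G]
    have h1 := mul_nonneg (mul_nonneg (by norm_num : (0 : ℝ) ≤ 6) hlam) (eval_F_nonneg I x)
    linarith
  set C0 : ℝ := eval (0 : Fin I.n → ℝ) (I.G lam) with hC0
  have hC : 0 ≤ C0 := by
    refine le_trans ?_ (hge 0)
    exact Finset.sum_nonneg fun i _ => by positivity
  obtain ⟨x, hxK, hx⟩ := (compactK I.n hC).exists_isMinOn ⟨0, hge 0⟩ hcont.continuousOn
  have hmin : ∀ y, eval x (I.G lam) ≤ eval y (I.G lam) := by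
    intro y
    by_cases hy : y ∈ {x : Fin I.n → ℝ | ∑ i, x i ^ 6 ≤ C0}
    · exact hx hy
    · have h1 : C0 < ∑ i, y i ^ 6 := not_le.mp hy
      have h2 : eval x (I.G lam) ≤ C0 := hx (hge 0)
      linarith [hge y]
  refine ⟨x, hmin, fun i => ?_⟩
  have h1 := hasDeriv x i (I.G lam) (x i)
  rw [Function.update_eq_self] at h1
  have h2 : IsLocalMin (fun t => eval (Function.update x i t) (I.G lam)) (x i) := by
    refine Filter.Eventually.of_forall fun t => ?_
    simp only [Function.update_eq_self]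
    exact hmin _
  have h3 := h2.hasDerivAt_eq_zero h1
  have h4 : pderiv i (I.G lam) = 6 * X i ^ 5 + C (6 * lam) * pderiv i (I.F ℝ) := by
    unfold Inst.G
    rw [map_add, map_sum, Finset.sum_eq_single i, pderiv_C_mul, pderiv_pow, pderiv_X_self]
    · simp
    · intro j _ hj
      rw [pderiv_pow, pderiv_X_of_ne hj, mul_zero]
    · intro h; exact absurd (Finset.mem_univ i) h
  rw [h4] at h3
  simp only [map_add, map_mul, map_pow, eval_X, eval_C] at h3
  unfold Inst.h
  simp only [map_neg, map_mul, eval_C]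
  have h5 : eval x (6 : MvPolynomial (Fin I.n) ℝ) = 6 := map_ofNat _ 6
  rw [h5] at h3
  linarith

/-- if the system has no solution, then `F` is at least a positive constant on the compact set
where `∑ x_i ^ 6 ≤ C`, so the minimum of `G` tends to infinity with `λ` -/
theorem min_unbounded (I : Inst) (hI : ¬ I.Solvable) (C : ℝ) :
    ∃ L : ℝ, ∀ lam, L ≤ lam → ∀ x : Fin I.n → ℝ, C < eval x (I.G lam) := by
  have hcont : Continuous fun x : Fin I.n → ℝ => eval x (I.F ℝ) :=
    MvPolynomial.continuous_eval _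
  have hpos : ∀ x : Fin I.n → ℝ, 0 < eval x (I.F ℝ) := by
    intro x
    refine lt_of_le_of_ne (eval_F_nonneg I x) fun h => hI ⟨x, fun a ha => ?_⟩
    rw [eval_F] at h
    have h1 := (Finset.sum_eq_zero_iff_of_nonneg fun a _ => sq_nonneg (I.pv x a)).mp h.symm a
      (Finset.mem_range.mpr ha)
    exact pow_eq_zero_iff (two_ne_zero) |>.mp h1
  have hC' : 0 ≤ max C 0 := le_max_right _ _
  obtain ⟨x0, hx0K, hx0⟩ := (compactK I.n hC').exists_isMinOn
    ⟨0, by
      show ∑ i : Fin I.n, (0 : Fin I.n → ℝ) i ^ 6 ≤ max C 0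
      simp⟩ hcont.continuousOn
  set m := eval x0 (I.F ℝ) with hm
  have hm0 : 0 < m := hpos x0
  refine ⟨(max C 0 + 1) / (6 * m), fun lam hlam x => ?_⟩
  have hlam0 : 0 ≤ lam := le_trans (by positivity) hlam
  rw [eval_G]
  by_cases hx : x ∈ {x : Fin I.n → ℝ | ∑ i, x i ^ 6 ≤ max C 0}
  · have h1 : m ≤ eval x (I.F ℝ) := hx0 hx
    have h2 : max C 0 + 1 ≤ lam * (6 * m) := (div_le_iff₀ (by positivity)).mp hlam
    have h3 : 6 * lam * m ≤ 6 * lam * eval x (I.F ℝ) :=
      mul_le_mul_of_nonneg_left h1 (by positivity)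
    have h4 : 0 ≤ ∑ i, x i ^ 6 := Finset.sum_nonneg fun i _ => by positivity
    have h5 := le_max_left C 0
    nlinarith
  · have h1 : max C 0 < ∑ i, x i ^ 6 := not_le.mp hx
    have h2 := mul_nonneg (mul_nonneg (by norm_num : (0 : ℝ) ≤ 6) hlam0) (eval_F_nonneg I x)
    have h5 := le_max_left C 0
    linarith

end Vale.Agent.P337
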