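import Vale.Agent.P337.Inst

/-!
# Base change and degrees of the polynomials `F`, `G`, `h`
-/

namespace Vale.Agent.P337

open MvPolynomial

section map

variable {R R' : Type*} [CommRing R] [CommRing R'] (f : R →+* R')

theorem map_z {n : ℕ} (u : ℕ) :
    map f (Inst.z (fun i => (X i : MvPolynomial (Fin n) R)) u) =
      Inst.z (fun i => (X i : MvPolynomial (Fin n) R')) u := by
  unfold Inst.z
  split_ifs
  · exact map_one _
  · exact map_X _ _
  · exact map_zero _

theorem Inst.map_F (I : Inst) : map f (I.F R) = I.F R' := by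
  unfold Inst.F Inst.pv
  simp only [map_sum, map_pow, map_mul, map_z, map_intCast]

theorem Inst.map_G (I : Inst) (lam : R) : map f (I.G lam) = I.G (f lam) := by
  unfold Inst.G
  simp only [map_add, map_sum, map_pow, map_mul, map_X, map_C, I.map_F]
  rw [map_ofNat f 6]

theorem Inst.map_h (I : Inst) (lam : R) (i : Fin I.n) : map f (I.h lam i) = I.h (f lam) i := by
  unfold Inst.h
  rw [map_neg, map_mul, map_C, ← pderiv_map, I.map_F]

end map

section degree

variable {R : Type*} [CommRing R]

theorem totalDegree_z_le {n : ℕ} (u : ℕ) :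
    (Inst.z (fun i => (X i : MvPolynomial (Fin n) R)) u).totalDegree ≤ 1 := by
  unfold Inst.z
  split_ifs
  · simp
  · refine (totalDegree_monomial_le _ _).trans ?_
    rw [Finsupp.sum_single_index rfl]
    exact le_rfl
  · simp

theorem Inst.totalDegree_pv_le (I : Inst) (a : ℕ) :
    (I.pv (fun i => (X i : MvPolynomial (Fin I.n) R)) a).totalDegree ≤ 2 := by
  unfold Inst.pv
  apply totalDegree_finsetSum_le
  intro u _
  apply totalDegree_finsetSum_le
  intro v _
  refine (totalDegree_mul _ _).trans ?_
  have h1 := totalDegree_z_le (R := R) (n := I.n) v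
  have h2 : ((I.c a u v : MvPolynomial (Fin I.n) R) *
      Inst.z (fun i => (X i : MvPolynomial (Fin I.n) R)) u).totalDegree ≤ 1 := by
    refine (totalDegree_mul _ _).trans ?_
    have h3 := totalDegree_z_le (R := R) (n := I.n) u
    have h4 : (I.c a u v : MvPolynomial (Fin I.n) R).totalDegree = 0 := by
      rw [← map_intCast (C : R →+* MvPolynomial (Fin I.n) R)]
      exact totalDegree_C _
    omega
  omega

theorem Inst.totalDegree_F_le (I : Inst) : (I.F R).totalDegree ≤ 4 := by
  unfold Inst.F
  apply totalDegree_finsetSum_le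
  intro a _
  refine (totalDegree_pow _ _).trans ?_
  have := I.totalDegree_pv_le (R := R) a
  omega

theorem totalDegree_pderiv_le {n : ℕ} (i : Fin n) (p : MvPolynomial (Fin n) R) (d : ℕ)
    (hp : p.totalDegree ≤ d + 1) : (pderiv i p).totalDegree ≤ d := by
  unfold totalDegree
  apply Finset.sup_le
  intro s hs
  rw [mem_support_iff, coeff_pderiv] at hs
  have h1 : s + Finsupp.single i 1 ∈ p.support := by
    rw [mem_support_iff]
    intro h
    apply hs
    rw [h, zero_mul]
  have h2 := le_totalDegree h1
  rw [Finsupp.sum_add_index' (by simp) (by simp), Finsupp.sum_single_index rfl] at h2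
  omega

theorem Inst.totalDegree_h_le (I : Inst) (lam : R) (i : Fin I.n) :
    (I.h lam i).totalDegree ≤ 3 := by
  unfold Inst.h
  rw [totalDegree_neg]
  refine (totalDegree_mul _ _).trans ?_
  rw [totalDegree_C, zero_add]
  exact totalDegree_pderiv_le i _ 3 I.totalDegree_F_le

theorem Inst.totalDegree_G_le (I : Inst) (lam : R) : (I.G lam).totalDegree ≤ 6 := by
  unfold Inst.G
  refine (totalDegree_add _ _).trans (max_le ?_ ?_)
  · apply totalDegree_finsetSum_le
    intro i _
    rw [X_pow_eq_monomial]
    refine (totalDegree_monomial_le _ _).trans ?_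
    rw [Finsupp.sum_single_index rfl]
    exact le_rfl
  · refine (totalDegree_mul _ _).trans ?_
    rw [totalDegree_C, zero_add]
    exact I.totalDegree_F_le.trans (by norm_num)

end degree

end Vale.Agent.P337
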