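import Vale.Agent.P337.DichB
import Vale.Agent.P337.DichC
import Vale.Agent.P337.InstB

/-!
# The dichotomy for the minimum of `G` (module A)
-/

namespace Vale.Agent.P337

open MvPolynomial

/-- `λ = 2 ^ (2 ^ (7 n + 10))` -/
def lamE (n : ℕ) : ℕ := 2 ^ (7 * n + 10)

/-! ### Norms of the polynomials -/

section norms

variable {R : Type*} [CommRing R] {N : R → ℝ} (hN : IsRN N)
include hN

private theorem mvn_z {n : ℕ} (u : ℕ) :
    mvn N (Inst.z (fun i => (X i : MvPolynomial (Fin n) R)) u) ≤ 1 := by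
  unfold Inst.z
  split_ifs
  · exact hN.mvn_isRN.one
  · exact hN.mvn_X _
  · rw [hN.mvn_isRN.zero]
    exact zero_le_one

private theorem mvn_pv (I : Inst) (a : ℕ) :
    mvn N (I.pv (fun i => (X i : MvPolynomial (Fin I.n) R)) a) ≤ 2 * ((I.n : ℝ) + 1) ^ 2 := by
  unfold Inst.pv
  refine (hN.mvn_sum _ _).trans ?_
  have h1 : ∀ u ∈ Finset.range (I.n + 1), mvn N (∑ v ∈ Finset.range (I.n + 1),
      (I.c a u v : MvPolynomial (Fin I.n) R) * Inst.z (fun i => (X i : MvPolynomial (Fin I.n) R)) u *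
        Inst.z (fun i => (X i : MvPolynomial (Fin I.n) R)) v) ≤ ((I.n : ℝ) + 1) * 2 := by
    intro u _
    refine (hN.mvn_sum _ _).trans ?_
    have h2 : ∀ v ∈ Finset.range (I.n + 1), mvn N ((I.c a u v : MvPolynomial (Fin I.n) R) *
        Inst.z (fun i => (X i : MvPolynomial (Fin I.n) R)) u *
        Inst.z (fun i => (X i : MvPolynomial (Fin I.n) R)) v) ≤ 2 := by
      intro v _
      have h3 : mvn N (I.c a u v : MvPolynomial (Fin I.n) R) ≤ 2 := by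
        refine (hN.mvn_isRN.intCast _).trans ?_
        have h4 := I.hc a u v
        have h5 : ((|I.c a u v| : ℤ) : ℝ) ≤ ((2 : ℤ) : ℝ) := by exact_mod_cast h4
        rw [Int.cast_abs] at h5
        simpa using h5
      calc _ ≤ mvn N ((I.c a u v : MvPolynomial (Fin I.n) R) *
              Inst.z (fun i => (X i : MvPolynomial (Fin I.n) R)) u) *
            mvn N (Inst.z (fun i => (X i : MvPolynomial (Fin I.n) R)) v) := hN.mvn_mul _ _
        _ ≤ (2 * 1) * 1 := by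
            apply mul_le_mul _ (mvn_z hN v) (hN.mvn_nonneg _) (by norm_num)
            refine (hN.mvn_mul _ _).trans ?_
            exact mul_le_mul h3 (mvn_z hN u) (hN.mvn_nonneg _) (by norm_num)
        _ = 2 := by norm_num
    refine (Finset.sum_le_sum h2).trans ?_
    simp
  refine (Finset.sum_le_sum h1).trans ?_
  rw [Finset.sum_const, Finset.card_range, nsmul_eq_mul]
  push_cast
  nlinarith

private theorem mvn_F (I : Inst) : mvn N (I.F R) ≤ 2 ^ (5 * I.n + 2) := by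
  unfold Inst.F
  refine (hN.mvn_sum _ _).trans ?_
  have h0 : ((I.n : ℝ) + 1) ≤ 2 ^ I.n := by
    have h := Nat.lt_two_pow_self (n := I.n)
    have h' : I.n + 1 ≤ 2 ^ I.n := h
    exact_mod_cast h'
  have h1 : ∀ a ∈ Finset.range I.A,
      mvn N (I.pv (fun i => (X i : MvPolynomial (Fin I.n) R)) a ^ 2) ≤ 4 * 2 ^ (4 * I.n) := by
    intro a _
    refine (hN.mvn_isRN.pow _ _).trans ?_
    have h2 := mvn_pv hN I a
    calc mvn N (I.pv (fun i => (X i : MvPolynomial (Fin I.n) R)) a) ^ 2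
        ≤ (2 * (2 ^ I.n) ^ 2) ^ 2 := by
          apply pow_le_pow_left₀ (hN.mvn_nonneg _)
          refine h2.trans ?_
          have h3 : ((I.n : ℝ) + 1) ^ 2 ≤ (2 ^ I.n) ^ 2 := pow_le_pow_left₀ (by positivity) h0 2
          linarith
      _ = 4 * 2 ^ (4 * I.n) := by
          rw [mul_comm 4 I.n, pow_mul]
          ring
  refine (Finset.sum_le_sum h1).trans ?_
  rw [Finset.sum_const, Finset.card_range, nsmul_eq_mul]
  have h4 : (I.A : ℝ) ≤ 2 ^ I.n := by exact_mod_cast I.hA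
  calc (I.A : ℝ) * (4 * 2 ^ (4 * I.n)) ≤ 2 ^ I.n * (4 * 2 ^ (4 * I.n)) :=
        mul_le_mul_of_nonneg_right h4 (by positivity)
    _ = 2 ^ (5 * I.n + 2) := by
        rw [show 5 * I.n + 2 = I.n + (4 * I.n + 2) by ring, pow_add, pow_add _ (4 * I.n)]
        ring

private theorem mvn_pderiv {n : ℕ} (i : Fin n) (p : MvPolynomial (Fin n) R) (d : ℕ)
    (hp : p.totalDegree ≤ d) : mvn N (pderiv i p) ≤ d * mvn N p := by
  conv_lhs => rw [p.as_sum, map_sum]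
  refine (hN.mvn_sum _ _).trans ?_
  rw [mvn, Finset.mul_sum]
  apply Finset.sum_le_sum
  intro s hs
  rw [pderiv_monomial]
  refine (hN.mvn_monomial _ _).trans ((hN.mul _ _).trans ?_)
  have h1 := hN.natCast (s i)
  have h2 : s i ≤ d := by
    have h3 : s i ≤ s.degree := Finsupp.le_degree i s
    have h4 : s.degree ≤ p.totalDegree := le_totalDegree hs
    omega
  have h3 : ((s i : ℕ) : ℝ) ≤ d := by exact_mod_cast h2
  rw [mul_comm]
  exact mul_le_mul_of_nonneg_right (h1.trans h3) (hN.nonneg _)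

private theorem mvn_h (I : Inst) (lam : R) (hlam : N lam ≤ 1) (i : Fin I.n) :
    mvn N (I.h lam i) ≤ 2 ^ (5 * I.n + 4) := by
  unfold Inst.h
  refine (hN.mvn_isRN.neg _).trans ((hN.mvn_mul _ _).trans ?_)
  have h1 := mvn_pderiv hN i (I.F R) 4 I.totalDegree_F_le
  have h2 := mvn_F hN I
  have h3 : mvn N (C lam : MvPolynomial (Fin I.n) R) ≤ 1 := (hN.mvn_C lam).trans hlam
  calc mvn N (C lam : MvPolynomial (Fin I.n) R) * mvn N (pderiv i (I.F R))
      ≤ 1 * (4 * 2 ^ (5 * I.n + 2)) := by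
        apply mul_le_mul h3 _ (hN.mvn_nonneg _) zero_le_one
        refine h1.trans ?_
        push_cast
        linarith
    _ = 2 ^ (5 * I.n + 4) := by
        rw [show 5 * I.n + 4 = (5 * I.n + 2) + 2 by ring, pow_add _ (5 * I.n + 2)]
        ring

private theorem mvn_G (I : Inst) (lam : R) (hlam : N lam ≤ 1) :
    mvn N (I.G lam) ≤ 2 ^ (5 * I.n + 5) := by
  unfold Inst.G
  refine (hN.mvn_add _ _).trans ?_
  have h1 : mvn N (∑ i, (X i : MvPolynomial (Fin I.n) R) ^ 6) ≤ I.n := by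
    refine (hN.mvn_sum _ _).trans ?_
    calc ∑ i : Fin I.n, mvn N ((X i : MvPolynomial (Fin I.n) R) ^ 6) ≤ ∑ _i : Fin I.n, (1 : ℝ) := by
          apply Finset.sum_le_sum
          intro i _
          refine (hN.mvn_isRN.pow _ _).trans ?_
          exact pow_le_one₀ (hN.mvn_nonneg _) (hN.mvn_X i)
      _ = I.n := by simp
  have h2 : mvn N (C (6 * lam) * I.F R) ≤ 6 * 2 ^ (5 * I.n + 2) := by
    refine (hN.mvn_mul _ _).trans ?_
    apply mul_le_mul _ (mvn_F hN I) (hN.mvn_nonneg _) (by norm_num)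
    refine (hN.mvn_C _).trans ((hN.mul _ _).trans ?_)
    have h3 := hN.natCast 6
    have h4 : N (6 : R) ≤ 6 := by
      simpa using h3
    calc N 6 * N lam ≤ 6 * 1 := mul_le_mul h4 hlam (hN.nonneg _) (by norm_num)
      _ = 6 := by norm_num
  have h3 : (I.n : ℝ) ≤ 2 ^ (5 * I.n + 2) := by
    have h := Nat.lt_two_pow_self (n := I.n)
    have h' : I.n ≤ 2 ^ (5 * I.n + 2) :=
      h.le.trans (Nat.pow_le_pow_right (by norm_num) (by omega))
    exact_mod_cast h'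
  have h4 : (2 : ℝ) ^ (5 * I.n + 5) = 8 * 2 ^ (5 * I.n + 2) := by
    rw [show 5 * I.n + 5 = (5 * I.n + 2) + 3 by ring, pow_add _ (5 * I.n + 2)]
    ring
  have h5 : (0 : ℝ) < 2 ^ (5 * I.n + 2) := by positivity
  rw [h4]
  linarith

end norms

/-! ### The polynomial `χ` -/

/-- the variable `λ` -/
noncomputable def vL : Polynomial (Polynomial ℤ) := Polynomial.X

/-- the variable `T` -/
noncomputable def vT : Polynomial (Polynomial ℤ) := Polynomial.C Polynomial.X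

/-- `χ = N (T - G)` in `ℤ[T][λ]` -/
noncomputable def chi (I : Inst) : Polynomial (Polynomial ℤ) :=
  nm (I.h vL) (C vT - I.G vL)

private theorem chi_norm (I : Inst) (W : ℝ) (hW : 1 ≤ W) :
    nW W (chi I) ≤
      ((2 ^ (5 * I.n + 4)) ^ (4 * I.n + 6) * (W + 2 ^ (5 * I.n + 5))) ^ 5 ^ I.n := by
  have hN := nW_isRN (zero_le_one.trans hW)
  have hX : nW W vL ≤ 1 := by
    have h := (absZ_isRN.wn_isRN (zero_le_one.trans hW)).wn_X 1 zero_le_one
    exact h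
  have hT : nW W vT ≤ W := by
    have h := (absZ_isRN.wn_isRN (zero_le_one.trans hW)).wn_C 1 (Polynomial.X : Polynomial ℤ)
    unfold nW vT
    rw [h]
    exact absZ_isRN.wn_X W (zero_le_one.trans hW)
  have hdeg : (C vT - I.G vL).totalDegree ≤ 6 := by
    refine (totalDegree_sub _ _).trans (max_le ?_ (I.totalDegree_G_le _))
    rw [totalDegree_C]
    norm_num
  have h1 := nm_bound hN (I.h vL) (I.totalDegree_h_le _) (2 ^ (5 * I.n + 4))
    (one_le_pow₀ (by norm_num)) (mvn_h hN I _ hX) (C vT - I.G vL) 6 hdeg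
  refine h1.trans ?_
  apply pow_le_pow_left₀
  · exact mul_nonneg (by positivity) (hN.mvn_nonneg _)
  apply mul_le_mul_of_nonneg_left _ (by positivity)
  refine (hN.mvn_isRN.sub _ _).trans ?_
  exact add_le_add ((hN.mvn_C _).trans hT) (mvn_G hN I _ hX)

private theorem chi_ne_zero (I : Inst) : chi I ≠ 0 := by
  intro h0
  let f : Polynomial (Polynomial ℤ) →+* ℤ :=
    Polynomial.eval₂RingHom (Polynomial.evalRingHom 1) 0
  have hfX : f vL = 0 := by simp [f, vL]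
  have hfT : f vT = 1 := by simp [f, vT]
  have h1 := nm_map f (I.h vL) (I.totalDegree_h_le _) (C vT - I.G vL)
  change _ = f (chi I) at h1
  rw [h0, map_zero] at h1
  have h2 : (fun i => map f (I.h vL i)) = fun i => (0 : MvPolynomial (Fin I.n) ℤ) := by
    funext i
    rw [I.map_h, hfX]
    simp [Inst.h]
  have h3 : map f (C vT - I.G vL) = 1 - ∑ i, X i ^ 6 := by
    rw [map_sub, map_C, I.map_G, hfX, hfT]
    simp [Inst.G]
  rw [h2, h3, nm] at h1
  have h4 : Ideal.Quotient.mk (relIdeal fun _ : Fin I.n => (0 : MvPolynomial (Fin I.n) ℤ))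
      (1 - ∑ i, X i ^ 6) = 1 := by
    rw [map_sub, map_one, sub_eq_self, Ideal.Quotient.eq_zero_iff_mem]
    apply Ideal.sum_mem
    intro i _
    have h5 : (X i : MvPolynomial (Fin I.n) ℤ) ^ 6 = X i * (X i ^ 5 - 0) := by ring
    rw [h5]
    exact Ideal.mul_mem_left _ _ (Ideal.subset_span ⟨i, rfl⟩)
  rw [h4, map_one] at h1
  exact one_ne_zero h1

private theorem ev_chi (I : Inst) (l : ℝ) (x : Fin I.n → ℝ)
    (hx : ∀ i, x i ^ 5 = eval x (I.h l i)) : ev l (eval x (I.G l)) (chi I) = 0 := by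
  set T := eval x (I.G l) with hT
  have hfX : ev l T vL = l := by simp [ev, vL]
  have hfT : ev l T vT = T := by simp [ev, vT]
  have h1 := nm_map (ev l T) (I.h vL) (I.totalDegree_h_le _) (C vT - I.G vL)
  change _ = ev l T (chi I) at h1
  rw [← h1]
  have h2 : (fun i => map (ev l T) (I.h vL i)) = I.h l := by
    funext i
    rw [I.map_h, hfX]
  have h3 : map (ev l T) (C vT - I.G vL) = C T - I.G l := by
    rw [map_sub, map_C, I.map_G, hfX, hfT]
  rw [h2, h3]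
  apply nm_eq_zero (I.h l) (I.totalDegree_h_le l) x hx
  rw [map_sub, eval_C, ← hT, sub_self]

/-! ### Numbers -/

private theorem num0 (n : ℕ) : 20 * n ^ 2 + 51 * n + 30 ≤ 102 * 3 ^ n := by
  induction n with
  | zero => norm_num
  | succ n ih =>
    have h1 : n + 1 ≤ 3 ^ n := Nat.lt_pow_self (by norm_num)
    have h2 : 102 * 3 ^ (n + 1) = 306 * 3 ^ n := by ring
    have h3 : 20 * (n + 1) ^ 2 + 51 * (n + 1) + 30 =
        (20 * n ^ 2 + 51 * n + 30) + (40 * n + 71) := by ring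
    rw [h2, h3]
    omega

private theorem num1 (n : ℕ) : (20 * n ^ 2 + 51 * n + 30) * 5 ^ n + 1 ≤ 2 ^ (4 * n + 8) := by
  have h1 := num0 n
  have h2 : (3 : ℕ) ^ n * 5 ^ n ≤ 16 ^ n := by
    rw [← mul_pow]
    exact Nat.pow_le_pow_left (by norm_num) n
  have h3 : (2 : ℕ) ^ (4 * n + 8) = 256 * 16 ^ n := by
    rw [pow_add, pow_mul]
    norm_num
    ring
  have h4 : 1 ≤ 16 ^ n := Nat.one_le_pow _ _ (by norm_num)
  rw [h3]
  calc (20 * n ^ 2 + 51 * n + 30) * 5 ^ n + 1 ≤ 102 * 3 ^ n * 5 ^ n + 1 :=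
        Nat.add_le_add_right (Nat.mul_le_mul_right _ h1) 1
    _ = 102 * (3 ^ n * 5 ^ n) + 1 := by ring
    _ ≤ 102 * 16 ^ n + 16 ^ n := Nat.add_le_add (Nat.mul_le_mul_left _ h2) h4
    _ ≤ 256 * 16 ^ n := by omega

private theorem num2 (n : ℕ) :
    (20 * n ^ 2 + 46 * n + 25 + 2 ^ (4 * n + 9)) * 5 ^ n + 1 ≤ 2 ^ (7 * n + 10) := by
  have h1 := num1 n
  have h2 : (20 * n ^ 2 + 46 * n + 25) * 5 ^ n ≤ (20 * n ^ 2 + 51 * n + 30) * 5 ^ n :=
    Nat.mul_le_mul_right _ (by omega)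
  have h3 : (5 : ℕ) ^ n ≤ 8 ^ n := Nat.pow_le_pow_left (by norm_num) n
  have h4 : 1 ≤ 8 ^ n := Nat.one_le_pow _ _ (by norm_num)
  have h5 : (2 : ℕ) ^ (7 * n + 10) = 2 ^ (4 * n + 8) * (4 * 8 ^ n) := by
    rw [show 7 * n + 10 = (4 * n + 8) + (3 * n + 2) by ring, pow_add, pow_add 2 (3 * n),
      pow_mul 2 3]
    norm_num
    ring
  have h6 : (2 : ℕ) ^ (4 * n + 9) = 2 ^ (4 * n + 8) * 2 := by
    rw [show 4 * n + 9 = (4 * n + 8) + 1 by ring, pow_succ]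
  rw [h5, h6, add_mul]
  set P := 2 ^ (4 * n + 8)
  have h7 : P * 2 * 5 ^ n ≤ P * 2 * 8 ^ n := Nat.mul_le_mul_left _ h3
  have h8 : P ≤ P * 8 ^ n := Nat.le_mul_of_pos_right _ h4
  calc (20 * n ^ 2 + 46 * n + 25) * 5 ^ n + P * 2 * 5 ^ n + 1
      ≤ P + P * 2 * 8 ^ n := by omega
    _ ≤ P * 8 ^ n + P * 2 * 8 ^ n := Nat.add_le_add_right h8 _
    _ ≤ P * (4 * 8 ^ n) := by nlinarith

private theorem chi_B1 (I : Inst) : nW 1 (chi I) + 1 ≤ 2 ^ 2 ^ (4 * I.n + 8) := by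
  have h1 := chi_norm I 1 le_rfl
  have h2 : (1 : ℝ) + 2 ^ (5 * I.n + 5) ≤ 2 ^ (5 * I.n + 6) := by
    rw [pow_succ _ (5 * I.n + 5)]
    have : (1 : ℝ) ≤ 2 ^ (5 * I.n + 5) := one_le_pow₀ (by norm_num)
    linarith
  have h3 : ((2 ^ (5 * I.n + 4)) ^ (4 * I.n + 6) * (1 + 2 ^ (5 * I.n + 5)) : ℝ) ^ 5 ^ I.n ≤
      2 ^ ((20 * I.n ^ 2 + 51 * I.n + 30) * 5 ^ I.n) := by
    rw [pow_mul _ (20 * I.n ^ 2 + 51 * I.n + 30)]
    apply pow_le_pow_left₀ (by positivity)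
    calc ((2 : ℝ) ^ (5 * I.n + 4)) ^ (4 * I.n + 6) * (1 + 2 ^ (5 * I.n + 5))
        ≤ (2 ^ (5 * I.n + 4)) ^ (4 * I.n + 6) * 2 ^ (5 * I.n + 6) :=
          mul_le_mul_of_nonneg_left h2 (by positivity)
      _ = 2 ^ (20 * I.n ^ 2 + 51 * I.n + 30) := by
          rw [← pow_mul, ← pow_add]
          congr 1
          ring
  have h4 : (2 : ℝ) ^ ((20 * I.n ^ 2 + 51 * I.n + 30) * 5 ^ I.n) + 1 ≤
      2 ^ ((20 * I.n ^ 2 + 51 * I.n + 30) * 5 ^ I.n + 1) := by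
    rw [pow_succ _ ((20 * I.n ^ 2 + 51 * I.n + 30) * 5 ^ I.n)]
    have : (1 : ℝ) ≤ 2 ^ ((20 * I.n ^ 2 + 51 * I.n + 30) * 5 ^ I.n) := one_le_pow₀ (by norm_num)
    linarith
  have h5 : (2 : ℝ) ^ ((20 * I.n ^ 2 + 51 * I.n + 30) * 5 ^ I.n + 1) ≤ 2 ^ 2 ^ (4 * I.n + 8) :=
    pow_le_pow_right₀ (by norm_num) (num1 I.n)
  linarith

private theorem chi_B2 (I : Inst) :
    nW (2 ^ 2 ^ (4 * I.n + 9)) (chi I) + 1 ≤ 2 ^ lamE I.n := by
  have h1 := chi_norm I (2 ^ 2 ^ (4 * I.n + 9)) (one_le_pow₀ (by norm_num))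
  have h2 : ((2 : ℝ) ^ 2 ^ (4 * I.n + 9)) + 2 ^ (5 * I.n + 5) ≤ 2 ^ (2 ^ (4 * I.n + 9) + 1) := by
    rw [pow_succ _ (2 ^ (4 * I.n + 9))]
    have h3 : (2 : ℝ) ^ (5 * I.n + 5) ≤ 2 ^ 2 ^ (4 * I.n + 9) := by
      apply pow_le_pow_right₀ (by norm_num)
      have h4 : 4 * I.n + 9 < 2 ^ (4 * I.n + 9) := Nat.lt_two_pow_self
      have h5 : I.n < 2 ^ I.n := Nat.lt_two_pow_self
      have h6 : (2 : ℕ) ^ (4 * I.n + 9) = 2 ^ I.n * 2 ^ (3 * I.n + 9) := by
        rw [← pow_add]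
        congr 1
        ring
      have h7 : (2 : ℕ) ^ 9 ≤ 2 ^ (3 * I.n + 9) := Nat.pow_le_pow_right (by norm_num) (by omega)
      rw [h6]
      nlinarith
    linarith
  have h3 : ((2 ^ (5 * I.n + 4)) ^ (4 * I.n + 6) *
      ((2 : ℝ) ^ 2 ^ (4 * I.n + 9) + 2 ^ (5 * I.n + 5))) ^ 5 ^ I.n ≤
      2 ^ ((20 * I.n ^ 2 + 46 * I.n + 25 + 2 ^ (4 * I.n + 9)) * 5 ^ I.n) := by
    rw [pow_mul _ (20 * I.n ^ 2 + 46 * I.n + 25 + 2 ^ (4 * I.n + 9))]
    apply pow_le_pow_left₀ (by positivity)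
    calc ((2 : ℝ) ^ (5 * I.n + 4)) ^ (4 * I.n + 6) *
          ((2 : ℝ) ^ 2 ^ (4 * I.n + 9) + 2 ^ (5 * I.n + 5))
        ≤ (2 ^ (5 * I.n + 4)) ^ (4 * I.n + 6) * 2 ^ (2 ^ (4 * I.n + 9) + 1) :=
          mul_le_mul_of_nonneg_left h2 (by positivity)
      _ = 2 ^ (20 * I.n ^ 2 + 46 * I.n + 25 + 2 ^ (4 * I.n + 9)) := by
          rw [← pow_mul, ← pow_add]
          congr 1
          ring
  have h4 : (2 : ℝ) ^ ((20 * I.n ^ 2 + 46 * I.n + 25 + 2 ^ (4 * I.n + 9)) * 5 ^ I.n) + 1 ≤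
      2 ^ ((20 * I.n ^ 2 + 46 * I.n + 25 + 2 ^ (4 * I.n + 9)) * 5 ^ I.n + 1) := by
    rw [pow_succ _ ((20 * I.n ^ 2 + 46 * I.n + 25 + 2 ^ (4 * I.n + 9)) * 5 ^ I.n)]
    have : (1 : ℝ) ≤ 2 ^ ((20 * I.n ^ 2 + 46 * I.n + 25 + 2 ^ (4 * I.n + 9)) * 5 ^ I.n) :=
      one_le_pow₀ (by norm_num)
    linarith
  have h5 : (2 : ℝ) ^ ((20 * I.n ^ 2 + 46 * I.n + 25 + 2 ^ (4 * I.n + 9)) * 5 ^ I.n + 1) ≤
      2 ^ lamE I.n := pow_le_pow_right₀ (by norm_num) (num2 I.n)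
  linarith

/-! ### The dichotomy -/

private theorem G_mono (I : Inst) {l l' : ℝ} (h : l ≤ l') (x : Fin I.n → ℝ) :
    eval x (I.G l) ≤ eval x (I.G l') := by
  rw [eval_G, eval_G]
  have h1 : 0 ≤ eval x (I.F ℝ) := by
    rw [eval_F]
    exact Finset.sum_nonneg fun a _ => sq_nonneg _
  nlinarith

private theorem G_double (I : Inst) (l : ℝ) (x : Fin I.n → ℝ) :
    eval x (I.G (2 * l)) ≤ 2 * eval x (I.G l) := by
  rw [eval_G, eval_G]
  have h1 : 0 ≤ ∑ i, x i ^ 6 :=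
    Finset.sum_nonneg fun i _ => by rw [show (6 : ℕ) = 2 * 3 by norm_num, pow_mul]; positivity
  linarith

/-- module A, first half: if the system is solvable, then `G` has a minimum, it is attained at a
real critical point, and it is at most `2 ^ (2 ^ (4 n + 8))` -/
theorem dich_true (I : Inst) (hI : I.Solvable) :
    ∃ x : Fin I.n → ℝ, (∀ i, x i ^ 5 = eval x (I.h ((2 : ℝ) ^ lamE I.n) i)) ∧
      eval x (I.G ((2 : ℝ) ^ lamE I.n)) ≤ 2 ^ 2 ^ (4 * I.n + 8) := by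
  obtain ⟨x, hx1, hx2⟩ := exists_min I ((2 : ℝ) ^ lamE I.n) (by positivity)
  refine ⟨x, hx2, ?_⟩
  by_contra hcon
  push Not at hcon
  obtain ⟨x0, hx0⟩ := hI
  set Cc : ℝ := ∑ i, x0 i ^ 6 with hC
  have hGx0 : ∀ l, eval x0 (I.G l) = Cc := by
    intro l
    have h0 : ∑ a ∈ Finset.range I.A, I.pv x0 a ^ 2 = 0 := by
      apply Finset.sum_eq_zero
      intro a ha
      rw [hx0 a (Finset.mem_range.1 ha)]
      norm_num
    rw [eval_G, eval_F, h0, mul_zero, add_zero]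
  set l : ℝ := max (2 ^ lamE I.n) (nW Cc (chi I) + 1) with hl
  have hl1 : (2 : ℝ) ^ lamE I.n ≤ l := le_max_left _ _
  have hl0 : 0 ≤ l := le_trans (by positivity) hl1
  obtain ⟨y, hy1, hy2⟩ := exists_min I l hl0
  have h1 := ev_chi I l y hy2
  have h2 : 1 ≤ |ev l (eval y (I.G l)) (chi I)| := by
    apply one_le_abs_ev (chi I) (chi_ne_zero I) Cc
    · have h3 := hx1 y
      have h4 := G_mono I hl1 y
      have h5 := chi_B1 I
      linarith
    · rw [← hGx0 l]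
      exact hy1 x0
    · exact le_max_right _ _
  rw [h1, abs_zero] at h2
  linarith

/-- module A, second half -/
theorem dich_false (I : Inst) (hI : ¬ I.Solvable) (x : Fin I.n → ℝ) :
    2 ^ 2 ^ (4 * I.n + 9) ≤ eval x (I.G ((2 : ℝ) ^ lamE I.n)) := by
  by_contra hcon
  push Not at hcon
  set B1 : ℝ := 2 ^ 2 ^ (4 * I.n + 8) with hB1
  set B2 : ℝ := 2 ^ 2 ^ (4 * I.n + 9) with hB2
  have hB12 : 2 * B1 ≤ B2 := by
    have h1 : (2 : ℕ) ^ (4 * I.n + 8) + 1 ≤ 2 ^ (4 * I.n + 9) := by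
      have h2 : 1 ≤ 2 ^ (4 * I.n + 8) := Nat.one_le_pow _ _ (by norm_num)
      rw [show 4 * I.n + 9 = (4 * I.n + 8) + 1 by ring, pow_succ 2 (4 * I.n + 8)]
      omega
    calc 2 * B1 = 2 ^ (2 ^ (4 * I.n + 8) + 1) := by
          rw [hB1, pow_succ _ (2 ^ (4 * I.n + 8))]
          ring
      _ ≤ B2 := pow_le_pow_right₀ (by norm_num) h1
  -- the minimum avoids the interval
  have hgap : ∀ l : ℝ, 2 ^ lamE I.n ≤ l → ∀ y : Fin I.n → ℝ,
      (∀ i, y i ^ 5 = eval y (I.h l i)) → eval y (I.G l) ≤ B2 → eval y (I.G l) < B1 := by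
    intro l hl y hy hle
    by_contra hge
    push Not at hge
    have h1 := ev_chi I l y hy
    have h2 : 1 ≤ |ev l (eval y (I.G l)) (chi I)| := by
      apply one_le_abs_ev (chi I) (chi_ne_zero I) B2
      · exact (chi_B1 I).trans hge
      · exact hle
      · exact (chi_B2 I).trans hl
    rw [h1, abs_zero] at h2
    linarith
  have hpos : ∀ k : ℕ, (0 : ℝ) < 2 ^ k * 2 ^ lamE I.n := fun k => by positivity
  have hbig : ∀ k : ℕ, (2 : ℝ) ^ lamE I.n ≤ 2 ^ k * 2 ^ lamE I.n := by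
    intro k
    have h1 : (1 : ℝ) ≤ 2 ^ k := one_le_pow₀ (by norm_num)
    have h2 : (0 : ℝ) < 2 ^ lamE I.n := by positivity
    nlinarith
  have hall : ∀ k : ℕ, ∃ y : Fin I.n → ℝ, eval y (I.G ((2 : ℝ) ^ k * 2 ^ lamE I.n)) < B1 := by
    intro k
    induction k with
    | zero =>
      rw [pow_zero, one_mul]
      obtain ⟨y, hy1, hy2⟩ := exists_min I ((2 : ℝ) ^ lamE I.n) (by positivity)
      exact ⟨y, hgap _ le_rfl y hy2 ((hy1 x).trans hcon.le)⟩
    | succ k ih =>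
      obtain ⟨z, hz⟩ := ih
      obtain ⟨y, hy1, hy2⟩ := exists_min I ((2 : ℝ) ^ (k + 1) * 2 ^ lamE I.n) (hpos (k + 1)).le
      refine ⟨y, hgap _ (hbig (k + 1)) y hy2 ?_⟩
      refine (hy1 z).trans ?_
      have h1 : (2 : ℝ) ^ (k + 1) * 2 ^ lamE I.n = 2 * (2 ^ k * 2 ^ lamE I.n) := by
        rw [pow_succ]
        ring
      rw [h1]
      refine (G_double I _ z).trans ?_
      linarith
  obtain ⟨L, hL⟩ := min_unbounded I hI B1
  obtain ⟨k, hk⟩ := pow_unbounded_of_one_lt L (one_lt_two (α := ℝ))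
  obtain ⟨y, hy⟩ := hall k
  have h1 : L ≤ (2 : ℝ) ^ k * 2 ^ lamE I.n := by
    have h2 : (1 : ℝ) ≤ 2 ^ lamE I.n := one_le_pow₀ (by norm_num)
    have h3 : (0 : ℝ) < 2 ^ k := by positivity
    nlinarith
  have h2 := hL _ h1 y
  linarith

end Vale.Agent.P337
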