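import Vale.Agent.P337.DichN

/-!
# Lower bound for integer polynomials in two variables at large arguments (module A2)
-/

namespace Vale.Agent.P337

open Polynomial

/-- weighted sum of the norms of the coefficients -/
noncomputable def wn {R : Type*} [CommRing R] (W : ℝ) (N : R → ℝ) (p : R[X]) : ℝ :=
  ∑ i ∈ p.support, W ^ i * N (p.coeff i)

namespace IsRN

variable {R : Type*} [CommRing R] {N : R → ℝ} (hN : IsRN N) {W : ℝ} (hW : 0 ≤ W)
include hN

theorem wn_eq (W : ℝ) {p : R[X]} {S : Finset ℕ} (hS : p.support ⊆ S) :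
    wn W N p = ∑ i ∈ S, W ^ i * N (p.coeff i) := by
  unfold wn
  apply Finset.sum_subset hS
  intro s _ hs
  rw [notMem_support_iff.1 hs, hN.zero, mul_zero]

theorem wn_monomial (W : ℝ) (i : ℕ) (a : R) : wn W N (monomial i a) = W ^ i * N a := by
  rw [hN.wn_eq W (S := {i}) (support_monomial' i a)]
  simp

include hW

theorem wn_nonneg (p : R[X]) : 0 ≤ wn W N p :=
  Finset.sum_nonneg fun _ _ => mul_nonneg (pow_nonneg hW _) (hN.nonneg _)

theorem wn_add (p q : R[X]) : wn W N (p + q) ≤ wn W N p + wn W N q := by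
  classical
  rw [hN.wn_eq W (p := p + q) (S := p.support ∪ q.support) support_add,
    hN.wn_eq W (p := p) (S := p.support ∪ q.support) Finset.subset_union_left,
    hN.wn_eq W (p := q) (S := p.support ∪ q.support) Finset.subset_union_right,
    ← Finset.sum_add_distrib]
  apply Finset.sum_le_sum
  intro s _
  rw [coeff_add, ← mul_add]
  exact mul_le_mul_of_nonneg_left (hN.add _ _) (pow_nonneg hW _)

theorem wn_sum {ι : Type*} (s : Finset ι) (f : ι → R[X]) :
    wn W N (∑ i ∈ s, f i) ≤ ∑ i ∈ s, wn W N (f i) := by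
  classical
  induction s using Finset.induction_on with
  | empty => simp [wn]
  | insert a s ha ih =>
    rw [Finset.sum_insert ha, Finset.sum_insert ha]
    exact (hN.wn_add hW _ _).trans (by linarith)

theorem wn_mul (p q : R[X]) : wn W N (p * q) ≤ wn W N p * wn W N q := by
  classical
  have h1 : p * q = ∑ s ∈ p.support, ∑ t ∈ q.support,
      monomial (s + t) (p.coeff s * q.coeff t) := by
    conv_lhs => rw [p.as_sum_support, q.as_sum_support]
    rw [Finset.sum_mul_sum]
    simp only [monomial_mul_monomial]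
  rw [h1]
  refine (hN.wn_sum hW _ _).trans ?_
  rw [wn, wn, Finset.sum_mul_sum]
  apply Finset.sum_le_sum
  intro s _
  refine (hN.wn_sum hW _ _).trans ?_
  apply Finset.sum_le_sum
  intro t _
  rw [hN.wn_monomial, pow_add]
  calc W ^ s * W ^ t * N (p.coeff s * q.coeff t)
      ≤ W ^ s * W ^ t * (N (p.coeff s) * N (q.coeff t)) :=
        mul_le_mul_of_nonneg_left (hN.mul _ _) (by positivity)
    _ = W ^ s * N (p.coeff s) * (W ^ t * N (q.coeff t)) := by ring

theorem wn_isRN : IsRN (wn W N : R[X] → ℝ) where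
  nonneg := hN.wn_nonneg hW
  zero := by simp [wn]
  one := by
    have h := hN.wn_monomial W 0 1
    rw [pow_zero, one_mul] at h
    rw [← monomial_zero_one, h]
    exact hN.one
  neg := by
    intro p
    unfold wn
    rw [support_neg]
    apply Finset.sum_le_sum
    intro s _
    rw [coeff_neg]
    exact mul_le_mul_of_nonneg_left (hN.neg _) (pow_nonneg hW _)
  add := hN.wn_add hW
  mul := hN.wn_mul hW

omit hW

theorem wn_C (W : ℝ) (a : R) : wn W N (C a) = N a := by
  rw [← monomial_zero_left, hN.wn_monomial, pow_zero, one_mul]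

theorem wn_X (W : ℝ) (hW : 0 ≤ W) : wn W N (X : R[X]) ≤ W := by
  rw [← monomial_one_one_eq_X, hN.wn_monomial, pow_one]
  exact mul_le_of_le_one_right hW hN.one

theorem coeff_zero_le (W : ℝ) (hW : 0 ≤ W) (p : R[X]) : N (p.coeff 0) ≤ wn W N p := by
  classical
  rw [hN.wn_eq W (p := p) (S := insert 0 p.support) (Finset.subset_insert _ _)]
  have h := Finset.single_le_sum (f := fun i => W ^ i * N (p.coeff i))
    (s := insert 0 p.support) (fun i _ => mul_nonneg (pow_nonneg hW _) (hN.nonneg _))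
    (Finset.mem_insert_self 0 _)
  simpa using h

theorem wn_divX_le (p : R[X]) : wn 1 N p.divX ≤ wn 1 N p := by
  classical
  have h1 : wn 1 N p.divX = ∑ i ∈ Finset.range (p.natDegree + 1), N (p.coeff (i + 1)) := by
    rw [hN.wn_eq 1 (p := p.divX) (S := Finset.range (p.natDegree + 1))]
    · apply Finset.sum_congr rfl
      intro i _
      rw [coeff_divX, one_pow, one_mul]
    · intro i hi
      rw [mem_support_iff, coeff_divX] at hi
      have := le_natDegree_of_ne_zero hi
      rw [Finset.mem_range]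
      omega
  have h2 : wn 1 N p = ∑ i ∈ Finset.range (p.natDegree + 2), N (p.coeff i) := by
    rw [hN.wn_eq 1 (p := p) (S := Finset.range (p.natDegree + 2))]
    · apply Finset.sum_congr rfl
      intro i _
      rw [one_pow, one_mul]
    · intro i hi
      rw [mem_support_iff] at hi
      have := le_natDegree_of_ne_zero hi
      rw [Finset.mem_range]
      omega
  rw [h1, h2, Finset.sum_range_succ' _ (p.natDegree + 1)]
  have := hN.nonneg (p.coeff 0)
  linarith

end IsRN

/-- induction step of the lower bound -/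
theorem one_le_abs_eval₂ {R : Type*} [CommRing R] {N N' : R → ℝ} (hN : IsRN N) (hN' : IsRN N')
    (f : R →+* ℝ) (B : ℝ) (hf : ∀ a, a ≠ 0 → N a ≤ B → 1 ≤ |f a|) (hf' : ∀ a, |f a| ≤ N' a)
    (l : ℝ) (d : ℕ) : ∀ p : R[X], p.natDegree ≤ d → p ≠ 0 → wn 1 N p ≤ B → wn 1 N' p + 1 ≤ l →
      1 ≤ |eval₂ f l p| := by
  induction d with
  | zero =>
    intro p hd hp hB _
    rw [eq_C_of_natDegree_le_zero hd] at hp hB ⊢
    rw [eval₂_C]
    rw [hN.wn_C] at hB
    apply hf _ _ hB
    intro h
    rw [h, C_0] at hp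
    exact hp rfl
  | succ d ih =>
    intro p hd hp hB hl
    have hdec := divX_mul_X_add p
    by_cases hq : p.divX = 0
    · rw [hq, zero_mul, zero_add] at hdec
      rw [← hdec, hN.wn_C] at hB
      rw [← hdec, eval₂_C]
      apply hf _ _ hB
      intro h
      rw [h, C_0] at hdec
      exact hp hdec.symm
    · have h1 := ih p.divX (by rw [natDegree_divX_eq_natDegree_tsub_one]; omega) hq
        ((hN.wn_divX_le p).trans hB) (by linarith [hN'.wn_divX_le p])
      have h2 : |f (p.coeff 0)| ≤ wn 1 N' p :=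
        (hf' _).trans (hN'.coeff_zero_le 1 zero_le_one p)
      have h3 : 0 ≤ wn 1 N' p := hN'.wn_nonneg zero_le_one p
      have h4 : eval₂ f l p = eval₂ f l p.divX * l + f (p.coeff 0) := by
        conv_lhs => rw [← hdec]
        rw [eval₂_add, eval₂_mul, eval₂_X, eval₂_C]
      rw [h4]
      have h5 : |eval₂ f l p.divX * l| = |eval₂ f l p.divX| * l := by
        rw [abs_mul, abs_of_nonneg (by linarith : 0 ≤ l)]
      have h6 : l ≤ |eval₂ f l p.divX * l| := by
        rw [h5]
        nlinarith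
      have h7 := abs_sub_abs_le_abs_sub (eval₂ f l p.divX * l) (-f (p.coeff 0))
      rw [abs_neg, sub_neg_eq_add] at h7
      linarith

/-- the absolute value of integers -/
def absZ (a : ℤ) : ℝ := |(a : ℝ)|

theorem absZ_isRN : IsRN absZ where
  nonneg _ := abs_nonneg _
  zero := by simp [absZ]
  one := by simp [absZ]
  neg a := by simp [absZ]
  add a b := by
    unfold absZ
    push_cast
    exact abs_add_le _ _
  mul a b := by
    unfold absZ
    push_cast
    exact (abs_mul _ _).le

/-- the norm of a polynomial in `λ` with coefficients in `ℤ[T]`, with weight `W` for `T` -/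
noncomputable def nW (W : ℝ) : ℤ[X][X] → ℝ := wn 1 (wn W absZ)

theorem nW_isRN {W : ℝ} (hW : 0 ≤ W) : IsRN (nW W) := (absZ_isRN.wn_isRN hW).wn_isRN zero_le_one

/-- evaluation at `T` and `λ = l` -/
noncomputable def ev (l T : ℝ) : ℤ[X][X] →+* ℝ :=
  eval₂RingHom (eval₂RingHom (Int.castRingHom ℝ) T) l

theorem abs_eval₂_le {W T : ℝ} (hT : 0 ≤ T) (hTW : T ≤ W) (c : ℤ[X]) :
    |eval₂ (Int.castRingHom ℝ) T c| ≤ wn W absZ c := by
  rw [eval₂_eq_sum, Polynomial.sum]
  refine (Finset.abs_sum_le_sum_abs _ _).trans ?_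
  unfold wn
  apply Finset.sum_le_sum
  intro i _
  rw [abs_mul, mul_comm, absZ]
  apply mul_le_mul_of_nonneg_right _ (abs_nonneg _)
  rw [abs_of_nonneg (pow_nonneg hT i)]
  exact pow_le_pow_left₀ hT hTW i

/-- module A2 -/
theorem one_le_abs_ev (p : ℤ[X][X]) (hp : p ≠ 0) (W T l : ℝ) (hT : nW 1 p + 1 ≤ T) (hTW : T ≤ W)
    (hl : nW W p + 1 ≤ l) : 1 ≤ |ev l T p| := by
  have h0 : 0 ≤ nW 1 p := (nW_isRN zero_le_one).nonneg p
  have hT0 : 0 ≤ T := by linarith
  have hW0 : 0 ≤ W := hT0.trans hTW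
  refine one_le_abs_eval₂ (absZ_isRN.wn_isRN zero_le_one) (absZ_isRN.wn_isRN hW0)
    (eval₂RingHom (Int.castRingHom ℝ) T) (nW 1 p) ?_ (fun a => abs_eval₂_le hT0 hTW a) l
    p.natDegree p le_rfl hp le_rfl hl
  intro a ha haB
  refine one_le_abs_eval₂ absZ_isRN absZ_isRN (Int.castRingHom ℝ) (nW 1 p) ?_
    (fun b => le_rfl) T a.natDegree a le_rfl ha haB (by linarith)
  intro b hb _
  have h1 : (1 : ℤ) ≤ |b| := Int.one_le_abs hb
  have h2 : ((1 : ℤ) : ℝ) ≤ ((|b| : ℤ) : ℝ) := by exact_mod_cast h1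
  rw [Int.cast_abs, Int.cast_one] at h2
  exact h2

end Vale.Agent.P337
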