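import Vale.Agent.P337.Alg

/-!
# Submultiplicative norms and a bound for the norm `nm` (module A1)
-/

namespace Vale.Agent.P337

open MvPolynomial

/-- a submultiplicative norm (possibly with zeros) on a commutative ring -/
structure IsRN {R : Type*} [CommRing R] (N : R → ℝ) : Prop where
  nonneg : ∀ a, 0 ≤ N a
  zero : N 0 = 0
  one : N 1 ≤ 1
  neg : ∀ a, N (-a) ≤ N a
  add : ∀ a b, N (a + b) ≤ N a + N b
  mul : ∀ a b, N (a * b) ≤ N a * N b

/-- the sum of the norms of the coefficients -/
noncomputable def mvn {R : Type*} [CommRing R] {n : ℕ} (N : R → ℝ) (p : MvPolynomial (Fin n) R) :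
    ℝ := ∑ s ∈ p.support, N (coeff s p)

namespace IsRN

variable {R : Type*} [CommRing R] {N : R → ℝ} (hN : IsRN N)
include hN

theorem sum {ι : Type*} (s : Finset ι) (f : ι → R) :
    N (∑ i ∈ s, f i) ≤ ∑ i ∈ s, N (f i) := by
  classical
  induction s using Finset.induction_on with
  | empty => simp [hN.zero]
  | insert a s ha ih =>
    rw [Finset.sum_insert ha, Finset.sum_insert ha]
    exact (hN.add _ _).trans (by linarith)

theorem prod {ι : Type*} (s : Finset ι) (f : ι → R) :
    N (∏ i ∈ s, f i) ≤ ∏ i ∈ s, N (f i) := by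
  classical
  induction s using Finset.induction_on with
  | empty => simpa using hN.one
  | insert a s ha ih =>
    rw [Finset.prod_insert ha, Finset.prod_insert ha]
    exact (hN.mul _ _).trans (mul_le_mul_of_nonneg_left ih (hN.nonneg _))

theorem pow (a : R) (k : ℕ) : N (a ^ k) ≤ N a ^ k := by
  have h := hN.prod (Finset.range k) (fun _ => a)
  simpa using h

theorem natCast (k : ℕ) : N (k : R) ≤ k := by
  induction k with
  | zero => simp [hN.zero]
  | succ k ih =>
    push_cast
    exact (hN.add _ _).trans (add_le_add ih hN.one)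

theorem intCast (k : ℤ) : N (k : R) ≤ |(k : ℝ)| := by
  obtain ⟨m, rfl | rfl⟩ := k.eq_nat_or_neg
  · have h := hN.natCast m
    simpa using h
  · have h := (hN.neg (m : R)).trans (hN.natCast m)
    simpa using h

theorem sub (a b : R) : N (a - b) ≤ N a + N b := by
  rw [sub_eq_add_neg]
  exact (hN.add _ _).trans (add_le_add le_rfl (hN.neg b))

theorem sgn (e : ℤˣ) (a : R) : N (e • a) ≤ N a := by
  obtain h | h := Int.units_eq_one_or e
  · rw [h, one_smul]
  · rw [h, Units.neg_smul, one_smul]
    exact hN.neg a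

/-- the determinant is at most the product over the columns of the sums of the entries -/
theorem det {ι : Type*} [Fintype ι] [DecidableEq ι] (A : Matrix ι ι R) :
    N A.det ≤ ∏ j, ∑ i, N (A i j) := by
  rw [Matrix.det_apply]
  have h1 : ∏ j, ∑ i, N (A i j) = ∑ f : ι → ι, ∏ j, N (A (f j) j) := by
    rw [Finset.prod_univ_sum]
    simp
  rw [h1]
  calc N (∑ σ : Equiv.Perm ι, Equiv.Perm.sign σ • ∏ i, A (σ i) i)
      ≤ ∑ σ : Equiv.Perm ι, N (Equiv.Perm.sign σ • ∏ i, A (σ i) i) := hN.sum _ _
    _ ≤ ∑ σ : Equiv.Perm ι, ∏ i, N (A (σ i) i) :=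
        Finset.sum_le_sum fun σ _ => (hN.sgn _ _).trans (hN.prod _ _)
    _ = ∑ f ∈ (Finset.univ : Finset (Equiv.Perm ι)).image
          (fun σ : Equiv.Perm ι => fun i : ι => σ i), ∏ j, N (A (f j) j) := by
        rw [Finset.sum_image]
        intro σ _ τ _ h
        exact DFunLike.coe_injective h
    _ ≤ ∑ f : ι → ι, ∏ j, N (A (f j) j) := by
        apply Finset.sum_le_sum_of_subset_of_nonneg (Finset.subset_univ _)
        intro f _ _
        exact Finset.prod_nonneg fun j _ => hN.nonneg _

section mv

variable {n : ℕ}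

theorem mvn_eq {p : MvPolynomial (Fin n) R} {S : Finset (Fin n →₀ ℕ)} (hS : p.support ⊆ S) :
    mvn N p = ∑ s ∈ S, N (coeff s p) := by
  unfold mvn
  apply Finset.sum_subset hS
  intro s _ hs
  rw [notMem_support_iff.1 hs, hN.zero]

theorem mvn_nonneg (p : MvPolynomial (Fin n) R) : 0 ≤ mvn N p :=
  Finset.sum_nonneg fun _ _ => hN.nonneg _

theorem mvn_monomial (s : Fin n →₀ ℕ) (a : R) : mvn N (monomial s a) ≤ N a := by
  rw [hN.mvn_eq (S := {s}) support_monomial_subset]
  simp

theorem mvn_add (p q : MvPolynomial (Fin n) R) : mvn N (p + q) ≤ mvn N p + mvn N q := by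
  classical
  rw [hN.mvn_eq (p := p + q) (S := p.support ∪ q.support) support_add,
    hN.mvn_eq (p := p) (S := p.support ∪ q.support) Finset.subset_union_left,
    hN.mvn_eq (p := q) (S := p.support ∪ q.support) Finset.subset_union_right,
    ← Finset.sum_add_distrib]
  apply Finset.sum_le_sum
  intro s _
  rw [coeff_add]
  exact hN.add _ _

theorem mvn_sum {ι : Type*} (s : Finset ι) (f : ι → MvPolynomial (Fin n) R) :
    mvn N (∑ i ∈ s, f i) ≤ ∑ i ∈ s, mvn N (f i) := by
  classical
  induction s using Finset.induction_on with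
  | empty => simp [mvn]
  | insert a s ha ih =>
    rw [Finset.sum_insert ha, Finset.sum_insert ha]
    exact (hN.mvn_add _ _).trans (by linarith)

theorem mvn_mul (p q : MvPolynomial (Fin n) R) : mvn N (p * q) ≤ mvn N p * mvn N q := by
  classical
  have h1 : p * q = ∑ s ∈ p.support, ∑ t ∈ q.support, monomial (s + t) (coeff s p * coeff t q) := by
    conv_lhs => rw [p.as_sum, q.as_sum]
    rw [Finset.sum_mul_sum]
    simp only [monomial_mul]
  rw [h1]
  refine (hN.mvn_sum _ _).trans ?_
  rw [mvn, mvn, Finset.sum_mul_sum]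
  apply Finset.sum_le_sum
  intro s _
  refine (hN.mvn_sum _ _).trans ?_
  apply Finset.sum_le_sum
  intro t _
  exact (hN.mvn_monomial _ _).trans (hN.mul _ _)

theorem mvn_isRN : IsRN (mvn N : MvPolynomial (Fin n) R → ℝ) where
  nonneg := hN.mvn_nonneg
  zero := by simp [mvn]
  one := (hN.mvn_monomial (n := n) 0 1).trans hN.one
  neg := by
    intro p
    unfold mvn
    rw [support_neg]
    apply Finset.sum_le_sum
    intro s _
    rw [coeff_neg]
    exact hN.neg _
  add := hN.mvn_add
  mul := hN.mvn_mul

theorem mvn_C (a : R) : mvn N (C a : MvPolynomial (Fin n) R) ≤ N a := hN.mvn_monomial 0 a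

theorem mvn_X (i : Fin n) : mvn N (X i : MvPolynomial (Fin n) R) ≤ 1 :=
  (hN.mvn_monomial _ 1).trans hN.one

/-- the box polynomials are closed under sums -/
theorem exists_red_of (h : Fin n → MvPolynomial (Fin n) R) (B : ℝ) (g : MvPolynomial (Fin n) R)
    (hg : ∀ s ∈ g.support, ∃ q : MvPolynomial (Fin n) R, (∀ t ∈ q.support, ∀ i, t i ≤ 4) ∧
      monomial s 1 - q ∈ relIdeal h ∧ mvn N q ≤ B) :
    ∃ q : MvPolynomial (Fin n) R, (∀ t ∈ q.support, ∀ i, t i ≤ 4) ∧
      g - q ∈ relIdeal h ∧ mvn N q ≤ B * mvn N g := by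
  classical
  choose! f hf1 hf2 hf3 using hg
  refine ⟨∑ s ∈ g.support, C (coeff s g) * f s, ?_, ?_, ?_⟩
  · intro t ht i
    have h1 := support_sum ht
    rw [Finset.mem_biUnion] at h1
    obtain ⟨s, hs, h2⟩ := h1
    refine hf1 s hs t ?_ i
    rw [mem_support_iff] at h2 ⊢
    intro h3
    apply h2
    rw [coeff_C_mul, h3, mul_zero]
  · have h1 : g - ∑ s ∈ g.support, C (coeff s g) * f s =
        ∑ s ∈ g.support, C (coeff s g) * (monomial s 1 - f s) := by
      simp only [mul_sub, Finset.sum_sub_distrib]
      congr 1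
      conv_lhs => rw [g.as_sum]
      apply Finset.sum_congr rfl
      intro s _
      rw [C_mul_monomial, mul_one]
    rw [h1]
    exact Ideal.sum_mem _ fun s hs => Ideal.mul_mem_left _ _ (hf2 s hs)
  · refine (hN.mvn_sum _ _).trans ?_
    rw [mvn, Finset.mul_sum]
    apply Finset.sum_le_sum
    intro s hs
    calc mvn N (C (coeff s g) * f s) ≤ mvn N (C (coeff s g) : MvPolynomial (Fin n) R) *
          mvn N (f s) := hN.mvn_mul _ _
      _ ≤ N (coeff s g) * B :=
          mul_le_mul (hN.mvn_C _) (hf3 s hs) (hN.mvn_nonneg _) (hN.nonneg _)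
      _ = B * N (coeff s g) := mul_comm _ _

theorem exists_red_monomial (h : Fin n → MvPolynomial (Fin n) R)
    (hd : ∀ i, (h i).totalDegree ≤ 3) (M : ℝ) (hM : 1 ≤ M) (hh : ∀ i, mvn N (h i) ≤ M) (d : ℕ) :
    ∀ s : Fin n →₀ ℕ, s.degree ≤ d → ∃ q : MvPolynomial (Fin n) R,
      (∀ t ∈ q.support, ∀ i, t i ≤ 4) ∧ monomial s 1 - q ∈ relIdeal h ∧ mvn N q ≤ M ^ d := by
  classical
  induction d with
  | zero =>
    intro s hs
    refine ⟨monomial s 1, ?_, by simp, ?_⟩
    · intro t ht i
      have h1 : t = s := by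
        have := support_monomial_subset ht
        simpa using this
      have h2 : s i ≤ s.degree := Finsupp.le_degree i s
      rw [h1]
      omega
    · rw [pow_zero]
      exact (hN.mvn_monomial _ _).trans hN.one
  | succ d ih =>
    intro s hs
    by_cases hbox : ∀ i, s i ≤ 4
    · refine ⟨monomial s 1, ?_, by simp, ?_⟩
      · intro t ht i
        have h1 : t = s := by
          have := support_monomial_subset ht
          simpa using this
        rw [h1]
        exact hbox i
      · exact ((hN.mvn_monomial _ _).trans hN.one).trans (one_le_pow₀ hM)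
    · push Not at hbox
      obtain ⟨i, hi⟩ := hbox
      -- `s = t + 5 e_i`
      set t : Fin n →₀ ℕ := s - Finsupp.single i 5 with ht
      have hst : s = t + Finsupp.single i 5 := by
        rw [ht, tsub_add_cancel_of_le]
        rw [Finsupp.single_le_iff]
        omega
      have hdeg : t.degree + 5 = s.degree := by
        rw [hst, map_add, Finsupp.degree_single]
      have hg : ∃ q : MvPolynomial (Fin n) R, (∀ t ∈ q.support, ∀ i, t i ≤ 4) ∧
          monomial t 1 * h i - q ∈ relIdeal h ∧ mvn N q ≤ M ^ d * mvn N (monomial t 1 * h i) := by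
        apply hN.exists_red_of
        intro u hu
        apply ih
        have h1 : u.degree ≤ (monomial t (1 : R) * h i).totalDegree := by
          have := le_totalDegree hu
          rwa [Finsupp.degree_eq_sum, ← Finsupp.sum_fintype _ (fun _ e => e) (by simp)]
        have h2 : (monomial t (1 : R) * h i).totalDegree ≤ t.degree + 3 := by
          refine (totalDegree_mul _ _).trans (add_le_add ?_ (hd i))
          refine (totalDegree_monomial_le _ _).trans ?_
          rw [Finsupp.degree_eq_sum, Finsupp.sum_fintype _ _ (by simp)]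
          exact le_rfl
        omega
      obtain ⟨q, hq1, hq2, hq3⟩ := hg
      refine ⟨q, hq1, ?_, ?_⟩
      · have h3 : monomial s (1 : R) - q = monomial t 1 * (X i ^ 5 - h i) +
            (monomial t 1 * h i - q) := by
          rw [hst, X_pow_eq_monomial, mul_sub, monomial_mul, mul_one]
          ring
        rw [h3]
        refine Ideal.add_mem _ (Ideal.mul_mem_left _ _ ?_) hq2
        exact Ideal.subset_span ⟨i, rfl⟩
      · refine hq3.trans ?_
        rw [pow_succ]
        apply mul_le_mul_of_nonneg_left _ (by positivity)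
        calc mvn N (monomial t 1 * h i) ≤ mvn N (monomial t (1 : R)) * mvn N (h i) :=
              hN.mvn_mul _ _
          _ ≤ 1 * M := mul_le_mul ((hN.mvn_monomial _ _).trans hN.one) (hh i)
              (hN.mvn_nonneg _) zero_le_one
          _ = M := one_mul M

theorem exists_red (h : Fin n → MvPolynomial (Fin n) R)
    (hd : ∀ i, (h i).totalDegree ≤ 3) (M : ℝ) (hM : 1 ≤ M) (hh : ∀ i, mvn N (h i) ≤ M)
    (g : MvPolynomial (Fin n) R) (d : ℕ) (hg : g.totalDegree ≤ d) :
    ∃ q : MvPolynomial (Fin n) R, (∀ t ∈ q.support, ∀ i, t i ≤ 4) ∧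
      g - q ∈ relIdeal h ∧ mvn N q ≤ M ^ d * mvn N g := by
  apply hN.exists_red_of
  intro s hs
  apply hN.exists_red_monomial h hd M hM hh
  have := le_totalDegree hs
  rw [Finsupp.degree_eq_sum, ← Finsupp.sum_fintype _ (fun _ e => e) (by simp)]
  omega

end mv

end IsRN

/-- module A1: rewriting `x_i ^ 5` to `h_i` lowers the degree; the determinant is at most the
product over the columns of the sums of the norms of the entries -/
theorem nm_bound {R : Type*} [CommRing R] {N : R → ℝ} (hN : IsRN N) {n : ℕ}
    (h : Fin n → MvPolynomial (Fin n) R) (hd : ∀ i, (h i).totalDegree ≤ 3) (M : ℝ) (hM : 1 ≤ M)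
    (hh : ∀ i, mvn N (h i) ≤ M) (g : MvPolynomial (Fin n) R) (d : ℕ) (hg : g.totalDegree ≤ d) :
    N (nm h g) ≤ (M ^ (4 * n + d) * mvn N g) ^ 5 ^ n := by
  classical
  obtain ⟨b, hb⟩ := exists_basis h hd
  let φ : (Fin n → Fin 5) → (Fin n →₀ ℕ) := fun k =>
    Finsupp.equivFunOnFinite.symm fun i => (k i : ℕ)
  have hφ : Function.Injective φ := by
    intro k k' hk
    have h1 := Finsupp.equivFunOnFinite.symm.injective hk
    funext i
    exact Fin.ext (congrFun h1 i)
  -- the reduced form of a box polynomial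
  have hbox : ∀ q : MvPolynomial (Fin n) R, (∀ t ∈ q.support, ∀ i, t i ≤ 4) →
      Ideal.Quotient.mk (relIdeal h) q = ∑ k, coeff (φ k) q • b k := by
    intro q hq
    have h1 : q = ∑ k, monomial (φ k) (coeff (φ k) q) := by
      have h2 : ∑ k, monomial (φ k) (coeff (φ k) q) =
          ∑ s ∈ (Finset.univ : Finset (Fin n → Fin 5)).image φ, monomial s (coeff s q) := by
        rw [Finset.sum_image]
        intro k _ k' _ hk
        exact hφ hk
      rw [h2]
      conv_lhs => rw [q.as_sum]
      apply Finset.sum_subset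
      · intro s hs
        rw [Finset.mem_image]
        refine ⟨fun i => ⟨s i, by have := hq s hs i; omega⟩, Finset.mem_univ _, ?_⟩
        ext i
        simp [φ]
      · intro s _ hs
        rw [notMem_support_iff.1 hs, monomial_zero]
    conv_lhs => rw [h1]
    rw [map_sum]
    apply Finset.sum_congr rfl
    intro k _
    rw [hb k]
    have h3 := map_smul (Ideal.Quotient.mkₐ R (relIdeal h)) (coeff (φ k) q)
      (monomial (φ k) (1 : R))
    rw [smul_monomial, smul_eq_mul, mul_one] at h3
    exact h3
  rw [nm, Algebra.norm_eq_matrix_det b]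
  refine (hN.det _).trans ?_
  have hcol : ∀ j : Fin n → Fin 5,
      ∑ i, N (Algebra.leftMulMatrix b (Ideal.Quotient.mk (relIdeal h) g) i j) ≤
        M ^ (4 * n + d) * mvn N g := by
    intro j
    have hdeg : (g * monomial (φ j) (1 : R)).totalDegree ≤ 4 * n + d := by
      refine (totalDegree_mul _ _).trans ?_
      rw [add_comm (4 * n) d]
      refine add_le_add hg ((totalDegree_monomial_le _ _).trans ?_)
      rw [Finsupp.sum_fintype _ _ (by simp)]
      calc ∑ i, (φ j) i ≤ ∑ _i : Fin n, 4 := by
            apply Finset.sum_le_sum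
            intro i _
            have : (φ j) i = (j i : ℕ) := rfl
            rw [this]
            omega
        _ = 4 * n := by simp [mul_comm]
    obtain ⟨q, hq1, hq2, hq3⟩ := hN.exists_red h hd M hM hh _ _ hdeg
    have h1 : ∀ i, Algebra.leftMulMatrix b (Ideal.Quotient.mk (relIdeal h) g) i j =
        coeff (φ i) q := by
      intro i
      rw [Algebra.leftMulMatrix_eq_repr_mul, hb j, ← map_mul]
      have h2 : Ideal.Quotient.mk (relIdeal h) (g * monomial (φ j) 1) =
          Ideal.Quotient.mk (relIdeal h) q := Ideal.Quotient.eq.2 hq2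
      change b.repr (Ideal.Quotient.mk (relIdeal h) (g * monomial (φ j) 1)) i = _
      rw [h2, hbox q hq1, map_sum, Finset.sum_apply']
      simp [Finsupp.single_apply]
    simp only [h1]
    calc ∑ i, N (coeff (φ i) q)
        = ∑ s ∈ (Finset.univ : Finset (Fin n → Fin 5)).image φ, N (coeff s q) := by
          rw [Finset.sum_image]
          intro k _ k' _ hk
          exact hφ hk
      _ ≤ mvn N q := by
          rw [hN.mvn_eq (p := q) (S := q.support ∪
            (Finset.univ : Finset (Fin n → Fin 5)).image φ) Finset.subset_union_left]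
          apply Finset.sum_le_sum_of_subset_of_nonneg Finset.subset_union_right
          intro _ _ _
          exact hN.nonneg _
      _ ≤ M ^ (4 * n + d) * mvn N (g * monomial (φ j) 1) := hq3
      _ ≤ M ^ (4 * n + d) * mvn N g := by
          apply mul_le_mul_of_nonneg_left _ (by positivity)
          calc mvn N (g * monomial (φ j) 1) ≤ mvn N g * mvn N (monomial (φ j) (1 : R)) :=
                hN.mvn_mul _ _
            _ ≤ mvn N g * 1 := mul_le_mul_of_nonneg_left
                ((hN.mvn_monomial _ _).trans hN.one) (hN.mvn_nonneg _)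
            _ = mvn N g := mul_one _
  calc ∏ j, ∑ i, N (Algebra.leftMulMatrix b (Ideal.Quotient.mk (relIdeal h) g) i j)
      ≤ ∏ _j : Fin n → Fin 5, (M ^ (4 * n + d) * mvn N g) :=
        Finset.prod_le_prod (fun j _ => Finset.sum_nonneg fun i _ => hN.nonneg _)
          fun j _ => hcol j
    _ = (M ^ (4 * n + d) * mvn N g) ^ 5 ^ n := by simp

end Vale.Agent.P337
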