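import Vale.Agent.P337.Inst
import Vale.Agent.P337.Params

/-!
# The algorithm: functions on natural numbers
-/

namespace Vale.Agent.P337

namespace Inst

noncomputable section

open Classical

variable (I : Inst)

/-- the parameter `q` -/
def q : ℕ := 10 * I.n + 16
/-- the dimension -/
def D : ℕ := 5 ^ I.n
/-- the primes are between `2 ^ P` and `2 ^ (2 P)` -/
def P : ℕ := 18 * I.q + 80
/-- digits per coordinate of a point -/
def bb : ℕ := 2 * I.P + 1
/-- the bound for the degrees -/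
def B : ℕ := 2 ^ (16 * I.q + 64)
/-- the exponent of `λ = 2 ^ lamE` -/
def lE : ℕ := 2 ^ (7 * I.n + 10)
/-- the exponent of `Θ = 2 ^ thE` -/
def thE : ℕ := 2 ^ (4 * I.n + 8) + 7

/-- the coefficients plus two -/
def cN (a u v : ℕ) : ℕ := (I.c a u v + 2).toNat

/-- block number `i` of `b` digits of `X` -/
def dg (b X i : ℕ) : ℕ := X / 2 ^ (b * i) % 2 ^ b

/-- `X` is the code of a point with nonzero coordinates modulo `p` -/
def Valid (p X : ℕ) : Prop := ∀ i < I.n, 0 < dg I.bb X i ∧ dg I.bb X i < p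

def zN (X u : ℕ) : ℕ := if u = 0 then 1 else if u - 1 < I.n then dg I.bb X (u - 1) else 0

/-- the value of the equation number `a` modulo `p` -/
def pvN (p X a : ℕ) : ℕ :=
  (∑ u ∈ Finset.range (I.n + 1), ∑ v ∈ Finset.range (I.n + 1),
    (I.cN a u v + (p - 2)) * I.zN X u * I.zN X v) % p

/-- its derivative with respect to `x_i` -/
def dpN (p X a i : ℕ) : ℕ :=
  (∑ v ∈ Finset.range (I.n + 1),
    (I.cN a (i + 1) v + (p - 2) + (I.cN a v (i + 1) + (p - 2))) * I.zN X v) % p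

def FN (p X : ℕ) : ℕ := (∑ a ∈ Finset.range I.A, I.pvN p X a ^ 2) % p

def dFN (p X i : ℕ) : ℕ := (2 * ∑ a ∈ Finset.range I.A, I.pvN p X a * I.dpN p X a i) % p

def HN (p X i j : ℕ) : ℕ :=
  (2 * ∑ a ∈ Finset.range I.A, (I.dpN p X a i * I.dpN p X a j + I.pvN p X a *
    (I.cN a (i + 1) (j + 1) + (p - 2) + (I.cN a (j + 1) (i + 1) + (p - 2))))) % p

def lamN (p : ℕ) : ℕ := 2 ^ I.lE % p

def hhN (p X i : ℕ) : ℕ := ((p - 1) * I.lamN p * I.dFN p X i) % p

def GN (p X : ℕ) : ℕ :=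
  (∑ i ∈ Finset.range I.n, dg I.bb X i ^ 6 + 6 * I.lamN p * I.FN p X) % p

/-- the entries of the Jacobian matrix -/
def entN (p X i j : ℕ) : ℕ :=
  ((if i = j then 5 * dg I.bb X i ^ 4 else 0) + I.lamN p * I.HN p X i j) % p

/-- sign factors -/
def sgN (p i j : ℕ) : ℕ := if i < j then 1 else if j < i then p - 1 else 0

/-- the term of the Leibniz formula for the map `{0..n-1} → {0..n-1}` coded by `Y` (blocks of `n`
digits) -/
def detTerm (p X Y : ℕ) : ℕ :=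
  ((∏ y ∈ Finset.range (I.n * I.n), if y / I.n < y % I.n
      then sgN p (dg I.n Y (y / I.n)) (dg I.n Y (y % I.n)) else 1) % p) *
    ((∏ i ∈ Finset.range I.n, I.entN p X i (dg I.n Y i)) % p) % p

def detN (p X : ℕ) : ℕ :=
  (∑ Y ∈ Finset.range (2 ^ (I.n * I.n)),
    if ∀ i < I.n, dg I.n Y i < I.n then I.detTerm p X Y else 0) % p

/-- the factor of the weight for the coordinate `i` -/
def wfN (p X i : ℕ) : ℕ :=
  dg I.bb X i * (∑ k ∈ Finset.range (I.B + 1),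
    (I.hhN p X i ^ k % p) * ((dg I.bb X i ^ (p - 2) % p) ^ (5 * (k + 1)) % p)) % p

/-- the weight -/
def wtN (p X : ℕ) : ℕ :=
  ((p - 1) ^ I.n % p) * I.detN p X * ((∏ i ∈ Finset.range I.n, I.wfN p X i) % p) % p

/-- the trace of a function, given by its values -/
def trN (p : ℕ) (H : ℕ → ℕ) : ℕ :=
  (∑ X ∈ Finset.range (2 ^ (I.bb * I.n)), if I.Valid p X then I.wtN p X * H X else 0) % p

/-- the power traces with their coefficients, `m ↦ (-1)^m t^(m+1) Tr(H^(m+1)) / (m+1)` -/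
def ptN (p : ℕ) (H : ℕ → ℕ) (t m : ℕ) : ℕ :=
  ((p - 1) ^ m % p) * ((m + 1) ^ (p - 2) % p) * (t ^ (m + 1) % p) *
    I.trN p (fun X => H X ^ (m + 1) % p) % p

/-- the norm of a function, given by its values -/
def nmN (p : ℕ) (H : ℕ → ℕ) : ℕ :=
  ((p - 1) * ∑ t ∈ Finset.range p, if t = 0 then 0 else
    ((t ^ (p - 2) % p) ^ I.D % p) * ∑ l ∈ Finset.range (I.D + 1),
      (((∏ i ∈ Finset.range l, (i + 1)) % p) ^ (p - 2) % p) *
        ((∑ m ∈ Finset.range I.D, I.ptN p H t m) ^ l % p)) % p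

/-- `α - z` modulo `p` -/
def subN (p α z : ℕ) : ℕ := (α + (p - z % p)) % p

/-- the numerator of the radius number `k` modulo `p` -/
def rhoN (p s k : ℕ) : ℕ := (cS I.q + s) * (2 ^ (cK0 I.q - k) % p) % p

def facAN (p s k d : ℕ) : ℕ :=
  (2 ^ cNu I.q % p) * (I.rhoN p s k ^ cK I.q % p + ((2 ^ cL I.q % p) * d) ^ cK I.q % p) % p

def facA1N (p s k d : ℕ) : ℕ :=
  (I.facAN p s k d + (I.rhoN p s k ^ (cK I.q - 1) % p) * ((2 ^ cL I.q % p) * d)) % p

/-- `A(z)` for the coordinate `c` -/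
def AN (p s k c z : ℕ) : ℕ := I.nmN p fun X => I.facAN p s k (subN p (dg I.bb X c) z)

def A1N (p s k c z : ℕ) : ℕ := I.nmN p fun X => I.facA1N p s k (subN p (dg I.bb X c) z)

/-- the Chebyshev iteration modulo `p` -/
def chN (p a b : ℕ) : ℕ → ℕ
  | 0 => a % p
  | m + 1 => (2 * chN p a b m ^ 2 + (p - 1) * ((b ^ 2 ^ m % p) ^ 2)) % p

def fUN (p t A : ℕ) : ℕ :=
  (2 * (cT I.q + t) * ((I.D * A) ^ 2 ^ cMu I.q % p)) ^ cK2 I.q % p

def fVN (p t A A1 : ℕ) : ℕ :=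
  (I.fUN p t A +
    (cT I.q * chN p (2 ^ cNu I.q * subN p A1 A) (I.D * A) (cMu I.q)) ^ cK2 I.q % p) % p

/-- the product of the numerators of the filters (`y = n * k + c`) -/
def UN (p s t X : ℕ) : ℕ :=
  (∏ y ∈ Finset.range (I.n * (cK0 I.q + 1)),
    I.fUN p t (I.AN p s (y / I.n) (y % I.n) (dg I.bb X (y % I.n)))) % p

def VN (p s t X : ℕ) : ℕ :=
  (∏ y ∈ Finset.range (I.n * (cK0 I.q + 1)),
    I.fVN p t (I.AN p s (y / I.n) (y % I.n) (dg I.bb X (y % I.n)))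
      (I.A1N p s (y / I.n) (y % I.n) (dg I.bb X (y % I.n)))) % p

def X2N (s t p : ℕ) : ℕ := I.nmN p fun X => (2 * I.GN p X + 1) * I.VN p s t X % p

def X1N (s t p : ℕ) : ℕ :=
  I.nmN p fun X => ((2 * I.GN p X + 1) * I.VN p s t X + (2 ^ I.thE % p) * I.UN p s t X) % p

end

end Inst

end Vale.Agent.P337
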