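import Vale.Agent.P337.Alg
import Vale.Agent.P337.InstB
import Vale.Agent.P337.Pipe

/-!
# The exact integers whose residues are computed by the algorithm
-/

namespace Vale.Agent.P337

open MvPolynomial

namespace Inst

noncomputable section

variable (I : Inst)

/-- `λ` in any ring -/
def lam (R : Type*) [CommRing R] : R := 2 ^ I.lE

/-- the relations over `ℤ[z]` -/
def hz (i : Fin I.n) : MvPolynomial (Fin I.n) (Polynomial ℤ) :=
  map Polynomial.C (I.h (I.lam ℤ) i)

/-- `A(z)` for the coordinate `c` -/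
def Apoly (s k : ℕ) (c : Fin I.n) : Polynomial ℤ :=
  nm I.hz (facA I.q s k (X c - C Polynomial.X))

def A1poly (s k : ℕ) (c : Fin I.n) : Polynomial ℤ :=
  nm I.hz (facA1 I.q s k (X c - C Polynomial.X))

def Upoly (s t : ℕ) : MvPolynomial (Fin I.n) ℤ :=
  ∏ c, ∏ k ∈ Finset.range (cK0 I.q + 1),
    fU I.q I.D t (Polynomial.aeval (X c : MvPolynomial (Fin I.n) ℤ) (I.Apoly s k c))

def Vpoly (s t : ℕ) : MvPolynomial (Fin I.n) ℤ :=
  ∏ c, ∏ k ∈ Finset.range (cK0 I.q + 1),
    fV I.q I.D t (Polynomial.aeval (X c : MvPolynomial (Fin I.n) ℤ) (I.Apoly s k c))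
      (Polynomial.aeval (X c : MvPolynomial (Fin I.n) ℤ) (I.A1poly s k c))

def X2Z (s t : ℕ) : ℤ :=
  nm (I.h (I.lam ℤ)) ((2 * I.G (I.lam ℤ) + 1) * I.Vpoly s t)

def X1Z (s t : ℕ) : ℤ :=
  nm (I.h (I.lam ℤ)) ((2 * I.G (I.lam ℤ) + 1) * I.Vpoly s t + 2 ^ I.thE * I.Upoly s t)

end

variable (I : Inst)

/-- the degrees of the relations -/
theorem h_deg {R : Type*} [CommRing R] (lam : R) (i : Fin I.n) : (I.h lam i).totalDegree ≤ 3 :=
  I.totalDegree_h_le lam i

theorem h_map {R R' : Type*} [CommRing R] [CommRing R'] (f : R →+* R') (lam : R) (i : Fin I.n) :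
    map f (I.h lam i) = I.h (f lam) i := I.map_h f lam i

theorem G_map {R R' : Type*} [CommRing R] [CommRing R'] (f : R →+* R') (lam : R) :
    map f (I.G lam) = I.G (f lam) := I.map_G f lam

end Inst

end Vale.Agent.P337
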