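import Vale.Agent.P337.Exact

/-!
# Base change of the exact integers and polynomials
-/

namespace Vale.Agent.P337

open MvPolynomial

private theorem totalDegree_map_leB {R S : Type*} [CommRing R] [CommRing S] (g : R →+* S) {n : ℕ}
    (p : MvPolynomial (Fin n) R) : (map g p).totalDegree ≤ p.totalDegree := by
  unfold totalDegree
  exact Finset.sup_mono (support_map_subset g p)

/-! ### naturality of the generic formulas -/

section nat

variable {R S : Type*} [CommRing R] [CommRing S] (g : R →+* S)

theorem map_facA (q s k : ℕ) (d : R) : g (facA q s k d) = facA q s k (g d) := by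
  unfold facA
  simp only [map_mul, map_add, map_pow, map_natCast, map_ofNat]

theorem map_facA1 (q s k : ℕ) (d : R) : g (facA1 q s k d) = facA1 q s k (g d) := by
  unfold facA1
  rw [map_add, map_facA]
  simp only [map_mul, map_pow, map_natCast, map_ofNat]

theorem map_chA (a b : R) (m : ℕ) : g (chA a b m) = chA (g a) (g b) m := by
  induction m with
  | zero => rfl
  | succ m ih =>
    unfold chA
    rw [map_sub, map_mul, map_pow, ih, map_pow, map_pow, map_ofNat]

theorem map_fU (q D t : ℕ) (A : R) : g (fU q D t A) = fU q D t (g A) := by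
  unfold fU
  simp only [map_mul, map_add, map_pow, map_natCast, map_ofNat]

theorem map_fV (q D t : ℕ) (A A1 : R) : g (fV q D t A A1) = fV q D t (g A) (g A1) := by
  unfold fV
  rw [map_add, map_fU, map_pow, map_mul, map_chA]
  simp only [map_mul, map_sub, map_pow, map_natCast, map_ofNat]

end nat

namespace Inst

variable (I : Inst)

/-- base change of the relations over `ℤ[z]` -/
theorem map_hz {R : Type*} [CommRing R] (z : R) (i : Fin I.n) :
    map (Polynomial.eval₂RingHom (Int.castRingHom R) z) (I.hz i) = I.h (I.lam R) i := by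
  unfold hz
  rw [MvPolynomial.map_map, I.h_map]
  congr 1
  simp [lam]

theorem hz_deg (i : Fin I.n) : (I.hz i).totalDegree ≤ 3 :=
  (totalDegree_map_leB _ _).trans (I.h_deg _ i)

/-- the values of `A` in any ring are norms -/
theorem Apoly_eval {R : Type*} [CommRing R] (z : R) (s k : ℕ) (c : Fin I.n) :
    (I.Apoly s k c).eval₂ (Int.castRingHom R) z =
      nm (I.h (I.lam R)) (facA I.q s k (X c - C z)) := by
  have h1 := nm_map (Polynomial.eval₂RingHom (Int.castRingHom R) z) I.hz I.hz_deg
    (facA I.q s k (X c - C Polynomial.X))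
  have h2 : (fun i => map (Polynomial.eval₂RingHom (Int.castRingHom R) z) (I.hz i)) =
      I.h (I.lam R) := funext fun i => I.map_hz z i
  rw [h2, map_facA, map_sub, map_X, map_C] at h1
  simp only [Polynomial.coe_eval₂RingHom, Polynomial.eval₂_X] at h1
  rw [h1]
  rfl

theorem A1poly_eval {R : Type*} [CommRing R] (z : R) (s k : ℕ) (c : Fin I.n) :
    (I.A1poly s k c).eval₂ (Int.castRingHom R) z =
      nm (I.h (I.lam R)) (facA1 I.q s k (X c - C z)) := by
  have h1 := nm_map (Polynomial.eval₂RingHom (Int.castRingHom R) z) I.hz I.hz_deg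
    (facA1 I.q s k (X c - C Polynomial.X))
  have h2 : (fun i => map (Polynomial.eval₂RingHom (Int.castRingHom R) z) (I.hz i)) =
      I.h (I.lam R) := funext fun i => I.map_hz z i
  rw [h2, map_facA1, map_sub, map_X, map_C] at h1
  simp only [Polynomial.coe_eval₂RingHom, Polynomial.eval₂_X] at h1
  rw [h1]
  rfl

/-- evaluation of a polynomial in one coordinate -/
theorem eval_map_aeval {R : Type*} [CommRing R] (x : Fin I.n → R) (c : Fin I.n)
    (a : Polynomial ℤ) :
    eval x (map (Int.castRingHom R) (Polynomial.aeval (X c : MvPolynomial (Fin I.n) ℤ) a)) =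
      a.eval₂ (Int.castRingHom R) (x c) := by
  rw [eval_map, ← coe_eval₂Hom, Polynomial.aeval_def, Polynomial.hom_eval₂, coe_eval₂Hom, eval₂_X]
  congr 1
  exact Subsingleton.elim _ _

/-- the value of `U` at a point -/
theorem Upoly_eval {R : Type*} [CommRing R] (x : Fin I.n → R) (s t : ℕ) :
    eval x (map (Int.castRingHom R) (I.Upoly s t)) =
      ∏ c, ∏ k ∈ Finset.range (cK0 I.q + 1),
        fU I.q I.D t ((I.Apoly s k c).eval₂ (Int.castRingHom R) (x c)) := by
  unfold Upoly
  rw [map_prod, map_prod]
  refine Finset.prod_congr rfl fun c _ => ?_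
  rw [map_prod, map_prod]
  refine Finset.prod_congr rfl fun k _ => ?_
  rw [map_fU, map_fU, I.eval_map_aeval]

/-- the value of `V` at a point -/
theorem Vpoly_eval {R : Type*} [CommRing R] (x : Fin I.n → R) (s t : ℕ) :
    eval x (map (Int.castRingHom R) (I.Vpoly s t)) =
      ∏ c, ∏ k ∈ Finset.range (cK0 I.q + 1),
        fV I.q I.D t ((I.Apoly s k c).eval₂ (Int.castRingHom R) (x c))
          ((I.A1poly s k c).eval₂ (Int.castRingHom R) (x c)) := by
  unfold Vpoly
  rw [map_prod, map_prod]
  refine Finset.prod_congr rfl fun c _ => ?_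
  rw [map_prod, map_prod]
  refine Finset.prod_congr rfl fun k _ => ?_
  rw [map_fV, map_fV, I.eval_map_aeval, I.eval_map_aeval]

/-- reduction of the norm of an integer polynomial -/
theorem cast_nm {R : Type*} [CommRing R] (H : MvPolynomial (Fin I.n) ℤ) :
    ((nm (I.h (I.lam ℤ)) H : ℤ) : R) = nm (I.h (I.lam R)) (map (Int.castRingHom R) H) := by
  have h1 := nm_map (Int.castRingHom R) (I.h (I.lam ℤ)) (I.h_deg _) H
  have h2 : (fun i => map (Int.castRingHom R) (I.h (I.lam ℤ) i)) = I.h (I.lam R) := by
    funext i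
    rw [I.h_map]
    congr 1
    simp [lam]
  rw [h2] at h1
  rw [h1]
  rfl

theorem map_G_lam {R : Type*} [CommRing R] :
    map (Int.castRingHom R) (I.G (I.lam ℤ)) = I.G (I.lam R) := by
  rw [I.G_map]
  congr 1
  simp [lam]

end Inst

end Vale.Agent.P337
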