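import Vale.Agent.P337.PipeFA
import Vale.Agent.P337.CRR

/-!
# The algorithm is in the counting hierarchy: the comparison (module PF4)
-/

namespace Vale.Agent.P337

namespace Fam

variable {α : Type} (M : Fam α) {k : ℕ} {p X Y Z s t r a i j c z : List α → (Fin k → ℕ) → ℕ}

/-! ### PF4: the comparison -/

theorem fchE_ifp (hp : FCH p) (ha : FCH a) :
    FCH fun w e => if (p w e).Prime then a w e else 0 :=
  FCH.ite_dec (InCH.prime hp) ha (FCH.const 0)

theorem fchE_pow (hp : FCH p) (ha : FCH a) (hi : FCH i) :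
    FCH fun w e => if (p w e).Prime then a w e ^ i w e % p w e else 0 := by
  refine (fchE_ifp hp (FCH.powMod0 ha hi hp)).congr fun w e => ?_
  by_cases h : (p w e).Prime
  · simp only [h, if_true, h.ne_zero, if_false]
  · simp only [h, if_false]

theorem fchE_2P : FCH (α := α) (k := k) fun w _ => 2 ^ (M.J w).P :=
  (fch_two_pow_q M 18 80).congr fun _ _ => rfl

theorem fchE_22P : FCH (α := α) (k := k) fun w _ => 2 ^ (2 * (M.J w).P) :=
  (fch_two_pow_q M 36 160).congr fun w _ => by
    have h : 36 * (M.J w).q + 160 = 2 * (M.J w).P := by unfold Inst.P; omega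
    rw [h]

theorem fchE_2P10 : FCH (α := α) (k := k) fun w _ => 2 ^ (2 * (M.J w).P + 10) :=
  (fch_two_pow_q M 36 170).congr fun w _ => by
    have h : 36 * (M.J w).q + 170 = 2 * (M.J w).P + 10 := by unfold Inst.P; omega
    rw [h]

theorem fchE_23P : FCH (α := α) (k := k) fun w _ => 2 ^ (3 * (M.J w).P) :=
  (fch_two_pow_q M 54 240).congr fun w _ => by
    have h : 54 * (M.J w).q + 240 = 3 * (M.J w).P := by unfold Inst.P; omega
    rw [h]

attribute [local irreducible] Inst.P

theorem prs_eq (P : ℕ) : prs P =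
    (Finset.range (2 ^ (2 * P) + 1)).filter fun y => y.Prime ∧ 2 ^ P < y := by
  ext y
  simp only [prs, Finset.mem_filter, Finset.mem_Ioc, Finset.mem_range, Nat.lt_succ_iff]
  tauto

theorem sum_prs (P : ℕ) (f : ℕ → ℕ) : ∑ p ∈ prs P, f p =
    ∑ y ∈ Finset.range (2 ^ (2 * P) + 1), if y.Prime ∧ 2 ^ P < y then f y else 0 := by
  rw [prs_eq, Finset.sum_filter]

theorem prod_erase_prs (P p : ℕ) : ∏ r ∈ (prs P).erase p, r =
    ∏ y ∈ Finset.range (2 ^ (2 * P) + 1), if (y.Prime ∧ 2 ^ P < y) ∧ y ≠ p then y else 1 := by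
  rw [← Finset.prod_filter]
  refine Finset.prod_congr ?_ fun _ _ => rfl
  ext y
  rw [prs_eq]
  simp only [Finset.mem_erase, Finset.mem_filter]
  tauto

theorem fchE_hinv (hp : FCH p) :
    FCH fun w e => if (p w e).Prime then hinv (M.J w).P (p w e) else 0 := by
  have h0 : FCH (α := α) (k := k + 1) fun _ c => c 0 := FCH.proj 0
  have h1 := FCH.prodMod (F := fun w e y =>
      if (y.Prime ∧ 2 ^ (M.J w).P < y) ∧ y ≠ p w e then y else 1) hp
    (FCH.add (fchE_22P M) (FCH.const 1))
    (FCH.ite_dec (InCH.and (InCH.and (InCH.prime h0) (InCH.lt (fchE_2P M) h0))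
      (InCH.not (InCH.eq h0 (FCH.weaken hp)))) h0 (FCH.const 1))
  refine (fchE_pow hp h1 (FCH.sub hp (FCH.const 2))).congr fun w e => ?_
  by_cases h : (p w e).Prime
  · simp only [h, if_true]
    rw [hinv, prod_erase_prs, ← Nat.pow_mod]
  · simp only [h, if_false]

theorem fchE_apx {x : List α → (Fin k → ℕ) → ℕ → ℕ}
    (hx : FCH (k := k + 1) fun w e => if (e 0).Prime then x w (Fin.tail e) (e 0) else 0)
    (hj : FCH j) : FCH fun w e => apx (M.J w).P (x w e) (j w e) := by
  have h0 : FCH (α := α) (k := k + 1) fun _ c => c 0 := FCH.proj 0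
  have h1 := fchE_pow h0 (FCH.const 2) (FCH.weaken hj)
  have h2 := FCH.mod (FCH.mul (FCH.mul h1 hx) (fchE_hinv M h0)) h0
  have h3 := FCH.sum (F := fun w e y => if y.Prime ∧ 2 ^ (M.J w).P < y then
      2 ^ (2 * (M.J w).P + 10) * (((if y.Prime then 2 ^ j w e % y else 0) *
        (if y.Prime then x w e y else 0) *
        (if y.Prime then hinv (M.J w).P y else 0)) % y) / y else 0)
    (FCH.add (fchE_22P M) (FCH.const 1))
    (FCH.ite_dec (InCH.and (InCH.prime h0) (InCH.lt (fchE_2P M) h0))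
      (FCH.div (FCH.mul (fchE_2P10 M) h2) h0) (FCH.const 0))
  refine (FCH.mod h3 (fchE_2P10 M)).congr fun w e => ?_
  rw [apx, sum_prs]
  congr 1
  refine Finset.sum_congr rfl fun y _ => ?_
  by_cases h : y.Prime ∧ 2 ^ (M.J w).P < y
  · rw [if_pos h, if_pos h, if_pos h.1, if_pos h.1, if_pos h.1]
    congr 2
    rw [mul_assoc, mul_assoc]
    exact Nat.mod_mul_mod _ _ _
  · rw [if_neg h, if_neg h]

theorem inCHE_Qtest {x : List α → (Fin k → ℕ) → ℕ → ℕ}
    (hx : FCH (k := k + 1) fun w e => if (e 0).Prime then x w (Fin.tail e) (e 0) else 0)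
    (hj : FCH j) : InCH fun w e => Qtest (M.J w).P (x w e) (j w e) := by
  unfold Qtest
  exact InCH.and (InCH.le (FCH.mul (FCH.const 3) (fchE_2P10 M))
      (FCH.mul (FCH.const 32) (fchE_apx M hx hj)))
    (InCH.le (FCH.mul (FCH.const 2) (fchE_apx M hx hj)) (fchE_2P10 M))

open Classical in
theorem inCH_cmp {x y : List α → (Fin k → ℕ) → ℕ → ℕ}
    (hx : FCH (k := k + 1) fun w e => if (e 0).Prime then x w (Fin.tail e) (e 0) else 0)
    (hy : FCH (k := k + 1) fun w e => if (e 0).Prime then y w (Fin.tail e) (e 0) else 0) :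
    InCH fun w e => Cmp (M.J w).P (x w e) (y w e) := by
  have hx1 : FCH (k := k + 2) fun w e =>
      if (e 0).Prime then x w (Fin.tail (Fin.tail e)) (e 0) else 0 :=
    FCH.arBskip (F := fun w e n => if n.Prime then x w e n else 0) hx
  have hy1 : FCH (k := k + 2) fun w e =>
      if (e 0).Prime then y w (Fin.tail (Fin.tail e)) (e 0) else 0 :=
    FCH.arBskip (F := fun w e n => if n.Prime then y w e n else 0) hy
  have hy2 : FCH (k := k + 3) fun w e =>
      if (e 0).Prime then y w (Fin.tail (Fin.tail (Fin.tail e))) (e 0) else 0 :=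
    FCH.arBskip (F := fun w e n => if n.Prime then y w (Fin.tail e) n else 0) hy1
  unfold Cmp
  refine InCH.exists_lt (S := fun w e j => Qtest (M.J w).P (x w e) j ∧
    ∀ i < j + 4, ¬ Qtest (M.J w).P (y w e) i) (fchE_23P M) ?_
  refine InCH.and (inCHE_Qtest M (x := fun w e => x w (Fin.tail e)) hx1 (FCH.proj 0)) ?_
  refine InCH.forall_lt (S := fun w c i => ¬ Qtest (M.J w).P (y w (Fin.tail c)) i)
    (FCH.add (FCH.proj 0) (FCH.const 4)) ?_
  exact InCH.not (inCHE_Qtest M (x := fun w e => y w (Fin.tail (Fin.tail e))) hy2 (FCH.proj 0))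

end Fam

end Vale.Agent.P337
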