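import Vale.Agent.P337.FinalA
import Vale.Agent.P337.PipeFCH

/-!
# Solvability is in the counting hierarchy (module Z2)
-/

namespace Vale.Agent.P337

open Classical in
/-- counting pairs by one number -/
theorem finB_card_pairs (S T : ℕ) (hT : 0 < T) (R : ℕ → ℕ → Prop) :
    Nat.card {st : ℕ × ℕ // st.1 < S ∧ st.2 < T ∧ R st.1 st.2} =
      ((Finset.range (S * T)).filter fun y => R (y / T) (y % T)).card := by
  rw [← Nat.card_eq_finsetCard]
  apply Nat.card_congr
  refine ⟨fun st => ⟨st.1.1 * T + st.1.2, ?_⟩, fun y => ⟨(y.1 / T, y.1 % T), ?_⟩, ?_, ?_⟩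
  · obtain ⟨⟨s, t⟩, h1, h2, h3⟩ := st
    simp only at h1 h2 h3
    rw [Finset.mem_filter, Finset.mem_range]
    have e1 : (s * T + t) / T = s := by
      rw [mul_comm, Nat.mul_add_div hT, Nat.div_eq_of_lt h2, add_zero]
    have e2 : (s * T + t) % T = t := by
      rw [mul_comm, Nat.mul_add_mod, Nat.mod_eq_of_lt h2]
    refine ⟨?_, ?_⟩
    · calc s * T + t < s * T + T := by omega
        _ = (s + 1) * T := by ring
        _ ≤ S * T := Nat.mul_le_mul_right _ h1
    · change R ((s * T + t) / T) ((s * T + t) % T)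
      rw [e1, e2]
      exact h3
  · obtain ⟨y, hy⟩ := y
    rw [Finset.mem_filter, Finset.mem_range] at hy
    exact ⟨(Nat.div_lt_iff_lt_mul hT).2 hy.1, Nat.mod_lt _ hT, hy.2⟩
  · rintro ⟨⟨s, t⟩, h1, h2, h3⟩
    simp only at h1 h2 h3
    have e1 : (s * T + t) / T = s := by
      rw [mul_comm, Nat.mul_add_div hT, Nat.div_eq_of_lt h2, add_zero]
    have e2 : (s * T + t) % T = t := by
      rw [mul_comm, Nat.mul_add_mod, Nat.mod_eq_of_lt h2]
    apply Subtype.ext
    simp only [e1, e2]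
  · rintro ⟨y, hy⟩
    apply Subtype.ext
    simp only
    rw [mul_comm]
    exact Nat.div_add_mod y T

open Classical in
/-- module Z2 -/
theorem solvable_inCH {α : Type} (M : Fam α) : InCH (k := 0) fun w _ => (M.J w).Solvable := by
  have hT : ∀ {k : ℕ}, FCH (α := α) (k := k) fun w _ => cT (M.J w).q := fun {k} =>
    M.fch_two_pow_q 3 8
  have hS : ∀ {k : ℕ}, FCH (α := α) (k := k) fun w _ => cS (M.J w).q := fun {k} =>
    M.fch_two_pow_q 4 8
  have hp : FCH (α := α) (k := 2) fun _ e => e 0 := FCH.proj 0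
  have hs : FCH (α := α) (k := 2) fun w e => (Fin.tail e) 0 / cT (M.J w).q :=
    FCH.div (FCH.proj 1) hT
  have ht : FCH (α := α) (k := 2) fun w e => (Fin.tail e) 0 % cT (M.J w).q :=
    FCH.mod (FCH.proj 1) hT
  have hx : FCH (α := α) (k := 1 + 1) fun w e => if (e 0).Prime then
      (fun (w : List α) (e : Fin 1 → ℕ) (p : ℕ) =>
        (M.J w).X1N (e 0 / cT (M.J w).q) (e 0 % cT (M.J w).q) p ^ 2 % p) w (Fin.tail e) (e 0)
      else 0 := by
    have h1 := M.fch_X1N hp hs ht
    refine (FCH.mod (FCH.mul h1 h1) hp).congr fun w e => ?_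
    by_cases h : (e 0).Prime
    · rw [if_pos h, if_pos h]
      beta_reduce
      rw [pow_two]
    · rw [if_neg h, if_neg h, zero_mul, Nat.zero_mod]
  have hy : FCH (α := α) (k := 1 + 1) fun w e => if (e 0).Prime then
      (fun (w : List α) (e : Fin 1 → ℕ) (p : ℕ) =>
        (M.J w).X2N (e 0 / cT (M.J w).q) (e 0 % cT (M.J w).q) p ^ 2 % p) w (Fin.tail e) (e 0)
      else 0 := by
    have h1 := M.fch_X2N hp hs ht
    refine (FCH.mod (FCH.mul h1 h1) hp).congr fun w e => ?_
    by_cases h : (e 0).Prime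
    · rw [if_pos h, if_pos h]
      beta_reduce
      rw [pow_two]
    · rw [if_neg h, if_neg h, zero_mul, Nat.zero_mod]
  have hcmp := M.inCH_cmp
    (x := fun w e p => (M.J w).X1N (e 0 / cT (M.J w).q) (e 0 % cT (M.J w).q) p ^ 2 % p)
    (y := fun w e p => (M.J w).X2N (e 0 / cT (M.J w).q) (e 0 % cT (M.J w).q) p ^ 2 % p) hx hy
  have hcard := FCH.card (k := 0) (b := fun w _ => cS (M.J w).q * cT (M.J w).q)
    (S := fun w _ y => (M.J w).Test (y / cT (M.J w).q) (y % cT (M.J w).q)) (FCH.mul hS hT) hcmp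
  refine (InCH.lt (FCH.mul hS hT) (FCH.mul (FCH.const 2) hcard)).congr fun w a => ?_
  have hT0 : 0 < cT (M.J w).q := by unfold cT; positivity
  have e := finB_card_pairs (cS (M.J w).q) (cT (M.J w).q) hT0 (M.J w).Test
  have e2 : ((Finset.range (cS (M.J w).q * cT (M.J w).q)).filter fun y =>
      (M.J w).Test (y / cT (M.J w).q) (y % cT (M.J w).q)).card =
      Nat.card {st : ℕ × ℕ // st.1 < cS (M.J w).q ∧ st.2 < cT (M.J w).q ∧
        (M.J w).Test st.1 st.2} := e.symm
  rw [e2]
  constructor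
  · intro h
    by_contra hI
    have := test_false (M.J w) hI
    omega
  · intro h
    exact test_true (M.J w) h

end Vale.Agent.P337
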