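import Vale.Agent.P337.QuadB

/-!
# The quadratic system is equivalent to the equations (module J3)
-/

namespace Vale.Agent.P337

namespace Quad

theorem jc_z_big {n : ℕ} (x : Fin n → ℝ) {u : ℕ} (hu : n + 1 ≤ u) : Inst.z x u = 0 := by
  unfold Inst.z
  rw [if_neg (by omega), dif_neg (by omega)]

theorem jc_sum (w : List Tok) (i n : ℕ) (x : Fin n → ℝ) (t : Term) :
    ∑ u ∈ Finset.range (n + 1), ∑ v ∈ Finset.range (n + 1),
      (ind w i u v t : ℝ) * Inst.z x u * Inst.z x v =
    Inst.z x (ix w i t.1) * Inst.z x (ix w i t.2) := by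
  have h1 : ∀ u v, (ind w i u v t : ℝ) * Inst.z x u * Inst.z x v =
      if u = ix w i t.1 then (if v = ix w i t.2 then
        Inst.z x (ix w i t.1) * Inst.z x (ix w i t.2) else 0) else 0 := by
    intro u v
    unfold ind
    by_cases hu : u = ix w i t.1
    · by_cases hv : v = ix w i t.2
      · rw [if_pos ⟨hu, hv⟩, if_pos hu, if_pos hv, hu, hv]
        simp
      · rw [if_neg (fun h => hv h.2), if_pos hu, if_neg hv]
        simp
    · rw [if_neg (fun h => hu h.1), if_neg hu]
      simp
  have h2 : ∀ u, ∑ v ∈ Finset.range (n + 1), (ind w i u v t : ℝ) * Inst.z x u * Inst.z x v =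
      if u = ix w i t.1 then (if ix w i t.2 ∈ Finset.range (n + 1) then
        Inst.z x (ix w i t.1) * Inst.z x (ix w i t.2) else 0) else 0 := by
    intro u
    rw [Finset.sum_congr rfl fun v _ => h1 u v]
    by_cases hu : u = ix w i t.1
    · simp only [if_pos hu]
      rw [Finset.sum_ite_eq']
    · simp only [if_neg hu]
      simp
  rw [Finset.sum_congr rfl fun u _ => h2 u, Finset.sum_ite_eq']
  split_ifs with ha hb
  · rfl
  · rw [Finset.mem_range, not_lt] at hb
    rw [jc_z_big x hb, mul_zero]
  · rw [Finset.mem_range, not_lt] at ha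
    rw [jc_z_big x ha, zero_mul]

theorem jc_pv (w : List Tok) (x : Fin (inst w).n → ℝ) (a : ℕ) :
    (inst w).pv x a =
      (Inst.z x (ix w (pos w a) (trm w a).1.1) * Inst.z x (ix w (pos w a) (trm w a).1.2) +
        Inst.z x (ix w (pos w a) (trm w a).2.1.1) * Inst.z x (ix w (pos w a) (trm w a).2.1.2)) -
      (Inst.z x (ix w (pos w a) (trm w a).2.2.1.1) * Inst.z x (ix w (pos w a) (trm w a).2.2.1.2) +
        Inst.z x (ix w (pos w a) (trm w a).2.2.2.1) *
          Inst.z x (ix w (pos w a) (trm w a).2.2.2.2)) := by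
  rw [← jc_sum w (pos w a) (inst w).n x (trm w a).1,
    ← jc_sum w (pos w a) (inst w).n x (trm w a).2.1,
    ← jc_sum w (pos w a) (inst w).n x (trm w a).2.2.1,
    ← jc_sum w (pos w a) (inst w).n x (trm w a).2.2.2]
  unfold Inst.pv
  rw [← Finset.sum_add_distrib, ← Finset.sum_add_distrib, ← Finset.sum_sub_distrib]
  refine Finset.sum_congr rfl fun u _ => ?_
  rw [← Finset.sum_add_distrib, ← Finset.sum_add_distrib, ← Finset.sum_sub_distrib]
  refine Finset.sum_congr rfl fun v _ => ?_
  have hc : (inst w).c a u v =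
      ((ind w (pos w a) u v (trm w a).1 + ind w (pos w a) u v (trm w a).2.1 : ℕ) : ℤ) -
    (ind w (pos w a) u v (trm w a).2.2.1 + ind w (pos w a) u v (trm w a).2.2.2 : ℕ) := rfl
  rw [hc]
  push_cast
  ring

/-- the equation number `a` in terms of the values of the symbols -/
theorem jc_pv_eq (w : List Tok) (x : Fin (inst w).n → ℝ) (V : Asg) (a : ℕ)
    (h : ∀ t : Term, (t = (trm w a).1 ∨ t = (trm w a).2.1 ∨ t = (trm w a).2.2.1 ∨
      t = (trm w a).2.2.2) → Inst.z x (ix w (pos w a) t.1) = t.1.val w V (pos w a) ∧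
        Inst.z x (ix w (pos w a) t.2) = t.2.val w V (pos w a)) :
    (inst w).pv x a = 0 ↔ Eqn w V (pos w a) (num w a) := by
  obtain ⟨h1, h1'⟩ := h (trm w a).1 (Or.inl rfl)
  obtain ⟨h2, h2'⟩ := h (trm w a).2.1 (Or.inr (Or.inl rfl))
  obtain ⟨h3, h3'⟩ := h (trm w a).2.2.1 (Or.inr (Or.inr (Or.inl rfl)))
  obtain ⟨h4, h4'⟩ := h (trm w a).2.2.2 (Or.inr (Or.inr (Or.inr rfl)))
  rw [jc_pv, h1, h1', h2, h2', h3, h3', h4, h4', sub_eq_zero]
  rfl

/-- the layout of the unknowns -/
noncomputable def lay (V : Asg) (N k : ℕ) : ℝ :=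
  if k < N + 1 then V.x k
  else if k < 2 * (N + 1) then V.s (k - (N + 1))
  else if k < 3 * (N + 1) then V.y (k - 2 * (N + 1))
  else if k < 4 * (N + 1) then V.q (k - 3 * (N + 1))
  else if k < 5 * (N + 1) then V.b (k - 4 * (N + 1))
  else if k < 6 * (N + 1) then V.t1 (k - 5 * (N + 1))
  else if k < 7 * (N + 1) then V.t2 (k - 6 * (N + 1))
  else V.t3 (k - 7 * (N + 1))

theorem jc_lay0 (V : Asg) {N i : ℕ} (hi : i ≤ N) : lay V N i = V.x i := by
  unfold lay
  rw [if_pos (by omega)]

theorem jc_lay1 (V : Asg) {N i : ℕ} (hi : i ≤ N) : lay V N ((N + 1) + i) = V.s i := by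
  unfold lay
  rw [if_neg (by omega), if_pos (by omega)]
  congr 1
  omega

theorem jc_lay2 (V : Asg) {N i : ℕ} (hi : i ≤ N) : lay V N (2 * (N + 1) + i) = V.y i := by
  unfold lay
  rw [if_neg (by omega), if_neg (by omega), if_pos (by omega)]
  congr 1
  omega

theorem jc_lay3 (V : Asg) {N i : ℕ} (hi : i ≤ N) : lay V N (3 * (N + 1) + i) = V.q i := by
  unfold lay
  rw [if_neg (by omega), if_neg (by omega), if_neg (by omega), if_pos (by omega)]
  congr 1
  omega

theorem jc_lay4 (V : Asg) {N i : ℕ} (hi : i ≤ N) : lay V N (4 * (N + 1) + i) = V.b i := by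
  unfold lay
  rw [if_neg (by omega), if_neg (by omega), if_neg (by omega), if_neg (by omega),
    if_pos (by omega)]
  congr 1
  omega

theorem jc_lay5 (V : Asg) {N i : ℕ} (hi : i ≤ N) : lay V N (5 * (N + 1) + i) = V.t1 i := by
  unfold lay
  rw [if_neg (by omega), if_neg (by omega), if_neg (by omega), if_neg (by omega),
    if_neg (by omega), if_pos (by omega)]
  congr 1
  omega

theorem jc_lay6 (V : Asg) {N i : ℕ} (hi : i ≤ N) : lay V N (6 * (N + 1) + i) = V.t2 i := by
  unfold lay
  rw [if_neg (by omega), if_neg (by omega), if_neg (by omega), if_neg (by omega),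
    if_neg (by omega), if_neg (by omega), if_pos (by omega)]
  congr 1
  omega

theorem jc_lay7 (V : Asg) {N i : ℕ} : lay V N (7 * (N + 1) + i) = V.t3 i := by
  unfold lay
  rw [if_neg (by omega), if_neg (by omega), if_neg (by omega), if_neg (by omega),
    if_neg (by omega), if_neg (by omega), if_neg (by omega)]
  congr 1
  omega

/-- the point of an assignment -/
noncomputable def pt (w : List Tok) (V : Asg) : Fin (inst w).n → ℝ :=
  fun k => lay V w.length k

theorem jc_z_pt (w : List Tok) (V : Asg) {k : ℕ} (hk : k < 8 * (w.length + 1)) :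
    Inst.z (pt w V) (1 + k) = lay V w.length k := by
  unfold Inst.z
  rw [if_neg (by omega)]
  have h1 : 1 + k - 1 < (inst w).n := by
    change 1 + k - 1 < 8 * (w.length + 1)
    omega
  rw [dif_pos h1]
  unfold pt
  congr 1
  change 1 + k - 1 = k
  omega

theorem jc_no (w : List Tok) (V : Asg) (i : ℕ) :
    Inst.z (pt w V) (ix w i .no) = Sym.val w V i .no := by
  unfold ix Sym.val
  apply jc_z_big
  exact le_rfl

theorem jc_one (w : List Tok) (V : Asg) (i : ℕ) :
    Inst.z (pt w V) (ix w i .one) = Sym.val w V i .one := by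
  unfold ix Sym.val Inst.z
  rw [if_pos rfl]

theorem jc_sym_lt (w : List Tok) (V : Asg) {i : ℕ} (hi : i < w.length) (a : Sym) :
    Inst.z (pt w V) (ix w i a) = a.val w V i := by
  have hp := ptr_le w i
  have hv := (vix_le w i).trans hi.le
  cases a with
  | no => exact jc_no w V i
  | one => exact jc_one w V i
  | x =>
    simp only [ix, Sym.val]
    rw [jc_z_pt w V (by omega), jc_lay0 V hv]
  | s =>
    simp only [ix, Sym.val]
    rw [add_assoc, jc_z_pt w V (by omega), jc_lay1 V (by omega)]
  | s' =>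
    simp only [ix, Sym.val]
    rw [add_assoc, jc_z_pt w V (by omega), jc_lay1 V (by omega)]
  | y =>
    simp only [ix, Sym.val]
    rw [add_assoc, jc_z_pt w V (by omega), jc_lay2 V (by omega)]
  | y' =>
    simp only [ix, Sym.val]
    rw [add_assoc, jc_z_pt w V (by omega), jc_lay2 V (by omega)]
  | q =>
    simp only [ix, Sym.val]
    rw [add_assoc, jc_z_pt w V (by omega), jc_lay3 V (by omega)]
  | q' =>
    simp only [ix, Sym.val]
    rw [add_assoc, jc_z_pt w V (by omega), jc_lay3 V (by omega)]
  | b =>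
    simp only [ix, Sym.val]
    rw [add_assoc, jc_z_pt w V (by omega), jc_lay4 V (by omega)]
  | b' =>
    simp only [ix, Sym.val]
    rw [add_assoc, jc_z_pt w V (by omega), jc_lay4 V (by omega)]
  | bp =>
    simp only [ix, Sym.val]
    rw [add_assoc, jc_z_pt w V (by omega), jc_lay4 V (by omega)]
  | b0 =>
    simp only [ix, Sym.val]
    rw [jc_z_pt w V (by omega)]
    exact jc_lay4 (i := 0) V (by omega)
  | t1 =>
    simp only [ix, Sym.val]
    rw [add_assoc, jc_z_pt w V (by omega), jc_lay5 V (by omega)]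
  | t2 =>
    simp only [ix, Sym.val]
    rw [add_assoc, jc_z_pt w V (by omega), jc_lay6 V (by omega)]
  | t3 =>
    simp only [ix, Sym.val]
    rw [add_assoc, jc_z_pt w V (by omega), jc_lay7 V]

/-- the symbols that occur at the end of the word -/
def endSym (a : Sym) : Bool :=
  match a with
  | .no | .one | .s | .y | .q | .b | .b0 => true
  | _ => false

theorem jc_sym_end (w : List Tok) (V : Asg) (a : Sym) (ha : endSym a = true) :
    Inst.z (pt w V) (ix w w.length a) = a.val w V w.length := by
  cases a with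
  | no => exact jc_no w V _
  | one => exact jc_one w V _
  | s =>
    simp only [ix, Sym.val]
    rw [add_assoc, jc_z_pt w V (by omega), jc_lay1 V (by omega)]
  | y =>
    simp only [ix, Sym.val]
    rw [add_assoc, jc_z_pt w V (by omega), jc_lay2 V (by omega)]
  | q =>
    simp only [ix, Sym.val]
    rw [add_assoc, jc_z_pt w V (by omega), jc_lay3 V (by omega)]
  | b =>
    simp only [ix, Sym.val]
    rw [add_assoc, jc_z_pt w V (by omega), jc_lay4 V (by omega)]
  | b0 =>
    simp only [ix, Sym.val]
    rw [jc_z_pt w V (by omega)]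
    exact jc_lay4 (i := 0) V (by omega)
  | x => exact absurd ha (by decide)
  | s' => exact absurd ha (by decide)
  | y' => exact absurd ha (by decide)
  | q' => exact absurd ha (by decide)
  | b' => exact absurd ha (by decide)
  | bp => exact absurd ha (by decide)
  | t1 => exact absurd ha (by decide)
  | t2 => exact absurd ha (by decide)
  | t3 => exact absurd ha (by decide)

theorem jc_tab_end (e : Fin 9) (t : Term) (h : t = (tab e none).1 ∨ t = (tab e none).2.1 ∨
    t = (tab e none).2.2.1 ∨ t = (tab e none).2.2.2) :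
    endSym t.1 = true ∧ endSym t.2 = true := by
  fin_cases e <;> rcases h with h | h | h | h <;> subst h <;> decide

theorem jc_pos_le (w : List Tok) (a : ℕ) : pos w a ≤ w.length := by
  unfold pos
  have h : a % (w.length + 1) < w.length + 1 := Nat.mod_lt a (Nat.succ_pos w.length)
  omega

/-- module J3 -/
theorem solvable_iff (w : List Tok) :
    (inst w).Solvable ↔ ∃ V : Asg, ∀ i ≤ w.length, ∀ e, Eqn w V i e := by
  constructor
  · rintro ⟨x, hx⟩
    refine ⟨⟨fun v => Inst.z x (1 + v), fun i => Inst.z x (1 + (w.length + 1) + i),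
      fun i => Inst.z x (1 + 2 * (w.length + 1) + i), fun i => Inst.z x (1 + 3 * (w.length + 1) + i),
      fun i => Inst.z x (1 + 4 * (w.length + 1) + i), fun i => Inst.z x (1 + 5 * (w.length + 1) + i),
      fun i => Inst.z x (1 + 6 * (w.length + 1) + i),
      fun i => Inst.z x (1 + 7 * (w.length + 1) + i)⟩, ?_⟩
    intro i hi e
    have hN : 0 < w.length + 1 := Nat.succ_pos _
    have ha : (w.length + 1) * (e : ℕ) + i < 9 * (w.length + 1) := by
      have h1 : (w.length + 1) * (e : ℕ) ≤ (w.length + 1) * 8 :=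
        Nat.mul_le_mul_left _ (by omega)
      omega
    have hp : pos w ((w.length + 1) * (e : ℕ) + i) = i := by
      unfold pos
      rw [Nat.mul_add_mod, Nat.mod_eq_of_lt (by omega)]
    have hn : num w ((w.length + 1) * (e : ℕ) + i) = e := by
      unfold num
      rw [Nat.mul_add_div hN, Nat.div_eq_of_lt (by omega), add_zero]
      apply Fin.ext
      rw [Fin.val_ofNat]
      exact Nat.mod_eq_of_lt e.isLt
    have h1 := hx _ ha
    rw [jc_pv_eq w x _ _ ?_] at h1
    · rw [hp, hn] at h1
      exact h1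
    · intro t _
      have hs : ∀ a : Sym, Inst.z x (ix w (pos w ((w.length + 1) * (e : ℕ) + i)) a) =
          a.val w ⟨fun v => Inst.z x (1 + v), fun i => Inst.z x (1 + (w.length + 1) + i),
      fun i => Inst.z x (1 + 2 * (w.length + 1) + i), fun i => Inst.z x (1 + 3 * (w.length + 1) + i),
      fun i => Inst.z x (1 + 4 * (w.length + 1) + i), fun i => Inst.z x (1 + 5 * (w.length + 1) + i),
      fun i => Inst.z x (1 + 6 * (w.length + 1) + i),
      fun i => Inst.z x (1 + 7 * (w.length + 1) + i)⟩
            (pos w ((w.length + 1) * (e : ℕ) + i)) := by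
        intro a
        cases a with
        | no => exact jc_z_big x le_rfl
        | one => exact if_pos rfl
        | _ => rfl
      exact ⟨hs _, hs _⟩
  · rintro ⟨V, hV⟩
    refine ⟨pt w V, fun a _ => ?_⟩
    rw [jc_pv_eq w (pt w V) V a ?_]
    · exact hV _ (jc_pos_le w a) _
    · intro t ht
      rcases Nat.lt_or_ge (pos w a) w.length with h | h
      · exact ⟨jc_sym_lt w V h _, jc_sym_lt w V h _⟩
      · have hp : pos w a = w.length := le_antisymm (jc_pos_le w a) h
        unfold trm at ht
        rw [hp, List.getElem?_eq_none le_rfl] at ht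
        rw [hp]
        have := jc_tab_end (num w a) t ht
        exact ⟨jc_sym_end w V _ this.1, jc_sym_end w V _ this.2⟩

end Quad

end Vale.Agent.P337
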