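import Vale.Agent.P337.QuadD1

/-!
# The coefficients are computable in the counting hierarchy (module J4b)
-/

namespace Vale.Agent.P337

namespace Quad

section

variable {k : ℕ} {i u v : List Tok → (Fin k → ℕ) → ℕ}

theorem fch_np : FCH (α := Tok) (k := k) fun w _ => w.length + 1 :=
  FCH.add FCH.length (FCH.const 1)

theorem fch_ix (hi : FCH i) : ∀ c : Sym, FCH fun w a => ix w (i w a) c
  | .no => FCH.add (FCH.mul (FCH.const 8) fch_np) (FCH.const 1)
  | .one => FCH.const 0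
  | .x => FCH.add (FCH.const 1) (fch_vix hi)
  | .s => FCH.add (FCH.add (FCH.const 1) fch_np) hi
  | .s' => FCH.add (FCH.add (FCH.const 1) fch_np) (FCH.add hi (FCH.const 1))
  | .y => FCH.add (FCH.add (FCH.const 1) (FCH.mul (FCH.const 2) fch_np)) hi
  | .y' => FCH.add (FCH.add (FCH.const 1) (FCH.mul (FCH.const 2) fch_np))
      (FCH.add hi (FCH.const 1))
  | .q => FCH.add (FCH.add (FCH.const 1) (FCH.mul (FCH.const 3) fch_np)) hi
  | .q' => FCH.add (FCH.add (FCH.const 1) (FCH.mul (FCH.const 3) fch_np))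
      (FCH.add hi (FCH.const 1))
  | .b => FCH.add (FCH.add (FCH.const 1) (FCH.mul (FCH.const 4) fch_np)) hi
  | .b' => FCH.add (FCH.add (FCH.const 1) (FCH.mul (FCH.const 4) fch_np))
      (FCH.add hi (FCH.const 1))
  | .bp => FCH.add (FCH.add (FCH.const 1) (FCH.mul (FCH.const 4) fch_np)) (fch_ptr hi)
  | .b0 => FCH.add (FCH.const 1) (FCH.mul (FCH.const 4) fch_np)
  | .t1 => FCH.add (FCH.add (FCH.const 1) (FCH.mul (FCH.const 5) fch_np)) hi
  | .t2 => FCH.add (FCH.add (FCH.const 1) (FCH.mul (FCH.const 6) fch_np)) hi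
  | .t3 => FCH.add (FCH.add (FCH.const 1) (FCH.mul (FCH.const 7) fch_np)) hi

theorem fch_ind (hi : FCH i) (hu : FCH u) (hv : FCH v) (t : Term) :
    FCH fun w a => ind w (i w a) (u w a) (v w a) t :=
  FCH.ite_dec (InCH.and (InCH.eq hu (fch_ix hi t.1)) (InCH.eq hv (fch_ix hi t.2)))
    (FCH.const 1) (FCH.const 0)

end

/-- module J4b -/
theorem fch_coeff : FCH (k := 3) fun (w : List Tok) a => (inst w).cN (a 0) (a 1) (a 2) := by
  have hp : FCH (k := 3) fun (w : List Tok) a => pos w (a 0) := FCH.mod (FCH.proj 0) fch_np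
  have hτ : ∀ t : Fin 9 × Option Tok,
      InCH (k := 3) fun (w : List Tok) a => (num w (a 0), w[pos w (a 0)]?) = t := by
    intro t
    refine (InCH.and (InCH.eq (FCH.mod (FCH.div (FCH.proj 0) fch_np) (FCH.const 9))
      (FCH.const t.1.val)) (inCH_tok hp t.2)).congr fun w a => ?_
    rw [Prod.ext_iff, Fin.ext_iff]
    rfl
  have hF : ∀ t : Fin 9 × Option Tok, FCH (k := 3) fun (w : List Tok) a =>
      (ind w (pos w (a 0)) (a 1) (a 2) (tab t.1 t.2).1 +
        ind w (pos w (a 0)) (a 1) (a 2) (tab t.1 t.2).2.1 + 2) -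
      (ind w (pos w (a 0)) (a 1) (a 2) (tab t.1 t.2).2.2.1 +
        ind w (pos w (a 0)) (a 1) (a 2) (tab t.1 t.2).2.2.2) := fun t =>
    FCH.sub (FCH.add (FCH.add (fch_ind hp (FCH.proj 1) (FCH.proj 2) _)
      (fch_ind hp (FCH.proj 1) (FCH.proj 2) _)) (FCH.const 2))
      (FCH.add (fch_ind hp (FCH.proj 1) (FCH.proj 2) _) (fch_ind hp (FCH.proj 1) (FCH.proj 2) _))
  refine (FCH.cases hτ hF).congr fun w a => ?_
  have h : ∀ x y z t : ℕ, (x + y + 2) - (z + t) = (((x + y : ℕ) : ℤ) - ((z + t : ℕ) : ℤ) + 2).toNat :=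
    fun x y z t => by omega
  exact h _ _ _ _

/-- the family of quadratic systems -/
noncomputable def fam : Fam Tok where
  J := inst
  nP := 8 * (Polynomial.X + 1)
  aP := 9 * (Polynomial.X + 1)
  hn w := by simp [inst]
  hA w := by simp [inst]
  hc := fch_coeff

end Quad

end Vale.Agent.P337
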