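import Vale.Agent.P337.QuadDefs

/-!
# The codes of formulas (module J5a)
-/

namespace Vale.Agent.P337

namespace Quad

/-- the code of a list of exponents -/
def pE (es : List ℕ) : List Tok := es.flatMap fun e => List.replicate e Tok.var ++ [Tok.next]

/-- the code of a list of digits -/
def pD (ds : List Bool) : List Tok := ds.map fun b => if b then Tok.one else Tok.zero

/-- the code of a list of monomials -/
def pM (p : List Mono) : List Tok := p.flatMap Mono.code

/-- lists of monomials -/
def RM (r : List Tok) : Prop := ∃ p, r = pM p

/-- exponents and monomials -/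
def RX (r : List Tok) : Prop := ∃ es p, r = pE es ++ pM p

/-- digits, exponents and monomials -/
def RY (r : List Tok) : Prop := ∃ ds es p, r = pD ds ++ (pE es ++ pM p)

/-- the rest of an exponent, exponents and monomials -/
def RV (r : List Tok) : Prop :=
  ∃ e es p, r = List.replicate e Tok.var ++ (Tok.next :: (pE es ++ pM p))

theorem pM_cons (m : Mono) (p : List Mono) :
    pM (m :: p) = (if m.neg then Tok.minus else Tok.plus) :: (pD m.digits ++ (pE m.exps ++ pM p)) := by
  simp [pM, Mono.code, pD, pE, List.append_assoc]

theorem pE_cons (e : ℕ) (es : List ℕ) :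
    pE (e :: es) = List.replicate e Tok.var ++ (Tok.next :: pE es) := by
  simp [pE]

theorem RM_nil : RM [] := ⟨[], rfl⟩

theorem RX_nil : RX [] := ⟨[], [], rfl⟩

theorem RY_nil : RY [] := ⟨[], [], [], rfl⟩

theorem RV_nil : ¬ RV [] := by
  rintro ⟨e, es, p, h⟩
  have := congrArg List.length h
  simp at this

theorem RM_cons (u : Tok) (r : List Tok) :
    RM (u :: r) ↔ (u = .plus ∨ u = .minus) ∧ RY r := by
  constructor
  · rintro ⟨p, h⟩
    cases p with
    | nil => simp [pM] at h
    | cons m p =>
      rw [pM_cons] at h
      injection h with h1 h2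
      refine ⟨?_, ⟨m.digits, m.exps, p, h2⟩⟩
      rw [h1]
      cases m.neg <;> simp
  · rintro ⟨h, ds, es, p, rfl⟩
    rcases h with rfl | rfl
    · exact ⟨⟨false, ds, es⟩ :: p, by rw [pM_cons]; simp⟩
    · exact ⟨⟨true, ds, es⟩ :: p, by rw [pM_cons]; simp⟩

theorem RV_cons (u : Tok) (r : List Tok) :
    RV (u :: r) ↔ (u = .var ∧ RV r) ∨ (u = .next ∧ RX r) := by
  constructor
  · rintro ⟨e, es, p, h⟩
    cases e with
    | zero =>
      simp only [List.replicate_zero, List.nil_append] at h
      injection h with h1 h2
      exact Or.inr ⟨h1, es, p, h2⟩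
    | succ e =>
      rw [List.replicate_succ, List.cons_append] at h
      injection h with h1 h2
      exact Or.inl ⟨h1, e, es, p, h2⟩
  · rintro (⟨rfl, e, es, p, rfl⟩ | ⟨rfl, es, p, rfl⟩)
    · exact ⟨e + 1, es, p, by rw [List.replicate_succ, List.cons_append]⟩
    · exact ⟨0, es, p, by simp⟩

theorem RX_cons (u : Tok) (r : List Tok) :
    RX (u :: r) ↔ (u = .var ∧ RV r) ∨ (u = .next ∧ RX r) ∨ RM (u :: r) := by
  constructor
  · rintro ⟨es, p, h⟩
    cases es with
    | nil => exact Or.inr (Or.inr ⟨p, by simpa [pE] using h⟩)
    | cons e es =>
      have h' : RV (u :: r) := ⟨e, es, p, by rw [h, pE_cons]; simp⟩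
      rcases (RV_cons u r).1 h' with h | h
      · exact Or.inl h
      · exact Or.inr (Or.inl h)
  · rintro (h | h | ⟨p, h⟩)
    · obtain ⟨e, es, p, h'⟩ := (RV_cons u r).2 (Or.inl h)
      exact ⟨e :: es, p, by rw [h', pE_cons]; simp⟩
    · obtain ⟨e, es, p, h'⟩ := (RV_cons u r).2 (Or.inr h)
      exact ⟨e :: es, p, by rw [h', pE_cons]; simp⟩
    · exact ⟨[], p, by simpa [pE] using h⟩

theorem RY_cons (u : Tok) (r : List Tok) :
    RY (u :: r) ↔ ((u = .zero ∨ u = .one) ∧ RY r) ∨ RX (u :: r) := by
  constructor
  · rintro ⟨ds, es, p, h⟩
    cases ds with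
    | nil => exact Or.inr ⟨es, p, by simpa [pD] using h⟩
    | cons b ds =>
      have h3 : pD (b :: ds) = (if b then Tok.one else Tok.zero) :: pD ds := by simp [pD]
      rw [h3, List.cons_append] at h
      injection h with h1 h2
      refine Or.inl ⟨?_, ds, es, p, h2⟩
      rw [h1]
      cases b <;> simp
  · rintro (⟨h, ds, es, p, rfl⟩ | ⟨es, p, h⟩)
    · rcases h with rfl | rfl
      · exact ⟨false :: ds, es, p, by simp [pD]⟩
      · exact ⟨true :: ds, es, p, by simp [pD]⟩
    · exact ⟨[], es, p, by simpa [pD] using h⟩

/-- the possible rests of a polynomial after a token -/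
def Rst (t : Option Tok) (r : List Tok) : Prop :=
  match t with
  | none | some .not | some .and | some .or => r = []
  | some .eq | some .gt => RM r
  | some .plus | some .minus | some .zero | some .one => RY r
  | some .var => RV r
  | some .next => RX r

theorem Rst_cons (t : Option Tok) (u : Tok) (r : List Tok) :
    Rst t (u :: r) ↔ isF u = false ∧ adj t (some u) = true ∧ Rst (some u) r := by
  cases t with
  | none => cases u <;> simp [Rst, adj, isF]
  | some t =>
    cases t <;> cases u <;> simp [Rst, adj, isF, RM_cons, RY_cons, RX_cons, RV_cons]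

/-- tokens after which a formula must follow -/
def needs (t : Option Tok) : Prop := t = none ∨ t = some .not ∨ t = some .and ∨ t = some .or

theorem Rst_nil (t : Option Tok) (ht : ¬ needs t) : Rst t [] ↔ adj t none = true := by
  cases t with
  | none => simp [needs] at ht
  | some t =>
    cases t <;> simp [needs] at ht <;> simp [Rst, adj, RM_nil, RX_nil, RY_nil, RV_nil]

theorem Rst_nil_adj (t : Option Tok) (u : Tok) (hu : isF u = true) :
    Rst t [] ↔ adj t (some u) = true := by
  cases t with
  | none => cases u <;> simp [isF] at hu <;> simp [Rst, adj]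
  | some t =>
    cases t <;> cases u <;> simp [isF] at hu <;>
      simp [Rst, adj, RM_nil, RX_nil, RY_nil, RV_nil]

/-- the codes of several formulas -/
def pF (l : List Fml) : List Tok := l.flatMap Fml.code

theorem pF_head (φs : List Fml) (u : Tok) (l : List Tok) (h : pF φs = u :: l) : isF u = true := by
  cases φs with
  | nil => simp [pF] at h
  | cons φ φs =>
    cases φ <;> simp [pF, Fml.code] at h <;> rw [← h.1] <;> rfl

theorem ok_gen (l : List Tok) : ∀ (t : Option Tok) (c : ℕ), (needs t → 1 ≤ c) →
    (Ok t c l ↔ ∃ r φs, Rst t r ∧ φs.length = c ∧ l = r ++ pF φs) := by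
  induction l with
  | nil =>
    intro t c hc
    rw [Ok]
    constructor
    · rintro ⟨h1, rfl⟩
      have ht : ¬ needs t := fun h => by have := hc h; omega
      exact ⟨[], [], (Rst_nil t ht).2 h1, rfl, rfl⟩
    · rintro ⟨r, φs, h1, h2, h3⟩
      have h3' := List.append_eq_nil_iff.1 h3.symm
      obtain ⟨rfl, h4⟩ := h3'
      have h5 : φs = [] := by
        cases φs with
        | nil => rfl
        | cons φ φs => cases φ <;> simp [pF, Fml.code] at h4
      subst h5
      have h6 : c = 0 := h2.symm
      have ht : ¬ needs t := fun h => by have := hc h; omega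
      exact ⟨(Rst_nil t ht).1 h1, h6⟩
  | cons u l ih =>
    intro t c hc
    rw [Ok]
    by_cases hu : isF u = true
    · -- a token of the formula structure
      have hsplit : (∃ r φs, Rst t r ∧ φs.length = c ∧ u :: l = r ++ pF φs) ↔
          (adj t (some u) = true ∧ ∃ φs : List Fml, φs.length = c ∧ u :: l = pF φs) := by
        constructor
        · rintro ⟨r, φs, h1, h2, h3⟩
          cases r with
          | nil => exact ⟨(Rst_nil_adj t u hu).1 h1, φs, h2, h3⟩
          | cons a r =>
            injection h3 with h4 h5
            subst h4
            have := ((Rst_cons t u r).1 h1).1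
            rw [hu] at this
            exact absurd this (by simp)
        · rintro ⟨h1, φs, h2, h3⟩
          exact ⟨[], φs, (Rst_nil_adj t u hu).2 h1, h2, h3⟩
      rw [hsplit]
      apply and_congr_right
      intro _
      cases u with
      | eq =>
        rw [if_pos (Or.inl rfl), ih (some .eq) (c - 1) (by simp [needs])]
        constructor
        · rintro ⟨h1, r, φs, ⟨p, rfl⟩, h2, rfl⟩
          have h1' : 1 ≤ c := h1 rfl
          exact ⟨Fml.eq p :: φs, by rw [List.length_cons, h2]; exact Nat.sub_add_cancel h1',
            by simp [pF, Fml.code, pM]⟩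
        · rintro ⟨φs, h2, h3⟩
          cases φs with
          | nil => simp [pF] at h3
          | cons φ φs =>
            cases φ <;> simp [pF, Fml.code] at h3
            rename_i p
            refine ⟨fun _ => by simp at h2; omega, pM p, φs, ⟨p, rfl⟩, by simp at h2; omega, ?_⟩
            rw [h3]
            rfl
      | gt =>
        rw [if_pos (Or.inr rfl), ih (some .gt) (c - 1) (by simp [needs])]
        constructor
        · rintro ⟨h1, r, φs, ⟨p, rfl⟩, h2, rfl⟩
          have h1' : 1 ≤ c := h1 rfl
          exact ⟨Fml.gt p :: φs, by rw [List.length_cons, h2]; exact Nat.sub_add_cancel h1',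
            by simp [pF, Fml.code, pM]⟩
        · rintro ⟨φs, h2, h3⟩
          cases φs with
          | nil => simp [pF] at h3
          | cons φ φs =>
            cases φ <;> simp [pF, Fml.code] at h3
            rename_i p
            refine ⟨fun _ => by simp at h2; omega, pM p, φs, ⟨p, rfl⟩, by simp at h2; omega, ?_⟩
            rw [h3]
            rfl
      | not =>
        rw [if_neg (by simp), if_neg (by simp)]
        constructor
        · rintro ⟨h1, h2⟩
          have h1' := h1 rfl
          rw [ih (some .not) c (fun _ => h1')] at h2
          obtain ⟨r, φs, h3, h4, h5⟩ := h2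
          have h3' : r = [] := h3
          subst h3'
          cases φs with
          | nil => simp at h4; omega
          | cons φ φs =>
            refine ⟨Fml.not φ :: φs, by simpa using h4, ?_⟩
            rw [h5]
            simp [pF, Fml.code]
        · rintro ⟨φs, h2, h3⟩
          cases φs with
          | nil => simp [pF] at h3
          | cons φ φs =>
            cases φ <;> simp [pF, Fml.code] at h3
            rename_i φ
            have hc1 : 1 ≤ c := by simp at h2; omega
            refine ⟨fun _ => hc1, (ih (some .not) c (fun _ => hc1)).2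
              ⟨[], φ :: φs, rfl, by simpa using h2, ?_⟩⟩
            rw [h3]
            simp [pF]
      | and =>
        rw [if_neg (by simp), if_pos (Or.inl rfl), ih (some .and) (c + 1) (fun _ => by omega)]
        constructor
        · rintro ⟨h1, r, φs, h3, h4, h5⟩
          have h1' := h1 rfl
          have h3' : r = [] := h3
          subst h3'
          cases φs with
          | nil => simp at h4
          | cons φ φs =>
            cases φs with
            | nil => simp at h4; omega
            | cons ψ φs =>
              refine ⟨Fml.and φ ψ :: φs, by simpa using h4, ?_⟩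
              rw [h5]
              simp [pF, Fml.code]
        · rintro ⟨φs, h2, h3⟩
          cases φs with
          | nil => simp [pF] at h3
          | cons φ φs =>
            cases φ <;> simp [pF, Fml.code] at h3
            rename_i φ ψ
            have hc1 : 1 ≤ c := by simp at h2; omega
            refine ⟨fun _ => hc1, [], φ :: ψ :: φs, rfl, by simpa using h2, ?_⟩
            rw [h3]
            simp [pF]
      | or =>
        rw [if_neg (by simp), if_pos (Or.inr rfl), ih (some .or) (c + 1) (fun _ => by omega)]
        constructor
        · rintro ⟨h1, r, φs, h3, h4, h5⟩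
          have h1' := h1 rfl
          have h3' : r = [] := h3
          subst h3'
          cases φs with
          | nil => simp at h4
          | cons φ φs =>
            cases φs with
            | nil => simp at h4; omega
            | cons ψ φs =>
              refine ⟨Fml.or φ ψ :: φs, by simpa using h4, ?_⟩
              rw [h5]
              simp [pF, Fml.code]
        · rintro ⟨φs, h2, h3⟩
          cases φs with
          | nil => simp [pF] at h3
          | cons φ φs =>
            cases φ <;> simp [pF, Fml.code] at h3
            rename_i φ ψ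
            have hc1 : 1 ≤ c := by simp at h2; omega
            refine ⟨fun _ => hc1, [], φ :: ψ :: φs, rfl, by simpa using h2, ?_⟩
            rw [h3]
            simp [pF]
      | plus => simp [isF] at hu
      | minus => simp [isF] at hu
      | zero => simp [isF] at hu
      | one => simp [isF] at hu
      | var => simp [isF] at hu
      | next => simp [isF] at hu
    · -- a token of a polynomial
      have hu' : isF u = false := by simpa using hu
      have hc' : (if u = .eq ∨ u = .gt then c - 1 else if u = .and ∨ u = .or then c + 1 else c) =
          c := by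
        cases u <;> simp [isF] at hu' <;> simp
      have hn : ¬ needs (some u) := by
        cases u <;> simp [isF] at hu' <;> simp [needs]
      rw [hc', ih (some u) c (fun h => absurd h hn)]
      constructor
      · rintro ⟨h1, _, r, φs, h2, h3, h4⟩
        exact ⟨u :: r, φs, (Rst_cons t u r).2 ⟨hu', h1, h2⟩, h3, by rw [h4]; rfl⟩
      · rintro ⟨r, φs, h1, h2, h3⟩
        cases r with
        | nil =>
          have := pF_head φs u l h3.symm
          rw [hu'] at this
          exact absurd this (by simp)
        | cons a r =>
          injection h3 with h4 h5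
          subst h4
          obtain ⟨_, h6, h7⟩ := (Rst_cons t u r).1 h1
          exact ⟨h6, fun h => absurd h hu, r, φs, h7, h2, h5⟩

/-- module J5a: induction on `l`: `Ok t c l` iff `l` consists of a possible rest after `t` (no
tokens of formulas) and `c` codes of formulas -/
theorem ok_iff (w : List Tok) : Ok none 1 w ↔ ∃ φ : Fml, φ.code = w := by
  rw [ok_gen w none 1 (fun _ => le_refl _)]
  constructor
  · rintro ⟨r, φs, h1, h2, h3⟩
    have h1' : r = [] := h1
    subst h1'
    rw [List.length_eq_one_iff] at h2
    obtain ⟨φ, rfl⟩ := h2
    exact ⟨φ, by rw [h3]; simp [pF]⟩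
  · rintro ⟨φ, rfl⟩
    exact ⟨[], [φ], rfl, rfl, by simp [pF]⟩

end Quad

end Vale.Agent.P337
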