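import Vale.Agent.P337.QuadDefs

/-!
# The codes of formulas: local conditions (module J5b)
-/

namespace Vale.Agent.P337

namespace Quad

open Classical in
theorem e2_cntAt_succ (w : List Tok) (i : ℕ) :
    cntAt w (i + 1) = cntAt w i + if (w[i]? = some .eq ∨ w[i]? = some .gt) then 1 else 0 := by
  unfold cntAt
  rw [Finset.range_add_one, Finset.filter_insert]
  split_ifs with h
  · rw [Finset.card_insert_of_notMem (by simp)]
  · rfl

open Classical in
theorem e2_cntBin_succ (w : List Tok) (i : ℕ) :
    cntBin w (i + 1) = cntBin w i + if (w[i]? = some .and ∨ w[i]? = some .or) then 1 else 0 := by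
  unfold cntBin
  rw [Finset.range_add_one, Finset.filter_insert]
  split_ifs with h
  · rw [Finset.card_insert_of_notMem (by simp)]
  · rfl

theorem e2_cntAt_zero (w : List Tok) : cntAt w 0 = 0 := by
  unfold cntAt; simp

theorem e2_cntBin_zero (w : List Tok) : cntBin w 0 = 0 := by
  unfold cntBin; simp

/-- the conditions at the position `j` -/
def e2_cond (w : List Tok) (j : ℕ) : Prop :=
  adj (if j = 0 then none else w[j - 1]?) w[j]? = true ∧
    ((∃ t, w[j]? = some t ∧ isF t = true) → cntAt w j ≤ cntBin w j)

theorem e2_ok_drop (w : List Tok) : ∀ n i c : ℕ, i + n = w.length →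
    c + cntAt w i = cntBin w i + 1 →
    (Ok (if i = 0 then none else w[i - 1]?) c (w.drop i) ↔
      (∀ j, i ≤ j → j < w.length + 1 → e2_cond w j) ∧
        cntAt w w.length = cntBin w w.length + 1)
  | 0, i, c, hi, hc => by
    have h1 : i = w.length := by omega
    subst h1
    rw [List.drop_length]
    have h2 : w[w.length]? = none := List.getElem?_eq_none le_rfl
    constructor
    · rintro ⟨h3, h4⟩
      refine ⟨fun j hj hj' => ?_, by omega⟩
      have h5 : j = w.length := by omega
      subst h5
      refine ⟨by rw [h2]; exact h3, ?_⟩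
      rintro ⟨t, ht, _⟩
      rw [h2] at ht
      exact absurd ht (by simp)
    · rintro ⟨h3, h4⟩
      have h5 := (h3 w.length le_rfl (by omega)).1
      rw [h2] at h5
      exact ⟨h5, by omega⟩
  | n + 1, i, c, hi, hc => by
    have h1 : i < w.length := by omega
    have hu : w[i]? = some w[i] := List.getElem?_eq_getElem h1
    rw [List.drop_eq_getElem_cons h1]
    have hA := e2_cntAt_succ w i
    have hB := e2_cntBin_succ w i
    rw [hu] at hA hB
    simp only [Option.some.injEq] at hA hB
    set u := w[i] with hudef
    -- split off the position `i`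
    have hsplit : (∀ j, i ≤ j → j < w.length + 1 → e2_cond w j) ↔
        e2_cond w i ∧ ∀ j, i + 1 ≤ j → j < w.length + 1 → e2_cond w j := by
      constructor
      · exact fun h => ⟨h i le_rfl (by omega), fun j hj hj' => h j (by omega) hj'⟩
      · rintro ⟨h, h'⟩ j hj hj'
        rcases eq_or_lt_of_le hj with rfl | hlt
        · exact h
        · exact h' j hlt hj'
    rw [hsplit]
    have hcond : e2_cond w i ↔ adj (if i = 0 then none else w[i - 1]?) (some u) = true ∧
        (isF u = true → 1 ≤ c) := by
      unfold e2_cond
      rw [hu]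
      refine and_congr_right fun _ => ?_
      constructor
      · intro h h'
        have := h ⟨u, rfl, h'⟩
        omega
      · rintro h ⟨t, ht, h'⟩
        have h3 : u = t := Option.some.inj ht
        subst h3
        have := h h'
        omega
    rw [hcond]
    show (adj _ (some u) = true ∧ (isF u = true → 1 ≤ c) ∧ Ok (some u) _ (w.drop (i + 1))) ↔ _
    rw [and_assoc, and_assoc]
    refine and_congr_right fun _ => ?_
    refine and_congr_right fun hF => ?_
    have ih := fun c' h => e2_ok_drop w n (i + 1) c' (by omega) h
    have e1 : (if i + 1 = 0 then none else w[i + 1 - 1]?) = some u := by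
      rw [if_neg (by omega), Nat.add_sub_cancel, hu]
    rw [e1] at ih
    rw [← ih]
    -- the equation for the number of formulas
    split_ifs with h2 h3
    · have h4 : 1 ≤ c := hF (by rcases h2 with h | h <;> rw [h] <;> rfl)
      rw [if_pos h2] at hA
      rw [if_neg (by rcases h2 with h | h <;> rw [h] <;> simp)] at hB
      omega
    · rw [if_neg h2] at hA
      rw [if_pos h3] at hB
      omega
    · rw [if_neg h2] at hA
      rw [if_neg h3] at hB
      omega

/-- module J5b: `Ok` for the suffixes of `w` -/
theorem WF_iff_ok (w : List Tok) : WF w ↔ Ok none 1 w := by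
  have h := e2_ok_drop w w.length 0 1 (by omega) (by rw [e2_cntAt_zero, e2_cntBin_zero])
  rw [if_pos rfl, List.drop_zero] at h
  rw [h]
  unfold WF e2_cond
  constructor
  · rintro ⟨h1, h2⟩
    exact ⟨fun j _ hj => h1 j hj, h2⟩
  · rintro ⟨h1, h2⟩
    exact ⟨fun j hj => h1 j (Nat.zero_le _) hj, h2⟩

end Quad

end Vale.Agent.P337
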