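import Vale.Agent.P337.QuadD1
import Vale.Agent.P337.QuadE1
import Vale.Agent.P337.QuadE2

/-!
# The codes of formulas (module J5c)
-/

namespace Vale.Agent.P337

namespace Quad

theorem WF_iff (w : List Tok) : WF w ↔ ∃ φ : Fml, φ.code = w :=
  (WF_iff_ok w).trans (ok_iff w)

/-- the token before a position -/
theorem inCH_prev {k : ℕ} {f : List Tok → (Fin k → ℕ) → ℕ} (hf : FCH f) (t : Option Tok) :
    InCH fun w a => (if f w a = 0 then none else w[f w a - 1]?) = t := by
  have h0 : InCH fun w a => f w a = 0 := InCH.eq hf (FCH.const 0)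
  have h1 : InCH fun w a => w[f w a - 1]? = t := inCH_tok (FCH.sub hf (FCH.const 1)) t
  refine InCH.congr (InCH.or (InCH.and h0 (InCH.const (none = t))) (InCH.and h0.not h1))
    (fun w a => ?_)
  by_cases h : f w a = 0
  · simp [h]
  · simp [h]

/-- the local conditions at a position -/
theorem inCH_local {k : ℕ} {f : List Tok → (Fin k → ℕ) → ℕ} (hf : FCH f) :
    InCH fun w a => adj (if f w a = 0 then none else w[f w a - 1]?) w[f w a]? = true ∧
      ((∃ t, w[f w a]? = some t ∧ isF t = true) → cntAt w (f w a) ≤ cntBin w (f w a)) := by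
  refine InCH.and ?_ ?_
  · refine InCH.congr (InCH.cases (T := Option Tok × Option Tok)
      (τ := fun w a => ((if f w a = 0 then none else w[f w a - 1]?), w[f w a]?))
      (fun t => ?_) (F := fun p _ _ => adj p.1 p.2 = true) (fun t => InCH.const _))
      (fun w a => Iff.rfl)
    refine InCH.congr (InCH.and (inCH_prev hf t.1) (inCH_tok hf t.2)) (fun w a => ?_)
    exact ⟨fun h => Prod.ext h.1 h.2, fun h => ⟨congrArg Prod.fst h, congrArg Prod.snd h⟩⟩
  · refine InCH.imp ?_ (InCH.le (fch_cntAt hf) (fch_cntBin hf))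
    exact InCH.cases (T := Option Tok) (τ := fun w a => w[f w a]?) (fun t => inCH_tok hf t)
      (F := fun p _ _ => ∃ t, p = some t ∧ isF t = true) (fun t => InCH.const _)

/-- module J5c -/
theorem inCH_WF : InCH (k := 0) fun w _ => WF w := by
  refine InCH.and ?_ ?_
  · refine InCH.forall_lt (S := fun w _ i => adj (if i = 0 then none else w[i - 1]?) w[i]? = true ∧
      ((∃ t, w[i]? = some t ∧ isF t = true) → cntAt w i ≤ cntBin w i))
      (FCH.add FCH.length (FCH.const 1)) ?_
    exact inCH_local (FCH.proj 0)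
  · exact InCH.eq (fch_cntAt FCH.length) (FCH.add (fch_cntBin FCH.length) (FCH.const 1))

end Quad

end Vale.Agent.P337
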