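import Vale.Agent.P337.QuadA3
import Vale.Agent.P337.QuadC
import Vale.Agent.P337.QuadD
import Vale.Agent.P337.QuadE

/-!
# From sentences to systems of quadratic equations (module J)
-/

namespace Vale.Agent.P337

/-- module J -/
theorem quad_exists : ∃ (M : Fam Tok) (WF : List Tok → Prop),
    InCH (k := 0) (fun w _ => WF w) ∧ ∀ w, w ∈ ETR ↔ WF w ∧ (M.J w).Solvable := by
  refine ⟨Quad.fam, Quad.WF, Quad.inCH_WF, fun w => ?_⟩
  rw [Quad.WF_iff]
  change _ ↔ _ ∧ (Quad.inst w).Solvable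
  rw [Quad.solvable_iff]
  constructor
  · rintro ⟨φ, hw, x, hx⟩
    refine ⟨⟨φ, hw⟩, ?_⟩
    obtain ⟨V, hVx, hV⟩ := Quad.exists_asg w x
    refine ⟨V, fun i hi e => ?_⟩
    by_cases he : e = 8
    · subst he
      have h1 := (Quad.fml_eval w V hV φ [] [] (by simp [hw]) (by simp)).1 (by rwa [hVx])
      rw [List.length_nil] at h1
      simp [Quad.Eqn, Quad.tab, Quad.tval, Quad.Sym.val, h1]
    · exact hV i hi e he
  · rintro ⟨⟨φ, hw⟩, V, hV⟩
    refine ⟨φ, hw, V.x, ?_⟩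
    by_contra hx
    have h1 := (Quad.fml_eval w V (fun i hi e _ => hV i hi e) φ [] [] (by simp [hw])
      (by simp)).2 hx
    have h2 := hV 0 (Nat.zero_le _) 8
    rw [List.length_nil] at h1
    simp [Quad.Eqn, Quad.tab, Quad.tval, Quad.Sym.val, h1] at h2

end Vale.Agent.P337
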