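import Vale.Agent.P337.Mach
import Vale.Agent.P337.Quad
import Vale.Agent.P337.FinalB

/-!
# The main theorem
-/

namespace Vale.Agent.P337

/-- the main theorem -/
theorem etr_mem_CH : CH ETR := by
  obtain ⟨M, WF, h1, h2⟩ := quad_exists
  have h3 := CH_of_InCH (InCH.and h1 (solvable_inCH M))
  have e : {w | WF w ∧ (M.J w).Solvable} = ETR := Set.ext fun w => (h2 w).symm
  rwa [e] at h3

end Vale.Agent.P337
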