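import Vale.Agent.P337.Alg

/-!
# Real relations: the points are permuted by the complex conjugation (module C4)
-/

namespace Vale.Agent.P337

open MvPolynomial

variable {n : ℕ}

/-- two families with the same multiset of values differ by a permutation -/
theorem exists_perm_of_map_eq {α β : Type*} [Fintype α] {f g : α → β}
    (h : Multiset.map f Finset.univ.val = Multiset.map g Finset.univ.val) :
    ∃ σ : Equiv.Perm α, ∀ x, g (σ x) = f x := by
  classical
  have hcard : ∀ b, Fintype.card {x // f x = b} = Fintype.card {x // g x = b} := by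
    intro b
    have h1 := congrArg (Multiset.count b) h
    rw [Multiset.count_map, Multiset.count_map] at h1
    rw [Fintype.card_subtype, Fintype.card_subtype]
    rw [Finset.card_def, Finset.card_def, Finset.filter_val, Finset.filter_val]
    simpa only [eq_comm] using h1
  let e : ∀ b, {x // f x = b} ≃ {x // g x = b} := fun b => Fintype.equivOfCardEq (hcard b)
  refine ⟨(Equiv.sigmaFiberEquiv f).symm.trans
    ((Equiv.sigmaCongrRight e).trans (Equiv.sigmaFiberEquiv g)), fun x => ?_⟩
  exact (e (f x) ⟨x, rfl⟩).2

/-- module C4: the coordinates are invariant under complex conjugation if the relations are real -/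
theorem pts_conj (h : Fin n → MvPolynomial (Fin n) ℝ) (hd : ∀ i, (h i).totalDegree ≤ 3)
    (pts : Fin (5 ^ n) → Fin n → ℂ)
    (hp : ∀ H, nm (fun i => map Complex.ofRealHom (h i)) H = ∏ j, eval (pts j) H) (c : Fin n) :
    ∃ σ : Equiv.Perm (Fin (5 ^ n)), ∀ j, pts (σ j) c = (starRingEnd ℂ) (pts j c) := by
  have hd' : ∀ i, (map Complex.ofRealHom (h i)).totalDegree ≤ 3 := fun i =>
    le_trans (Finset.sup_mono (support_map_subset _ _)) (hd i)
  have hcomp : (starRingEnd ℂ).comp Complex.ofRealHom = Complex.ofRealHom := by
    ext x
    simp
  have key : ∀ s : ℂ, ∏ j, (s - pts j c) = ∏ j, (s - (starRingEnd ℂ) (pts j c)) := by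
    intro s
    have h1 := nm_map (starRingEnd ℂ) (fun i => map Complex.ofRealHom (h i)) hd'
      (C ((starRingEnd ℂ) s) - X c)
    have h2 : (fun i => map (starRingEnd ℂ) ((fun i => map Complex.ofRealHom (h i)) i)) =
        fun i => map Complex.ofRealHom (h i) := by
      funext i
      simp only [MvPolynomial.map_map, hcomp]
    rw [h2, hp, hp] at h1
    simp only [map_sub, map_C, map_X, eval_C, eval_X, map_prod, Complex.conj_conj] at h1
    exact h1
  have hpoly : (Multiset.map (fun a => Polynomial.X - Polynomial.C a)
      (Multiset.map (fun j => (starRingEnd ℂ) (pts j c)) Finset.univ.val)).prod =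
      (Multiset.map (fun a => Polynomial.X - Polynomial.C a)
        (Multiset.map (fun j => pts j c) Finset.univ.val)).prod := by
    apply Polynomial.funext
    intro s
    rw [Multiset.map_map, Multiset.map_map]
    change Polynomial.eval s (∏ j, (Polynomial.X - Polynomial.C ((starRingEnd ℂ) (pts j c)))) =
      Polynomial.eval s (∏ j, (Polynomial.X - Polynomial.C (pts j c)))
    rw [Polynomial.eval_prod, Polynomial.eval_prod]
    simp only [Polynomial.eval_sub, Polynomial.eval_X, Polynomial.eval_C]
    exact (key s).symm
  have hroots := congrArg Polynomial.roots hpoly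
  rw [Polynomial.roots_multiset_prod_X_sub_C, Polynomial.roots_multiset_prod_X_sub_C] at hroots
  exact exists_perm_of_map_eq hroots

end Vale.Agent.P337
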