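import Vale.Agent.P337.PointsB
import Vale.Agent.P337.PointsC

/-!
# The complex points (module C)
-/

namespace Vale.Agent.P337

open MvPolynomial

variable {n : ℕ}

universe u

/-- the determinant of the action of a commutative algebra over an algebraically closed field on a
finite dimensional module is a product of characters -/
theorem pts_det_eq_prod {K A : Type*} [Field K] [IsAlgClosed K] [CommRing A] [Algebra K A] (d : ℕ) :
    ∀ (V : Type u) [AddCommGroup V] [Module K V] [Module A V] [IsScalarTower K A V]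
      [FiniteDimensional K V], Module.finrank K V = d →
      ∃ χ : Fin d → (A →ₐ[K] K), ∀ a : A,
        LinearMap.det (Algebra.lsmul K K V a) = ∏ j, χ j a := by
  induction d with
  | zero =>
    intro V _ _ _ _ _ hV
    refine ⟨fun j => j.elim0, fun a => ?_⟩
    have : Subsingleton V := Module.finrank_zero_iff.mp hV
    simp [LinearMap.det_eq_one_of_subsingleton]
  | succ d ih =>
    intro V _ _ _ _ _ hV
    have : Nontrivial V := Module.nontrivial_of_finrank_pos (R := K) (by omega)
    have : IsArtinian A V := isArtinian_of_tower K inferInstance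
    obtain ⟨W, hW⟩ := IsAtomic.exists_atom (Submodule A V)
    have hs : IsSimpleModule A W := isSimpleModule_iff_isAtom.mpr hW
    obtain ⟨I, hI, ⟨e⟩⟩ := isSimpleModule_iff_quot_maximal.mp hs
    let _ : Field (A ⧸ I) := Ideal.Quotient.field I
    have e' : W ≃ₗ[K] (A ⧸ I) := e.restrictScalars K
    have : FiniteDimensional K W :=
      inferInstanceAs (FiniteDimensional K (W.restrictScalars K))
    have : FiniteDimensional K (A ⧸ I) := e'.finiteDimensional
    have hb : Function.Bijective (algebraMap K (A ⧸ I)) :=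
      IsAlgClosed.algebraMap_bijective_of_isIntegral
    let f : K ≃ₐ[K] (A ⧸ I) := AlgEquiv.ofBijective (Algebra.ofId K (A ⧸ I)) hb
    let χ0 : A →ₐ[K] K := (f.symm : (A ⧸ I) →ₐ[K] K).comp (Ideal.Quotient.mkₐ K I)
    have hact : ∀ (a : A) (w : W), a • w = χ0 a • w := by
      intro a w
      apply e.injective
      have h1 : e (χ0 a • w) = χ0 a • e w := (e.restrictScalars K).map_smul (χ0 a) w
      rw [h1, map_smul]
      have h2 : f (χ0 a) = Ideal.Quotient.mk I a := by
        simp [χ0]
      have h3 : f (χ0 a) = algebraMap K (A ⧸ I) (χ0 a) := rfl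
      rw [Algebra.smul_def (χ0 a) (e w), ← h3, h2]
      rfl
    have hfW : Module.finrank K W = 1 := by
      rw [e'.finrank_eq, ← f.toLinearEquiv.finrank_eq, Module.finrank_self]
    -- the quotient
    let W' : Submodule K V := W.restrictScalars K
    have hfW' : Module.finrank K W' = 1 := hfW
    let q : (V ⧸ W') ≃ₗ[K] (V ⧸ W) := Submodule.Quotient.restrictScalarsEquiv K W
    have : FiniteDimensional K (V ⧸ W) := q.finiteDimensional
    have hfQ : Module.finrank K (V ⧸ W) = d := by
      rw [← q.finrank_eq]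
      have := Submodule.finrank_quotient_add_finrank W'
      omega
    obtain ⟨χ, hχ⟩ := ih (V ⧸ W) hfQ
    refine ⟨Fin.cons χ0 χ, fun a => ?_⟩
    have hinv : W' ≤ W'.comap (Algebra.lsmul K K V a) := by
      intro w hw
      exact W.smul_mem a hw
    rw [LinearMap.det_eq_det_mul_det W' _ hinv, Fin.prod_univ_succ, Fin.cons_zero]
    simp only [Fin.cons_succ]
    congr 1
    · have : (Algebra.lsmul K K V a).restrict hinv = χ0 a • (LinearMap.id : W' →ₗ[K] W') := by
        ext w
        have := congrArg (fun z : W => (z : V)) (hact a ⟨w.1, w.2⟩)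
        exact this
      rw [this, LinearMap.det_smul, hfW', pow_one, LinearMap.det_id, mul_one]
    · have hq : (q : (V ⧸ W') →ₗ[K] (V ⧸ W)) ∘ₗ W'.mapQ W' _ hinv ∘ₗ
          (q.symm : (V ⧸ W) →ₗ[K] (V ⧸ W')) = Algebra.lsmul K K (V ⧸ W) a := by
        refine LinearMap.ext fun v => ?_
        obtain ⟨v, rfl⟩ := Submodule.Quotient.mk_surjective W v
        rfl
      rw [← hχ a, ← hq, LinearMap.det_conj]

/-- module C1: the norm is the product over the points with multiplicities -/
theorem exists_pts (h : Fin n → MvPolynomial (Fin n) ℂ) (hd : ∀ i, (h i).totalDegree ≤ 3) :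
    ∃ pts : Fin (5 ^ n) → Fin n → ℂ, ∀ H, nm h H = ∏ j, eval (pts j) H := by
  obtain ⟨b, -⟩ := exists_basis h hd
  have hfin : Module.finrank ℂ (Alg h) = 5 ^ n := by
    rw [Module.finrank_eq_card_basis b]
    simp
  have : FiniteDimensional ℂ (Alg h) := Module.Finite.of_basis b
  obtain ⟨χ, hχ⟩ := pts_det_eq_prod (K := ℂ) (A := Alg h) (5 ^ n) (Alg h) hfin
  refine ⟨fun j i => χ j (Ideal.Quotient.mk (relIdeal h) (X i)), fun H => ?_⟩
  have h1 : nm h H =
      LinearMap.det (Algebra.lsmul ℂ ℂ (Alg h) (Ideal.Quotient.mk (relIdeal h) H)) := by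
    rw [nm, Algebra.norm_apply]
    rfl
  rw [h1, hχ]
  refine Finset.prod_congr rfl fun j _ => ?_
  have h2 : (χ j).comp (Ideal.Quotient.mkₐ ℂ (relIdeal h)) =
      aeval fun i => χ j (Ideal.Quotient.mk (relIdeal h) (X i)) := by
    ext i
    simp
  have h3 : χ j (Ideal.Quotient.mk (relIdeal h) H) =
      aeval (fun i => χ j (Ideal.Quotient.mk (relIdeal h) (X i))) H := DFunLike.congr_fun h2 H
  rw [h3]
  rfl

end Vale.Agent.P337
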