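import Vale.Agent.P337.Exact
import Vale.Agent.P337.Points

/-!
# Bounds for the points (module S4a)
-/

namespace Vale.Agent.P337

open MvPolynomial

section evalLemmas

variable {R : Type*} [CommRing R]

theorem s4_eval_z {n : ℕ} (x : Fin n → R) (u : ℕ) :
    eval x (Inst.z (fun i => (X i : MvPolynomial (Fin n) R)) u) = Inst.z x u := by
  unfold Inst.z
  split_ifs <;> simp

theorem s4_eval_pv (I : Inst) (x : Fin I.n → R) (a : ℕ) :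
    eval x (I.pv (fun i => (X i : MvPolynomial (Fin I.n) R)) a) = I.pv x a := by
  unfold Inst.pv
  simp only [map_sum, map_mul, map_intCast, s4_eval_z]

theorem s4_eval_G (I : Inst) (x : Fin I.n → R) (lam : R) : eval x (I.G lam) =
    ∑ i, x i ^ 6 + 6 * lam * ∑ a ∈ Finset.range I.A, I.pv x a ^ 2 := by
  unfold Inst.G Inst.F
  simp only [map_add, map_sum, map_pow, map_mul, eval_X, eval_C, s4_eval_pv]

end evalLemmas

section bounds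

variable {n : ℕ}

theorem s4_norm_z {x : Fin n → ℂ} {M : ℝ} (hM : 1 ≤ M) (hx : ∀ i, ‖x i‖ ≤ M) (u : ℕ) :
    ‖Inst.z x u‖ ≤ M := by
  unfold Inst.z
  split_ifs
  · rw [norm_one]
    exact hM
  · exact hx _
  · rw [norm_zero]
    linarith

theorem s4_norm_c (I : Inst) (a u v : ℕ) : ‖((I.c a u v : ℤ) : ℂ)‖ ≤ 2 := by
  rw [Complex.norm_intCast]
  have h := I.hc a u v
  exact_mod_cast h

theorem s4_sum_le {m : ℕ} (f : ℕ → ℕ → ℂ) (B : ℝ)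
    (hf : ∀ u v, ‖f u v‖ ≤ B) :
    ‖∑ u ∈ Finset.range m, ∑ v ∈ Finset.range m, f u v‖ ≤ (m : ℝ) ^ 2 * B := by
  calc ‖∑ u ∈ Finset.range m, ∑ v ∈ Finset.range m, f u v‖
      ≤ ∑ u ∈ Finset.range m, (m : ℝ) * B := by
        refine norm_sum_le_of_le _ fun u _ => ?_
        refine (norm_sum_le_of_le _ fun v _ => hf u v).trans ?_
        rw [Finset.sum_const, Finset.card_range, nsmul_eq_mul]
    _ = (m : ℝ) ^ 2 * B := by
        rw [Finset.sum_const, Finset.card_range, nsmul_eq_mul]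
        ring

theorem s4_norm_pv (I : Inst) {x : Fin I.n → ℂ} {M : ℝ} (hM : 1 ≤ M) (hx : ∀ i, ‖x i‖ ≤ M)
    (a : ℕ) : ‖I.pv x a‖ ≤ ((I.n : ℝ) + 1) ^ 2 * (2 * M ^ 2) := by
  unfold Inst.pv
  have h := s4_sum_le (m := I.n + 1) (fun u v => (I.c a u v : ℂ) * Inst.z x u * Inst.z x v)
    (2 * M ^ 2) (fun u v => by
      rw [norm_mul, norm_mul]
      have h1 := s4_norm_c I a u v
      have h2 := s4_norm_z hM hx u
      have h3 := s4_norm_z hM hx v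
      calc ‖((I.c a u v : ℤ) : ℂ)‖ * ‖Inst.z x u‖ * ‖Inst.z x v‖ ≤ 2 * M * M := by
            apply mul_le_mul (mul_le_mul h1 h2 (norm_nonneg _) (by norm_num)) h3 (norm_nonneg _)
            positivity
        _ = 2 * M ^ 2 := by ring)
  push_cast at h
  exact h

theorem s4_norm_dz (x : Fin n → ℂ) (i : Fin n) (u : ℕ) :
    ‖eval x (pderiv i (Inst.z (fun i => (X i : MvPolynomial (Fin n) ℂ)) u))‖ ≤ 1 := by
  unfold Inst.z
  split_ifs with h1 h2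
  · rw [pderiv_one, map_zero, norm_zero]
    norm_num
  · by_cases h : (⟨u - 1, h2⟩ : Fin n) = i
    · rw [h, pderiv_X_self, map_one, norm_one]
    · rw [pderiv_X_of_ne h, map_zero, norm_zero]
      norm_num
  · rw [map_zero, map_zero, norm_zero]
    norm_num

theorem s4_norm_dpv (I : Inst) {x : Fin I.n → ℂ} {M : ℝ} (hM : 1 ≤ M) (hx : ∀ i, ‖x i‖ ≤ M)
    (i : Fin I.n) (a : ℕ) :
    ‖eval x (pderiv i (I.pv (fun i => (X i : MvPolynomial (Fin I.n) ℂ)) a))‖ ≤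
      ((I.n : ℝ) + 1) ^ 2 * (4 * M) := by
  have e : eval x (pderiv i (I.pv (fun i => (X i : MvPolynomial (Fin I.n) ℂ)) a)) =
      ∑ u ∈ Finset.range (I.n + 1), ∑ v ∈ Finset.range (I.n + 1),
        (((I.c a u v : ℂ) * eval x (pderiv i (Inst.z (fun i => (X i : MvPolynomial (Fin I.n) ℂ)) u)))
          * Inst.z x v + (I.c a u v : ℂ) * Inst.z x u *
          eval x (pderiv i (Inst.z (fun i => (X i : MvPolynomial (Fin I.n) ℂ)) v))) := by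
    unfold Inst.pv
    rw [map_sum, map_sum]
    refine Finset.sum_congr rfl fun u _ => ?_
    rw [map_sum, map_sum]
    refine Finset.sum_congr rfl fun v _ => ?_
    rw [pderiv_mul, pderiv_mul]
    have h0 : pderiv i ((I.c a u v : ℤ) : MvPolynomial (Fin I.n) ℂ) = 0 := by
      rw [← map_intCast (C : ℂ →+* MvPolynomial (Fin I.n) ℂ)]
      exact pderiv_C
    rw [h0]
    simp only [map_add, map_mul, map_intCast, s4_eval_z, zero_mul, zero_add]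
  rw [e]
  have h := s4_sum_le (m := I.n + 1) (fun u v =>
    (((I.c a u v : ℂ) * eval x (pderiv i (Inst.z (fun i => (X i : MvPolynomial (Fin I.n) ℂ)) u)))
          * Inst.z x v + (I.c a u v : ℂ) * Inst.z x u *
          eval x (pderiv i (Inst.z (fun i => (X i : MvPolynomial (Fin I.n) ℂ)) v)))) (4 * M)
    (fun u v => by
      have h1 := s4_norm_c I a u v
      have h2 := s4_norm_z hM hx u
      have h3 := s4_norm_z hM hx v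
      have h4 := s4_norm_dz x i u
      have h5 := s4_norm_dz x i v
      refine (norm_add_le _ _).trans ?_
      rw [norm_mul, norm_mul, norm_mul, norm_mul]
      have h6 : ‖((I.c a u v : ℤ) : ℂ)‖ *
          ‖eval x (pderiv i (Inst.z (fun i => (X i : MvPolynomial (Fin I.n) ℂ)) u))‖ *
          ‖Inst.z x v‖ ≤ 2 * 1 * M := by
        apply mul_le_mul (mul_le_mul h1 h4 (norm_nonneg _) (by norm_num)) h3 (norm_nonneg _)
        positivity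
      have h7 : ‖((I.c a u v : ℤ) : ℂ)‖ * ‖Inst.z x u‖ *
          ‖eval x (pderiv i (Inst.z (fun i => (X i : MvPolynomial (Fin I.n) ℂ)) v))‖ ≤
          2 * M * 1 := by
        apply mul_le_mul (mul_le_mul h1 h2 (norm_nonneg _) (by norm_num)) h5 (norm_nonneg _)
        positivity
      linarith)
  push_cast at h
  exact h

theorem s4_norm_dF (I : Inst) {x : Fin I.n → ℂ} {M : ℝ} (hM : 1 ≤ M) (hx : ∀ i, ‖x i‖ ≤ M)
    (i : Fin I.n) :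
    ‖eval x (pderiv i (I.F ℂ))‖ ≤ (I.A : ℝ) * (((I.n : ℝ) + 1) ^ 4 * (16 * M ^ 3)) := by
  have e : eval x (pderiv i (I.F ℂ)) = ∑ a ∈ Finset.range I.A,
      (eval x (pderiv i (I.pv (fun i => (X i : MvPolynomial (Fin I.n) ℂ)) a)) * I.pv x a +
        I.pv x a * eval x (pderiv i (I.pv (fun i => (X i : MvPolynomial (Fin I.n) ℂ)) a))) := by
    unfold Inst.F
    rw [map_sum, map_sum]
    refine Finset.sum_congr rfl fun a _ => ?_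
    rw [pow_two, pderiv_mul, map_add, map_mul, map_mul, s4_eval_pv]
  rw [e]
  calc ‖∑ a ∈ Finset.range I.A,
      (eval x (pderiv i (I.pv (fun i => (X i : MvPolynomial (Fin I.n) ℂ)) a)) * I.pv x a +
        I.pv x a * eval x (pderiv i (I.pv (fun i => (X i : MvPolynomial (Fin I.n) ℂ)) a)))‖
      ≤ ∑ a ∈ Finset.range I.A, ((I.n : ℝ) + 1) ^ 4 * (16 * M ^ 3) := by
        refine norm_sum_le_of_le _ fun a _ => ?_
        refine (norm_add_le _ _).trans ?_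
        rw [norm_mul, norm_mul]
        have h1 := s4_norm_pv I hM hx a
        have h2 := s4_norm_dpv I hM hx i a
        have h3 := mul_le_mul h2 h1 (norm_nonneg _) (by positivity)
        have h4 : ((I.n : ℝ) + 1) ^ 2 * (4 * M) * (((I.n : ℝ) + 1) ^ 2 * (2 * M ^ 2)) =
            ((I.n : ℝ) + 1) ^ 4 * (8 * M ^ 3) := by ring
        rw [h4] at h3
        have h5 : ‖I.pv x a‖ *
            ‖eval x (pderiv i (I.pv (fun i => (X i : MvPolynomial (Fin I.n) ℂ)) a))‖ =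
            ‖eval x (pderiv i (I.pv (fun i => (X i : MvPolynomial (Fin I.n) ℂ)) a))‖ *
              ‖I.pv x a‖ := mul_comm _ _
        rw [h5]
        linarith
    _ = _ := by rw [Finset.sum_const, Finset.card_range, nsmul_eq_mul]

end bounds

namespace Inst

variable (I : Inst)

theorem s4_A : (I.A : ℝ) ≤ 2 ^ I.n := by exact_mod_cast I.hA

theorem s4_n : (I.n : ℝ) + 1 ≤ 2 ^ I.n := by
  have : I.n + 1 ≤ 2 ^ I.n := Nat.lt_two_pow_self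
  exact_mod_cast this

theorem s4_ar1 {A b N M L : ℝ} (hA0 : 0 ≤ A) (hA : A ≤ N) (hb0 : 0 ≤ b) (hb : b ≤ N)
    (hM : 0 < M) (hL : 0 ≤ L) (h : M ^ 5 ≤ L * (A * (b ^ 4 * (16 * M ^ 3)))) :
    M ^ 2 ≤ 16 * L * N ^ 5 := by
  have e3 : b ^ 4 ≤ N ^ 4 := pow_le_pow_left₀ hb0 hb 4
  have hN : 0 ≤ N := hA0.trans hA
  have e4 : A * b ^ 4 ≤ N * N ^ 4 := mul_le_mul hA e3 (by positivity) hN
  have e5 : L * (A * b ^ 4) ≤ L * (N * N ^ 4) := mul_le_mul_of_nonneg_left e4 hL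
  have e6 : L * (A * b ^ 4) * (16 * M ^ 3) ≤ L * (N * N ^ 4) * (16 * M ^ 3) :=
    mul_le_mul_of_nonneg_right e5 (by positivity)
  have e7 : M ^ 2 * M ^ 3 ≤ (16 * L * N ^ 5) * M ^ 3 := by
    calc M ^ 2 * M ^ 3 = M ^ 5 := by ring
      _ ≤ L * (A * (b ^ 4 * (16 * M ^ 3))) := h
      _ = L * (A * b ^ 4) * (16 * M ^ 3) := by ring
      _ ≤ L * (N * N ^ 4) * (16 * M ^ 3) := e6
      _ = (16 * L * N ^ 5) * M ^ 3 := by ring
  exact le_of_mul_le_mul_right e7 (by positivity)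

theorem s4_ar2 : 16 * (2 : ℝ) ^ I.lE * (2 ^ I.n) ^ 5 ≤ (2 ^ 2 ^ (7 * I.n + 11)) ^ 2 := by
  have e1 : (16 : ℝ) = 2 ^ 4 := by norm_num
  rw [e1, ← pow_mul, ← pow_mul, ← pow_add, ← pow_add]
  apply pow_le_pow_right₀ (by norm_num)
  unfold Inst.lE
  have e2 : 2 ^ (7 * I.n + 11) * 2 = 4 * 2 ^ (7 * I.n + 10) := by
    rw [show 7 * I.n + 11 = (7 * I.n + 10) + 1 by ring, pow_succ]
    ring
  have e3 : 7 * I.n + 10 < 2 ^ (7 * I.n + 10) := Nat.lt_two_pow_self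
  omega

theorem s4_ar3 {m A b N R L : ℝ} (hm : m ≤ N) (hA0 : 0 ≤ A) (hA : A ≤ N)
    (hb0 : 0 ≤ b) (hb : b ≤ N) (hR : 1 ≤ R) (hL : L ≤ R) (hN : 1 ≤ N) :
    m * R ^ 6 + 6 * L * (A * (b ^ 2 * (2 * R ^ 2)) ^ 2) ≤ 32 * N ^ 5 * R ^ 6 := by
  have hR0 : 0 ≤ R := by linarith
  have e3 : b ^ 4 ≤ N ^ 4 := pow_le_pow_left₀ hb0 hb 4
  have e4 : A * b ^ 4 ≤ N * N ^ 4 := mul_le_mul hA e3 (by positivity) (by linarith)
  have e5 : L * (A * b ^ 4) ≤ R * (N * N ^ 4) := mul_le_mul hL e4 (by positivity) hR0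
  have e6 : L * (A * b ^ 4) * (24 * R ^ 4) ≤ R * (N * N ^ 4) * (24 * R ^ 4) :=
    mul_le_mul_of_nonneg_right e5 (by positivity)
  have e7 : R ^ 5 ≤ R ^ 6 := pow_le_pow_right₀ hR (by norm_num)
  have e8 : N ≤ N ^ 5 := by
    calc N = N ^ 1 := (pow_one N).symm
      _ ≤ N ^ 5 := pow_le_pow_right₀ hN (by norm_num)
  have e9 : m * R ^ 6 ≤ N ^ 5 * R ^ 6 := mul_le_mul_of_nonneg_right (hm.trans e8) (by positivity)
  have e10 : N ^ 5 * R ^ 5 ≤ N ^ 5 * R ^ 6 := mul_le_mul_of_nonneg_left e7 (by positivity)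
  have e11 : 0 ≤ N ^ 5 * R ^ 6 := by positivity
  calc m * R ^ 6 + 6 * L * (A * (b ^ 2 * (2 * R ^ 2)) ^ 2)
      = m * R ^ 6 + L * (A * b ^ 4) * (24 * R ^ 4) := by ring
    _ ≤ N ^ 5 * R ^ 6 + R * (N * N ^ 4) * (24 * R ^ 4) := add_le_add e9 e6
    _ = N ^ 5 * R ^ 6 + 24 * (N ^ 5 * R ^ 5) := by ring
    _ ≤ 32 * (N ^ 5 * R ^ 6) := by linarith
    _ = 32 * N ^ 5 * R ^ 6 := by ring

theorem s4_ar4 : 32 * ((2 : ℝ) ^ I.n) ^ 5 ≤ (2 ^ 2 ^ (7 * I.n + 11)) ^ 2 := by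
  have e1 : (32 : ℝ) = 2 ^ 5 := by norm_num
  rw [e1, ← pow_mul, ← pow_mul, ← pow_add]
  apply pow_le_pow_right₀ (by norm_num)
  have e3 : 7 * I.n + 11 < 2 ^ (7 * I.n + 11) := Nat.lt_two_pow_self
  omega

theorem s4_ar5 {m A b N R L τ : ℝ} (hm : m ≤ N) (hA0 : 0 ≤ A) (hA : A ≤ N)
    (hb0 : 0 ≤ b) (hb : b ≤ N) (hR : 1 ≤ R) (hL : L ≤ R) (hN : 1 ≤ N)
    (hτ : 0 ≤ τ) :
    m * (6 * R ^ 5 * τ) + 6 * L * (A * (b ^ 4 * (16 * R ^ 3 * τ))) ≤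
      128 * N ^ 5 * R ^ 5 * τ := by
  have hR0 : 0 ≤ R := by linarith
  have e3 : b ^ 4 ≤ N ^ 4 := pow_le_pow_left₀ hb0 hb 4
  have e4 : A * b ^ 4 ≤ N * N ^ 4 := mul_le_mul hA e3 (by positivity) (by linarith)
  have e5 : L * (A * b ^ 4) ≤ R * (N * N ^ 4) := mul_le_mul hL e4 (by positivity) hR0
  have e6 : L * (A * b ^ 4) * (96 * R ^ 3 * τ) ≤ R * (N * N ^ 4) * (96 * R ^ 3 * τ) :=
    mul_le_mul_of_nonneg_right e5 (by positivity)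
  have e7 : R ^ 4 ≤ R ^ 5 := pow_le_pow_right₀ hR (by norm_num)
  have e8 : N ≤ N ^ 5 := by
    calc N = N ^ 1 := (pow_one N).symm
      _ ≤ N ^ 5 := pow_le_pow_right₀ hN (by norm_num)
  have e9 : m * (6 * R ^ 5 * τ) ≤ N ^ 5 * (6 * R ^ 5 * τ) :=
    mul_le_mul_of_nonneg_right (hm.trans e8) (by positivity)
  have e10 : 96 * N ^ 5 * τ * R ^ 4 ≤ 96 * N ^ 5 * τ * R ^ 5 :=
    mul_le_mul_of_nonneg_left e7 (by positivity)
  have e11 : 0 ≤ N ^ 5 * R ^ 5 * τ := by positivity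
  calc m * (6 * R ^ 5 * τ) + 6 * L * (A * (b ^ 4 * (16 * R ^ 3 * τ)))
      = m * (6 * R ^ 5 * τ) + L * (A * b ^ 4) * (96 * R ^ 3 * τ) := by ring
    _ ≤ N ^ 5 * (6 * R ^ 5 * τ) + R * (N * N ^ 4) * (96 * R ^ 3 * τ) := add_le_add e9 e6
    _ = N ^ 5 * (6 * R ^ 5 * τ) + 96 * N ^ 5 * τ * R ^ 4 := by ring
    _ ≤ N ^ 5 * (6 * R ^ 5 * τ) + 96 * N ^ 5 * τ * R ^ 5 := by linarith
    _ = 102 * (N ^ 5 * R ^ 5 * τ) := by ring
    _ ≤ 128 * (N ^ 5 * R ^ 5 * τ) := by linarith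
    _ = 128 * N ^ 5 * R ^ 5 * τ := by ring

theorem s4_ar6 : 1024 * ((2 : ℝ) ^ I.n) ^ 5 * (2 ^ 2 ^ (7 * I.n + 11)) ^ 5 ≤ 2 ^ 2 ^ I.q := by
  have e0 : (1024 : ℝ) = 2 ^ 10 := by norm_num
  rw [e0, ← pow_mul, ← pow_mul, ← pow_add, ← pow_add]
  apply pow_le_pow_right₀ (by norm_num)
  have e1 : (2 : ℕ) ^ (7 * I.n + 14) ≤ 2 ^ I.q :=
    Nat.pow_le_pow_right (by norm_num) (by unfold Inst.q; omega)
  have e2 : 2 ^ (7 * I.n + 14) = 8 * 2 ^ (7 * I.n + 11) := by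
    rw [show 7 * I.n + 14 = (7 * I.n + 11) + 3 by ring, pow_add]
    ring
  have e3 : 7 * I.n + 11 < 2 ^ (7 * I.n + 11) := Nat.lt_two_pow_self
  omega

/-- module S4: the bound for the points -/
theorem pts_bound' (x : Fin I.n → ℂ) (hx : ∀ i, x i ^ 5 = eval x (I.h (I.lam ℂ) i)) (i : Fin I.n) :
    ‖x i‖ ≤ 2 ^ 2 ^ (7 * I.n + 11) := by
  obtain ⟨j, -, hj⟩ := Finset.exists_max_image Finset.univ (fun i => ‖x i‖)
    ⟨i, Finset.mem_univ i⟩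
  have h1 : (1 : ℝ) ≤ 2 ^ 2 ^ (7 * I.n + 11) := one_le_pow₀ (by norm_num)
  refine (hj i (Finset.mem_univ i)).trans ?_
  rcases le_or_gt ‖x j‖ 1 with h | h
  · exact h.trans h1
  have hM : ∀ i, ‖x i‖ ≤ ‖x j‖ := fun i => hj i (Finset.mem_univ i)
  have h2 := s4_norm_dF I h.le hM j
  have h3 : ‖x j‖ ^ 5 ≤ 2 ^ I.lE * ((I.A : ℝ) * (((I.n : ℝ) + 1) ^ 4 * (16 * ‖x j‖ ^ 3))) := by
    rw [← norm_pow, hx j]
    unfold Inst.h Inst.lam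
    rw [map_neg, norm_neg, map_mul, eval_C, norm_mul, norm_pow, Complex.norm_ofNat]
    exact mul_le_mul_of_nonneg_left h2 (by positivity)
  have hM0 : 0 < ‖x j‖ := by linarith
  have h6 := s4_ar1 (Nat.cast_nonneg _) (s4_A I) (by positivity) (s4_n I) hM0 (by positivity) h3
  exact (pow_le_pow_iff_left₀ hM0.le (by positivity) (by norm_num : (2 : ℕ) ≠ 0)).mp
    (h6.trans (s4_ar2 I))

theorem s4_lam : ‖I.lam ℂ‖ = 2 ^ I.lE := by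
  unfold Inst.lam
  rw [norm_pow, Complex.norm_ofNat]

theorem s4_lE : (2 : ℝ) ^ I.lE ≤ 2 ^ 2 ^ (7 * I.n + 11) := by
  apply pow_le_pow_right₀ (by norm_num)
  unfold Inst.lE
  exact Nat.pow_le_pow_right (by norm_num) (by omega)

theorem s4_R8 : ((2 : ℝ) ^ 2 ^ (7 * I.n + 11)) ^ 8 = 2 ^ 2 ^ (7 * I.n + 14) := by
  have h : (2 : ℕ) ^ (7 * I.n + 11) * 8 = 2 ^ (7 * I.n + 14) := by
    rw [show 7 * I.n + 14 = (7 * I.n + 11) + 1 + 1 + 1 by ring, pow_succ, pow_succ, pow_succ]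
    ring
  rw [← pow_mul, h]

theorem s4_sum6 {n : ℕ} {x : Fin n → ℂ} {R : ℝ} (hx : ∀ i, ‖x i‖ ≤ R) :
    ‖∑ i, x i ^ 6‖ ≤ (n : ℝ) * R ^ 6 := by
  calc ‖∑ i, x i ^ 6‖ ≤ ∑ _i : Fin n, R ^ 6 := by
        refine norm_sum_le_of_le _ fun i _ => ?_
        rw [norm_pow]
        exact pow_le_pow_left₀ (norm_nonneg _) (hx i) 6
    _ = (n : ℝ) * R ^ 6 := by
        rw [Finset.sum_const, Finset.card_univ, Fintype.card_fin, nsmul_eq_mul]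

theorem s4_sumpv {x : Fin I.n → ℂ} {R : ℝ} (hR : 1 ≤ R) (hx : ∀ i, ‖x i‖ ≤ R) :
    ‖∑ a ∈ Finset.range I.A, I.pv x a ^ 2‖ ≤
      (I.A : ℝ) * (((I.n : ℝ) + 1) ^ 2 * (2 * R ^ 2)) ^ 2 := by
  calc ‖∑ a ∈ Finset.range I.A, I.pv x a ^ 2‖
      ≤ ∑ a ∈ Finset.range I.A, (((I.n : ℝ) + 1) ^ 2 * (2 * R ^ 2)) ^ 2 := by
        refine norm_sum_le_of_le _ fun a _ => ?_
        rw [norm_pow]
        exact pow_le_pow_left₀ (norm_nonneg _) (s4_norm_pv I hR hx a) 2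
    _ = (I.A : ℝ) * (((I.n : ℝ) + 1) ^ 2 * (2 * R ^ 2)) ^ 2 := by
        rw [Finset.sum_const, Finset.card_range, nsmul_eq_mul]

theorem s4_n1 : (I.n : ℝ) ≤ 2 ^ I.n := by
  have := s4_n I
  linarith

/-- the bound for `G` -/
theorem G_bound' (x : Fin I.n → ℂ) (hx : ∀ i, ‖x i‖ ≤ 2 ^ 2 ^ (7 * I.n + 11)) :
    ‖eval x (I.G (I.lam ℂ))‖ ≤ 2 ^ 2 ^ (7 * I.n + 14) := by
  have hlE := s4_lE I
  have h8 := s4_ar4 I
  rw [← s4_R8 I]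
  obtain ⟨R, hR⟩ : ∃ R : ℝ, R = 2 ^ 2 ^ (7 * I.n + 11) := ⟨_, rfl⟩
  have hR1 : 1 ≤ R := by rw [hR]; exact one_le_pow₀ (by norm_num)
  rw [← hR] at hx hlE h8 ⊢
  clear hR
  rw [s4_eval_G]
  have h3 : ‖∑ i, x i ^ 6 + 6 * I.lam ℂ * ∑ a ∈ Finset.range I.A, I.pv x a ^ 2‖ ≤
      (I.n : ℝ) * R ^ 6 +
        6 * 2 ^ I.lE * ((I.A : ℝ) * (((I.n : ℝ) + 1) ^ 2 * (2 * R ^ 2)) ^ 2) := by
    refine (norm_add_le _ _).trans (add_le_add (s4_sum6 hx) ?_)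
    rw [norm_mul, norm_mul, s4_lam I, Complex.norm_ofNat]
    exact mul_le_mul_of_nonneg_left (s4_sumpv I hR1 hx) (by positivity)
  refine h3.trans ?_
  have h4 := s4_ar3 (s4_n1 I) (Nat.cast_nonneg _) (s4_A I)
    (by positivity) (s4_n I) hR1 hlE (one_le_pow₀ (by norm_num))
  refine h4.trans ?_
  calc 32 * ((2 : ℝ) ^ I.n) ^ 5 * R ^ 6 ≤ R ^ 2 * R ^ 6 :=
        mul_le_mul_of_nonneg_right h8 (by positivity)
    _ = R ^ 8 := by ring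

theorem s4_pow_sub {a b : ℂ} {R τ : ℝ} (hR : 0 ≤ R) (ha : ‖a‖ ≤ R) (hb : ‖b‖ ≤ R)
    (hab : ‖a - b‖ ≤ τ) : ‖a ^ 6 - b ^ 6‖ ≤ 6 * R ^ 5 * τ := by
  have e : a ^ 6 - b ^ 6 = (a - b) *
      (a ^ 5 + a ^ 4 * b + a ^ 3 * b ^ 2 + a ^ 2 * b ^ 3 + a * b ^ 4 + b ^ 5) := by ring
  have hp : ∀ i j : ℕ, ‖a ^ i * b ^ j‖ ≤ R ^ (i + j) := by
    intro i j
    rw [norm_mul, norm_pow, norm_pow, pow_add]
    exact mul_le_mul (pow_le_pow_left₀ (norm_nonneg _) ha i)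
      (pow_le_pow_left₀ (norm_nonneg _) hb j) (by positivity) (by positivity)
  have h5 : ‖a ^ 5‖ ≤ R ^ 5 := by simpa using hp 5 0
  have h4 : ‖a ^ 4 * b‖ ≤ R ^ 5 := by simpa using hp 4 1
  have h3 : ‖a ^ 3 * b ^ 2‖ ≤ R ^ 5 := by simpa using hp 3 2
  have h2 : ‖a ^ 2 * b ^ 3‖ ≤ R ^ 5 := by simpa using hp 2 3
  have h1 : ‖a * b ^ 4‖ ≤ R ^ 5 := by simpa using hp 1 4
  have h0 : ‖b ^ 5‖ ≤ R ^ 5 := by simpa using hp 0 5
  have hs : ‖a ^ 5 + a ^ 4 * b + a ^ 3 * b ^ 2 + a ^ 2 * b ^ 3 + a * b ^ 4 + b ^ 5‖ ≤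
      6 * R ^ 5 := by
    have t1 := norm_add_le (a ^ 5 + a ^ 4 * b + a ^ 3 * b ^ 2 + a ^ 2 * b ^ 3 + a * b ^ 4) (b ^ 5)
    have t2 := norm_add_le (a ^ 5 + a ^ 4 * b + a ^ 3 * b ^ 2 + a ^ 2 * b ^ 3) (a * b ^ 4)
    have t3 := norm_add_le (a ^ 5 + a ^ 4 * b + a ^ 3 * b ^ 2) (a ^ 2 * b ^ 3)
    have t4 := norm_add_le (a ^ 5 + a ^ 4 * b) (a ^ 3 * b ^ 2)
    have t5 := norm_add_le (a ^ 5) (a ^ 4 * b)
    linarith
  rw [e, norm_mul]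
  calc ‖a - b‖ * ‖a ^ 5 + a ^ 4 * b + a ^ 3 * b ^ 2 + a ^ 2 * b ^ 3 + a * b ^ 4 + b ^ 5‖
      ≤ τ * (6 * R ^ 5) := mul_le_mul hab hs (norm_nonneg _) (le_trans (norm_nonneg _) hab)
    _ = 6 * R ^ 5 * τ := by ring

theorem s4_z_sub {n : ℕ} {x y : Fin n → ℂ} {τ : ℝ} (hτ : 0 ≤ τ) (h : ∀ i, ‖x i - y i‖ ≤ τ) (u : ℕ) :
    ‖Inst.z x u - Inst.z y u‖ ≤ τ := by
  unfold Inst.z
  split_ifs
  · rw [sub_self, norm_zero]
    exact hτ
  · exact h _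
  · rw [sub_self, norm_zero]
    exact hτ

theorem s4_pv_sub {x y : Fin I.n → ℂ} {R τ : ℝ} (hR : 1 ≤ R) (hx : ∀ i, ‖x i‖ ≤ R)
    (hy : ∀ i, ‖y i‖ ≤ R) (hτ : 0 ≤ τ) (h : ∀ i, ‖x i - y i‖ ≤ τ) (a : ℕ) :
    ‖I.pv x a - I.pv y a‖ ≤ ((I.n : ℝ) + 1) ^ 2 * (4 * R * τ) := by
  have e : I.pv x a - I.pv y a = ∑ u ∈ Finset.range (I.n + 1), ∑ v ∈ Finset.range (I.n + 1),
      ((I.c a u v : ℂ) * ((Inst.z x u - Inst.z y u) * Inst.z x v +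
        Inst.z y u * (Inst.z x v - Inst.z y v))) := by
    unfold Inst.pv
    rw [← Finset.sum_sub_distrib]
    refine Finset.sum_congr rfl fun u _ => ?_
    rw [← Finset.sum_sub_distrib]
    refine Finset.sum_congr rfl fun v _ => ?_
    ring
  rw [e]
  have h' := s4_sum_le (m := I.n + 1) (fun u v =>
    ((I.c a u v : ℂ) * ((Inst.z x u - Inst.z y u) * Inst.z x v +
        Inst.z y u * (Inst.z x v - Inst.z y v)))) (4 * R * τ)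
    (fun u v => by
      have h1 := s4_norm_c I a u v
      have h2 := s4_norm_z hR hy u
      have h3 := s4_norm_z hR hx v
      have h4 := s4_z_sub hτ h u
      have h5 := s4_z_sub hτ h v
      rw [norm_mul]
      have h6 : ‖(Inst.z x u - Inst.z y u) * Inst.z x v +
        Inst.z y u * (Inst.z x v - Inst.z y v)‖ ≤ 2 * R * τ := by
        refine (norm_add_le _ _).trans ?_
        rw [norm_mul, norm_mul]
        have t1 := mul_le_mul h4 h3 (norm_nonneg _) hτ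
        have t2 := mul_le_mul h2 h5 (norm_nonneg _) (by linarith : 0 ≤ R)
        linarith
      calc ‖((I.c a u v : ℤ) : ℂ)‖ * ‖(Inst.z x u - Inst.z y u) * Inst.z x v +
        Inst.z y u * (Inst.z x v - Inst.z y v)‖ ≤ 2 * (2 * R * τ) :=
            mul_le_mul h1 h6 (norm_nonneg _) (by norm_num)
        _ = 4 * R * τ := by ring)
  push_cast at h'
  exact h'

theorem s4_z_cast {n : ℕ} (y : Fin n → ℝ) (u : ℕ) :
    ((Inst.z y u : ℝ) : ℂ) = Inst.z (fun i => ((y i : ℝ) : ℂ)) u := by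
  unfold Inst.z
  split_ifs <;> simp

theorem s4_pv_cast (y : Fin I.n → ℝ) (a : ℕ) :
    ((I.pv y a : ℝ) : ℂ) = I.pv (fun i => ((y i : ℝ) : ℂ)) a := by
  unfold Inst.pv
  push_cast
  simp only [s4_z_cast]

theorem s4_G_cast (y : Fin I.n → ℝ) :
    ((eval y (I.G (I.lam ℝ)) : ℝ) : ℂ) = eval (fun i => ((y i : ℝ) : ℂ)) (I.G (I.lam ℂ)) := by
  rw [s4_eval_G, s4_eval_G]
  unfold Inst.lam
  push_cast
  simp only [s4_pv_cast]

theorem s4_sum6_sub {n : ℕ} {x y : Fin n → ℂ} {R τ : ℝ} (hR : 0 ≤ R) (hx : ∀ i, ‖x i‖ ≤ R)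
    (hy : ∀ i, ‖y i‖ ≤ R) (hxy : ∀ i, ‖x i - y i‖ ≤ τ) :
    ‖∑ i, (x i ^ 6 - y i ^ 6)‖ ≤ (n : ℝ) * (6 * R ^ 5 * τ) := by
  calc ‖∑ i, (x i ^ 6 - y i ^ 6)‖ ≤ ∑ _i : Fin n, 6 * R ^ 5 * τ :=
        norm_sum_le_of_le _ fun i _ => s4_pow_sub hR (hx i) (hy i) (hxy i)
    _ = (n : ℝ) * (6 * R ^ 5 * τ) := by
        rw [Finset.sum_const, Finset.card_univ, Fintype.card_fin, nsmul_eq_mul]

theorem s4_sumpv_sub {x y : Fin I.n → ℂ} {R τ : ℝ} (hR : 1 ≤ R) (hx : ∀ i, ‖x i‖ ≤ R)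
    (hy : ∀ i, ‖y i‖ ≤ R) (hτ : 0 ≤ τ) (hxy : ∀ i, ‖x i - y i‖ ≤ τ) :
    ‖∑ a ∈ Finset.range I.A, (I.pv x a ^ 2 - I.pv y a ^ 2)‖ ≤
      (I.A : ℝ) * (((I.n : ℝ) + 1) ^ 4 * (16 * R ^ 3 * τ)) := by
  calc ‖∑ a ∈ Finset.range I.A, (I.pv x a ^ 2 - I.pv y a ^ 2)‖
      ≤ ∑ a ∈ Finset.range I.A, ((I.n : ℝ) + 1) ^ 4 * (16 * R ^ 3 * τ) := by
        refine norm_sum_le_of_le _ fun a _ => ?_
        have e : I.pv x a ^ 2 - I.pv y a ^ 2 =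
            (I.pv x a - I.pv y a) * (I.pv x a + I.pv y a) := by ring
        rw [e, norm_mul]
        have t1 := s4_pv_sub I hR hx hy hτ hxy a
        have t2 := s4_norm_pv I hR hx a
        have t3 := s4_norm_pv I hR hy a
        have t4 : ‖I.pv x a + I.pv y a‖ ≤ ((I.n : ℝ) + 1) ^ 2 * (4 * R ^ 2) := by
          refine (norm_add_le _ _).trans ?_
          linarith
        refine (mul_le_mul t1 t4 (norm_nonneg _) (by positivity)).trans (le_of_eq ?_)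
        ring
    _ = (I.A : ℝ) * (((I.n : ℝ) + 1) ^ 4 * (16 * R ^ 3 * τ)) := by
        rw [Finset.sum_const, Finset.card_range, nsmul_eq_mul]

theorem s4_G_sub {x y : Fin I.n → ℂ} {R τ : ℝ} (hR : 1 ≤ R) (hlE : (2 : ℝ) ^ I.lE ≤ R)
    (hx : ∀ i, ‖x i‖ ≤ R)
    (hy : ∀ i, ‖y i‖ ≤ R) (hτ : 0 ≤ τ) (hxy : ∀ i, ‖x i - y i‖ ≤ τ) :
    ‖eval x (I.G (I.lam ℂ)) - eval y (I.G (I.lam ℂ))‖ ≤ 128 * (2 ^ I.n) ^ 5 * R ^ 5 * τ := by
  rw [s4_eval_G, s4_eval_G]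
  have e0 : (∑ i, x i ^ 6 + 6 * I.lam ℂ * ∑ a ∈ Finset.range I.A, I.pv x a ^ 2) -
      (∑ i, y i ^ 6 + 6 * I.lam ℂ * ∑ a ∈ Finset.range I.A, I.pv y a ^ 2) =
      ∑ i, (x i ^ 6 - y i ^ 6) +
        6 * I.lam ℂ * ∑ a ∈ Finset.range I.A, (I.pv x a ^ 2 - I.pv y a ^ 2) := by
    rw [Finset.sum_sub_distrib, Finset.sum_sub_distrib]
    ring
  rw [e0]
  have h3 : ‖∑ i, (x i ^ 6 - y i ^ 6) +
        6 * I.lam ℂ * ∑ a ∈ Finset.range I.A, (I.pv x a ^ 2 - I.pv y a ^ 2)‖ ≤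
      (I.n : ℝ) * (6 * R ^ 5 * τ) +
        6 * 2 ^ I.lE * ((I.A : ℝ) * (((I.n : ℝ) + 1) ^ 4 * (16 * R ^ 3 * τ))) := by
    refine (norm_add_le _ _).trans (add_le_add (s4_sum6_sub (by linarith) hx hy hxy) ?_)
    rw [norm_mul, norm_mul, s4_lam, Complex.norm_ofNat]
    exact mul_le_mul_of_nonneg_left (s4_sumpv_sub I hR hx hy hτ hxy) (by positivity)
  exact h3.trans (s4_ar5 (s4_n1 I) (Nat.cast_nonneg _) (s4_A I)
    (by positivity) (s4_n I) hR hlE (one_le_pow₀ (by norm_num)) hτ)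

/-- near real points -/
theorem G_near' (x : Fin I.n → ℂ) (hx : ∀ i, ‖x i‖ ≤ 2 ^ 2 ^ (7 * I.n + 11))
    (hi : ∀ i, |(x i).im| ≤ ((2 : ℝ) ^ 2 ^ I.q)⁻¹) :
    eval (fun i => (x i).re) (I.G (I.lam ℝ)) - 1 / 8 ≤ (eval x (I.G (I.lam ℂ))).re := by
  have hlE := s4_lE I
  have h7 := s4_ar6 I
  obtain ⟨R, hR⟩ : ∃ R : ℝ, R = 2 ^ 2 ^ (7 * I.n + 11) := ⟨_, rfl⟩
  have hR1 : 1 ≤ R := by rw [hR]; exact one_le_pow₀ (by norm_num)
  rw [← hR] at hx hlE h7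
  clear hR
  obtain ⟨W, hW⟩ : ∃ W : ℝ, W = 2 ^ 2 ^ I.q := ⟨_, rfl⟩
  have hW0 : 0 < W := by rw [hW]; positivity
  rw [← hW] at hi h7
  clear hW
  have hxyR : ∀ i, ‖(((x i).re : ℝ) : ℂ)‖ ≤ R := fun i => by
    rw [Complex.norm_real]
    exact (Complex.abs_re_le_norm (x i)).trans (hx i)
  have hxy : ∀ i, ‖x i - (((x i).re : ℝ) : ℂ)‖ ≤ W⁻¹ := fun i => by
    have e : x i - (((x i).re : ℝ) : ℂ) = ((x i).im : ℂ) * Complex.I := by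
      apply Complex.ext <;> simp
    rw [e, norm_mul, Complex.norm_I, mul_one, Complex.norm_real]
    exact hi i
  have h8 := s4_G_sub I hR1 hlE hx hxyR (inv_nonneg.mpr hW0.le) hxy
  have h9 : 128 * ((2 : ℝ) ^ I.n) ^ 5 * R ^ 5 * W⁻¹ ≤ 1 / 8 := by
    rw [mul_inv_le_iff₀ hW0]
    linarith
  have h10 := (Complex.abs_re_le_norm _).trans (h8.trans h9)
  rw [Complex.sub_re, ← s4_G_cast I (fun i => (x i).re), Complex.ofReal_re] at h10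
  have := (abs_le.mp h10).1
  linarith

end Inst

end Vale.Agent.P337
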