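import Vale.Agent.P337.Exact
import Vale.Agent.P337.Points
import Vale.Agent.P337.SemCBA

/-!
# Bounds for the points (module S4)
-/

namespace Vale.Agent.P337

open MvPolynomial

namespace Inst

variable (I : Inst) (pts : Fin (5 ^ I.n) → Fin I.n → ℂ)

/-- module S4: the bound for the points -/
theorem pts_bound (x : Fin I.n → ℂ) (hx : ∀ i, x i ^ 5 = eval x (I.h (I.lam ℂ) i)) (i : Fin I.n) :
    ‖x i‖ ≤ 2 ^ 2 ^ (7 * I.n + 11) := I.pts_bound' x hx i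

/-- the bound for `G` -/
theorem G_bound (x : Fin I.n → ℂ) (hx : ∀ i, ‖x i‖ ≤ 2 ^ 2 ^ (7 * I.n + 11)) :
    ‖eval x (I.G (I.lam ℂ))‖ ≤ 2 ^ 2 ^ (7 * I.n + 14) := I.G_bound' x hx

/-- near real points -/
theorem G_near (x : Fin I.n → ℂ) (hx : ∀ i, ‖x i‖ ≤ 2 ^ 2 ^ (7 * I.n + 11))
    (hi : ∀ i, |(x i).im| ≤ ((2 : ℝ) ^ 2 ^ I.q)⁻¹) :
    eval (fun i => (x i).re) (I.G (I.lam ℝ)) - 1 / 8 ≤ (eval x (I.G (I.lam ℂ))).re :=
  I.G_near' x hx hi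

end Inst

end Vale.Agent.P337
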