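import Vale.Agent.P337.Cluster

/-!
# Sizes (module S3)
-/

namespace Vale.Agent.P337

open MvPolynomial

section sizes

open Finset

theorem nb_mul {x y : ℂ} {a b : ℕ} (hx : ‖x‖ ≤ 2 ^ a) (hy : ‖y‖ ≤ 2 ^ b) :
    ‖x * y‖ ≤ 2 ^ (a + b) := by
  rw [norm_mul, pow_add]
  exact mul_le_mul hx hy (norm_nonneg _) (by positivity)

theorem nb_pow {x : ℂ} {a : ℕ} (hx : ‖x‖ ≤ 2 ^ a) (k : ℕ) : ‖x ^ k‖ ≤ 2 ^ (a * k) := by
  rw [norm_pow, pow_mul]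
  exact pow_le_pow_left₀ (norm_nonneg _) hx k

theorem nb_mono {x : ℂ} {a b : ℕ} (hx : ‖x‖ ≤ 2 ^ a) (hab : a ≤ b) : ‖x‖ ≤ 2 ^ b :=
  hx.trans (pow_le_pow_right₀ (by norm_num) hab)

theorem nb_add {x y : ℂ} {a : ℕ} (hx : ‖x‖ ≤ 2 ^ a) (hy : ‖y‖ ≤ 2 ^ a) :
    ‖x + y‖ ≤ 2 ^ (a + 1) := by
  refine (norm_add_le _ _).trans ?_
  rw [pow_succ]
  linarith

theorem nb_sub {x y : ℂ} {a : ℕ} (hx : ‖x‖ ≤ 2 ^ a) (hy : ‖y‖ ≤ 2 ^ a) :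
    ‖x - y‖ ≤ 2 ^ (a + 1) := by
  refine (norm_sub_le _ _).trans ?_
  rw [pow_succ]
  linarith

theorem nb_prod {ι : Type*} (s : Finset ι) (f : ι → ℂ) {a m : ℕ} (hf : ∀ i ∈ s, ‖f i‖ ≤ 2 ^ a)
    (hm : s.card ≤ m) : ‖∏ i ∈ s, f i‖ ≤ 2 ^ (a * m) := by
  rw [norm_prod]
  calc ∏ i ∈ s, ‖f i‖ ≤ ∏ _i ∈ s, (2 : ℝ) ^ a :=
        prod_le_prod (fun i _ => norm_nonneg _) hf
    _ = 2 ^ (a * s.card) := by rw [prod_const, ← pow_mul]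
    _ ≤ 2 ^ (a * m) := pow_le_pow_right₀ (by norm_num) (Nat.mul_le_mul_left _ hm)

theorem nb_nat {m a : ℕ} (h : m ≤ 2 ^ a) : ‖(m : ℂ)‖ ≤ 2 ^ a := by
  rw [Complex.norm_natCast]
  exact_mod_cast h

theorem nb_two : ‖(2 : ℂ)‖ ≤ 2 ^ 1 := by simp

theorem nb_two_pow (k : ℕ) : ‖(2 : ℂ) ^ k‖ ≤ 2 ^ k := by simp

theorem cRho_le (q s k : ℕ) (hs : s < cS q) : cRho q s k ≤ 2 ^ (4 * q + 11 + 2 * 2 ^ q) := by
  unfold cRho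
  calc (cS q + s) * 2 ^ (cK0 q - k) ≤ 2 ^ (4 * q + 9) * 2 ^ (2 * 2 ^ q + 2) := by
        apply Nat.mul_le_mul
        · have : 2 ^ (4 * q + 9) = 2 * cS q := by unfold cS; rw [← pow_succ']
          omega
        · apply Nat.pow_le_pow_right (by norm_num)
          unfold cK0
          omega
    _ = 2 ^ (4 * q + 11 + 2 * 2 ^ q) := by rw [← pow_add]; congr 1; omega

/-- exponents -/
theorem exp_facA (q : ℕ) (hq : 10 ≤ q) :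
    cNu q + ((4 * q + 11 + 2 * 2 ^ q) * cK q + 1) + 1 ≤ 2 ^ (6 * q + 11) := by
  have h1 := lin_le_two_pow q hq
  have h2 : (4 * q + 11 + 2 * 2 ^ q) * cK q ≤ 2 ^ (6 * q + 10) := by
    calc (4 * q + 11 + 2 * 2 ^ q) * cK q ≤ (4 * 2 ^ q) * cK q :=
          Nat.mul_le_mul_right _ (by omega)
      _ = 2 ^ (6 * q + 10) := by
          unfold cK
          rw [show (4 : ℕ) = 2 ^ 2 by norm_num, ← pow_add, ← pow_add]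
          congr 1
          omega
  have h3 : 2 ^ q ≤ 2 ^ (6 * q + 10) := Nat.pow_le_pow_right (by norm_num) (by omega)
  have h4 : 2 ^ (6 * q + 11) = 2 * 2 ^ (6 * q + 10) := by rw [← pow_succ']
  unfold cNu
  omega

theorem facA_nb (q s k : ℕ) (hq : 10 ≤ q) (hs : s < cS q) (d : ℂ) (hd : ‖d‖ ≤ 2 ^ (2 ^ q + 1)) :
    ‖facA q s k d‖ ≤ 2 ^ 2 ^ (6 * q + 11) ∧ ‖facA1 q s k d‖ ≤ 2 ^ 2 ^ (6 * q + 11) := by
  have hW : ‖(2 : ℂ) ^ cL q * d‖ ≤ 2 ^ (4 * q + 11 + 2 * 2 ^ q) := by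
    refine nb_mono (nb_mul (nb_two_pow (cL q)) hd) ?_
    unfold cL
    omega
  have hP : ‖((cRho q s k : ℕ) : ℂ)‖ ≤ 2 ^ (4 * q + 11 + 2 * 2 ^ q) := nb_nat (cRho_le q s k hs)
  have hexp := exp_facA q hq
  have h1 : ‖facA q s k d‖ ≤ 2 ^ (cNu q + ((4 * q + 11 + 2 * 2 ^ q) * cK q + 1)) :=
    nb_mul (nb_two_pow _) (nb_add (nb_pow hP _) (nb_pow hW _))
  refine ⟨nb_mono h1 (by omega), ?_⟩
  have h2 : ‖(cRho q s k : ℂ) ^ (cK q - 1) * (2 ^ cL q * d)‖ ≤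
      2 ^ (cNu q + ((4 * q + 11 + 2 * 2 ^ q) * cK q + 1)) := by
    refine nb_mono (nb_mul (nb_pow hP _) hW) ?_
    have hK := cK_pos q
    obtain ⟨L, hL⟩ : ∃ L, cK q = L + 1 := ⟨cK q - 1, by omega⟩
    rw [hL, Nat.add_sub_cancel, mul_add]
    omega
  exact nb_mono (nb_add h1 h2) (by omega)

theorem chA_nb (a b : ℂ) {e : ℕ} (ha : ‖a‖ ≤ 2 ^ e) (hb : ‖b‖ ≤ 2 ^ e) (m : ℕ) :
    ‖chA a b m‖ ≤ 2 ^ ((e + 2) * 2 ^ m - 2) := by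
  induction m with
  | zero => rw [pow_zero, mul_one]; exact ha
  | succ m ih =>
    have h1 : 1 ≤ 2 ^ m := Nat.one_le_two_pow
    have h2 : e + 2 ≤ (e + 2) * 2 ^ m := Nat.le_mul_of_pos_right _ (by omega)
    have h3 : (e + 2) * 2 ^ (m + 1) = 2 * ((e + 2) * 2 ^ m) := by rw [pow_succ]; ring
    have h4 : ‖2 * chA a b m ^ 2‖ ≤ 2 ^ ((e + 2) * 2 ^ (m + 1) - 3) := by
      refine nb_mono (nb_mul nb_two (nb_pow ih 2)) ?_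
      omega
    have h5 : ‖(b ^ 2 ^ m) ^ 2‖ ≤ 2 ^ ((e + 2) * 2 ^ (m + 1) - 3) := by
      refine nb_mono (nb_pow (nb_pow hb (2 ^ m)) 2) ?_
      have h6 : (e + 2) * 2 ^ m = e * 2 ^ m + 2 * 2 ^ m := by ring
      omega
    rw [chA]
    exact nb_mono (nb_sub h4 h5) (by omega)

theorem A_nb {D : ℕ} (q s k : ℕ) (hq : 10 ≤ q) (hs : s < cS q) (hD : D ≤ 2 ^ q) (d : Fin D → ℂ)
    (hd : ∀ j, ‖d j‖ ≤ 2 ^ (2 ^ q + 1)) :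
    ‖∏ j, facA q s k (d j)‖ ≤ 2 ^ 2 ^ (7 * q + 11) ∧
      ‖∏ j, facA1 q s k (d j)‖ ≤ 2 ^ 2 ^ (7 * q + 11) := by
  have h : 2 ^ (6 * q + 11) * 2 ^ q = 2 ^ (7 * q + 11) := by rw [← pow_add]; congr 1; omega
  have hc : (univ : Finset (Fin D)).card ≤ 2 ^ q := by rwa [card_univ, Fintype.card_fin]
  constructor
  · rw [← h]
    exact nb_prod _ _ (fun j _ => (facA_nb q s k hq hs _ (hd j)).1) hc
  · rw [← h]
    exact nb_prod _ _ (fun j _ => (facA_nb q s k hq hs _ (hd j)).2) hc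

theorem exp_mu (q : ℕ) : 2 ^ (7 * q + 12) * 2 ^ cMu q = 2 ^ (12 * q + 25) := by
  rw [← pow_add]
  have h : 7 * q + 12 + cMu q = 12 * q + 25 := by unfold cMu; omega
  rw [h]

theorem exp_K2 (q : ℕ) : 2 ^ (12 * q + 27) * cK2 q = 2 ^ (16 * q + 37) := by
  rw [cK2, ← pow_add]
  have h : 12 * q + 27 + (4 * q + 10) = 16 * q + 37 := by omega
  rw [h]

theorem cTt_nb (q t : ℕ) (ht : t < cT q) :
    ‖(cT q : ℂ) + t‖ ≤ 2 ^ (3 * q + 9) ∧ ‖(cT q : ℂ)‖ ≤ 2 ^ (3 * q + 9) := by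
  have h0 : 2 ^ (3 * q + 9) = 2 * cT q := by rw [cT, ← pow_succ']
  constructor
  · have h1 : cT q + t ≤ 2 ^ (3 * q + 9) := by omega
    have h2 := nb_nat h1
    push_cast at h2
    exact h2
  · exact nb_nat (by omega)

theorem fU_nb {D : ℕ} (q t : ℕ) (hq : 10 ≤ q) (ht : t < cT q) (A : ℂ)
    (hDA : ‖(D : ℂ) * A‖ ≤ 2 ^ 2 ^ (7 * q + 12)) : ‖fU q D t A‖ ≤ 2 ^ 2 ^ (16 * q + 37) := by
  have h0 := lin_le_two_pow q hq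
  have hbig : 2 ^ q ≤ 2 ^ (12 * q + 25) := Nat.pow_le_pow_right (by norm_num) (by omega)
  have h1226 : 2 ^ (12 * q + 26) = 2 * 2 ^ (12 * q + 25) := by rw [← pow_succ']
  have h1227 : 2 ^ (12 * q + 27) = 2 * 2 ^ (12 * q + 26) := by rw [← pow_succ']
  have h1 : ‖2 * ((cT q : ℂ) + t) * (D * A) ^ 2 ^ cMu q‖ ≤ 2 ^ 2 ^ (12 * q + 27) := by
    refine nb_mono (nb_mul (nb_mul nb_two (cTt_nb q t ht).1) (nb_pow hDA (2 ^ cMu q))) ?_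
    rw [exp_mu]
    omega
  have h2 := nb_pow h1 (cK2 q)
  rw [exp_K2] at h2
  exact h2

theorem fV2_nb (q : ℕ) (hq : 10 ≤ q) (a b : ℂ)
    (ha : ‖a‖ ≤ 2 ^ 2 ^ (7 * q + 12)) (hb : ‖b‖ ≤ 2 ^ 2 ^ (7 * q + 12)) :
    ‖(cT q * chA a b (cMu q)) ^ cK2 q‖ ≤ 2 ^ 2 ^ (16 * q + 37) := by
  have h0 := lin_le_two_pow q hq
  have hbig : 2 ^ q ≤ 2 ^ (12 * q + 25) := Nat.pow_le_pow_right (by norm_num) (by omega)
  have h1226 : 2 ^ (12 * q + 26) = 2 * 2 ^ (12 * q + 25) := by rw [← pow_succ']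
  have h1227 : 2 ^ (12 * q + 27) = 2 * 2 ^ (12 * q + 26) := by rw [← pow_succ']
  have hmu2 : 2 * 2 ^ cMu q ≤ 2 ^ (12 * q + 25) := by
    unfold cMu
    rw [← pow_succ']
    exact Nat.pow_le_pow_right (by norm_num) (by omega)
  have hT0 : 0 < cT q := cT_pos q
  have h1 : ‖(cT q : ℂ) * chA a b (cMu q)‖ ≤ 2 ^ 2 ^ (12 * q + 27) := by
    refine nb_mono (nb_mul (cTt_nb q 0 hT0).2 (chA_nb _ _ ha hb (cMu q))) ?_
    rw [add_mul, exp_mu]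
    omega
  have h2 := nb_pow h1 (cK2 q)
  rw [exp_K2] at h2
  exact h2

theorem fUV_nb {D : ℕ} (q t : ℕ) (hq : 10 ≤ q) (ht : t < cT q) (hD : D ≤ 2 ^ q) (A A1 : ℂ)
    (hA : ‖A‖ ≤ 2 ^ 2 ^ (7 * q + 11)) (hA1 : ‖A1‖ ≤ 2 ^ 2 ^ (7 * q + 11)) :
    ‖fU q D t A‖ ≤ 2 ^ 2 ^ (16 * q + 38) ∧ ‖fV q D t A A1‖ ≤ 2 ^ 2 ^ (16 * q + 38) := by
  have h0 := lin_le_two_pow q hq
  have hq7 : 2 ^ q ≤ 2 ^ (7 * q + 11) := Nat.pow_le_pow_right (by norm_num) (by omega)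
  have h712 : 2 ^ (7 * q + 12) = 2 * 2 ^ (7 * q + 11) := by rw [← pow_succ']
  have hDA : ‖(D : ℂ) * A‖ ≤ 2 ^ 2 ^ (7 * q + 12) := by
    refine nb_mono (nb_mul (nb_nat hD) hA) ?_
    omega
  have ha0 : ‖2 ^ cNu q * (A1 - A)‖ ≤ 2 ^ 2 ^ (7 * q + 12) := by
    refine nb_mono (nb_mul (nb_two_pow _) (nb_sub hA1 hA)) ?_
    unfold cNu
    omega
  have h1638 : 2 ^ (16 * q + 38) = 2 * 2 ^ (16 * q + 37) := by rw [← pow_succ']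
  have h1637 : 1 ≤ 2 ^ (16 * q + 37) := Nat.one_le_two_pow
  have hU : ‖fU q D t A‖ ≤ 2 ^ 2 ^ (16 * q + 37) := fU_nb q t hq ht A hDA
  have hV := fV2_nb q hq (2 ^ cNu q * (A1 - A)) (D * A) ha0 hDA
  refine ⟨nb_mono hU (by omega), ?_⟩
  unfold fV
  exact nb_mono (nb_add hU hV) (by omega)

end sizes

namespace Inst

/-- module S3: the sizes -/
theorem ptX_bound {n D : ℕ} (q : ℕ) (hq : 10 ≤ q) (hn : 0 < n) (hD0 : 0 < D)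
    (hnD : n * D ^ 2 ≤ 2 ^ q)
    (pts : Fin D → Fin n → ℂ) (hR : ∀ j c, ‖pts j c‖ ≤ 2 ^ 2 ^ q) (G : Fin D → ℂ)
    (hG : ∀ i, ‖G i‖ ≤ 2 ^ 2 ^ q) (Θ : ℕ) (hΘ : Θ ≤ 2 ^ 2 ^ q) (s t : ℕ) (hs : s < cS q)
    (ht : t < cT q) :
    16 * ‖ptX1 pts G Θ q s t‖ ^ 2 < 2 ^ 2 ^ (18 * q + 80) ∧
      16 * ‖ptX2 pts G q s t‖ ^ 2 < 2 ^ 2 ^ (18 * q + 80) := by
  have h0 := lin_le_two_pow q hq
  have hnD1 : n * D ≤ 2 ^ q := by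
    refine le_trans ?_ hnD
    rw [pow_two]
    exact Nat.mul_le_mul_left _ (Nat.le_mul_of_pos_left _ hD0)
  have hD : D ≤ 2 ^ q := le_trans (Nat.le_mul_of_pos_left _ hn) hnD1
  have hd : ∀ i j c, ‖pts j c - pts i c‖ ≤ 2 ^ (2 ^ q + 1) := fun i j c =>
    nb_sub (hR j c) (hR i c)
  have hA : ∀ i c k, ‖ptA pts q s k c (pts i c)‖ ≤ 2 ^ 2 ^ (7 * q + 11) ∧
      ‖ptA1 pts q s k c (pts i c)‖ ≤ 2 ^ 2 ^ (7 * q + 11) := fun i c k =>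
    A_nb q s k hq hs hD (fun j => pts j c - pts i c) (fun j => hd i j c)
  have hfUV : ∀ i c k, _ := fun i c k =>
    fUV_nb (D := D) q t hq ht hD (ptA pts q s k c (pts i c)) (ptA1 pts q s k c (pts i c))
      (hA i c k).1 (hA i c k).2
  have hK0 : (Finset.range (cK0 q + 1)).card ≤ 2 ^ (q + 2) := by
    rw [Finset.card_range, pow_add]
    unfold cK0
    omega
  have hcn : (Finset.univ : Finset (Fin n)).card ≤ n := by rw [Finset.card_univ, Fintype.card_fin]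
  have hU : ∀ i, ‖ptU pts q s t (pts i)‖ ≤ 2 ^ (2 ^ (16 * q + 38) * 2 ^ (q + 2) * n) := fun i =>
    nb_prod _ _ (fun c _ => nb_prod _ _ (fun k _ => (hfUV i c k).1) hK0) hcn
  have hV : ∀ i, ‖ptV pts q s t (pts i)‖ ≤ 2 ^ (2 ^ (16 * q + 38) * 2 ^ (q + 2) * n) := fun i =>
    nb_prod _ _ (fun c _ => nb_prod _ _ (fun k _ => (hfUV i c k).2) hK0) hcn
  set B := 2 ^ (16 * q + 38) * 2 ^ (q + 2) * n with hB
  have hG1 : ∀ i, ‖2 * G i + 1‖ ≤ 2 ^ (2 ^ q + 2) := fun i => by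
    have h1 : ‖2 * G i‖ ≤ 2 ^ (1 + 2 ^ q) := nb_mul nb_two (hG i)
    have h2 : ‖(1 : ℂ)‖ ≤ 2 ^ (1 + 2 ^ q) := by
      rw [norm_one]
      exact one_le_pow₀ (by norm_num)
    exact nb_mono (nb_add h1 h2) (by omega)
  have h1 : ∀ i, ‖(2 * G i + 1) * ptV pts q s t (pts i)‖ ≤ 2 ^ (2 ^ q + 2 + B) := fun i =>
    nb_mul (hG1 i) (hV i)
  have h2 : ∀ i, ‖(Θ : ℂ) * ptU pts q s t (pts i)‖ ≤ 2 ^ (2 ^ q + 2 + B) := fun i =>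
    nb_mono (nb_mul (nb_nat hΘ) (hU i)) (by omega)
  have hcD : (Finset.univ : Finset (Fin D)).card ≤ D := by rw [Finset.card_univ, Fintype.card_fin]
  have hX1 : ‖ptX1 pts G Θ q s t‖ ≤ 2 ^ ((2 ^ q + 2 + B + 1) * D) :=
    nb_prod _ _ (fun i _ => nb_add (h1 i) (h2 i)) hcD
  have hX2 : ‖ptX2 pts G q s t‖ ≤ 2 ^ ((2 ^ q + 2 + B + 1) * D) :=
    nb_prod _ _ (fun i _ => nb_mono (h1 i) (by omega)) hcD
  have hexp : 4 + (2 ^ q + 2 + B + 1) * D * 2 < 2 ^ (18 * q + 80) := by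
    have h3 : B * D = 2 ^ (17 * q + 40) * (n * D) := by
      have : 2 ^ (17 * q + 40) = 2 ^ (16 * q + 38) * 2 ^ (q + 2) := by
        rw [← pow_add]; congr 1; omega
      rw [hB, this]
      ring
    have h4 : 2 ^ (17 * q + 40) * (n * D) ≤ 2 ^ (18 * q + 40) := by
      calc 2 ^ (17 * q + 40) * (n * D) ≤ 2 ^ (17 * q + 40) * 2 ^ q := Nat.mul_le_mul_left _ hnD1
        _ = 2 ^ (18 * q + 40) := by rw [← pow_add]; congr 1; omega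
    have h5 : (2 ^ q + 3) * D ≤ 2 ^ (18 * q + 40) := by
      calc (2 ^ q + 3) * D ≤ (2 ^ q + 3) * 2 ^ q := Nat.mul_le_mul_left _ hD
        _ ≤ (2 * 2 ^ q) * 2 ^ q := Nat.mul_le_mul_right _ (by omega)
        _ = 2 ^ (2 * q + 1) := by
            rw [two_mul q, pow_succ, pow_add]
            ring
        _ ≤ 2 ^ (18 * q + 40) := Nat.pow_le_pow_right (by norm_num) (by omega)
    have h6 : (2 ^ q + 2 + B + 1) * D * 2 = 2 * ((2 ^ q + 3) * D + B * D) := by ring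
    have h7 : 2 ^ (18 * q + 80) = 2 ^ (18 * q + 40) * 2 ^ 40 := by rw [← pow_add]
    have h8 : 1 ≤ 2 ^ (18 * q + 40) := Nat.one_le_two_pow
    have h9 : (2 : ℕ) ^ 40 = 1099511627776 := by norm_num
    rw [h6, h3, h7, h9]
    omega
  have hfin : ∀ x : ℂ, ‖x‖ ≤ 2 ^ ((2 ^ q + 2 + B + 1) * D) →
      16 * ‖x‖ ^ 2 < 2 ^ 2 ^ (18 * q + 80) := by
    intro x hx
    have h3 : ‖x‖ ^ 2 ≤ 2 ^ ((2 ^ q + 2 + B + 1) * D * 2) := by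
      rw [pow_mul]
      exact pow_le_pow_left₀ (norm_nonneg _) hx 2
    calc 16 * ‖x‖ ^ 2 ≤ 2 ^ 4 * 2 ^ ((2 ^ q + 2 + B + 1) * D * 2) := by
          norm_num
          exact h3
      _ = 2 ^ (4 + (2 ^ q + 2 + B + 1) * D * 2) := by rw [← pow_add]
      _ < 2 ^ 2 ^ (18 * q + 80) := pow_lt_pow_right₀ (by norm_num) hexp
  exact ⟨hfin _ hX1, hfin _ hX2⟩

end Inst

end Vale.Agent.P337
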