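import Vale.Agent.P337.SemCB
import Vale.Agent.P337.ExactB

/-!
# The lower bound for the values of `2 G + 1` (module S4b)
-/

namespace Vale.Agent.P337

open MvPolynomial

namespace Inst

variable (I : Inst) (pts : Fin (5 ^ I.n) → Fin I.n → ℂ)

theorem ell_cast {R : Type*} [CommRing R] :
    ((nm (I.h (I.lam ℤ)) (2 * I.G (I.lam ℤ) + 1) : ℤ) : R) =
      nm (I.h (I.lam R)) (2 * I.G (I.lam R) + 1) := by
  rw [I.cast_nm, map_add, map_mul, I.map_G_lam, map_one, map_ofNat]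

theorem ell_odd : nm (I.h (I.lam ℤ)) (2 * I.G (I.lam ℤ) + 1) ≠ 0 := by
  intro h0
  have h1 := I.ell_cast (R := ZMod 2)
  rw [h0] at h1
  have h2 : (2 : MvPolynomial (Fin I.n) (ZMod 2)) = 0 := by
    have h3 : (2 : MvPolynomial (Fin I.n) (ZMod 2)) = C (2 : ZMod 2) := (map_ofNat C 2).symm
    rw [h3]
    have h4 : (2 : ZMod 2) = 0 := rfl
    rw [h4, map_zero]
  rw [h2, zero_mul, zero_add] at h1
  have h5 : nm (I.h (I.lam (ZMod 2))) 1 = 1 := by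
    have h6 := nm_C (I.h (I.lam (ZMod 2))) (I.h_deg _) 1
    rw [one_pow, map_one] at h6
    exact h6
  rw [h5, Int.cast_zero] at h1
  exact zero_ne_one h1

theorem ell_prod (hp : ∀ H, nm (I.h (I.lam ℂ)) H = ∏ j, eval (pts j) H) :
    1 ≤ ∏ j, ‖2 * eval (pts j) (I.G (I.lam ℂ)) + 1‖ := by
  have h1 := I.ell_cast (R := ℂ)
  rw [hp] at h1
  have h2 : ∏ j, eval (pts j) (2 * I.G (I.lam ℂ) + 1) =
      ∏ j, (2 * eval (pts j) (I.G (I.lam ℂ)) + 1) := by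
    refine Finset.prod_congr rfl fun j _ => ?_
    rw [map_add, map_mul, map_one, map_ofNat]
  rw [h2] at h1
  rw [← norm_prod, ← h1]
  have h3 : (1 : ℤ) ≤ |nm (I.h (I.lam ℤ)) (2 * I.G (I.lam ℤ) + 1)| :=
    Int.one_le_abs I.ell_odd
  rw [Complex.norm_intCast]
  exact_mod_cast h3

/-- `N(2G+1)` is odd -/
theorem ell_bound (hp : ∀ H, nm (I.h (I.lam ℂ)) H = ∏ j, eval (pts j) H) (j : Fin (5 ^ I.n)) :
    ((2 : ℝ) ^ 2 ^ I.q)⁻¹ ≤ ‖2 * eval (pts j) (I.G (I.lam ℂ)) + 1‖ := by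
  classical
  have hb : ∀ k, ‖2 * eval (pts k) (I.G (I.lam ℂ)) + 1‖ ≤ (2 : ℝ) ^ (2 ^ (7 * I.n + 14) + 2) := by
    intro k
    have h1 : ‖eval (pts k) (I.G (I.lam ℂ))‖ ≤ 2 ^ 2 ^ (7 * I.n + 14) := by
      apply I.G_bound
      intro i
      exact I.pts_bound (pts k) (fun i => pts_sol _ (I.h_deg _) pts hp k i) i
    calc ‖2 * eval (pts k) (I.G (I.lam ℂ)) + 1‖ ≤ ‖2 * eval (pts k) (I.G (I.lam ℂ))‖ + ‖(1 : ℂ)‖ :=
          norm_add_le _ _
      _ = 2 * ‖eval (pts k) (I.G (I.lam ℂ))‖ + 1 := by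
          rw [norm_mul, norm_one, Complex.norm_ofNat]
      _ ≤ 2 * 2 ^ 2 ^ (7 * I.n + 14) + 2 * 2 ^ 2 ^ (7 * I.n + 14) := by
          have h2 : (1 : ℝ) ≤ 2 ^ 2 ^ (7 * I.n + 14) := one_le_pow₀ (by norm_num)
          linarith
      _ = (2 : ℝ) ^ (2 ^ (7 * I.n + 14) + 2) := by
          rw [pow_add]
          ring
  have h1 := ell_prod I pts hp
  rw [← Finset.mul_prod_erase Finset.univ _ (Finset.mem_univ j)] at h1
  have h2 : ∏ k ∈ Finset.univ.erase j, ‖2 * eval (pts k) (I.G (I.lam ℂ)) + 1‖ ≤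
      (2 : ℝ) ^ 2 ^ I.q := by
    calc ∏ k ∈ Finset.univ.erase j, ‖2 * eval (pts k) (I.G (I.lam ℂ)) + 1‖
        ≤ ∏ _k ∈ Finset.univ.erase j, (2 : ℝ) ^ (2 ^ (7 * I.n + 14) + 2) :=
          Finset.prod_le_prod (fun k _ => norm_nonneg _) fun k _ => hb k
      _ = ((2 : ℝ) ^ (2 ^ (7 * I.n + 14) + 2)) ^ (5 ^ I.n - 1) := by
          rw [Finset.prod_const, Finset.card_erase_of_mem (Finset.mem_univ j), Finset.card_univ,
            Fintype.card_fin]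
      _ = (2 : ℝ) ^ ((2 ^ (7 * I.n + 14) + 2) * (5 ^ I.n - 1)) := by rw [← pow_mul]
      _ ≤ (2 : ℝ) ^ 2 ^ I.q := by
          apply pow_le_pow_right₀ (by norm_num)
          have h3 : 5 ^ I.n - 1 ≤ 2 ^ (3 * I.n) := by
            rw [pow_mul]
            exact (Nat.sub_le _ _).trans (Nat.pow_le_pow_left (by norm_num) _)
          have h4 : 2 ^ (7 * I.n + 14) + 2 ≤ 2 ^ (7 * I.n + 15) := by
            have h5 : 2 ^ (7 * I.n + 15) = 2 ^ (7 * I.n + 14) + 2 ^ (7 * I.n + 14) := by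
              rw [show 7 * I.n + 15 = (7 * I.n + 14) + 1 from rfl, pow_succ]
              ring
            have h6 : 2 ^ 1 ≤ 2 ^ (7 * I.n + 14) := Nat.pow_le_pow_right (by norm_num) (by omega)
            omega
          calc (2 ^ (7 * I.n + 14) + 2) * (5 ^ I.n - 1) ≤ 2 ^ (7 * I.n + 15) * 2 ^ (3 * I.n) :=
                Nat.mul_le_mul h4 h3
            _ = 2 ^ (10 * I.n + 15) := by rw [← pow_add]; congr 1; ring
            _ ≤ 2 ^ I.q := Nat.pow_le_pow_right (by norm_num) (by unfold q; omega)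
  rw [inv_le_iff_one_le_mul₀ (by positivity)]
  exact h1.trans (mul_le_mul_of_nonneg_left h2 (norm_nonneg _))

end Inst

end Vale.Agent.P337
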