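import Vale.Agent.P337.ExactB
import Vale.Agent.P337.DichN

/-!
# Degrees (module S2h)
-/

namespace Vale.Agent.P337

open MvPolynomial

/-! ### the norm `W ^ degree` on `ℤ[z]` -/

/-- `W ^ degree` -/
private noncomputable def nD (W : ℝ) (p : Polynomial ℤ) : ℝ := if p = 0 then 0 else W ^ p.natDegree

private theorem nD_isRN {W : ℝ} (hW : 1 ≤ W) : IsRN (nD W) where
  nonneg p := by
    unfold nD
    split_ifs
    · exact le_rfl
    · positivity
  zero := by simp [nD]
  one := by simp [nD]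
  neg p := by simp [nD]
  add p q := by
    unfold nD
    have hp : (0 : ℝ) ≤ W ^ p.natDegree := by positivity
    have hq : (0 : ℝ) ≤ W ^ q.natDegree := by positivity
    by_cases h1 : p = 0
    · simp [h1]
    by_cases h2 : q = 0
    · simp [h2]
    rw [if_neg h1, if_neg h2]
    split_ifs
    · positivity
    · have h3 := Polynomial.natDegree_add_le p q
      rcases le_total p.natDegree q.natDegree with h | h
      · rw [max_eq_right h] at h3
        have h4 := pow_le_pow_right₀ hW h3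
        linarith
      · rw [max_eq_left h] at h3
        have h4 := pow_le_pow_right₀ hW h3
        linarith
  mul p q := by
    unfold nD
    by_cases h1 : p = 0
    · simp [h1]
    by_cases h2 : q = 0
    · simp [h2]
    rw [if_neg h1, if_neg h2, if_neg (mul_ne_zero h1 h2), ← pow_add]
    exact pow_le_pow_right₀ hW Polynomial.natDegree_mul_le

/-- a bound of the degree from a bound of the norms -/
private theorem natDegree_le_of_nD (a : Polynomial ℤ) (m : ℕ) (Cc : ℝ)
    (h : ∀ W : ℝ, 1 ≤ W → nD W a ≤ Cc * W ^ m) : a.natDegree ≤ m := by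
  by_contra hcon
  push Not at hcon
  have ha : a ≠ 0 := by
    rintro rfl
    simp at hcon
  set W : ℝ := max 1 (Cc + 1) with hW
  have hW1 : 1 ≤ W := le_max_left _ _
  have hW2 : Cc + 1 ≤ W := le_max_right _ _
  have h1 := h W hW1
  rw [nD, if_neg ha] at h1
  have h2 : W ^ (m + 1) ≤ W ^ a.natDegree := pow_le_pow_right₀ hW1 hcon
  rw [pow_succ] at h2
  have h3 : (0 : ℝ) < W ^ m := by positivity
  nlinarith

section facs

variable {n : ℕ} {W : ℝ} (hW : 1 ≤ W)
include hW

private theorem mvn_two : mvn (nD W) (2 : MvPolynomial (Fin n) (Polynomial ℤ)) ≤ 2 := by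
  have h := (nD_isRN hW).mvn_isRN (n := n) |>.natCast 2
  exact_mod_cast h

private theorem mvn_two_pow (k : ℕ) :
    mvn (nD W) ((2 : MvPolynomial (Fin n) (Polynomial ℤ)) ^ k) ≤ 2 ^ k :=
  ((nD_isRN hW).mvn_isRN.pow _ _).trans
    (pow_le_pow_left₀ ((nD_isRN hW).mvn_nonneg _) (mvn_two hW) k)

private theorem mvn_cast_pow (a k : ℕ) :
    mvn (nD W) ((a : MvPolynomial (Fin n) (Polynomial ℤ)) ^ k) ≤ (a : ℝ) ^ k :=
  ((nD_isRN hW).mvn_isRN.pow _ _).trans
    (pow_le_pow_left₀ ((nD_isRN hW).mvn_nonneg _) ((nD_isRN hW).mvn_isRN.natCast a) k)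

private theorem mvn_diff (c : Fin n) (L : ℕ) :
    mvn (nD W) (2 ^ L * (X c - C Polynomial.X)) ≤ 2 ^ L * 2 * W := by
  have hN := nD_isRN hW
  refine (hN.mvn_mul _ _).trans ?_
  rw [mul_assoc]
  apply mul_le_mul (mvn_two_pow hW L) _ (hN.mvn_nonneg _) (by positivity)
  refine (hN.mvn_isRN.sub _ _).trans ?_
  have h1 : mvn (nD W) (C Polynomial.X : MvPolynomial (Fin n) (Polynomial ℤ)) ≤ W := by
    refine (hN.mvn_C _).trans ?_
    unfold nD
    rw [if_neg Polynomial.X_ne_zero, Polynomial.natDegree_X, pow_one]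
  have h2 := hN.mvn_X c
  linarith

private theorem mvn_facA (q s k : ℕ) (c : Fin n) :
    mvn (nD W) (facA q s k (X c - C Polynomial.X)) ≤
      2 ^ cNu q * ((cRho q s k : ℝ) ^ cK q + (2 ^ cL q * 2) ^ cK q) * W ^ cK q := by
  have hN := nD_isRN hW
  unfold facA
  refine (hN.mvn_mul _ _).trans ?_
  rw [mul_assoc]
  apply mul_le_mul (mvn_two_pow hW _) _ (hN.mvn_nonneg _) (by positivity)
  refine (hN.mvn_add _ _).trans ?_
  rw [add_mul]
  apply add_le_add
  · refine (mvn_cast_pow hW _ _).trans ?_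
    have h1 : (1 : ℝ) ≤ W ^ cK q := one_le_pow₀ hW
    have h2 : (0 : ℝ) ≤ (cRho q s k : ℝ) ^ cK q := by positivity
    nlinarith
  · refine (hN.mvn_isRN.pow _ _).trans ?_
    rw [← mul_pow]
    exact pow_le_pow_left₀ (hN.mvn_nonneg _) (mvn_diff hW c _) _

private theorem mvn_facA1 (q s k : ℕ) (c : Fin n) :
    mvn (nD W) (facA1 q s k (X c - C Polynomial.X)) ≤
      (2 ^ cNu q * ((cRho q s k : ℝ) ^ cK q + (2 ^ cL q * 2) ^ cK q) +
        (cRho q s k : ℝ) ^ (cK q - 1) * (2 ^ cL q * 2)) * W ^ cK q := by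
  have hN := nD_isRN hW
  unfold facA1
  refine (hN.mvn_add _ _).trans ?_
  rw [add_mul]
  apply add_le_add (mvn_facA hW q s k c)
  refine (hN.mvn_mul _ _).trans ?_
  rw [mul_assoc]
  apply mul_le_mul (mvn_cast_pow hW _ _) _ (hN.mvn_nonneg _) (by positivity)
  refine (mvn_diff hW c _).trans ?_
  have h1 : 1 ≤ cK q := Nat.one_le_pow _ _ (by norm_num)
  have h2 : W ≤ W ^ cK q := by
    calc W = W ^ 1 := (pow_one W).symm
      _ ≤ W ^ cK q := pow_le_pow_right₀ hW h1
  exact mul_le_mul_of_nonneg_left h2 (by positivity)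

end facs

/-! ### degrees of polynomials in several variables -/

section deg

variable {R : Type*} [CommRing R] {n : ℕ}

private theorem dg_nat (a : ℕ) : ((a : ℕ) : MvPolynomial (Fin n) R).totalDegree ≤ 0 := by
  rw [← map_natCast (C : R →+* MvPolynomial (Fin n) R), totalDegree_C]

private theorem dg_two : (2 : MvPolynomial (Fin n) R).totalDegree ≤ 0 := by
  have h := dg_nat (R := R) (n := n) 2
  exact_mod_cast h

private theorem dg_mul {p q : MvPolynomial (Fin n) R} {a b : ℕ} (hp : p.totalDegree ≤ a)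
    (hq : q.totalDegree ≤ b) : (p * q).totalDegree ≤ a + b :=
  (totalDegree_mul _ _).trans (add_le_add hp hq)

private theorem dg_pow {p : MvPolynomial (Fin n) R} {a : ℕ} (hp : p.totalDegree ≤ a) (k : ℕ) :
    (p ^ k).totalDegree ≤ k * a :=
  (totalDegree_pow _ _).trans (Nat.mul_le_mul_left _ hp)

private theorem dg_add {p q : MvPolynomial (Fin n) R} {a : ℕ} (hp : p.totalDegree ≤ a)
    (hq : q.totalDegree ≤ a) : (p + q).totalDegree ≤ a :=
  (totalDegree_add _ _).trans (max_le hp hq)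

private theorem dg_sub {p q : MvPolynomial (Fin n) R} {a : ℕ} (hp : p.totalDegree ≤ a)
    (hq : q.totalDegree ≤ a) : (p - q).totalDegree ≤ a :=
  (totalDegree_sub _ _).trans (max_le hp hq)

private theorem dg_chA {a b : MvPolynomial (Fin n) R} {E : ℕ} (ha : a.totalDegree ≤ E)
    (hb : b.totalDegree ≤ E) (m : ℕ) : (chA a b m).totalDegree ≤ 2 ^ m * E := by
  induction m with
  | zero => simpa [chA] using ha
  | succ m ih =>
    unfold chA
    apply dg_sub
    · have h := dg_mul (dg_two (R := R) (n := n)) (dg_pow ih 2)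
      refine h.trans (le_of_eq ?_)
      ring
    · have h := dg_pow (dg_pow hb (2 ^ m)) 2
      refine h.trans (le_of_eq ?_)
      ring

private theorem dg_fU {A : MvPolynomial (Fin n) R} {E : ℕ} (hA : A.totalDegree ≤ E)
    (q D t : ℕ) : (fU q D t A).totalDegree ≤ cK2 q * (2 ^ cMu q * E) := by
  unfold fU
  apply dg_pow
  have h1 : (2 * ((cT q : MvPolynomial (Fin n) R) + t)).totalDegree ≤ 0 + 0 :=
    dg_mul dg_two (dg_add (dg_nat _) (dg_nat _))
  have h2 : (((D : MvPolynomial (Fin n) R) * A) ^ 2 ^ cMu q).totalDegree ≤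
      2 ^ cMu q * (0 + E) := dg_pow (dg_mul (dg_nat _) hA) _
  have h3 := dg_mul h1 h2
  simpa using h3

private theorem dg_fV {A A1 : MvPolynomial (Fin n) R} {E : ℕ} (hA : A.totalDegree ≤ E)
    (hA1 : A1.totalDegree ≤ E) (q D t : ℕ) :
    (fV q D t A A1).totalDegree ≤ cK2 q * (2 ^ cMu q * E) := by
  unfold fV
  apply dg_add (dg_fU hA q D t)
  apply dg_pow
  have h1 : ((2 : MvPolynomial (Fin n) R) ^ cNu q * (A1 - A)).totalDegree ≤ E := by
    have h := dg_mul (dg_pow (dg_two (R := R) (n := n)) (cNu q)) (dg_sub hA1 hA)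
    simpa using h
  have h2 : ((D : MvPolynomial (Fin n) R) * A).totalDegree ≤ E := by
    have h := dg_mul (dg_nat (R := R) (n := n) D) hA
    simpa using h
  have h3 := dg_mul (dg_nat (R := R) (n := n) (cT q)) (dg_chA h1 h2 (cMu q))
  simpa using h3

private theorem dg_aeval (c : Fin n) (a : Polynomial ℤ) :
    (Polynomial.aeval (X c : MvPolynomial (Fin n) ℤ) a).totalDegree ≤ a.natDegree := by
  rw [Polynomial.aeval_eq_sum_range]
  apply totalDegree_finsetSum_le
  intro i hi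
  rw [Finset.mem_range] at hi
  refine (totalDegree_smul_le _ _).trans ?_
  rw [X_pow_eq_monomial]
  refine (totalDegree_monomial_le _ _).trans ?_
  rw [Finsupp.sum_single_index rfl]
  exact Nat.lt_succ_iff.1 hi

end deg

namespace Inst

noncomputable section

variable (I : Inst)

private theorem mvn_hz_le {W : ℝ} (i : Fin I.n) :
    mvn (nD W) (I.hz i) ≤ 1 + ∑ j, ((I.hz j).support.card : ℝ) := by
  have h1 : mvn (nD W) (I.hz i) ≤ (I.hz i).support.card := by
    unfold mvn
    calc ∑ s ∈ (I.hz i).support, nD W (coeff s (I.hz i))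
        ≤ ∑ _s ∈ (I.hz i).support, (1 : ℝ) := by
          apply Finset.sum_le_sum
          intro s _
          unfold hz
          rw [coeff_map]
          unfold nD
          split_ifs
          · exact zero_le_one
          · rw [Polynomial.natDegree_C, pow_zero]
      _ = (I.hz i).support.card := by simp
  have h2 : ((I.hz i).support.card : ℝ) ≤ ∑ j, ((I.hz j).support.card : ℝ) :=
    Finset.single_le_sum (f := fun j => ((I.hz j).support.card : ℝ))
      (fun j _ => Nat.cast_nonneg _) (Finset.mem_univ i)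
  linarith

private theorem natDegree_nm_le (g : MvPolynomial (Fin I.n) (Polynomial ℤ)) (K : ℕ) (Cc : ℝ)
    (hg : ∀ W : ℝ, 1 ≤ W → mvn (nD W) g ≤ Cc * W ^ K) :
    (nm I.hz g).natDegree ≤ I.D * K := by
  obtain ⟨M, hM1, hM⟩ : ∃ M : ℝ, 1 ≤ M ∧ ∀ W : ℝ, ∀ i, mvn (nD W) (I.hz i) ≤ M := by
    refine ⟨1 + ∑ j, ((I.hz j).support.card : ℝ), ?_, fun W i => I.mvn_hz_le i⟩
    have : 0 ≤ ∑ j, ((I.hz j).support.card : ℝ) := Finset.sum_nonneg fun _ _ => Nat.cast_nonneg _
    linarith
  obtain ⟨P, hP0, hP⟩ : ∃ P : ℝ, 0 ≤ P ∧ P = M ^ (4 * I.n + g.totalDegree) :=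
    ⟨_, pow_nonneg (by linarith) _, rfl⟩
  apply natDegree_le_of_nD _ _ ((P * Cc) ^ 5 ^ I.n)
  intro W hW
  have h1 := nm_bound (nD_isRN hW) I.hz I.hz_deg M hM1 (hM W) g g.totalDegree le_rfl
  rw [← hP] at h1
  refine h1.trans ?_
  have h2 : (P * Cc) ^ 5 ^ I.n * W ^ (I.D * K) = (P * (Cc * W ^ K)) ^ 5 ^ I.n := by
    have h3 : W ^ (I.D * K) = (W ^ K) ^ 5 ^ I.n := by
      rw [mul_comm, pow_mul]
      rfl
    rw [h3, ← mul_pow, mul_assoc]
  rw [h2]
  have h4 : 0 ≤ P * mvn (nD W) g := mul_nonneg hP0 ((nD_isRN hW).mvn_nonneg _)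
  exact pow_le_pow_left₀ h4 (mul_le_mul_of_nonneg_left (hg W hW) hP0) _

/-- S2h: degrees (`deg A ≤ D K` as `A` is a polynomial in `z` of this degree: the class of
`facA` has coordinates of degree at most `K` in `z`) -/
theorem natDegree_Apoly (s k : ℕ) (c : Fin I.n) : (I.Apoly s k c).natDegree ≤ I.D * cK I.q :=
  I.natDegree_nm_le _ _ _ fun _ hW => mvn_facA hW I.q s k c

theorem natDegree_A1poly (s k : ℕ) (c : Fin I.n) : (I.A1poly s k c).natDegree ≤ I.D * cK I.q :=
  I.natDegree_nm_le _ _ _ fun _ hW => mvn_facA1 hW I.q s k c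

/-- the common degree bound -/
private def eB : ℕ := I.n * ((cK0 I.q + 1) * (cK2 I.q * (2 ^ cMu I.q * (I.D * cK I.q))))

private theorem dg_U (s t : ℕ) : (I.Upoly s t).totalDegree ≤ I.eB := by
  unfold Upoly
  refine (totalDegree_finsetProd _ _).trans ?_
  calc ∑ c : Fin I.n, (∏ k ∈ Finset.range (cK0 I.q + 1), fU I.q I.D t
        (Polynomial.aeval (X c : MvPolynomial (Fin I.n) ℤ) (I.Apoly s k c))).totalDegree
      ≤ ∑ _c : Fin I.n, (cK0 I.q + 1) * (cK2 I.q * (2 ^ cMu I.q * (I.D * cK I.q))) := by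
        apply Finset.sum_le_sum
        intro c _
        refine (totalDegree_finsetProd _ _).trans ?_
        refine (Finset.sum_le_sum fun k _ => dg_fU ((dg_aeval c _).trans
          (I.natDegree_Apoly s k c)) I.q I.D t).trans ?_
        simp
    _ = I.eB := by
        rw [Finset.sum_const, Finset.card_univ, Fintype.card_fin, smul_eq_mul]
        rfl

private theorem dg_V (s t : ℕ) : (I.Vpoly s t).totalDegree ≤ I.eB := by
  unfold Vpoly
  refine (totalDegree_finsetProd _ _).trans ?_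
  calc ∑ c : Fin I.n, (∏ k ∈ Finset.range (cK0 I.q + 1), fV I.q I.D t
        (Polynomial.aeval (X c : MvPolynomial (Fin I.n) ℤ) (I.Apoly s k c))
        (Polynomial.aeval (X c : MvPolynomial (Fin I.n) ℤ) (I.A1poly s k c))).totalDegree
      ≤ ∑ _c : Fin I.n, (cK0 I.q + 1) * (cK2 I.q * (2 ^ cMu I.q * (I.D * cK I.q))) := by
        apply Finset.sum_le_sum
        intro c _
        refine (totalDegree_finsetProd _ _).trans ?_
        refine (Finset.sum_le_sum fun k _ => dg_fV ((dg_aeval c _).trans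
          (I.natDegree_Apoly s k c)) ((dg_aeval c _).trans (I.natDegree_A1poly s k c))
          I.q I.D t).trans ?_
        simp
    _ = I.eB := by
        rw [Finset.sum_const, Finset.card_univ, Fintype.card_fin, smul_eq_mul]
        rfl

private theorem num_eB : (6 + I.eB) * I.D ≤ 2 ^ (16 * I.q + 63) := by
  have hD : I.D ≤ 2 ^ (3 * I.n) := by
    unfold D
    rw [pow_mul]
    exact Nat.pow_le_pow_left (by norm_num) _
  have hn : I.n ≤ 2 ^ I.n := Nat.lt_two_pow_self.le
  have hK0 : cK0 I.q + 1 ≤ 2 ^ (I.q + 2) := by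
    unfold cK0
    have h1 : 2 ^ 1 ≤ 2 ^ I.q := Nat.pow_le_pow_right (by norm_num) (by unfold q; omega)
    rw [pow_add 2 I.q 2]
    omega
  have h1 : I.eB ≤ 2 ^ (15 * I.q + 33 + 4 * I.n) := by
    unfold eB cK2 cMu cK
    calc I.n * ((cK0 I.q + 1) * (2 ^ (4 * I.q + 10) * (2 ^ (5 * I.q + 13) *
          (I.D * 2 ^ (5 * I.q + 8)))))
        ≤ 2 ^ I.n * (2 ^ (I.q + 2) * (2 ^ (4 * I.q + 10) * (2 ^ (5 * I.q + 13) *
          (2 ^ (3 * I.n) * 2 ^ (5 * I.q + 8))))) := by
          gcongr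
      _ = 2 ^ (15 * I.q + 33 + 4 * I.n) := by
          simp only [← pow_add]
          congr 1
          ring
  have h2 : 6 + I.eB ≤ 2 ^ (15 * I.q + 34 + 4 * I.n) := by
    have h3 : 2 ^ 3 ≤ 2 ^ (15 * I.q + 33 + 4 * I.n) :=
      Nat.pow_le_pow_right (by norm_num) (by omega)
    have h4 : 2 ^ (15 * I.q + 34 + 4 * I.n) = 2 * 2 ^ (15 * I.q + 33 + 4 * I.n) := by
      rw [show 15 * I.q + 34 + 4 * I.n = (15 * I.q + 33 + 4 * I.n) + 1 by ring, pow_succ]
      ring
    omega
  calc (6 + I.eB) * I.D ≤ 2 ^ (15 * I.q + 34 + 4 * I.n) * 2 ^ (3 * I.n) :=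
        Nat.mul_le_mul h2 hD
    _ = 2 ^ (15 * I.q + 34 + 4 * I.n + 3 * I.n) := by
        rw [pow_add _ (15 * I.q + 34 + 4 * I.n)]
    _ ≤ 2 ^ (16 * I.q + 63) := by
        apply Nat.pow_le_pow_right (by norm_num)
        unfold q
        omega

private theorem dg_GV (s t : ℕ) :
    ((2 * I.G (I.lam ℤ) + 1) * I.Vpoly s t).totalDegree ≤ 6 + I.eB := by
  apply dg_mul _ (I.dg_V s t)
  apply dg_add
  · have h := dg_mul (dg_two (R := ℤ) (n := I.n)) (I.totalDegree_G_le (I.lam ℤ))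
    simpa using h
  · have h := dg_nat (R := ℤ) (n := I.n) 1
    rw [Nat.cast_one] at h
    omega

theorem totalDegree_Vpoly (s t : ℕ) :
    ((2 * I.G (I.lam ℤ) + 1) * I.Vpoly s t + 2 ^ I.thE * I.Upoly s t).totalDegree * I.D ≤
      2 ^ (16 * I.q + 63) ∧
    ((2 * I.G (I.lam ℤ) + 1) * I.Vpoly s t).totalDegree * I.D ≤ 2 ^ (16 * I.q + 63) := by
  constructor
  · refine (Nat.mul_le_mul_right _ ?_).trans I.num_eB
    apply dg_add (I.dg_GV s t)
    have h := dg_mul (dg_pow (dg_two (R := ℤ) (n := I.n)) I.thE) (I.dg_U s t)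
    omega
  · exact (Nat.mul_le_mul_right _ (I.dg_GV s t)).trans I.num_eB

end

end Inst

end Vale.Agent.P337
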