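import Vale.Agent.P337.SemPG
import Vale.Agent.P337.SemPH

/-!
# The algorithm computes the residues of the exact integers (module S2z)
-/

namespace Vale.Agent.P337

open MvPolynomial

namespace Inst

noncomputable section

variable (I : Inst) {p : ℕ} [Fact p.Prime]

omit [Fact p.Prime] in
private theorem two_lt (h2 : p ∈ prs I.P) : 2 < p := by
  unfold prs at h2
  rw [Finset.mem_filter, Finset.mem_Ioc] at h2
  have h3 : 2 ^ 1 ≤ 2 ^ I.P := Nat.pow_le_pow_right (by norm_num) (by unfold P; omega)
  omega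

private theorem totalDegree_map_leP {n : ℕ} (g : MvPolynomial (Fin n) ℤ) :
    (map (Int.castRingHom (ZMod p)) g).totalDegree ≤ g.totalDegree := by
  unfold totalDegree
  exact Finset.sup_mono (support_map_subset _ g)

/-- module S2 -/
theorem cast_X1N (h2 : p ∈ prs I.P) (s t : ℕ) :
    (I.X1N s t p : ZMod p) = (I.X1Z s t : ZMod p) := by
  unfold X1N X1Z
  rw [I.cast_nm]
  apply I.cast_nmN h2
  · exact (Nat.mul_le_mul_right _ (totalDegree_map_leP _)).trans (I.totalDegree_Vpoly s t).1
  · intro X _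
    rw [ZMod.natCast_mod, Nat.cast_add, Nat.cast_mul, I.cast_VN h2, Nat.cast_mul, I.cast_UN h2,
      ZMod.natCast_mod, Nat.cast_add, Nat.cast_mul, I.cast_GN (I.two_lt h2), map_add, map_add,
      map_mul, map_mul, map_mul, map_mul, map_add, map_add, map_mul, map_mul, I.map_G_lam]
    simp only [map_one, map_ofNat, map_pow, Nat.cast_one, Nat.cast_ofNat, Nat.cast_pow]

theorem cast_X2N (h2 : p ∈ prs I.P) (s t : ℕ) :
    (I.X2N s t p : ZMod p) = (I.X2Z s t : ZMod p) := by
  unfold X2N X2Z
  rw [I.cast_nm]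
  apply I.cast_nmN h2
  · exact (Nat.mul_le_mul_right _ (totalDegree_map_leP _)).trans (I.totalDegree_Vpoly s t).2
  · intro X _
    rw [ZMod.natCast_mod, Nat.cast_mul, I.cast_VN h2,
      Nat.cast_add, Nat.cast_mul, I.cast_GN (I.two_lt h2),
      map_mul, map_mul, map_add, map_add, map_mul, map_mul, I.map_G_lam]
    simp only [map_one, map_ofNat, Nat.cast_one, Nat.cast_ofNat]

end

end Inst

end Vale.Agent.P337
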