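import Vale.Agent.P337.Test
import Vale.Agent.P337.SemC
import Vale.Agent.P337.SemP
import Vale.Agent.P337.Dich
import Vale.Agent.P337.CRRB
import Vale.Agent.P337.SemCC

/-!
# Correctness of the test (module Z1)
-/

namespace Vale.Agent.P337

open MvPolynomial

section finalA

variable (I : Inst)

private theorem fa_five_pow (n : ℕ) : 5 ^ n ≤ 2 ^ (3 * n) := by
  rw [pow_mul]
  exact Nat.pow_le_pow_left (by norm_num) n

private theorem fa_q : I.q = 10 * I.n + 16 := rfl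

private theorem fa_pow {a b : ℕ} (h : a ≤ b) : (2 : ℝ) ^ 2 ^ a ≤ 2 ^ 2 ^ b :=
  pow_le_pow_right₀ (by norm_num) (Nat.pow_le_pow_right (by norm_num) h)

private theorem fa_th : 2 ^ I.thE ≤ 2 ^ 2 ^ I.q := by
  apply Nat.pow_le_pow_right (by norm_num)
  unfold Inst.thE Inst.q
  have h1 : 2 ^ (4 * I.n + 8) * 2 ≤ 2 ^ (10 * I.n + 16) := by
    rw [← pow_succ]
    exact Nat.pow_le_pow_right (by norm_num) (by omega)
  have h2 : 2 ^ 3 ≤ 2 ^ (4 * I.n + 8) := Nat.pow_le_pow_right (by norm_num) (by omega)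
  omega

private theorem fa_nD : I.n * (5 ^ I.n) ^ 2 ≤ 2 ^ I.q := by
  have h1 : I.n ≤ 2 ^ I.n := Nat.lt_two_pow_self.le
  have h2 := fa_five_pow I.n
  calc I.n * (5 ^ I.n) ^ 2 ≤ 2 ^ I.n * (2 ^ (3 * I.n)) ^ 2 :=
        Nat.mul_le_mul h1 (Nat.pow_le_pow_left h2 2)
    _ = 2 ^ (I.n + 3 * I.n * 2) := by rw [← pow_mul, ← pow_add]
    _ ≤ _ := Nat.pow_le_pow_right (by norm_num) (by rw [fa_q]; omega)

private theorem fa_map {R R' : Type*} [CommRing R] [CommRing R'] (f : R →+* R') :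
    f (I.lam R) = I.lam R' := by
  unfold Inst.lam
  rw [map_pow, map_ofNat]

private theorem fa_evalG (x : Fin I.n → ℝ) :
    eval (fun i => (x i : ℂ)) (I.G (I.lam ℂ)) = ((eval x (I.G (I.lam ℝ)) : ℝ) : ℂ) := by
  rw [← fa_map I Complex.ofRealHom, ← I.G_map Complex.ofRealHom]
  have h : (fun i => (x i : ℂ)) = Complex.ofRealHom ∘ x := rfl
  rw [eval_map, h]
  have h2 := eval₂_comp_left Complex.ofRealHom (RingHom.id ℝ) x (I.G (I.lam ℝ))
  rw [RingHom.comp_id] at h2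
  exact h2.symm

private theorem fa_evalh (x : Fin I.n → ℝ) (i : Fin I.n) :
    eval (fun i => (x i : ℂ)) (I.h (I.lam ℂ) i) = ((eval x (I.h (I.lam ℝ) i) : ℝ) : ℂ) := by
  rw [← fa_map I Complex.ofRealHom, ← I.h_map Complex.ofRealHom]
  have h : (fun i => (x i : ℂ)) = Complex.ofRealHom ∘ x := rfl
  rw [eval_map, h]
  have h2 := eval₂_comp_left Complex.ofRealHom (RingHom.id ℝ) x (I.h (I.lam ℝ) i)
  rw [RingHom.comp_id] at h2
  exact h2.symm

private theorem fa_G_nonneg (x : Fin I.n → ℝ) : 0 ≤ eval x (I.G (I.lam ℝ)) := by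
  unfold Inst.G Inst.F
  rw [map_add, map_sum, map_mul, eval_C, map_sum]
  have h1 : ∀ i : Fin I.n, 0 ≤ eval x (X i ^ 6 : MvPolynomial (Fin I.n) ℝ) := by
    intro i
    rw [map_pow, eval_X]
    positivity
  have h2 : 0 ≤ ∑ a ∈ Finset.range I.A,
      eval x (I.pv (fun i => (X i : MvPolynomial (Fin I.n) ℝ)) a ^ 2) := by
    apply Finset.sum_nonneg
    intro a _
    rw [map_pow]
    positivity
  have h3 : 0 ≤ I.lam ℝ := by
    unfold Inst.lam
    positivity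
  have h4 := Finset.sum_nonneg (s := Finset.univ) (fun i _ => h1 i)
  positivity

private theorem fa_mem {a b : ℕ} {good : Finset (ℕ × ℕ)}
    (h : good ⊆ Finset.range a ×ˢ Finset.range b) {st : ℕ × ℕ} (hst : st ∈ good) :
    st.1 < a ∧ st.2 < b := by
  have h1 := h hst
  rw [Finset.mem_product, Finset.mem_range, Finset.mem_range] at h1
  exact h1

/-- the data needed for the cluster theorem -/
private structure Data where
  pts : Fin (5 ^ I.n) → Fin I.n → ℂ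
  hp : ∀ H, nm (I.h (I.lam ℂ)) H = ∏ j, eval (pts j) H

private theorem fa_data : Nonempty (Data I) := by
  obtain ⟨pts, hp⟩ := exists_pts (I.h (I.lam ℂ)) (fun i => I.h_deg _ i)
  exact ⟨⟨pts, hp⟩⟩

private theorem fa_norm_sq (a : ℤ) : ‖(a : ℂ)‖ ^ 2 = ((a.natAbs ^ 2 : ℕ) : ℝ) := by
  rw [Complex.norm_intCast]
  push_cast
  rw [Nat.cast_natAbs]
  push_cast
  rfl

/-- residues -/
private theorem fa_res {p : ℕ} (hp : p ∈ prs I.P) (s t : ℕ) :
    (I.X1N s t p ^ 2 % p) % p = ((I.X1Z s t).natAbs ^ 2) % p ∧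
      (I.X2N s t p ^ 2 % p) % p = ((I.X2Z s t).natAbs ^ 2) % p := by
  have hpr : p.Prime := (Finset.mem_filter.mp hp).2
  haveI : Fact p.Prime := ⟨hpr⟩
  have h1 := I.cast_X1N hp s t
  have h2 := I.cast_X2N hp s t
  have key : ∀ (a : ℕ) (z : ℤ), (a : ZMod p) = (z : ZMod p) →
      (a ^ 2 % p) % p = (z.natAbs ^ 2) % p := by
    intro a z haz
    rw [Nat.mod_mod]
    have h3 : ((a ^ 2 : ℕ) : ZMod p) = ((z.natAbs ^ 2 : ℕ) : ZMod p) := by
      have h4 : ((z.natAbs ^ 2 : ℕ) : ℤ) = z ^ 2 := by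
        rw [Nat.cast_pow, Int.natCast_natAbs, sq_abs]
      have h5 : ((z.natAbs ^ 2 : ℕ) : ZMod p) = (((z.natAbs ^ 2 : ℕ) : ℤ) : ZMod p) :=
        (Int.cast_natCast _).symm
      rw [h5, h4, Nat.cast_pow, haz, Int.cast_pow]
    exact (ZMod.natCast_eq_natCast_iff' _ _ _).mp h3
  exact ⟨key _ _ h1, key _ _ h2⟩

private theorem fa_sizes (d : Data I) (s t : ℕ) (hs : s < cS I.q) (ht : t < cT I.q) :
    16 * (I.X1Z s t).natAbs ^ 2 < ∏ p ∈ prs I.P, p ∧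
      16 * (I.X2Z s t).natAbs ^ 2 < ∏ p ∈ prs I.P, p := by
  have hn := I.hn
  have hsol := fun j i => pts_sol (I.h (I.lam ℂ)) (fun i => I.h_deg _ i) d.pts d.hp j i
  have hb : ∀ j c, ‖d.pts j c‖ ≤ 2 ^ 2 ^ (7 * I.n + 11) := fun j c =>
    I.pts_bound (d.pts j) (hsol j) c
  have hR : ∀ j c, ‖d.pts j c‖ ≤ 2 ^ 2 ^ I.q := fun j c =>
    (hb j c).trans (fa_pow (by rw [fa_q]; omega))
  have hG : ∀ j, ‖eval (d.pts j) (I.G (I.lam ℂ))‖ ≤ 2 ^ 2 ^ I.q := fun j =>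
    (I.G_bound (d.pts j) (hb j)).trans (fa_pow (by rw [fa_q]; omega))
  have h1 := Inst.ptX_bound I.q (by rw [fa_q]; omega) hn (by positivity) (fa_nD I) d.pts hR
    (fun j => eval (d.pts j) (I.G (I.lam ℂ))) hG (2 ^ I.thE) (fa_th I) s t hs ht
  rw [← I.X1Z_eq d.pts d.hp, ← I.X2Z_eq d.pts d.hp, fa_norm_sq, fa_norm_sq] at h1
  have hP : 20 ≤ I.P := by unfold Inst.P; omega
  have h2 := prod_prs I.P hP
  have h3 : I.P = 18 * I.q + 80 := rfl
  rw [h3] at h2 ⊢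
  constructor
  · have h4 := h1.1
    have h5 : 16 * (I.X1Z s t).natAbs ^ 2 < 2 ^ 2 ^ (18 * I.q + 80) := by exact_mod_cast h4
    omega
  · have h4 := h1.2
    have h5 : 16 * (I.X2Z s t).natAbs ^ 2 < 2 ^ 2 ^ (18 * I.q + 80) := by exact_mod_cast h4
    omega

private theorem fa_cluster (d : Data I) (v : ℝ) (hv : 0 ≤ v)
    (hvG : ∀ x : Fin I.n → ℝ, v ≤ eval x (I.G (I.lam ℝ))) :
    ∃ good : Finset (ℕ × ℕ), (∀ st ∈ good, st.1 < cS I.q ∧ st.2 < cT I.q) ∧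
      9 * (cS I.q * cT I.q) ≤ 16 * good.card ∧ ∀ st ∈ good,
        I.X2Z st.1 st.2 ≠ 0 ∧
        ((∃ x : Fin I.n → ℝ, (∀ i, x i ^ 5 = eval x (I.h (I.lam ℝ) i)) ∧
            2 ^ 7 * eval x (I.G (I.lam ℝ)) ≤ 2 ^ I.thE) →
          10 * ‖(I.X2Z st.1 st.2 : ℂ)‖ ≤ ‖(I.X1Z st.1 st.2 : ℂ)‖) ∧
        (2 ^ 9 * 2 ^ I.thE * 5 ^ I.n ≤ v →
          ‖(I.X1Z st.1 st.2 : ℂ)‖ ≤ 3 / 2 * ‖(I.X2Z st.1 st.2 : ℂ)‖ ∧
          1 / 2 * ‖(I.X2Z st.1 st.2 : ℂ)‖ ≤ ‖(I.X1Z st.1 st.2 : ℂ)‖) := by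
  have hn := I.hn
  have hd : ∀ i, (I.h (I.lam ℂ) i).totalDegree ≤ 3 := fun i => I.h_deg _ i
  have hsol := fun j i => pts_sol (I.h (I.lam ℂ)) hd d.pts d.hp j i
  have hb : ∀ j c, ‖d.pts j c‖ ≤ 2 ^ 2 ^ (7 * I.n + 11) := fun j c =>
    I.pts_bound (d.pts j) (hsol j) c
  have hR : ∀ j c, ‖d.pts j c‖ ≤ 2 ^ 2 ^ I.q := fun j c =>
    (hb j c).trans (fa_pow (by rw [fa_q]; omega))
  have hconj : ∀ c, ∃ σ : Equiv.Perm (Fin (5 ^ I.n)), ∀ j, d.pts (σ j) c =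
      (starRingEnd ℂ) (d.pts j c) := by
    intro c
    apply pts_conj (I.h (I.lam ℝ)) (fun i => I.h_deg _ i) d.pts _ c
    have h1 : (fun i => map Complex.ofRealHom (I.h (I.lam ℝ) i)) = I.h (I.lam ℂ) := by
      funext i
      rw [I.h_map, fa_map]
    rw [h1]
    exact d.hp
  have hn2 : I.n ≤ 2 ^ I.q := by
    have h1 : I.n < 2 ^ I.n := Nat.lt_two_pow_self
    have h2 : 2 ^ I.n ≤ 2 ^ I.q := Nat.pow_le_pow_right (by norm_num) (by rw [fa_q]; omega)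
    omega
  have hD2 : 5 ^ I.n ≤ 2 ^ I.q :=
    (fa_five_pow I.n).trans (Nat.pow_le_pow_right (by norm_num) (by rw [fa_q]; omega))
  have hreal : ∀ i, (∀ c, (d.pts i c).im = 0) → (eval (d.pts i) (I.G (I.lam ℂ))).im = 0 ∧
      v ≤ (eval (d.pts i) (I.G (I.lam ℂ))).re := by
    intro j hj
    have h1 : d.pts j = fun c => (((d.pts j c).re : ℝ) : ℂ) := by
      funext c
      apply Complex.ext
      · simp
      · simp [hj c]
    have h2 : eval (d.pts j) (I.G (I.lam ℂ)) =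
        ((eval (fun c => (d.pts j c).re) (I.G (I.lam ℝ)) : ℝ) : ℂ) := by
      rw [← fa_evalG]
      congr 1
      rw [← h1]
    rw [h2]
    exact ⟨Complex.ofReal_im _, by rw [Complex.ofReal_re]; exact hvG _⟩
  have hnear : ∀ i, (∀ c, |(d.pts i c).im| ≤ ((2 : ℝ) ^ 2 ^ I.q)⁻¹) →
      v - 1 / 8 ≤ (eval (d.pts i) (I.G (I.lam ℂ))).re := by
    intro j hj
    have h1 := I.G_near (d.pts j) (hb j) hj
    have h2 := hvG (fun i => (d.pts j i).re)
    linarith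
  obtain ⟨good, hg1, hg2, hg3⟩ := cluster_main (n := I.n) (D := 5 ^ I.n) I.q
    (by rw [fa_q]; omega) hn2 (by positivity) hD2 d.pts hconj hR
    (fun j => eval (d.pts j) (I.G (I.lam ℂ))) v hv hreal hnear
    (fun j => I.ell_bound d.pts d.hp j) (2 ^ I.thE) (fa_th I)
  · refine ⟨good, fun st hst => fa_mem hg1 hst, hg2, ?_⟩
    intro st hst
    obtain ⟨h1, h2, h3⟩ := hg3 st hst
    rw [← I.X2Z_eq d.pts d.hp] at h1 h2 h3
    rw [← I.X1Z_eq d.pts d.hp] at h2 h3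
    refine ⟨?_, ?_, ?_⟩
    · intro h0
      apply h1
      rw [h0]
      simp
    · rintro ⟨x, hx1, hx2⟩
      refine h2 ?_ ?_
      · apply Nat.pow_le_pow_right (by norm_num)
        unfold Inst.thE
        exact Nat.le_add_left _ _
      · obtain ⟨j, hj⟩ := sol_pts (I.h (I.lam ℂ)) hd d.pts d.hp (fun i => (x i : ℂ)) (by
          intro i
          rw [fa_evalh, ← hx1 i]
          push_cast
          rfl)
        refine ⟨j, ?_, ?_⟩
        · intro c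
          rw [hj]
          simp
        · rw [hj, fa_evalG, Complex.ofReal_re]
          push_cast
          exact hx2
    · intro hv2
      apply h3
      push_cast
      exact hv2

open Classical in
private theorem fa_card (Pr : ℕ → ℕ → Prop) (a b : ℕ) :
    Nat.card {st : ℕ × ℕ // st.1 < a ∧ st.2 < b ∧ Pr st.1 st.2} =
      ((Finset.range a ×ˢ Finset.range b).filter (fun st => Pr st.1 st.2)).card := by
  apply Nat.subtype_card
  intro st
  rw [Finset.mem_filter, Finset.mem_product, Finset.mem_range, Finset.mem_range]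
  tauto

private theorem fa_count_true {Pr : ℕ → ℕ → Prop} {a b : ℕ} {good : Finset (ℕ × ℕ)}
    (h1 : ∀ st ∈ good, st.1 < a ∧ st.2 < b) (h2 : 9 * (a * b) ≤ 16 * good.card)
    (h3 : ∀ st ∈ good, Pr st.1 st.2) (ha : 0 < a) (hb : 0 < b) :
    a * b < 2 * Nat.card {st : ℕ × ℕ // st.1 < a ∧ st.2 < b ∧ Pr st.1 st.2} := by
  classical
  rw [fa_card]
  have hsub : good ⊆ (Finset.range a ×ˢ Finset.range b).filter (fun st => Pr st.1 st.2) := by
    intro st hst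
    rw [Finset.mem_filter, Finset.mem_product, Finset.mem_range, Finset.mem_range]
    exact ⟨h1 st hst, h3 st hst⟩
  have h6 := Finset.card_le_card hsub
  have h7 : 0 < a * b := Nat.mul_pos ha hb
  omega

private theorem fa_count_false {Pr : ℕ → ℕ → Prop} {a b : ℕ} {good : Finset (ℕ × ℕ)}
    (h1 : ∀ st ∈ good, st.1 < a ∧ st.2 < b) (h2 : 9 * (a * b) ≤ 16 * good.card)
    (h3 : ∀ st ∈ good, ¬ Pr st.1 st.2) (ha : 0 < a) (hb : 0 < b) :
    2 * Nat.card {st : ℕ × ℕ // st.1 < a ∧ st.2 < b ∧ Pr st.1 st.2} < a * b := by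
  classical
  rw [fa_card]
  have hg : good ⊆ Finset.range a ×ˢ Finset.range b := by
    intro st hst
    rw [Finset.mem_product, Finset.mem_range, Finset.mem_range]
    exact h1 st hst
  have hsub : (Finset.range a ×ˢ Finset.range b).filter (fun st => Pr st.1 st.2) ⊆
      (Finset.range a ×ˢ Finset.range b) \ good := by
    intro st hst
    rw [Finset.mem_filter] at hst
    rw [Finset.mem_sdiff]
    exact ⟨hst.1, fun h => h3 st h hst.2⟩
  have h7 := Finset.card_le_card hsub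
  rw [Finset.card_sdiff_of_subset hg, Finset.card_product, Finset.card_range,
    Finset.card_range] at h7
  have h8 := Finset.card_le_card hg
  rw [Finset.card_product, Finset.card_range, Finset.card_range] at h8
  have h9 : 0 < a * b := Nat.mul_pos ha hb
  omega

end finalA

/-- module Z1: the test is right for more than half of the parameters -/
theorem test_true (I : Inst) (hI : I.Solvable) :
    cS I.q * cT I.q < 2 * Nat.card {st : ℕ × ℕ // st.1 < cS I.q ∧ st.2 < cT I.q ∧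
      I.Test st.1 st.2} := by
  obtain ⟨d⟩ := fa_data I
  obtain ⟨good, hg1, hg2, hg3⟩ := fa_cluster I d 0 le_rfl (fa_G_nonneg I)
  obtain ⟨x, hx1, hx2⟩ := dich_true I hI
  have hlam : (2 : ℝ) ^ lamE I.n = I.lam ℝ := rfl
  rw [hlam] at hx1 hx2
  refine fa_count_true (Pr := I.Test) hg1 hg2 ?_ (by unfold cS; positivity)
    (by unfold cT; positivity)
  intro st hst
  obtain ⟨hst1, hst2⟩ := hg1 st hst
  obtain ⟨h1, h2, -⟩ := hg3 st hst
  have h3 := h2 ⟨x, hx1, by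
    unfold Inst.thE
    rw [pow_add, mul_comm ((2 : ℝ) ^ 2 ^ (4 * I.n + 8))]
    exact mul_le_mul_of_nonneg_left hx2 (by positivity)⟩
  obtain ⟨hs1, hs2⟩ := fa_sizes I d st.1 st.2 hst1 hst2
  apply cmp_true I.P (by unfold Inst.P; omega) ((I.X1Z st.1 st.2).natAbs ^ 2)
    ((I.X2Z st.1 st.2).natAbs ^ 2) hs1
  · have := Int.natAbs_pos.mpr h1
    positivity
  · have h4 : (10 * ‖(I.X2Z st.1 st.2 : ℂ)‖) ^ 2 ≤ ‖(I.X1Z st.1 st.2 : ℂ)‖ ^ 2 :=
      pow_le_pow_left₀ (by positivity) h3 2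
    rw [mul_pow, fa_norm_sq, fa_norm_sq] at h4
    have h5 : ((100 * (I.X2Z st.1 st.2).natAbs ^ 2 : ℕ) : ℝ) ≤
        (((I.X1Z st.1 st.2).natAbs ^ 2 : ℕ) : ℝ) := by
      refine le_trans (le_of_eq ?_) h4
      push_cast
      ring
    exact_mod_cast h5
  · intro p hp
    exact (fa_res I hp st.1 st.2).1
  · intro p hp
    exact (fa_res I hp st.1 st.2).2

private theorem fa_v (n : ℕ) :
    2 ^ 9 * 2 ^ (2 ^ (4 * n + 8) + 7) * 5 ^ n ≤ 2 ^ 2 ^ (4 * n + 9) := by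
  have e : 2 ^ 9 * 2 ^ (2 ^ (4 * n + 8) + 7) * 2 ^ (3 * n) =
      2 ^ (9 + (2 ^ (4 * n + 8) + 7) + 3 * n) := by
    rw [← pow_add, ← pow_add]
  calc 2 ^ 9 * 2 ^ (2 ^ (4 * n + 8) + 7) * 5 ^ n ≤
        2 ^ 9 * 2 ^ (2 ^ (4 * n + 8) + 7) * 2 ^ (3 * n) :=
        Nat.mul_le_mul_left _ (fa_five_pow n)
    _ = 2 ^ (9 + (2 ^ (4 * n + 8) + 7) + 3 * n) := e
    _ ≤ _ := by
        apply Nat.pow_le_pow_right (by norm_num)
        have h2 : 2 ^ (4 * n + 9) = 2 ^ (4 * n + 8) * 2 := by rw [← pow_succ]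
        have h5 : 2 ^ (4 * n + 8) = 2 ^ (4 * n) * 256 := by rw [pow_add]; norm_num
        have h6 : 4 * n < 2 ^ (4 * n) := Nat.lt_two_pow_self
        omega

theorem test_false (I : Inst) (hI : ¬ I.Solvable) :
    2 * Nat.card {st : ℕ × ℕ // st.1 < cS I.q ∧ st.2 < cT I.q ∧
      I.Test st.1 st.2} < cS I.q * cT I.q := by
  obtain ⟨d⟩ := fa_data I
  obtain ⟨good, hg1, hg2, hg3⟩ := fa_cluster I d (2 ^ 2 ^ (4 * I.n + 9)) (by positivity)
    (fun x => dich_false I hI x)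
  have hv : (2 : ℝ) ^ 9 * 2 ^ I.thE * 5 ^ I.n ≤ 2 ^ 2 ^ (4 * I.n + 9) := by
    have h1 := fa_v I.n
    unfold Inst.thE
    exact_mod_cast h1
  refine fa_count_false (Pr := I.Test) hg1 hg2 ?_ (by unfold cS; positivity)
    (by unfold cT; positivity)
  intro st hst htest
  obtain ⟨hst1, hst2⟩ := hg1 st hst
  obtain ⟨h1, -, h2⟩ := hg3 st hst
  obtain ⟨h3, h4⟩ := h2 hv
  obtain ⟨hs1, hs2⟩ := fa_sizes I d st.1 st.2 hst1 hst2
  have hX20 : 0 < ‖(I.X2Z st.1 st.2 : ℂ)‖ := norm_pos_iff.mpr (by exact_mod_cast h1)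
  refine cmp_false I.P (by unfold Inst.P; omega) ((I.X1Z st.1 st.2).natAbs ^ 2)
    ((I.X2Z st.1 st.2).natAbs ^ 2) ?_ hs2 ?_ _ _ (fun p hp => (fa_res I hp st.1 st.2).1)
    (fun p hp => (fa_res I hp st.1 st.2).2) htest
  · have h5 : 0 < ‖(I.X1Z st.1 st.2 : ℂ)‖ := by linarith
    have h6 : I.X1Z st.1 st.2 ≠ 0 := by
      intro h0
      rw [h0] at h5
      simp at h5
    have := Int.natAbs_pos.mpr h6
    positivity
  · have h5 : ‖(I.X1Z st.1 st.2 : ℂ)‖ ^ 2 ≤ (3 / 2 * ‖(I.X2Z st.1 st.2 : ℂ)‖) ^ 2 :=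
      pow_le_pow_left₀ (norm_nonneg _) h3 2
    rw [mul_pow, fa_norm_sq, fa_norm_sq] at h5
    have h6 : ((4 * (I.X1Z st.1 st.2).natAbs ^ 2 : ℕ) : ℝ) ≤
        ((9 * (I.X2Z st.1 st.2).natAbs ^ 2 : ℕ) : ℝ) := by
      push_cast at h5 ⊢
      linarith
    exact_mod_cast h6

end Vale.Agent.P337
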