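import Mathlib

/-!
# Systems of quadratic equations and the algebra of the perturbed critical points
-/

namespace Vale.Agent.P337

open MvPolynomial

/-- a system of `A` quadratic equations in `n` unknowns; `c a u v` is the coefficient of
`z_u * z_v` in the equation number `a`, where `z_0 = 1` and `z_(i+1) = x_i` -/
structure Inst where
  n : ℕ
  A : ℕ
  c : ℕ → ℕ → ℕ → ℤ
  hc : ∀ a u v, |c a u v| ≤ 2
  hA : A ≤ 2 ^ n
  hn : 0 < n

namespace Inst

variable (I : Inst) {R : Type*} [CommRing R]

/-- `z_0 = 1`, `z_(i+1) = x_i` for a point `x` -/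
def z {R : Type*} [CommRing R] {n : ℕ} (x : Fin n → R) (u : ℕ) : R :=
  if u = 0 then 1 else if h : u - 1 < n then x ⟨u - 1, h⟩ else 0

/-- the value of the left side of the equation number `a` at a point -/
def pv (x : Fin I.n → R) (a : ℕ) : R :=
  ∑ u ∈ Finset.range (I.n + 1), ∑ v ∈ Finset.range (I.n + 1), (I.c a u v : R) * z x u * z x v

/-- the system has a real solution -/
def Solvable : Prop := ∃ x : Fin I.n → ℝ, ∀ a < I.A, I.pv x a = 0

/-- the sum of the squares of the left sides, as a polynomial -/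
noncomputable def F (R : Type*) [CommRing R] : MvPolynomial (Fin I.n) R :=
  ∑ a ∈ Finset.range I.A, I.pv (fun i => (X i : MvPolynomial (Fin I.n) R)) a ^ 2

/-- `G = ∑ x_i ^ 6 + 6 λ F` -/
noncomputable def G (lam : R) : MvPolynomial (Fin I.n) R :=
  ∑ i, X i ^ 6 + C (6 * lam) * I.F R

/-- `h_i = - λ ∂_i F`; the critical points of `G` are the solutions of `x_i ^ 5 = h_i` -/
noncomputable def h (lam : R) (i : Fin I.n) : MvPolynomial (Fin I.n) R :=
  - (C lam * pderiv i (I.F R))

end Inst

/-- the ideal of the relations `x_i ^ 5 = h_i` -/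
noncomputable def relIdeal {R : Type*} [CommRing R] {n : ℕ}
    (h : Fin n → MvPolynomial (Fin n) R) : Ideal (MvPolynomial (Fin n) R) :=
  Ideal.span (Set.range fun i => X i ^ 5 - h i)

/-- the algebra `R[x] / (x_i ^ 5 - h_i)` -/
abbrev Alg {R : Type*} [CommRing R] {n : ℕ} (h : Fin n → MvPolynomial (Fin n) R) : Type _ :=
  MvPolynomial (Fin n) R ⧸ relIdeal h

/-- the norm of (the class of) a polynomial -/
noncomputable def nm {R : Type*} [CommRing R] {n : ℕ} (h : Fin n → MvPolynomial (Fin n) R)
    (H : MvPolynomial (Fin n) R) : R :=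
  Algebra.norm R (Ideal.Quotient.mk (relIdeal h) H)

/-- the trace of (the class of) a polynomial -/
noncomputable def trc {R : Type*} [CommRing R] {n : ℕ} (h : Fin n → MvPolynomial (Fin n) R)
    (H : MvPolynomial (Fin n) R) : R :=
  Algebra.trace R (Alg h) (Ideal.Quotient.mk (relIdeal h) H)

end Vale.Agent.P337
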