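import Vale.Agent.P337.MachA2

/-!
# The automata are polynomial time machines: correctness (module H2a)
-/

namespace Vale.Agent.P337

open Function Turing

namespace AutM

variable {α : Type} {k : ℕ}

/-- binary digits -/
theorem testBit_ofDigits (z : List Bool) : ∀ m,
    (Nat.ofDigits 2 (z.map Bool.toNat)).testBit m = z.getD m false := by
  induction z with
  | nil => intro m; simp
  | cons b z ih =>
    intro m
    rw [List.map_cons, Nat.ofDigits_cons]
    cases m with
    | zero =>
      rw [List.getD_cons_zero, Nat.testBit_zero]
      cases b <;> simp [Nat.add_mod]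
    | succ m =>
      rw [List.getD_cons_succ, ← ih m, Nat.testBit_succ]
      congr 1
      cases b
      · simp
      · simp
        omega

theorem digit_eq (y : List Bool) (m : ℕ) :
    digit m (Nat.ofDigits 2 (y.reverse.map Bool.toNat), y.length) = y.reverse[m]? := by
  unfold digit
  dsimp only
  by_cases h : m < y.length
  · rw [if_pos h, testBit_ofDigits, List.getElem?_eq_getElem (by rw [List.length_reverse]; exact h),
      List.getD_eq_getElem _ _ (by rw [List.length_reverse]; exact h)]
  · rw [if_neg h, List.getElem?_eq_none (by rw [List.length_reverse]; omega)]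

theorem foldr_max_le (l : List ℕ) (m : ℕ) : l.foldr max 0 ≤ m ↔ ∀ a ∈ l, a ≤ m := by
  induction l with
  | nil => simp
  | cons a l ih => simp [ih]

/-- the tracks of the bit strings -/
abbrev trk (ys : List (List Bool)) : List (ℕ × ℕ) :=
  ys.map fun y => (Nat.ofDigits 2 (y.reverse.map Bool.toNat), y.length)

theorem cols_le (w : List α) (ys : List (List Bool)) (m : ℕ) :
    cols w (trk ys) ≤ m ↔ w.length ≤ m ∧ ∀ y ∈ ys, y.length ≤ m := by
  unfold cols
  rw [max_le_iff, foldr_max_le, List.map_map]
  simp

/-- the stacks of the bit strings after `m` columns -/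
def Dm (α : Type) (k : ℕ) (ys : List (List Bool)) (m : ℕ) : Fin (k + 1) → List (G α) := fun j =>
  if j.1 = 0 then [] else (((ys.getD (j.1 - 1) []).map fun b => some (Sum.inr b)).reverse).drop m

theorem head_toA (w : List α) (m : ℕ) :
    ((((w.map fun a => (some (Sum.inl a) : G α)).drop m).head?).bind toA) = w[m]? := by
  rw [List.head?_drop, List.getElem?_map]
  cases w[m]? <;> rfl

theorem head_toB (y : List Bool) (m : ℕ) :
    ((((y.map fun b => (some (Sum.inr b) : G α)).reverse.drop m).head?).bind toB) =
      y.reverse[m]? := by
  rw [List.head?_drop, ← List.map_reverse, List.getElem?_map]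
  cases y.reverse[m]? <;> rfl

theorem stepQ_eq (A : Aut α) (w : List α) (ys : List (List Bool)) (hk : ys.length = k) (m : ℕ)
    (q : A.Q) :
    stepQ A q ((w.map fun a => (some (Sum.inl a) : G α)).drop m) (Dm α k ys m) =
      A.step q w[m]? ((trk ys).map (digit m)) := by
  unfold stepQ
  rw [head_toA]
  congr 1
  apply List.ext_getElem
  · simp [hk]
  · intro i h1 h2
    rw [List.getElem_ofFn, List.getElem_map, List.getElem_map, digit_eq]
    unfold Dm
    rw [if_neg (by simp)]
    rw [head_toB]
    have hi : i < ys.length := by
      rw [hk]
      simpa using h1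
    simp only [Fin.val_succ, Nat.add_sub_cancel]
    rw [List.getD_eq_getElem _ _ hi]

theorem runD_eq (A : Aut α) (w : List α) (ys : List (List Bool)) (hk : ys.length = k) (n : ℕ) :
    ∀ m, m ≤ cols w (trk ys) → cols w (trk ys) ≤ m + n →
    runD A n (A.run w (trk ys) m) ((w.map fun a => (some (Sum.inl a) : G α)).drop m)
      (Dm α k ys m) = A.run w (trk ys) (cols w (trk ys)) := by
  induction n with
  | zero =>
    intro m h1 h2
    have : m = cols w (trk ys) := by omega
    rw [← this]
    rfl
  | succ n ih =>
    intro m h1 h2
    rw [runD]
    split_ifs with h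
    · have h3 : cols w (trk ys) ≤ m := by
        rw [cols_le]
        refine ⟨?_, fun y hy => ?_⟩
        · have := List.drop_eq_nil_iff.1 h.1
          simpa using this
        · obtain ⟨i, hi, rfl⟩ := List.getElem_of_mem hy
          have h4 := h.2 ⟨i + 1, by omega⟩
          unfold Dm at h4
          rw [if_neg (by simp)] at h4
          have := List.drop_eq_nil_iff.1 h4
          simp only [Nat.add_sub_cancel, List.length_reverse, List.length_map] at this
          rwa [List.getD_eq_getElem _ _ hi] at this
      have : m = cols w (trk ys) := by omega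
      rw [← this]
    · have h3 : ¬ cols w (trk ys) ≤ m := by
        intro h4
        rw [cols_le] at h4
        apply h
        refine ⟨List.drop_eq_nil_iff.2 (by simpa using h4.1), fun j => ?_⟩
        unfold Dm
        split_ifs with hj
        · rfl
        · apply List.drop_eq_nil_iff.2
          rw [List.length_reverse, List.length_map]
          have hj' : j.1 - 1 < ys.length := by
            have := j.2
            omega
          rw [List.getD_eq_getElem _ _ hj']
          exact h4.2 _ (List.getElem_mem hj')
      rw [stepQ_eq A w ys hk]
      have e1 : ((w.map fun a => (some (Sum.inl a) : G α)).drop m).tail =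
          (w.map fun a => (some (Sum.inl a) : G α)).drop (m + 1) := by
        rw [List.tail_drop]
      have e2 : (fun j => (Dm α k ys m j).tail) = Dm α k ys (m + 1) := by
        funext j
        unfold Dm
        split_ifs
        · rfl
        · rw [List.tail_drop]
      rw [e1, e2]
      exact ih (m + 1) (by omega) (by omega)

theorem res_eq (A : Aut α) (w : List α) (ys : List (List Bool)) (hk : ys.length = k) :
    res A k (tupleCode w ys) = A.acc (A.run w (trk ys) (cols w (trk ys))) := by
  set x := tupleCode w ys with hx
  have hP : ∀ j : Fin (k + 1), (parse x 0 fun _ => []).1 j =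
      if 0 < j.1 then (((ys.getD (j.1 - 1) []).map fun b => (some (Sum.inr b) : G α)).reverse)
        else (w.map fun a => (some (Sum.inl a) : G α)).reverse := by
    intro j
    have h1 : parse x (0 : Fin (k + 1)) (fun _ => []) =
        parse (ys.flatMap fun y => none :: y.map fun b => some (Sum.inr b)) 0
          (update (fun _ => []) 0 (w.map fun a => (some (Sum.inl a) : G α)).reverse) := by
      rw [hx]
      unfold tupleCode
      rw [parse_append, parse_map]
      simp
    have h2 := parse_ys ys 0 (Nat.succ_pos k)
      (update (fun _ : Fin (k + 1) => []) 0 (w.map fun a => (some (Sum.inl a) : G α)).reverse)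
      (by omega) (fun j hj => by
        rw [update_of_ne (by intro h; rw [h] at hj; simp at hj)]) j
    rw [h1]
    refine h2.trans ?_
    by_cases hj : 0 < j.1
    · rw [if_pos hj, if_pos hj]
    · rw [if_neg hj, if_neg hj]
      have : j = 0 := Fin.ext (by simpa using hj)
      rw [this, update_self]
  unfold res
  have e1 : ((parse x 0 fun _ => [] : (Fin (k + 1) → List (G α)) × _).1 0).reverse =
      (w.map fun a => (some (Sum.inl a) : G α)).drop 0 := by
    rw [hP, if_neg (by simp), List.reverse_reverse, List.drop_zero]
  have e2 : update (parse x 0 fun _ => [] : (Fin (k + 1) → List (G α)) × _).1 0 [] =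
      Dm α k ys 0 := by
    funext j
    unfold Dm
    by_cases hj : j = 0
    · subst hj
      rw [update_self, if_pos (Fin.val_zero _)]
    · have hj' : j.1 ≠ 0 := fun h => hj (Fin.ext h)
      rw [update_of_ne hj, hP, if_pos (Nat.pos_of_ne_zero hj'), if_neg hj', List.drop_zero]
  rw [e1, e2]
  congr 1
  refine runD_eq A w ys hk x.length 0 (Nat.zero_le _) ?_
  rw [zero_add, cols_le, hx]
  unfold tupleCode
  refine ⟨by simp, fun y hy => ?_⟩
  rw [List.length_append, List.length_flatMap]
  have h3 : y.length + 1 ≤ (ys.map fun y => (none :: y.map fun b =>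
      (some (Sum.inr b) : Option (α ⊕ Bool))).length).sum := by
    refine List.single_le_sum (fun _ _ => Nat.zero_le _) _ ?_
    exact List.mem_map.2 ⟨y, hy, by simp⟩
  omega

end AutM

/-- module H2 (machine): the value of the automaton on the tracks given by the code is decidable in
polynomial time. -/
theorem polyTime_aut {α : Type} [Fintype α] [DecidableEq α] (A : Aut α) (k : ℕ) :
    ∃ R : List (Option (α ⊕ Bool)) → Bool, PolyTimeDec R ∧
      ∀ (w : List α) (ys : List (List Bool)), ys.length = k →
        (R (tupleCode w ys) = true ↔
          A.accepts w (ys.map fun y => (Nat.ofDigits 2 (y.reverse.map Bool.toNat), y.length))) :=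
  ⟨AutM.res A k, AutM.polyTimeDec_res A k, fun w ys hk => by
    rw [AutM.res_eq A w ys hk]
    rfl⟩

end Vale.Agent.P337
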