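import Vale.Agent.P337.Cnt

/-!
# Bit strings and numbers (part of module H2)
-/

namespace Vale.Agent.P337

/-- the number with the given binary digits (most significant first) and the number of digits -/
def encB (y : List Bool) : ℕ × ℕ := (Nat.ofDigits 2 (y.reverse.map Bool.toNat), y.length)

theorem encB_lt {m : ℕ} {y : List Bool} (h : y.length = m) : (encB y).1 < 2 ^ m := by
  have h1 : ∀ l ∈ y.reverse.map Bool.toNat, l < 2 := by
    intro l hl
    obtain ⟨b, -, rfl⟩ := List.mem_map.mp hl
    cases b <;> simp
  have h2 := Nat.ofDigits_lt_base_pow_length (b := 2) (by norm_num) h1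
  rw [List.length_map, List.length_reverse, h] at h2
  exact h2

theorem encB_inj {y z : List Bool} (hl : y.length = z.length) (h : (encB y).1 = (encB z).1) :
    y = z := by
  have h1 : ∀ y : List Bool, ∀ l ∈ y.reverse.map Bool.toNat, l < 2 := by
    intro y l hl
    obtain ⟨b, -, rfl⟩ := List.mem_map.mp hl
    cases b <;> simp
  have h2 := Nat.ofDigits_inj_of_len_eq (b := 2) (by norm_num) (by simp [hl]) (h1 y) (h1 z) h
  have h3 : Function.Injective Bool.toNat := by decide
  exact List.reverse_injective (List.map_injective_iff.mpr h3 h2)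

theorem encB_surj (m : ℕ) : ∀ n < 2 ^ m, ∃ y : List Bool, y.length = m ∧ (encB y).1 = n := by
  suffices h : ∀ n < 2 ^ m, ∃ y : List Bool, y.length = m ∧
      Nat.ofDigits 2 (y.map Bool.toNat) = n by
    intro n hn
    obtain ⟨y, h1, h2⟩ := h n hn
    exact ⟨y.reverse, by simp [h1], by simpa [encB] using h2⟩
  induction m with
  | zero =>
    intro n hn
    exact ⟨[], rfl, by simp at hn; simp [hn]⟩
  | succ m ih =>
    intro n hn
    obtain ⟨y, h1, h2⟩ := ih (n / 2) (by rw [pow_succ] at hn; omega)
    refine ⟨(decide (n % 2 = 1)) :: y, by simp [h1], ?_⟩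
    rw [List.map_cons, Nat.ofDigits_cons, h2]
    rcases Nat.mod_two_eq_zero_or_one n with h | h <;> simp [h] <;> omega

theorem most_iff_maj (m : ℕ) (S : ℕ → Prop) : Most m (fun y => S (encB y).1) ↔ Maj m S := by
  unfold Most Maj
  have h : Nat.card {n : ℕ // n < 2 ^ m ∧ S n} =
      Nat.card {y : List Bool // y.length = m ∧ S (encB y).1} := by
    show Set.ncard {n : ℕ | n < 2 ^ m ∧ S n} =
      Set.ncard {y : List Bool | y.length = m ∧ S (encB y).1}
    have himg : {n : ℕ | n < 2 ^ m ∧ S n} =
        (fun y => (encB y).1) '' {y : List Bool | y.length = m ∧ S (encB y).1} := by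
      ext n
      constructor
      · rintro ⟨h1, h2⟩
        obtain ⟨y, hy, rfl⟩ := encB_surj m n h1
        exact ⟨y, ⟨hy, h2⟩, rfl⟩
      · rintro ⟨y, ⟨h1, h2⟩, rfl⟩
        exact ⟨encB_lt h1, h2⟩
    rw [himg]
    apply Set.InjOn.ncard_image
    intro y hy z hz hyz
    exact encB_inj (hy.1.trans hz.1.symm) hyz
  rw [h]

theorem most_congr {m : ℕ} {S T : List Bool → Prop} (h : ∀ y, y.length = m → (S y ↔ T y)) :
    Most m S ↔ Most m T := by
  unfold Most
  have : {y : List Bool // y.length = m ∧ S y} = {y : List Bool // y.length = m ∧ T y} := by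
    congr 1
    funext y
    exact propext (and_congr_right fun hy => h y hy)
  rw [this]

theorem mostL_congr : ∀ (ms : List ℕ) {S T : List (List Bool) → Prop},
    (∀ ys, ys.length = ms.length → (S ys ↔ T ys)) → (MostL ms S ↔ MostL ms T)
  | [], S, T, h => h [] rfl
  | m :: ms, S, T, h => by
    apply most_congr
    intro y _
    apply mostL_congr ms
    intro ys hys
    exact h (y :: ys) (by simp [hys])

theorem mostL_iff_majL : ∀ (ms : List ℕ) (S : List (ℕ × ℕ) → Prop) (l : List (ℕ × ℕ)),
    MostL ms (fun ys => S (l ++ ys.map encB)) ↔ MajL ms S l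
  | [], S, l => by simp [MostL, MajL]
  | m :: ms, S, l => by
    show Most m (fun y => MostL ms fun ys => S (l ++ (y :: ys).map encB)) ↔
      Maj m fun y => MajL ms S (l ++ [(y, m)])
    rw [← most_iff_maj]
    apply most_congr
    intro y hy
    have e : (y.length : ℕ) = (encB y).2 := rfl
    have h := mostL_iff_majL ms S (l ++ [((encB y).1, m)])
    rw [← h]
    apply mostL_congr
    intro ys _
    have h1 : l ++ (y :: ys).map encB = (l ++ [((encB y).1, m)]) ++ ys.map encB := by
      rw [List.map_cons, List.append_assoc, List.singleton_append]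
      congr 2
      exact Prod.ext rfl hy
    rw [h1]

end Vale.Agent.P337
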