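import Vale.Agent.P337.Cnt
import Vale.Agent.P337.MachA3
import Vale.Agent.P337.MachB

/-!
# The automata are polynomial time machines (module H2)
-/

namespace Vale.Agent.P337

/-- module H2 (translation of numbers to strings) -/
theorem CH_of_InCH {α : Type} [Fintype α] [DecidableEq α] {S : List α → (Fin 0 → ℕ) → Prop}
    (h : InCH S) : CH {w | S w Fin.elim0} := by
  obtain ⟨ms, A, hA⟩ := h 0
  obtain ⟨R, hR, hRA⟩ := polyTime_aut A ms.length
  refine ⟨ms.length, ms, R, rfl, hR, fun w => ?_⟩
  have h1 := (hA w Fin.elim0 (fun i => i.elim0)).2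
  rw [List.ofFn_zero] at h1
  rw [Set.mem_ofPred_eq, h1, ← mostL_iff_majL]
  apply mostL_congr
  intro ys hys
  rw [List.length_map] at hys
  rw [hRA w ys hys, List.nil_append]
  rfl

end Vale.Agent.P337
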