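import Vale.Agent.P337.Cnt

/-!
# The automata are polynomial time machines: the machine (module H2)
-/

namespace Vale.Agent.P337

open Function Turing

namespace AutM

variable {α : Type} {k : ℕ}

/-- stack symbols -/
abbrev G (α : Type) : Type := Option (α ⊕ Bool)

/-- the stacks: `none` output, `some none` input, `some (some j)` the word (`j = 0`, reversed) and
the bit strings -/
abbrev Stk (k : ℕ) : Type := Option (Option (Fin (k + 1)))

/-- the stack alphabets -/
abbrev Gam (α : Type) (k : ℕ) : Stk k → Type
  | none => Bool
  | some _ => G α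

/-- the letter of a symbol -/
def toA : G α → Option α
  | some (Sum.inl a) => some a
  | _ => none

/-- the bit of a symbol -/
def toB : G α → Option Bool
  | some (Sum.inr b) => some b
  | _ => none

/-- memory: state of the automaton, index of the current stack, popped symbols -/
abbrev Mem (A : Aut α) (k : ℕ) : Type := A.Q × Fin (k + 1) × Option (G α) × (Fin (k + 1) → Option (G α))

/-- next stack -/
def bump (i : Fin (k + 1)) : Fin (k + 1) := if h : i.1 + 1 < k + 1 then ⟨i.1 + 1, h⟩ else i

/-- initial memory -/
def mem0 (A : Aut α) (q : A.Q) (i : Fin (k + 1)) : Mem A k := (q, i, none, fun _ => none)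

abbrev Stm (A : Aut α) (k : ℕ) : Type := TM2.Stmt (Gam α k) (Fin 3) (Mem A k)

/-- forget the popped symbols -/
def clr (A : Aut α) (q : Stm A k) : Stm A k := .load (fun v => mem0 A v.1 v.2.1) q

/-- push the symbol popped from the input to the current stack -/
def pushAt (A : Aut α) (q : Stm A k) : List (Fin (k + 1)) → Stm A k
  | [] => q
  | j :: js => .branch (fun v => decide (v.2.1 = j))
      (.push (some (some j)) (fun v => v.2.2.1.getD none) q) (pushAt A q js)

/-- pop all the stacks of the list -/
def popAll (A : Aut α) (q : Stm A k) : List (Fin (k + 1)) → Stm A k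
  | [] => q
  | j :: js => .pop (some (some j)) (fun v x => (v.1, v.2.1, v.2.2.1, update v.2.2.2 j x))
      (popAll A q js)

/-- the next state of the automaton -/
def stepM (A : Aut α) (v : Mem A k) : A.Q :=
  A.step v.1 (v.2.2.1.bind toA) (List.ofFn fun i : Fin k => (v.2.2.2 i.succ).bind toB)

/-- all stacks were empty -/
def allNone (A : Aut α) (v : Mem A k) : Bool :=
  v.2.2.1.isNone && (List.finRange (k + 1)).all fun j => (v.2.2.2 j).isNone

/-- the statements -/
def stm (A : Aut α) (k : ℕ) : Fin 3 → Stm A k
  | 0 => .pop (some none) (fun v x => (v.1, v.2.1, x, v.2.2.2))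
      (.branch (fun v => v.2.2.1.isSome)
        (.branch (fun v => (v.2.2.1.getD none).isSome)
          (pushAt A (clr A (.goto fun _ => 0)) (List.finRange (k + 1)))
          (.load (fun v => mem0 A v.1 (bump v.2.1)) (.goto fun _ => 0)))
        (clr A (.goto fun _ => 1)))
  | 1 => .pop (some (some 0)) (fun v x => (v.1, v.2.1, x, v.2.2.2))
      (.branch (fun v => v.2.2.1.isSome)
        (.push (some none) (fun v => v.2.2.1.getD none) (clr A (.goto fun _ => 1)))
        (clr A (.goto fun _ => 2)))
  | 2 => .pop (some none) (fun v x => (v.1, v.2.1, x, v.2.2.2))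
      (popAll A
        (.branch (fun v => allNone A v)
          (.push none (fun v => A.acc v.1) (.load (fun _ => mem0 A A.init 0) .halt))
          (.load (fun v => mem0 A (stepM A v) v.2.1) (.goto fun _ => 2)))
        (List.finRange (k + 1)))

/-- the machine -/
def machine [Fintype α] (A : Aut α) (k : ℕ) : FinTM2 :=
  letI := A.fin
  { K := Stk k
    k₀ := some none
    k₁ := none
    Γ := Gam α k
    Λ := Fin 3
    main := 0
    σ := Mem A k
    initialState := mem0 A A.init 0
    Γk₀Fin := inferInstanceAs (Fintype (G α))
    m := stm A k }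

/-- the stacks -/
def stks (o : List Bool) (inp : List (G α)) (D : Fin (k + 1) → List (G α)) :
    (s : Stk k) → List (Gam α k s)
  | none => o
  | some none => inp
  | some (some j) => D j

theorem stks_inp (o : List Bool) (inp inp' : List (G α)) (D : Fin (k + 1) → List (G α)) :
    update (stks o inp D) (some none) inp' = stks o inp' D := by
  funext s
  rcases s with _ | _ | s
  · rw [update_of_ne (by simp)]; rfl
  · rw [update_self]; rfl
  · rw [update_of_ne (by simp)]; rfl

theorem stks_out (o o' : List Bool) (inp : List (G α)) (D : Fin (k + 1) → List (G α)) :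
    update (stks o inp D) none o' = stks o' inp D := by
  funext s
  rcases s with _ | _ | s
  · rw [update_self]; rfl
  · rw [update_of_ne (by simp)]; rfl
  · rw [update_of_ne (by simp)]; rfl

theorem stks_st (o : List Bool) (inp : List (G α)) (D : Fin (k + 1) → List (G α)) (j : Fin (k + 1))
    (l : List (G α)) : update (stks o inp D) (some (some j)) l = stks o inp (update D j l) := by
  funext s
  rcases s with _ | _ | s
  · rw [update_of_ne (by simp)]; rfl
  · rw [update_of_ne (by simp)]; rfl
  · by_cases h : s = j
    · subst h
      rw [update_self]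
      show l = update D s l s
      rw [update_self]
    · rw [update_of_ne (by simpa using h)]
      show D s = update D j l s
      rw [update_of_ne h]

variable [Fintype α]

/-- configurations -/
def cfg (A : Aut α) (k : ℕ) (c : Fin 3) (q : A.Q) (i : Fin (k + 1)) (o : List Bool)
    (inp : List (G α)) (D : Fin (k + 1) → List (G α)) : (machine A k).Cfg :=
  { l := some c, var := mem0 A q i, stk := stks o inp D }

/-- `t` steps lead from one configuration to another one -/
def Run (tm : FinTM2) (t : ℕ) (a b : tm.Cfg) : Prop :=
  (flip bind tm.step)^[t] (some a) = some b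

theorem Run.refl (tm : FinTM2) (a : tm.Cfg) : Run tm 0 a a := rfl

theorem Run.trans {tm : FinTM2} {t t' : ℕ} {a b c : tm.Cfg} (h : Run tm t a b)
    (h' : Run tm t' b c) : Run tm (t + t') a c := by
  unfold Run at *
  rw [add_comm, Function.iterate_add_apply, h, h']

theorem Run.one {tm : FinTM2} {a b : tm.Cfg} (h : tm.step a = some b) : Run tm 1 a b := h

theorem step_cfg (A : Aut α) (c : Fin 3) (q : A.Q) (i : Fin (k + 1)) (o : List Bool)
    (inp : List (G α)) (D : Fin (k + 1) → List (G α)) :
    (machine A k).step (cfg A k c q i o inp D) =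
      some (TM2.stepAux (stm A k c) (mem0 A q i) (stks o inp D)) := rfl

omit [Fintype α] in
theorem stepAux_pushAt (A : Aut α) (Q : Stm A k) (l : List (Fin (k + 1))) (v : Mem A k)
    (hv : v.2.1 ∈ l) (o : List Bool) (inp : List (G α)) (D : Fin (k + 1) → List (G α)) :
    TM2.stepAux (pushAt A Q l) v (stks o inp D) =
      TM2.stepAux Q v (stks o inp (update D v.2.1 (v.2.2.1.getD none :: D v.2.1))) := by
  induction l with
  | nil => simp at hv
  | cons j js ih =>
    rw [pushAt, TM2.stepAux]
    by_cases h : v.2.1 = j
    · subst h
      rw [decide_eq_true rfl, cond_true, TM2.stepAux]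
      rw [stks_st]
      rfl
    · rw [decide_eq_false h, cond_false]
      exact ih ((List.mem_cons.1 hv).resolve_left h)

omit [Fintype α] in
theorem stepAux_popAll (A : Aut α) (Q : Stm A k) (l : List (Fin (k + 1))) : ∀ (v : Mem A k)
    (o : List Bool) (inp : List (G α)) (D : Fin (k + 1) → List (G α)), l.Nodup →
    TM2.stepAux (popAll A Q l) v (stks o inp D) =
      TM2.stepAux Q (v.1, v.2.1, v.2.2.1, fun j => if j ∈ l then (D j).head? else v.2.2.2 j)
        (stks o inp fun j => if j ∈ l then (D j).tail else D j) := by
  induction l with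
  | nil =>
    intro v o inp D _
    simp only [popAll, List.not_mem_nil, if_false]
  | cons j js ih =>
    intro v o inp D hl
    rw [popAll, TM2.stepAux, stks_st, ih _ _ _ _ (List.nodup_cons.1 hl).2]
    have hj := (List.nodup_cons.1 hl).1
    have e1 : (fun i => if i ∈ js then ((update D j (stks o inp D (some (some j))).tail) i).head?
        else (update v.2.2.2 j (stks o inp D (some (some j))).head?) i) =
        fun i => if i ∈ j :: js then (D i).head? else v.2.2.2 i := by
      funext i
      by_cases h : i = j
      · subst h
        simp only [hj, if_false, List.mem_cons, true_or, if_true, update_self]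
        rfl
      · simp only [List.mem_cons, h, false_or, ne_eq, not_false_eq_true, update_of_ne]
    have e2 : (fun i => if i ∈ js then ((update D j (stks o inp D (some (some j))).tail) i).tail
        else (update D j (stks o inp D (some (some j))).tail) i) =
        fun i => if i ∈ j :: js then (D i).tail else D i := by
      funext i
      by_cases h : i = j
      · subst h
        simp only [hj, if_false, List.mem_cons, true_or, if_true, update_self]
        rfl
      · simp only [List.mem_cons, h, false_or, ne_eq, not_false_eq_true, update_of_ne]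
    dsimp only
    rw [e1, e2]

theorem run_sep (A : Aut α) (q : A.Q) (i : Fin (k + 1)) (o : List Bool) (inp : List (G α))
    (D : Fin (k + 1) → List (G α)) :
    Run (machine A k) 1 (cfg A k 0 q i o (none :: inp) D) (cfg A k 0 q (bump i) o inp D) := by
  apply Run.one
  rw [step_cfg]
  simp only [stm, TM2.stepAux]
  rw [stks_inp]
  rfl

theorem run_sym (A : Aut α) (q : A.Q) (i : Fin (k + 1)) (o : List Bool) (x : α ⊕ Bool)
    (inp : List (G α)) (D : Fin (k + 1) → List (G α)) :
    Run (machine A k) 1 (cfg A k 0 q i o (some x :: inp) D)
      (cfg A k 0 q i o inp (update D i (some x :: D i))) := by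
  apply Run.one
  rw [step_cfg]
  simp only [stm, TM2.stepAux]
  rw [stks_inp]
  show some (TM2.stepAux (pushAt A (clr A (.goto fun _ => 0)) (List.finRange (k + 1)))
    (q, i, some (some x), fun _ => none) (stks o inp D)) = _
  rw [stepAux_pushAt _ _ _ _ (List.mem_finRange _)]
  rfl

theorem run_end (A : Aut α) (q : A.Q) (i : Fin (k + 1)) (o : List Bool)
    (D : Fin (k + 1) → List (G α)) :
    Run (machine A k) 1 (cfg A k 0 q i o [] D) (cfg A k 1 q i o [] D) := by
  apply Run.one
  rw [step_cfg]
  simp only [stm, TM2.stepAux]
  rw [stks_inp]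
  rfl

theorem run_mv (A : Aut α) (q : A.Q) (i : Fin (k + 1)) (o : List Bool) (inp : List (G α))
    (D : Fin (k + 1) → List (G α)) (x : G α) (l : List (G α)) (h : D 0 = x :: l) :
    Run (machine A k) 1 (cfg A k 1 q i o inp D) (cfg A k 1 q i o (x :: inp) (update D 0 l)) := by
  apply Run.one
  rw [step_cfg]
  simp only [stm, TM2.stepAux]
  rw [stks_st]
  have e : stks o inp D (some (some 0)) = x :: l := h
  rw [e]
  show some (TM2.stepAux (clr A (.goto fun _ => 1)) (q, i, some x, fun _ => none)
    (update (stks o inp (update D 0 l)) (some none) (x :: inp))) = _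
  rw [stks_inp]
  rfl

theorem run_mv_end (A : Aut α) (q : A.Q) (i : Fin (k + 1)) (o : List Bool) (inp : List (G α))
    (D : Fin (k + 1) → List (G α)) (h : D 0 = []) :
    Run (machine A k) 1 (cfg A k 1 q i o inp D) (cfg A k 2 q i o inp D) := by
  apply Run.one
  rw [step_cfg]
  simp only [stm, TM2.stepAux]
  rw [stks_st]
  have e : stks o inp D (some (some 0)) = [] := h
  rw [e]
  have e2 : update D 0 (List.tail []) = D := by
    rw [List.tail_nil, ← h, update_eq_self]
  show some (TM2.stepAux (clr A (.goto fun _ => 2)) (q, i, none, fun _ => none)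
    (stks o inp (update D 0 (List.tail [])))) = _
  rw [e2]
  rfl

/-- the next state of the automaton, from the stacks -/
def stepQ (A : Aut α) (q : A.Q) (inp : List (G α)) (D : Fin (k + 1) → List (G α)) : A.Q :=
  A.step q (inp.head?.bind toA) (List.ofFn fun i : Fin k => (D i.succ).head?.bind toB)

omit [Fintype α] in
theorem stepAux_two (A : Aut α) (q : A.Q) (i : Fin (k + 1)) (o : List Bool) (inp : List (G α))
    (D : Fin (k + 1) → List (G α)) :
    TM2.stepAux (stm A k 2) (mem0 A q i) (stks o inp D) =
      TM2.stepAux (.branch (fun v => allNone A v)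
          (.push none (fun v => A.acc v.1) (.load (fun _ => mem0 A A.init 0) .halt))
          (.load (fun v => mem0 A (stepM A v) v.2.1) (.goto fun _ => 2)))
        (q, i, inp.head?, fun j => (D j).head?) (stks o inp.tail fun j => (D j).tail) := by
  simp only [stm]
  rw [TM2.stepAux, stks_inp, stepAux_popAll _ _ _ _ _ _ _ (List.nodup_finRange _)]
  simp only [List.mem_finRange, if_true]
  rfl

theorem run_go (A : Aut α) (q : A.Q) (i : Fin (k + 1)) (o : List Bool) (inp : List (G α))
    (D : Fin (k + 1) → List (G α)) (h : ¬ (inp = [] ∧ ∀ j, D j = [])) :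
    Run (machine A k) 1 (cfg A k 2 q i o inp D)
      (cfg A k 2 (stepQ A q inp D) i o inp.tail fun j => (D j).tail) := by
  apply Run.one
  rw [step_cfg, stepAux_two, TM2.stepAux]
  have e : allNone A ((q, i, inp.head?, fun j => (D j).head?) : Mem A k) = false := by
    rw [← Bool.not_eq_true]
    intro h'
    apply h
    simp only [allNone, Bool.and_eq_true, List.all_eq_true, Option.isNone_iff_eq_none,
      List.head?_eq_none_iff] at h'
    exact ⟨h'.1, fun j => h'.2 j (List.mem_finRange j)⟩
  rw [e]
  rfl

theorem run_stop (A : Aut α) (q : A.Q) (i : Fin (k + 1)) (o : List Bool) :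
    Run (machine A k) 1 (cfg A k 2 q i o [] fun _ => [])
      { l := none, var := mem0 A A.init 0, stk := stks (A.acc q :: o) [] fun _ => [] } := by
  apply Run.one
  rw [step_cfg, stepAux_two, TM2.stepAux]
  have e : allNone A ((q, i, ([] : List (G α)).head?, fun _ => ([] : List (G α)).head?) : Mem A k) =
      true := by
    simp [allNone]
  rw [e]
  show some (TM2.stepAux (.load (fun _ => mem0 A A.init 0) .halt)
    (q, i, none, fun _ => none) (update (stks o [] fun _ => []) none (A.acc q :: o))) = _
  rw [stks_out]
  rfl

end AutM

end Vale.Agent.P337
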