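import Vale.Agent.P337.MachA

/-!
# The automata are polynomial time machines: runs of the machine (module H2)
-/

namespace Vale.Agent.P337

open Function Turing

namespace AutM

variable {α : Type} {k : ℕ}

/-- the stacks after reading the input -/
def parse : List (G α) → Fin (k + 1) → (Fin (k + 1) → List (G α)) →
    (Fin (k + 1) → List (G α)) × Fin (k + 1)
  | [], i, D => (D, i)
  | none :: x, i, D => parse x (bump i) D
  | some s :: x, i, D => parse x i (update D i (some s :: D i))

/-- the run of the automaton on stacks -/
def runD (A : Aut α) : ℕ → A.Q → List (G α) → (Fin (k + 1) → List (G α)) → A.Q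
  | 0, q, _, _ => q
  | n + 1, q, inp, D =>
    open Classical in
    if inp = [] ∧ ∀ j, D j = [] then q else
      runD A n (stepQ A q inp D) inp.tail fun j => (D j).tail

theorem parse_length (x : List (G α)) : ∀ (i : Fin (k + 1)) (D : Fin (k + 1) → List (G α)) (n : ℕ),
    (∀ j, (D j).length ≤ n) → ∀ j, ((parse x i D).1 j).length ≤ x.length + n := by
  induction x with
  | nil => intro i D n h j; simpa [parse] using h j
  | cons s x ih =>
    intro i D n h j
    cases s with
    | none =>
      have := ih (bump i) D n h j
      rw [List.length_cons]
      simp only [parse]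
      omega
    | some s =>
      have := ih i (update D i (some s :: D i)) (n + 1) (fun j => by
        by_cases hj : j = i
        · subst hj
          rw [update_self, List.length_cons]
          have := h j
          omega
        · rw [update_of_ne hj]
          have := h j
          omega) j
      rw [List.length_cons]
      simp only [parse]
      omega

theorem parse_append (x y : List (G α)) : ∀ (i : Fin (k + 1)) (D : Fin (k + 1) → List (G α)),
    parse (x ++ y) i D = parse y (parse x i D).2 (parse x i D).1 := by
  induction x with
  | nil => intro i D; rfl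
  | cons s x ih =>
    intro i D
    cases s with
    | none => exact ih _ _
    | some s => exact ih _ _

theorem parse_map {β : Type} (f : β → α ⊕ Bool) (l : List β) : ∀ (i : Fin (k + 1))
    (D : Fin (k + 1) → List (G α)),
    parse (l.map fun a => some (f a)) i D =
      (update D i ((l.map fun a => some (f a)).reverse ++ D i), i) := by
  induction l with
  | nil =>
    intro i D
    simp [parse]
  | cons a l ih =>
    intro i D
    rw [List.map_cons, parse, ih, update_self, update_idem]
    simp

/-- the stacks with the bit strings -/
theorem parse_ys (ys : List (List Bool)) : ∀ (m : ℕ) (hm : m < k + 1) (D : Fin (k + 1) → List (G α)),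
    m + ys.length < k + 1 → (∀ j : Fin (k + 1), m < j.1 → D j = []) →
    ∀ j : Fin (k + 1),
      (parse (ys.flatMap fun y => none :: y.map fun b => some (Sum.inr b)) ⟨m, hm⟩ D).1 j =
        if m < j.1 then (((ys.getD (j.1 - (m + 1)) []).map fun b => some (Sum.inr b)).reverse)
          else D j := by
  induction ys with
  | nil =>
    intro m hm D _ hD j
    simp only [List.flatMap_nil, parse, List.getD_nil, List.map_nil, List.reverse_nil]
    split_ifs with h
    · exact hD j h
    · rfl
  | cons y ys ih =>
    intro m hm D hlen hD j
    rw [List.length_cons] at hlen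
    have hb : bump (⟨m, hm⟩ : Fin (k + 1)) = ⟨m + 1, by omega⟩ := by
      unfold bump
      rw [dif_pos (by simp only; omega)]
    rw [List.flatMap_cons, parse_append]
    rw [parse, hb, parse_map]
    dsimp only
    rw [ih (m + 1) (by omega) _ (by omega) (fun j hj => by
      rw [update_of_ne (by intro h; rw [h] at hj; simp at hj)]
      exact hD j (by omega))]
    by_cases h1 : m + 1 < j.1
    · rw [if_pos h1, if_pos (by omega)]
      have : j.1 - (m + 1) = (j.1 - (m + 1 + 1)) + 1 := by omega
      rw [this, List.getD_cons_succ]
    · rw [if_neg h1]
      by_cases h2 : m < j.1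
      · have h3 : j = ⟨m + 1, by omega⟩ := Fin.ext (by simp only; omega)
        rw [if_pos h2, h3, update_self]
        simp only [Nat.sub_self, List.getD_cons_zero]
        rw [hD _ (by simp), List.append_nil]
      · rw [if_neg h2, update_of_ne (by intro h; rw [h] at h2; simp at h2)]

variable [Fintype α]

theorem run_parse (A : Aut α) (q : A.Q) (o : List Bool) (x : List (G α)) : ∀ (i : Fin (k + 1))
    (D : Fin (k + 1) → List (G α)),
    Run (machine A k) (x.length + 1) (cfg A k 0 q i o x D)
      (cfg A k 1 q (parse x i D).2 o [] (parse x i D).1) := by
  induction x with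
  | nil => intro i D; exact run_end A q i o D
  | cons s x ih =>
    intro i D
    cases s with
    | none =>
      have h := (run_sep A q i o x D).trans (ih (bump i) D)
      have e : 1 + (x.length + 1) = (none :: x : List (G α)).length + 1 := by
        rw [List.length_cons]; omega
      rw [e] at h
      exact h
    | some s =>
      have h := (run_sym A q i o s x D).trans (ih i (update D i (some s :: D i)))
      have e : 1 + (x.length + 1) = (some s :: x : List (G α)).length + 1 := by
        rw [List.length_cons]; omega
      rw [e] at h
      exact h

theorem run_move (A : Aut α) (q : A.Q) (i : Fin (k + 1)) (o : List Bool) (l : List (G α)) :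
    ∀ (inp : List (G α)) (D : Fin (k + 1) → List (G α)), D 0 = l →
    Run (machine A k) (l.length + 1) (cfg A k 1 q i o inp D)
      (cfg A k 2 q i o (l.reverse ++ inp) (update D 0 [])) := by
  induction l with
  | nil =>
    intro inp D h
    have e : update D 0 [] = D := by rw [← h, update_eq_self]
    rw [e]
    exact run_mv_end A q i o inp D h
  | cons x l ih =>
    intro inp D h
    have h2 := (run_mv A q i o inp D x l h).trans (ih (x :: inp) (update D 0 l) (update_self _ _ _))
    have e : 1 + (l.length + 1) = (x :: l).length + 1 := by
      rw [List.length_cons]; omega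
    rw [e, update_idem] at h2
    simpa using h2

/-- the final configuration -/
def fin (A : Aut α) (k : ℕ) (o : List Bool) : (machine A k).Cfg :=
  { l := none, var := mem0 A A.init 0, stk := stks o [] fun _ => [] }

theorem run_runD (A : Aut α) (i : Fin (k + 1)) (o : List Bool) (n : ℕ) : ∀ (q : A.Q)
    (inp : List (G α)) (D : Fin (k + 1) → List (G α)), inp.length ≤ n → (∀ j, (D j).length ≤ n) →
    ∃ t ≤ n + 1, Run (machine A k) t (cfg A k 2 q i o inp D)
      (fin A k (A.acc (runD A n q inp D) :: o)) := by
  induction n with
  | zero =>
    intro q inp D h1 h2
    have e1 : inp = [] := List.length_eq_zero_iff.1 (Nat.le_zero.1 h1)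
    have e2 : D = fun _ => [] := funext fun j => List.length_eq_zero_iff.1 (Nat.le_zero.1 (h2 j))
    subst e1 e2
    exact ⟨1, le_rfl, run_stop A q i o⟩
  | succ n ih =>
    intro q inp D h1 h2
    by_cases h : inp = [] ∧ ∀ j, D j = []
    · obtain ⟨e1, e2⟩ := h
      have e2 : D = fun _ => [] := funext e2
      subst e1 e2
      refine ⟨1, by omega, ?_⟩
      simp only [runD, implies_true, and_self, if_true]
      exact run_stop A q i o
    · obtain ⟨t, ht, hr⟩ := ih (stepQ A q inp D) inp.tail (fun j => (D j).tail)
        (by rw [List.length_tail]; omega) (fun j => by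
          have := h2 j
          rw [List.length_tail]; omega)
      refine ⟨1 + t, by omega, ?_⟩
      simp only [runD, h, if_false]
      exact (run_go A q i o inp D h).trans hr

theorem init_eq (A : Aut α) (k : ℕ) (x : List (G α)) :
    initList (machine A k) x = cfg A k 0 A.init 0 [] x fun _ => [] := by
  unfold initList cfg
  congr 1
  funext s
  rcases s with _ | _ | s <;> rfl

theorem halt_eq (A : Aut α) (k : ℕ) (o : List Bool) :
    haltList (machine A k) o = fin A k o := by
  unfold haltList fin
  congr 1
  funext s
  rcases s with _ | _ | s <;> rfl

/-- the result for an arbitrary input -/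
noncomputable def res (A : Aut α) (k : ℕ) (x : List (G α)) : Bool :=
  A.acc (runD A x.length A.init ((parse x 0 fun _ => [] : (Fin (k + 1) → _) × _).1 0).reverse
    (update (parse x 0 fun _ => [] : (Fin (k + 1) → _) × _).1 0 []))

theorem run_all (A : Aut α) (k : ℕ) (x : List (G α)) :
    ∃ t ≤ 3 * x.length + 3, Run (machine A k) t (initList (machine A k) x)
      (haltList (machine A k) [res A k x]) := by
  set P : (Fin (k + 1) → List (G α)) × Fin (k + 1) := parse x 0 fun _ => [] with hP
  have hlen : ∀ j, (P.1 j).length ≤ x.length := fun j => by
    have := parse_length x 0 (fun _ : Fin (k + 1) => ([] : List (G α))) 0 (fun _ => le_rfl) j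
    simpa using this
  have h1 := run_parse (k := k) A A.init [] x 0 fun _ => []
  rw [← hP] at h1
  have h2 := run_move A A.init P.2 [] (P.1 0) [] P.1 rfl
  rw [List.append_nil] at h2
  obtain ⟨t, ht, h3⟩ := run_runD A P.2 [] x.length A.init (P.1 0).reverse (update P.1 0 [])
    (by rw [List.length_reverse]; exact hlen 0) (fun j => by
      by_cases hj : j = 0
      · subst hj
        rw [update_self]
        exact Nat.zero_le _
      · rw [update_of_ne hj]
        exact hlen j)
  refine ⟨(x.length + 1) + ((P.1 0).length + 1) + t, ?_, ?_⟩
  · have := hlen 0
    omega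
  · rw [init_eq]
    exact (congrArg (fun c => Run (machine A k) _ _ c) (halt_eq A k [res A k x])).mpr
      ((h1.trans h2).trans h3)

theorem polyTimeDec_res (A : Aut α) (k : ℕ) : PolyTimeDec (res A k) := by
  choose τ hτ hR using run_all A k
  refine ⟨{ tm := machine A k
            inputAlphabet := Equiv.refl _
            outputAlphabet := Equiv.refl _
            time := 3 * Polynomial.X + 3
            outputsFun := fun x => ?_ }, fun s => ?_⟩
  · refine { steps := τ x, evals_in_steps := ?_, steps_le_m := ?_ }
    · have key : ∀ (l₁ : List (G α)) (l₂ : List Bool), l₁ = x → l₂ = [res A k x] →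
          Run (machine A k) (τ x) (initList (machine A k) l₁) (haltList (machine A k) l₂) := by
        rintro _ _ rfl rfl
        exact hR _
      exact key _ _ (List.map_id _) (List.map_id _)
    · simp only [Polynomial.eval_add, Polynomial.eval_mul, Polynomial.eval_X,
        Polynomial.eval_ofNat, id_eq]
      exact hτ x
  · rcases s with _ | s
    · show Finite Bool
      infer_instance
    · show Finite (G α)
      infer_instance

end AutM

end Vale.Agent.P337
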