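import Mathlib

/-!
# Norm as a product over the points of a finite dimensional algebra
-/

namespace Vale.Agent.P337

open Module

section norm

variable {K A : Type*} [Field K] [IsAlgClosed K] [CommRing A] [Algebra K A] [Module.Finite K A]

/-- an ideal that is maximal is the kernel of an algebra homomorphism to `K` -/
theorem exists_algHom_of_maximal (I : Ideal A) [I.IsMaximal] :
    ∃ φ : A →ₐ[K] K, ∀ a : A, Ideal.Quotient.mk I a = algebraMap K (A ⧸ I) (φ a) := by
  let _ : Field (A ⧸ I) := Ideal.Quotient.field I
  have : Module.Finite K (A ⧸ I) := Module.Finite.of_surjective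
    (Ideal.Quotient.mkₐ K I).toLinearMap (Ideal.Quotient.mkₐ_surjective K I)
  have hb : Function.Bijective (algebraMap K (A ⧸ I)) :=
    IsAlgClosed.algebraMap_bijective_of_isIntegral
  let e : K ≃ₐ[K] (A ⧸ I) := AlgEquiv.ofBijective (Algebra.ofId K (A ⧸ I)) hb
  refine ⟨(e.symm : (A ⧸ I) →ₐ[K] K).comp (Ideal.Quotient.mkₐ K I), fun a => ?_⟩
  have h : e (e.symm (Ideal.Quotient.mk I a)) = Ideal.Quotient.mk I a := e.apply_symm_apply _
  exact h.symm

/-- the determinant of the multiplication on a finite dimensional module is a product over
points -/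
theorem exists_points_module (n : ℕ) : ∀ (M : Type _) [AddCommGroup M] [Module K M] [Module A M]
    [IsScalarTower K A M] [Module.Finite K M], finrank K M = n →
    ∃ φ : Fin n → (A →ₐ[K] K), ∀ a : A,
      LinearMap.det (Algebra.lsmul K K M a) = ∏ j, φ j a := by
  induction n with
  | zero =>
    intro M _ _ _ _ _ hM
    have : Subsingleton M := Module.finrank_zero_iff.1 hM
    refine ⟨Fin.elim0, fun a => ?_⟩
    rw [LinearMap.det_eq_one_of_subsingleton]
    simp
  | succ n ih =>
    intro M _ _ _ _ _ hM
    have : Nontrivial M := Module.nontrivial_of_finrank_pos (R := K) (by omega)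
    have : IsArtinian K M := inferInstance
    have : IsArtinian A M := isArtinian_of_tower K inferInstance
    obtain ⟨N, hN⟩ := IsAtomic.exists_atom (Submodule A M)
    have hNs : IsSimpleModule A N := isSimpleModule_iff_isAtom.2 hN
    obtain ⟨I, hI, ⟨f⟩⟩ := isSimpleModule_iff_quot_maximal.1 hNs
    obtain ⟨φ, hφ⟩ := exists_algHom_of_maximal (K := K) I
    have hact : ∀ (a : A) (x : N), a • x = φ a • x := by
      intro a x
      apply f.injective
      rw [map_smul]
      have h1 : f (φ a • x) = algebraMap K A (φ a) • f x := by
        rw [← map_smul]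
        congr 1
        rw [algebraMap_smul]
      rw [h1]
      obtain ⟨y, hy⟩ := Ideal.Quotient.mk_surjective (f x)
      rw [← hy]
      have h2 : ∀ b : A, b • (Ideal.Quotient.mk I y) = Ideal.Quotient.mk I b * Ideal.Quotient.mk I y := by
        intro b
        rw [← map_mul]
        rfl
      rw [h2, h2, hφ a]
      rfl
    have hN1 : finrank K N = 1 := by
      have hN0 : Nontrivial N := hNs.nontrivial
      obtain ⟨x, hx⟩ := exists_ne (0 : N)
      refine finrank_eq_one x hx fun y => ?_
      obtain ⟨a, ha⟩ := (IsSimpleModule.toSpanSingleton_surjective A hx) y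
      refine ⟨φ a, ?_⟩
      rw [← hact]
      exact ha
    obtain ⟨ψ, hψ⟩ := ih (M ⧸ N) (by
      have h := Submodule.finrank_quotient_add_finrank (N.restrictScalars K)
      have h2 : finrank K (M ⧸ N.restrictScalars K) = finrank K (M ⧸ N) :=
        (Submodule.Quotient.restrictScalarsEquiv K N).finrank_eq
      have h3 : finrank K (N.restrictScalars K) = finrank K N := rfl
      omega)
    refine ⟨Fin.cons φ ψ, fun a => ?_⟩
    have he : N.restrictScalars K ≤ (N.restrictScalars K).comap (Algebra.lsmul K K M a) := by
      intro x hx
      exact N.smul_mem a hx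
    rw [LinearMap.det_eq_det_mul_det (N.restrictScalars K) (Algebra.lsmul K K M a) he,
      Fin.prod_univ_succ]
    congr 1
    · have h1 : ∀ h, LinearMap.restrict (p := N.restrictScalars K) (q := N.restrictScalars K)
          (Algebra.lsmul K K M a) h = φ a • LinearMap.id := by
        intro h
        refine LinearMap.ext fun x => ?_
        have := hact a ⟨x.1, x.2⟩
        have h2 := congrArg Subtype.val this
        exact Subtype.ext h2
      rw [h1, LinearMap.det_smul]
      have h3 : finrank K (N.restrictScalars K) = finrank K N := rfl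
      rw [h3, hN1]
      simp
    · simp only [Fin.cons_succ]
      rw [← hψ a]
      rw [← LinearMap.det_conj (Submodule.mapQ (N.restrictScalars K) (N.restrictScalars K)
        (Algebra.lsmul K K M a) he) (Submodule.Quotient.restrictScalarsEquiv K N)]
      congr 1
      refine LinearMap.ext fun x => ?_
      obtain ⟨y, rfl⟩ := Submodule.Quotient.mk_surjective N x
      have e1 : (Submodule.Quotient.restrictScalarsEquiv K N).symm (Submodule.Quotient.mk y) =
        Submodule.Quotient.mk y := rfl
      rw [LinearMap.comp_apply, LinearMap.comp_apply]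
      rw [LinearEquiv.coe_coe, LinearEquiv.coe_coe, e1]
      rw [Submodule.mapQ_apply, Submodule.Quotient.restrictScalarsEquiv_mk]
      rfl

end norm

end Vale.Agent.P337
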