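import Vale.Agent.P337.Alg

/-!
# The norm from the traces of the powers modulo a prime (module B5)
-/

namespace Vale.Agent.P337

section Newton

open Polynomial Matrix

variable {R : Type*} [CommRing R] {ι : Type*} [Fintype ι] [DecidableEq ι]

theorem normP_eval_zero (M : Matrix ι ι R) : (det (1 + (X : R[X]) • M.map C)).eval 0 = 1 := by
  have h := coeff_det_X_add_C_zero M (1 : Matrix ι ι R)
  rw [Matrix.map_one C (map_zero C) (map_one C), det_one, coeff_zero_eq_eval_zero, add_comm] at h
  exact h

/-- the derivative of `det (1 + X M)` at a point where the matrix is invertible -/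
theorem normP_deriv_at (M W : Matrix ι ι R) (a : R) (hW : W * (1 + a • M) = 1) :
    (derivative (det (1 + (X : R[X]) • M.map C))).eval a =
      (det (1 + (X : R[X]) • M.map C)).eval a * trace (W * M) := by
  set P := det (1 + (X : R[X]) • M.map C) with hP
  set N := 1 + a • M with hN
  have hNW : N * W = 1 := mul_eq_one_comm.mp hW
  have h1 : P.comp (X + C a) = C (det N) * det (1 + (X : R[X]) • (W * M).map C) := by
    have e1 : P.comp (X + C a) = det (1 + (X + C a : R[X]) • M.map C) := by
      rw [hP, ← coe_compRingHom_apply, RingHom.map_det]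
      congr 1
      ext1 i j
      simp only [RingHom.mapMatrix_apply, Matrix.map_apply, Matrix.add_apply, Matrix.smul_apply,
        smul_eq_mul, map_add, map_mul, coe_compRingHom_apply, X_comp, C_comp]
      congr 1
      by_cases hij : i = j
      · subst hij
        simp
      · simp [Matrix.one_apply_ne hij]
    have e2 : (1 + (X + C a : R[X]) • M.map C) =
        N.map C * (1 + (X : R[X]) • (W * M).map C) := by
      rw [mul_add, mul_one, mul_smul_comm, ← Matrix.map_mul, ← Matrix.mul_assoc, hNW,
        Matrix.one_mul, add_smul, hN]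
      have e3 : (1 + a • M).map (C : R →+* R[X]) = 1 + (C a : R[X]) • M.map C := by
        ext1 i j
        simp only [Matrix.map_apply, Matrix.add_apply, Matrix.smul_apply, smul_eq_mul, map_add,
          map_mul]
        congr 1
        by_cases hij : i = j
        · subst hij
          simp
        · simp [Matrix.one_apply_ne hij]
      rw [e3]
      abel
    rw [e1, e2, det_mul]
    congr 1
    exact (RingHom.map_det C N).symm
  have h2 : P.eval a = det N := by
    have h3 := congrArg (eval 0) h1
    rw [eval_comp, eval_mul, eval_C, normP_eval_zero] at h3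
    simpa using h3
  have h4 := congrArg (fun Q => (derivative Q).eval 0) h1
  simp only [derivative_comp, derivative_mul, derivative_C, zero_mul, zero_add, eval_mul, eval_C,
    derivative_det_one_add_X_smul, derivative_add, derivative_X, add_zero, eval_one, one_mul,
    eval_comp, eval_add, eval_X] at h4
  rw [h4, h2]

/-- Newton's identities for the traces of the powers of a matrix -/
theorem normP_newton (M : Matrix ι ι R) (k : ℕ) :
    (det (1 + (X : R[X]) • M.map C)).coeff (k + 1) * (k + 1) =
      ∑ ij ∈ Finset.HasAntidiagonal.antidiagonal k, (det (1 + (X : R[X]) • M.map C)).coeff ij.1 *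
        ((-1) ^ ij.2 * trace (M ^ (ij.2 + 1))) := by
  set P := det (1 + (X : R[X]) • M.map C) with hP
  set M' : Matrix ι ι (PowerSeries R) := M.map (PowerSeries.C (R := R)) with hM'
  set W : Matrix ι ι (PowerSeries R) :=
    Matrix.of fun i j => PowerSeries.mk fun k => (-1) ^ k * (M ^ k) i j with hWd
  have hW : W * (1 + (PowerSeries.X : PowerSeries R) • M') = 1 := by
    rw [mul_add, mul_one]
    ext i j k
    rw [Matrix.add_apply, map_add, Matrix.mul_apply, map_sum]
    cases k with
    | zero =>
      have e1 : ∀ l ∈ (Finset.univ : Finset ι), PowerSeries.coeff 0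
          (W i l * ((PowerSeries.X : PowerSeries R) • M') l j) = 0 := by
        intro l _
        rw [Matrix.smul_apply, smul_eq_mul]
        simp
      rw [Finset.sum_eq_zero e1]
      simp only [hWd, Matrix.of_apply, PowerSeries.coeff_mk, pow_zero, one_mul, add_zero]
      by_cases hij : i = j
      · subst hij
        simp
      · simp [Matrix.one_apply_ne hij]
    | succ k =>
      have e1 : ∀ l ∈ (Finset.univ : Finset ι), PowerSeries.coeff (k + 1)
          (W i l * ((PowerSeries.X : PowerSeries R) • M') l j) =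
          (-1) ^ k * ((M ^ k) i l * M l j) := by
        intro l _
        rw [Matrix.smul_apply, smul_eq_mul, hM', Matrix.map_apply]
        have e2 : W i l * (PowerSeries.X * PowerSeries.C (M l j)) =
            (W i l * PowerSeries.C (M l j)) * PowerSeries.X := by ring
        rw [e2, PowerSeries.coeff_succ_mul_X, PowerSeries.coeff_mul_C]
        simp only [hWd, Matrix.of_apply, PowerSeries.coeff_mk]
        ring
      rw [Finset.sum_congr rfl e1, ← Finset.mul_sum, ← Matrix.mul_apply, ← pow_succ]
      simp only [hWd, Matrix.of_apply, PowerSeries.coeff_mk]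
      have e3 : PowerSeries.coeff (k + 1) ((1 : Matrix ι ι (PowerSeries R)) i j) = 0 := by
        by_cases hij : i = j
        · subst hij
          rw [Matrix.one_apply_eq, PowerSeries.coeff_one, if_neg (by omega)]
        · simp [Matrix.one_apply_ne hij]
      rw [e3]
      ring
  have h1 := normP_deriv_at M' W PowerSeries.X hW
  have h2 : det (1 + (X : (PowerSeries R)[X]) • M'.map C) = P.map (PowerSeries.C (R := R)) := by
    rw [hP, ← coe_mapRingHom, RingHom.map_det]
    congr 1
    ext1 i j
    simp only [RingHom.mapMatrix_apply, Matrix.map_apply, Matrix.add_apply, Matrix.smul_apply,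
      smul_eq_mul, Polynomial.map_add, Polynomial.map_mul, coe_mapRingHom, Polynomial.map_X, Polynomial.map_C, hM']
    congr 1
    by_cases hij : i = j
    · subst hij
      simp
    · simp [Matrix.one_apply_ne hij]
  rw [h2, derivative_map, eval_map, eval_map, eval₂_C_X_eq_coe, eval₂_C_X_eq_coe] at h1
  have h3 := congrArg (PowerSeries.coeff k) h1
  rw [Polynomial.coeff_coe, coeff_derivative, PowerSeries.coeff_mul] at h3
  rw [h3]
  apply Finset.sum_congr rfl
  rintro ⟨i, j⟩ _
  rw [Polynomial.coeff_coe]
  congr 1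
  simp only
  rw [Matrix.trace, map_sum, pow_succ, Matrix.trace, Finset.mul_sum]
  apply Finset.sum_congr rfl
  intro a _
  rw [Matrix.diag_apply, Matrix.diag_apply, Matrix.mul_apply, Matrix.mul_apply, map_sum,
    Finset.mul_sum]
  apply Finset.sum_congr rfl
  intro l _
  rw [hM', Matrix.map_apply, PowerSeries.coeff_mul_C]
  simp only [hWd, Matrix.of_apply, PowerSeries.coeff_mk]
  ring

/-- the truncated logarithm -/
noncomputable def logP {K : Type*} [Field K] (D : ℕ) (τ : ℕ → K) : K[X] :=
  ∑ m ∈ Finset.Icc 1 D, C ((-1) ^ (m - 1) * (m : K)⁻¹ * τ m) * X ^ m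

/-- the truncated exponential of the truncated logarithm -/
noncomputable def expP {K : Type*} [Field K] (D : ℕ) (τ : ℕ → K) : K[X] :=
  ∑ l ∈ Finset.range (D + 1), C ((l.factorial : K)⁻¹) * logP D τ ^ l

theorem normP_coeff_log {K : Type*} [Field K] (D : ℕ) (τ : ℕ → K) (k : ℕ) :
    (logP D τ).coeff k = if k ∈ Finset.Icc 1 D then (-1) ^ (k - 1) * (k : K)⁻¹ * τ k else 0 := by
  unfold logP
  rw [finsetSum_coeff]
  simp only [coeff_C_mul, coeff_X_pow]
  simp only [mul_ite, mul_one, mul_zero]
  rw [Finset.sum_ite_eq]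

theorem normP_deriv_exp {K : Type*} [Field K] (D : ℕ) (τ : ℕ → K)
    (hD : ∀ k : ℕ, 1 ≤ k → k ≤ D → (k : K) ≠ 0) :
    derivative (expP D τ) =
      derivative (logP D τ) * (expP D τ - C ((D.factorial : K)⁻¹) * logP D τ ^ D) := by
  have h1 : expP D τ - C ((D.factorial : K)⁻¹) * logP D τ ^ D =
      ∑ l ∈ Finset.range D, C ((l.factorial : K)⁻¹) * logP D τ ^ l := by
    unfold expP
    rw [Finset.sum_range_succ]
    ring
  rw [h1]
  unfold expP
  rw [derivative_sum, Finset.sum_range_succ']
  simp only [pow_zero, mul_one, derivative_C, add_zero]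
  rw [Finset.mul_sum]
  apply Finset.sum_congr rfl
  intro l hl
  rw [Finset.mem_range] at hl
  rw [derivative_C_mul, derivative_pow_succ]
  have h2 : ((l + 1 : ℕ) : K) ≠ 0 := hD (l + 1) (by omega) (by omega)
  have h3 : C (((l + 1).factorial : K)⁻¹) * C (((l + 1 : ℕ) : K)) = C ((l.factorial : K)⁻¹) := by
    rw [← C_mul]
    congr 1
    rw [Nat.factorial_succ, Nat.cast_mul, mul_inv]
    field_simp
  have h4 : (C ((l : K) + 1) : K[X]) = C (((l + 1 : ℕ) : K)) := by
    push_cast
    ring_nf
  rw [h4]
  calc C (((l + 1).factorial : K)⁻¹) * (C (((l + 1 : ℕ) : K)) * logP D τ ^ l *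
        derivative (logP D τ)) =
      (C (((l + 1).factorial : K)⁻¹) * C (((l + 1 : ℕ) : K))) * logP D τ ^ l *
        derivative (logP D τ) := by ring
    _ = _ := by rw [h3]; ring

theorem normP_coeff_exp {K : Type*} [Field K] (M : Matrix ι ι K) (D : ℕ)
    (hD : ∀ k : ℕ, 1 ≤ k → k ≤ D → (k : K) ≠ 0) (k : ℕ) (hk : k ≤ D) :
    (det (1 + (X : K[X]) • M.map C)).coeff k =
      (expP D fun m => trace (M ^ m)).coeff k := by
  set τ : ℕ → K := fun m => trace (M ^ m) with hτ
  induction k using Nat.strong_induction_on with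
  | _ k ih =>
    cases k with
    | zero =>
      rw [coeff_zero_eq_eval_zero, normP_eval_zero, coeff_zero_eq_eval_zero]
      unfold expP
      rw [eval_finsetSum, Finset.sum_range_succ']
      have h0 : (logP D τ).eval 0 = 0 := by
        rw [← coeff_zero_eq_eval_zero, normP_coeff_log, if_neg (by simp)]
      simp [h0]
    | succ k =>
      have h1 := normP_newton M k
      have h2 := congrArg (fun Q => coeff Q k) (normP_deriv_exp D τ hD)
      simp only [coeff_derivative, mul_sub, coeff_sub] at h2
      have h3 : (derivative (logP D τ) * (C ((D.factorial : K)⁻¹) * logP D τ ^ D)).coeff k = 0 := by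
        have h4 : X ∣ logP D τ := by
          rw [X_dvd_iff, normP_coeff_log, if_neg (by simp)]
        have h5 : X ^ D ∣ derivative (logP D τ) * (C ((D.factorial : K)⁻¹) * logP D τ ^ D) :=
          Dvd.dvd.mul_left (Dvd.dvd.mul_left (pow_dvd_pow_of_dvd h4 D) _) _
        rw [X_pow_dvd_iff] at h5
        exact h5 k (by omega)
      rw [h3, sub_zero, mul_comm (derivative (logP D τ)), coeff_mul] at h2
      have h6 : ((k : K) + 1) ≠ 0 := by
        have := hD (k + 1) (by omega) hk
        push_cast at this
        exact this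
      apply mul_right_cancel₀ h6
      rw [h1, h2]
      apply Finset.sum_congr rfl
      rintro ⟨i, j⟩ hij
      rw [Finset.HasAntidiagonal.mem_antidiagonal] at hij
      simp only at hij ⊢
      rw [ih i (by omega) (by omega), coeff_derivative, normP_coeff_log,
        if_pos (by rw [Finset.mem_Icc]; omega)]
      have h7 : ((j : K) + 1) ≠ 0 := by
        have := hD (j + 1) (by omega) (by omega)
        push_cast at this
        exact this
      have h8 : (-1) ^ (j + 1 - 1) * ((j + 1 : ℕ) : K)⁻¹ * τ (j + 1) * ((j : K) + 1) =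
          (-1) ^ j * trace (M ^ (j + 1)) := by
        rw [Nat.add_sub_cancel]
        push_cast
        simp only [hτ]
        field_simp
      rw [h8]

theorem normP_det {K : Type*} [Field K] (M : Matrix ι ι K)
    (hD : ∀ k : ℕ, 1 ≤ k → k ≤ Fintype.card ι → (k : K) ≠ 0) :
    det M = (expP (Fintype.card ι) fun m => trace (M ^ m)).coeff (Fintype.card ι) := by
  rw [← normP_coeff_exp M (Fintype.card ι) hD (Fintype.card ι) le_rfl]
  have h := coeff_det_X_add_C_card M (1 : Matrix ι ι K)
  rw [Matrix.map_one C (map_zero C) (map_one C), add_comm] at h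
  exact h.symm

theorem normP_natDegree {K : Type*} [Field K] (D : ℕ) (τ : ℕ → K) :
    (expP D τ).natDegree ≤ D ^ 2 := by
  have h1 : (logP D τ).natDegree ≤ D := by
    unfold logP
    apply natDegree_sum_le_of_forall_le
    intro m hm
    rw [Finset.mem_Icc] at hm
    exact (natDegree_C_mul_X_pow_le _ _).trans hm.2
  unfold expP
  apply natDegree_sum_le_of_forall_le
  intro l hl
  rw [Finset.mem_range] at hl
  refine (natDegree_C_mul_le _ _).trans ?_
  refine (natDegree_pow_le).trans ?_
  calc l * (logP D τ).natDegree ≤ D * D := Nat.mul_le_mul (by omega) h1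
    _ = _ := by ring

/-- extraction of a coefficient -/
theorem normP_extract {p : ℕ} [Fact p.Prime] (Q : (ZMod p)[X]) (D : ℕ) (hD : 1 ≤ D)
    (hQ : Q.natDegree ≤ D ^ 2) (hp : D ^ 2 + D + 1 < p) :
    Q.coeff D = - ∑ t : ZMod p, if t = 0 then 0 else t⁻¹ ^ D * Q.eval t := by
  classical
  have h1 : ∑ t : ZMod p, (if t = 0 then 0 else t⁻¹ ^ D * Q.eval t) =
      ∑ u : (ZMod p)ˣ, ((u : ZMod p)⁻¹ ^ D * Q.eval (u : ZMod p)) := by
    rw [← Finset.sum_filter_add_sum_filter_not Finset.univ (fun t : ZMod p => t = 0)]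
    have e1 : ∑ t ∈ Finset.univ.filter (fun t : ZMod p => t = 0),
        (if t = 0 then 0 else t⁻¹ ^ D * Q.eval t) = 0 := by
      apply Finset.sum_eq_zero
      intro t ht
      rw [Finset.mem_filter] at ht
      rw [if_pos ht.2]
    rw [e1, zero_add]
    symm
    apply Finset.sum_bij (fun (u : (ZMod p)ˣ) _ => (u : ZMod p))
    · intro u _
      rw [Finset.mem_filter]
      exact ⟨Finset.mem_univ _, u.ne_zero⟩
    · intro u _ v _ h
      exact Units.ext h
    · intro t ht
      rw [Finset.mem_filter] at ht
      exact ⟨Units.mk0 t ht.2, Finset.mem_univ _, rfl⟩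
    · intro u _
      rw [if_neg u.ne_zero]
  rw [h1]
  have hDD : D ≤ D ^ 2 := by nlinarith
  have h2 : ∀ u : (ZMod p)ˣ, ((u : ZMod p)⁻¹ ^ D * Q.eval (u : ZMod p)) =
      ∑ k ∈ Finset.range (D ^ 2 + 1), Q.coeff k * ((u : ZMod p) ^ (k + (p - 1 - D))) := by
    intro u
    rw [eval_eq_sum_range' (n := D ^ 2 + 1) (by omega), Finset.mul_sum]
    apply Finset.sum_congr rfl
    intro k _
    have h3 : (u : ZMod p)⁻¹ ^ D = (u : ZMod p) ^ (p - 1 - D) := by
      have h4 : (u : ZMod p) ^ (p - 1 - D) * (u : ZMod p) ^ D = 1 := by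
        rw [← pow_add, Nat.sub_add_cancel (by omega)]
        exact ZMod.pow_card_sub_one_eq_one u.ne_zero
      rw [inv_pow]
      exact (eq_inv_of_mul_eq_one_left h4).symm
    rw [h3, pow_add]
    ring
  rw [Finset.sum_congr rfl (fun u _ => h2 u), Finset.sum_comm]
  have h5 : ∀ k ∈ Finset.range (D ^ 2 + 1), ∑ u : (ZMod p)ˣ,
      Q.coeff k * ((u : ZMod p) ^ (k + (p - 1 - D))) = if k = D then - Q.coeff k else 0 := by
    intro k hk
    rw [Finset.mem_range] at hk
    rw [← Finset.mul_sum, FiniteField.sum_pow_units, ZMod.card]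
    by_cases hkD : k = D
    · rw [if_pos hkD, if_pos]
      · ring
      · rw [hkD, Nat.add_sub_cancel' (by omega)]
    · rw [if_neg hkD, if_neg, mul_zero]
      intro hdvd
      obtain ⟨c, hc⟩ := hdvd
      have hc1 : c = 1 := by
        rcases Nat.lt_or_ge c 1 with h | h
        · have : c = 0 := by omega
          rw [this, mul_zero] at hc
          omega
        · rcases Nat.lt_or_ge c 2 with h' | h'
          · omega
          · exfalso
            have : (p - 1) * 2 ≤ (p - 1) * c := Nat.mul_le_mul_left _ h'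
            omega
      rw [hc1, mul_one] at hc
      omega
  rw [Finset.sum_congr rfl h5, Finset.sum_ite_eq' (Finset.range (D ^ 2 + 1)) D,
    if_pos (by rw [Finset.mem_range]; omega), neg_neg]

end Newton

open MvPolynomial

variable {n : ℕ}

/-- module B5: `N(H) = [t^D] ∑_{l ≤ D} (1/l!) (∑_{m=1}^D (-1)^(m-1) Tr(H^m) t^m / m)^l`, and
`[t^D] Q = - ∑_{t ≠ 0} t^(-D) Q(t)` for `deg Q ≤ D^2 < p - 1` -/
theorem nm_eq_sum {p : ℕ} [Fact p.Prime] (h : Fin n → MvPolynomial (Fin n) (ZMod p))
    (hd : ∀ i, (h i).totalDegree ≤ 3) (H : MvPolynomial (Fin n) (ZMod p))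
    (hp : (5 ^ n) ^ 2 + 5 ^ n + 1 < p) :
    nm h H = - ∑ t : ZMod p, if t = 0 then 0 else
      t⁻¹ ^ 5 ^ n * ∑ l ∈ Finset.range (5 ^ n + 1), ((l.factorial : ℕ) : ZMod p)⁻¹ *
        (∑ m ∈ Finset.Icc 1 (5 ^ n), (-1) ^ (m - 1) * ((m : ℕ) : ZMod p)⁻¹ * t ^ m *
          trc h (H ^ m)) ^ l := by
  classical
  obtain ⟨b, -⟩ := exists_basis h hd
  set M := Algebra.leftMulMatrix b (Ideal.Quotient.mk (relIdeal h) H) with hM
  have hcard : Fintype.card (Fin n → Fin 5) = 5 ^ n := by simp
  have hnm : nm h H = Matrix.det M := by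
    unfold nm
    exact Algebra.norm_eq_matrix_det b _
  have htr : ∀ m : ℕ, trc h (H ^ m) = Matrix.trace (M ^ m) := by
    intro m
    unfold trc
    rw [Algebra.trace_eq_matrix_trace b, map_pow, map_pow]
  have hD : ∀ k : ℕ, 1 ≤ k → k ≤ Fintype.card (Fin n → Fin 5) → (k : ZMod p) ≠ 0 := by
    intro k h1 h2 h3
    rw [ZMod.natCast_eq_zero_iff] at h3
    have h4 := Nat.le_of_dvd (by omega) h3
    rw [hcard] at h2
    omega
  rw [hnm, normP_det M hD, hcard]
  rw [normP_extract _ (5 ^ n) (Nat.one_le_pow _ _ (by norm_num)) (normP_natDegree _ _) hp]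
  congr 1
  apply Finset.sum_congr rfl
  intro t _
  split_ifs with ht
  · rfl
  congr 1
  unfold expP logP
  rw [Polynomial.eval_finsetSum]
  apply Finset.sum_congr rfl
  intro l _
  rw [Polynomial.eval_mul, Polynomial.eval_C, Polynomial.eval_pow, Polynomial.eval_finsetSum]
  congr 2
  apply Finset.sum_congr rfl
  intro m _
  rw [Polynomial.eval_mul, Polynomial.eval_C, Polynomial.eval_pow, Polynomial.eval_X, htr]
  ring

end Vale.Agent.P337
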