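import Vale.Agent.P337.OracleMain

/-!
# The counting hierarchy with majority quantifiers is contained in the oracle hierarchy
-/

namespace Vale.Agent.P337

open Lang

lemma card_words (k : ℕ) : Nat.card {v : List Bool // v.length = k} = 2 ^ k := by
  have h := card_vector (α := Bool) k
  rw [Fintype.card_bool] at h
  rw [← h, ← Nat.card_eq_fintype_card]
  rfl

lemma card_drop {m M : ℕ} (hmM : m ≤ M) (S : List Bool → Prop) :
    Nat.card {u : List Bool // u.length = M ∧ S (u.drop (M - m))} =
      2 ^ (M - m) * Nat.card {y : List Bool // y.length = m ∧ S y} := by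
  rw [← card_words (M - m), ← Nat.card_prod]
  refine Nat.card_congr
    { toFun := fun u => (⟨u.1.take (M - m), ?_⟩, ⟨u.1.drop (M - m), ?_, u.2.2⟩)
      invFun := fun p => ⟨p.1.1 ++ p.2.1, ?_, ?_⟩
      left_inv := ?_
      right_inv := ?_ }
  · rw [List.length_take, u.2.1]; omega
  · rw [List.length_drop, u.2.1]; omega
  · rw [List.length_append, p.1.2, p.2.2.1]; omega
  · rw [List.drop_left' p.1.2]; exact p.2.2.2
  · intro u
    exact Subtype.ext (List.take_append_drop _ _)
  · intro p
    refine Prod.ext (Subtype.ext ?_) (Subtype.ext ?_)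
    · exact List.take_left' p.1.2
    · exact List.drop_left' p.1.2

theorem pp_most {α β : Type} [Finite α] [Finite β] (A : Set (List β)) (g : α → β) (L : α → Bool)
    (h : Bool → β) (sep : List β) (q : Polynomial ℕ) :
    PP A {x : List α | Most (q.eval (x.countP L)) fun y => x.map g ++ sep ++ y.map h ∈ A} := by
  classical
  refine ⟨oracleMachine (mainProg L g h sep q), mainTime q sep.length + Polynomial.C 2, q,
    fun x u => decide (x.map g ++ sep ++ (u.drop (u.length - q.eval (x.countP L))).map h ∈ A),
    ?_, ?_⟩
  · intro x u hu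
    obtain ⟨t, ht, hB⟩ := big_mainProg L g h sep q x u hu
    obtain ⟨n, hn, hr⟩ := oracleMachine_outputs (mainProg L g h sep q) A _ _ t hB
      (decide (x.map g ++ sep ++ (u.drop (u.length - q.eval (x.countP L))).map h ∈ A))
      (decide_eq_true_iff)
    refine ⟨n, ?_, hr⟩
    rw [Polynomial.eval_add, Polynomial.eval_C]
    omega
  · intro x
    have hle : q.eval (x.countP L) ≤ q.eval x.length := eval_mono q List.countP_le_length
    have h1 : Nat.card {u : List Bool // u.length = q.eval x.length ∧
        decide (x.map g ++ sep ++ (u.drop (u.length - q.eval (x.countP L))).map h ∈ A) = true} =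
        Nat.card {u : List Bool // u.length = q.eval x.length ∧
        (fun y : List Bool => x.map g ++ sep ++ y.map h ∈ A)
          (u.drop (q.eval x.length - q.eval (x.countP L)))} := by
      refine Nat.card_congr (Equiv.subtypeEquivRight fun u => ?_)
      constructor
      · rintro ⟨h1, h2⟩
        refine ⟨h1, ?_⟩
        rw [decide_eq_true_iff, h1] at h2
        exact h2
      · rintro ⟨h1, h2⟩
        refine ⟨h1, ?_⟩
        rw [decide_eq_true_iff, h1]
        exact h2
    rw [h1, card_drop hle (fun y : List Bool => x.map g ++ sep ++ y.map h ∈ A)]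
    show Most _ _ ↔ _
    unfold Most
    set N := Nat.card {y : List Bool // y.length = q.eval (x.countP L) ∧
      x.map g ++ sep ++ y.map h ∈ A}
    have e : 2 ^ q.eval x.length = 2 ^ (q.eval x.length - q.eval (x.countP L)) *
        2 ^ q.eval (x.countP L) := by
      rw [← pow_add, Nat.sub_add_cancel hle]
    have e' : 2 * (2 ^ (q.eval x.length - q.eval (x.countP L)) * N) =
      2 ^ (q.eval x.length - q.eval (x.countP L)) * (2 * N) := by ring
    rw [e, e', Nat.mul_lt_mul_left (by positivity)]

/-- is it a letter of the first word? -/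
def isLetter {α : Type} : Option (α ⊕ Bool) → Bool
  | some (Sum.inl _) => true
  | _ => false

/-- the sets of codes -/
def BSet {α : Type} (R : List (Option (α ⊕ Bool)) → Bool) :
    List (Polynomial ℕ) → Set (List (Option (α ⊕ Bool)))
  | [] => {x | R x = true}
  | m :: ms => {x | Most (m.eval (x.countP isLetter)) fun y =>
      x.map id ++ [none] ++ y.map (fun b => some (Sum.inr b)) ∈ BSet R ms}

lemma BSet_mem {α : Type} [Finite α] {R : List (Option (α ⊕ Bool)) → Bool} (hR : PolyTimeDec R) :
    ∀ ms : List (Polynomial ℕ), BSet R ms ∈ CClass ms.length (Option (α ⊕ Bool))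
  | [] => ⟨R, hR, fun _ => Iff.rfl⟩
  | m :: ms => ⟨Option (α ⊕ Bool), inferInstance, BSet R ms, BSet_mem hR ms,
      pp_most (BSet R ms) id isLetter (fun b => some (Sum.inr b)) [none] m⟩

lemma countP_tupleCode {α : Type} (w : List α) (ys : List (List Bool)) :
    (tupleCode w ys).countP isLetter = w.length := by
  unfold tupleCode
  rw [List.countP_append]
  have h1 : (w.map (fun a => (some (Sum.inl a) : Option (α ⊕ Bool)))).countP isLetter =
      w.length := by
    induction w with
    | nil => rfl
    | cons a w ih => rw [List.map_cons, List.countP_cons, ih]; rfl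
  have h2 : (ys.flatMap fun y => (none : Option (α ⊕ Bool)) :: y.map fun b =>
      some (Sum.inr b)).countP isLetter = 0 := by
    rw [List.countP_eq_zero]
    intro a ha
    rw [List.mem_flatMap] at ha
    obtain ⟨y, _, hy⟩ := ha
    rw [List.mem_cons, List.mem_map] at hy
    rcases hy with rfl | ⟨b, _, rfl⟩
    · simp [isLetter]
    · simp [isLetter]
  rw [h1, h2, add_zero]

lemma tupleCode_snoc {α : Type} (w : List α) (ys : List (List Bool)) (y : List Bool) :
    (tupleCode w ys).map id ++ [none] ++ y.map (fun b => some (Sum.inr b)) =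
      tupleCode w (ys ++ [y]) := by
  unfold tupleCode
  rw [List.map_id, List.flatMap_append]
  simp

lemma mem_BSet {α : Type} (R : List (Option (α ⊕ Bool)) → Bool) (w : List α) :
    ∀ (ms : List (Polynomial ℕ)) (ys : List (List Bool)), tupleCode w ys ∈ BSet R ms ↔
      MostL (ms.map fun m => m.eval w.length) fun ys' => R (tupleCode w (ys ++ ys')) = true
  | [], ys => by
    rw [List.map_nil]
    show R (tupleCode w ys) = true ↔ R (tupleCode w (ys ++ [])) = true
    rw [List.append_nil]
  | m :: ms, ys => by
    rw [List.map_cons]
    show (Most (m.eval ((tupleCode w ys).countP isLetter)) fun y =>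
      (tupleCode w ys).map id ++ [none] ++ y.map (fun b => some (Sum.inr b)) ∈ BSet R ms) ↔
      Most (m.eval w.length) fun y => MostL (ms.map fun m => m.eval w.length)
        fun ys' => R (tupleCode w (ys ++ (y :: ys'))) = true
    rw [countP_tupleCode]
    have : (fun y : List Bool => (tupleCode w ys).map id ++ [none] ++
        y.map (fun b => some (Sum.inr b)) ∈ BSet R ms) = fun y : List Bool =>
        MostL (ms.map fun m => m.eval w.length)
        fun ys' => R (tupleCode w (ys ++ (y :: ys'))) = true := by
      funext y
      rw [tupleCode_snoc]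
      refine propext ((mem_BSet R w ms (ys ++ [y])).trans ?_)
      simp only [List.append_assoc, List.singleton_append]
    rw [this]

/-- every language of the level `k` of the hierarchy of majority quantifiers is in `C_k` -/
theorem CHLevel.mem_CClass {α : Type} [Finite α] {k : ℕ} {L : Set (List α)}
    (h : CHLevel (k + 1) L) : L ∈ CClass (k + 1) α := by
  obtain ⟨ms, R, hk, hR, hL⟩ := h
  cases ms with
  | nil => exact absurd hk (by simp)
  | cons m ms =>
    have hk' : ms.length = k := by simpa using hk
    subst hk'
    refine ⟨Option (α ⊕ Bool), inferInstance, BSet R ms, BSet_mem hR ms, ?_⟩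
    have h1 := pp_most (BSet R ms) (fun a : α => (some (Sum.inl a) : Option (α ⊕ Bool)))
      (fun _ => true) (fun b => some (Sum.inr b)) [none] m
    convert h1 using 1
    ext w
    rw [hL w, List.map_cons]
    show (Most (m.eval w.length) fun y => MostL (ms.map fun m => m.eval w.length)
        fun ys' => R (tupleCode w (y :: ys')) = true) ↔ Most _ _
    have e1 : w.countP (fun _ => true) = w.length := List.countP_eq_length.2 (by simp)
    rw [e1]
    have : (fun y : List Bool => w.map (fun a : α => (some (Sum.inl a) : Option (α ⊕ Bool))) ++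
        [none] ++ y.map (fun b => some (Sum.inr b)) ∈ BSet R ms) = fun y : List Bool =>
        MostL (ms.map fun m => m.eval w.length)
        fun ys' => R (tupleCode w (y :: ys')) = true := by
      funext y
      have e2 : w.map (fun a : α => (some (Sum.inl a) : Option (α ⊕ Bool))) ++
        [none] ++ y.map (fun b => some (Sum.inr b)) = tupleCode w [y] := by
        simp [tupleCode]
      rw [e2]
      exact propext (mem_BSet R w ms [y])
    rw [this]

theorem CH.mem_CClass {α : Type} [Finite α] {L : Set (List α)} (h : CH L) :
    ∃ k, L ∈ CClass k α := by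
  obtain ⟨k, hk⟩ := h
  cases k with
  | succ k => exact ⟨k + 1, hk.mem_CClass⟩
  | zero =>
    obtain ⟨ms, R, hk, hR, hL⟩ := hk
    rw [List.length_eq_zero_iff] at hk
    subst hk
    refine ⟨1, Option (α ⊕ Bool), inferInstance, BSet R [], BSet_mem hR [], ?_⟩
    have h1 := pp_most (BSet R []) (fun a : α => (some (Sum.inl a) : Option (α ⊕ Bool)))
      (fun _ => true) (fun b => some (Sum.inr b)) [] (Polynomial.C 0)
    convert h1 using 1
    ext w
    rw [hL w]
    show R (tupleCode w []) = true ↔ Most ((Polynomial.C 0).eval _) _
    rw [Polynomial.eval_C]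
    have e2 : w.map (fun a : α => (some (Sum.inl a) : Option (α ⊕ Bool))) = tupleCode w [] := by
      simp [tupleCode]
    unfold Most
    have h0 : ∀ (S : List Bool → Prop) [Decidable (S [])],
        Nat.card {y : List Bool // y.length = 0 ∧ S y} = if S [] then 1 else 0 := by
      intro S _
      split_ifs with hS
      · rw [Nat.card_eq_one_iff_unique]
        refine ⟨⟨fun a b => Subtype.ext ?_⟩, ⟨⟨[], rfl, hS⟩⟩⟩
        rw [List.length_eq_zero_iff.1 a.2.1, List.length_eq_zero_iff.1 b.2.1]
      · rw [Nat.card_eq_zero]
        left
        refine ⟨fun a => hS ?_⟩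
        have := List.length_eq_zero_iff.1 a.2.1
        rw [← this]
        exact a.2.2
    classical
    rw [h0]
    simp only [List.map_nil, List.append_nil, e2]
    have h4 : R (tupleCode w []) = true ↔ tupleCode w [] ∈ BSet R [] := Iff.rfl
    rw [h4]
    split_ifs with h3
    · simp [h3]
    · simp [h3]

end Vale.Agent.P337
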