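import Vale.Agent.P337.Defs

/-!
# Oracle Turing machines and the counting hierarchy, literally
-/

namespace Vale.Agent.P337

/-- An oracle Turing machine. It is a Turing machine with several stacks (`Turing.FinTM2` of
Mathlib; all alphabets are finite) with input alphabet `Γ₀` and output alphabet `Γ₁`, a query stack
with alphabet `β`, and three special labels. -/
structure OracleTM (Γ₀ Γ₁ β : Type) extends Turing.TM2ComputableAux Γ₀ Γ₁ where
  /-- all stack alphabets are finite -/
  finiteAlphabet : ∀ k, Finite (tm.Γ k)
  /-- the query stack -/
  kq : tm.K
  /-- the alphabet of the query stack -/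
  queryAlphabet : tm.Γ kq ≃ β
  /-- at this label the oracle is asked -/
  query : tm.Λ
  /-- the machine continues here if the answer is `yes` -/
  yes : tm.Λ
  /-- the machine continues here if the answer is `no` -/
  no : tm.Λ

open Classical in
/-- One step of the machine `M` with the oracle `A`. At the label `M.query` the machine asks whether
the word on the query stack belongs to `A`; the query stack is emptied and the machine
continues at the label `M.yes` or `M.no`. At all other labels it performs an ordinary step. -/
noncomputable def OracleTM.step {Γ₀ Γ₁ β : Type} (M : OracleTM Γ₀ Γ₁ β) (A : Set (List β))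
    (c : M.tm.Cfg) : Option M.tm.Cfg :=
  if c.l = some M.query then
    some { l := some (if (c.stk M.kq).map M.queryAlphabet ∈ A then M.yes else M.no)
           var := c.var
           stk := Function.update c.stk M.kq [] }
  else M.tm.step c

/-- The machine `M` with the oracle `A`, started with the word `s` on the input stack, halts after
at most `t` steps with the word `o` on the output stack. -/
def OracleTM.OutputsInTime {Γ₀ Γ₁ β : Type} (M : OracleTM Γ₀ Γ₁ β) (A : Set (List β))
    (s : List Γ₀) (o : List Γ₁) (t : ℕ) : Prop :=
  ∃ n ≤ t, (fun c : Option M.tm.Cfg => c.bind (M.step A))^[n]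
    (some (Turing.initList M.tm (s.map M.inputAlphabet.symm))) =
      some (Turing.haltList M.tm (o.map M.outputAlphabet.symm))

/-- The class `PP^A`: the languages `L` for which there are a polynomial time Turing machine `M` with
oracle `A` and a polynomial `coins` such that a word `x` is in `L` if and only if `M` accepts `x`
with probability larger than `1/2`, i.e. accepts `(x, u)` for more than half of the sequences `u` of
`coins(|x|)` fair coin tosses. The word `x` followed by the coin tosses `u` is the input of `M`, and `acc x u`
is its output. -/
def PP {β : Type} (A : Set (List β)) {α : Type} (L : Set (List α)) : Prop :=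
  ∃ (M : OracleTM (α ⊕ Bool) Bool β) (time coins : Polynomial ℕ) (acc : List α → List Bool → Bool),
    (∀ (x : List α) (u : List Bool), u.length = coins.eval x.length →
      M.OutputsInTime A (x.map Sum.inl ++ u.map Sum.inr) [acc x u] (time.eval x.length)) ∧
    ∀ x : List α, x ∈ L ↔ 2 ^ coins.eval x.length <
      2 * Nat.card {u : List Bool // u.length = coins.eval x.length ∧ acc x u = true}

/-- The levels of the counting hierarchy (for languages over arbitrary finite alphabets): `C₀ = P`,
and `C_{j+1}` is the union of the classes `PP^A` over all `A ∈ C_j`. -/
def CClass : ℕ → (α : Type) → Set (Set (List α))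
  | 0, _ => {L | ∃ R, PolyTimeDec R ∧ ∀ w, w ∈ L ↔ R w = true}
  | j + 1, _ => {L | ∃ (β : Type) (_ : Finite β) (A : Set (List β)), A ∈ CClass j β ∧ PP A L}

end Vale.Agent.P337
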