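import Mathlib

/-!
# Structured stack programs and their translation to TM2 statements
-/

namespace Vale.Agent.P337.Lang

open Function Turing

section
variable {K : Type}

/-- structured programs on stacks -/
inductive Prog (Γ : K → Type) : Type
  | skip : Prog Γ
  | push (s : K) (x : Γ s) : Prog Γ
  | seq (P Q : Prog Γ) : Prog Γ
  | pop (s : K) (P : Option (Γ s) → Prog Γ) : Prog Γ
  | loop (s : K) (P : Γ s → Prog Γ) : Prog Γ

variable {Γ : K → Type}

/-- positions in a program -/
def Prog.Pos : Prog Γ → Type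
  | .skip => Unit
  | .push _ _ => Unit
  | .seq P Q => P.Pos ⊕ Q.Pos
  | .pop _ P => Unit ⊕ (Σ a, (P a).Pos)
  | .loop _ P => Unit ⊕ (Σ a, (P a).Pos)

lemma Prog.finite_pos [∀ k, Finite (Γ k)] : ∀ P : Prog Γ, Finite P.Pos
  | .skip => inferInstanceAs (Finite Unit)
  | .push _ _ => inferInstanceAs (Finite Unit)
  | .seq P Q => by
    have := P.finite_pos
    have := Q.finite_pos
    exact inferInstanceAs (Finite (P.Pos ⊕ Q.Pos))
  | .pop s P => by
    have := fun a => (P a).finite_pos
    exact inferInstanceAs (Finite (Unit ⊕ (Σ a, (P a).Pos)))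
  | .loop s P => by
    have := fun a => (P a).finite_pos
    exact inferInstanceAs (Finite (Unit ⊕ (Σ a, (P a).Pos)))

/-- the first position -/
def Prog.entry : (P : Prog Γ) → P.Pos
  | .skip => ()
  | .push _ _ => ()
  | .seq P _ => Sum.inl P.entry
  | .pop _ _ => Sum.inl ()
  | .loop _ _ => Sum.inl ()

/-- the label after an unsuccessful or successful pop of a loop -/
def nextLabel {A Λ : Type} (next : Λ) (f : A → Λ) : Option A → Λ
  | none => next
  | some a => f a

variable [DecidableEq K]

/-- the statement at a position -/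
def Prog.code {Λ : Type} : (P : Prog Γ) → (P.Pos → Λ) → Λ → P.Pos →
    TM2.Stmt Γ Λ (∀ s, Option (Γ s))
  | .skip, _, next, _ => .goto fun _ => next
  | .push s x, _, next, _ => .push s (fun _ => x) (.goto fun _ => next)
  | .seq P Q, emb, next, p => match p with
    | .inl p => P.code (fun p => emb (Sum.inl p)) (emb (Sum.inr Q.entry)) p
    | .inr q => Q.code (fun q => emb (Sum.inr q)) next q
  | .pop s P, emb, next, p => match p with
    | .inl _ => .pop s (fun v x => update v s x) (.goto fun v => emb (Sum.inr ⟨v s, (P (v s)).entry⟩))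
    | .inr ⟨a, p⟩ => (P a).code (fun p => emb (Sum.inr ⟨a, p⟩)) next p
  | .loop s P, emb, next, p => match p with
    | .inl _ => .pop s (fun v x => update v s x)
        (.goto fun v => nextLabel next (fun a => emb (Sum.inr ⟨a, (P a).entry⟩)) (v s))
    | .inr ⟨a, p⟩ => (P a).code (fun p => emb (Sum.inr ⟨a, p⟩)) (emb (Sum.inl ())) p

/-- big-step semantics with the number of steps -/
inductive Big : Prog Γ → (∀ s, List (Γ s)) → (∀ s, List (Γ s)) → ℕ → Prop
  | skip (D) : Big .skip D D 1
  | push (s x D) : Big (.push s x) D (update D s (x :: D s)) 1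
  | seq {P Q D D' D'' t t'} : Big P D D' t → Big Q D' D'' t' → Big (.seq P Q) D D'' (t + t')
  | pop {s P D D' t} : Big (P (D s).head?) (update D s (D s).tail) D' t →
      Big (.pop s P) D D' (t + 1)
  | loop_nil {s P D} : D s = [] → Big (.loop s P) D D 1
  | loop_cons {s P D D' D'' t t' x l} : D s = x :: l → Big (P x) (update D s l) D' t →
      Big (.loop s P) D' D'' t' → Big (.loop s P) D D'' (t + 1 + t')

/-- `t` steps of a step function -/
def Run {C : Type} (st : C → Option C) (t : ℕ) (a b : C) : Prop :=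
  (fun c : Option C => c.bind st)^[t] (some a) = some b

lemma Run.trans {C : Type} {st : C → Option C} {t t' : ℕ} {a b c : C} (h : Run st t a b)
    (h' : Run st t' b c) : Run st (t + t') a c := by
  unfold Run at *
  rw [add_comm, Function.iterate_add_apply, h, h']

lemma Run.one {C : Type} {st : C → Option C} {a b : C} (h : st a = some b) : Run st 1 a b := h

/-- correctness of the translation -/
theorem run_code {Λ : Type} (st : TM2.Cfg Γ Λ (∀ s, Option (Γ s)) →
    Option (TM2.Cfg Γ Λ (∀ s, Option (Γ s)))) {P : Prog Γ} {D D' : ∀ s, List (Γ s)} {t : ℕ}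
    (h : Big P D D' t) : ∀ (emb : P.Pos → Λ) (next : Λ)
    (_ : ∀ p v S, st ⟨some (emb p), v, S⟩ = some (TM2.stepAux (P.code emb next p) v S))
    (v : ∀ s, Option (Γ s)), ∃ v', Run st t ⟨some (emb P.entry), v, D⟩ ⟨some next, v', D'⟩ := by
  induction h with
  | skip D =>
    intro emb next hst v
    exact ⟨v, Run.one (hst _ _ _)⟩
  | push s x D =>
    intro emb next hst v
    exact ⟨v, Run.one (hst _ _ _)⟩
  | seq hP hQ ihP ihQ =>
    intro emb next hst v
    obtain ⟨v', h1⟩ := ihP (fun p => emb (Sum.inl p)) _ (fun p v S => hst (Sum.inl p) v S) v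
    obtain ⟨v'', h2⟩ := ihQ (fun p => emb (Sum.inr p)) _ (fun p v S => hst (Sum.inr p) v S) v'
    exact ⟨v'', h1.trans h2⟩
  | @pop s P D D' t hP ihP =>
    intro emb next hst v
    obtain ⟨v', h1⟩ := ihP (fun p => emb (Sum.inr ⟨_, p⟩)) _
      (fun p v S => hst (Sum.inr ⟨_, p⟩) v S) (update v s (D s).head?)
    have h0 : Run st 1 ⟨some (emb (Sum.inl ())), v, D⟩
        ⟨some (emb (Sum.inr ⟨(D s).head?, (P (D s).head?).entry⟩)), update v s (D s).head?,
          update D s (D s).tail⟩ := by
      apply Run.one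
      rw [hst (Sum.inl ()) v D]
      exact congrArg (fun a => some (⟨some (emb (Sum.inr ⟨a, (P a).entry⟩)), update v s (D s).head?,
          update D s (D s).tail⟩ : TM2.Cfg Γ Λ (∀ s, Option (Γ s))))
        (update_self (β := fun s => Option (Γ s)) s (D s).head? v)
    refine ⟨v', ?_⟩
    have := h0.trans h1
    rwa [add_comm] at this
  | @loop_nil s P D hs =>
    intro emb next hst v
    refine ⟨update v s none, Run.one ?_⟩
    show st ⟨some (emb (Sum.inl ())), v, D⟩ = _
    rw [hst (Sum.inl ()) v D]
    simp only [Prog.code, TM2.stepAux, update_self, hs, List.head?_nil, nextLabel, List.tail_nil]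
    rw [← hs, update_eq_self]
  | @loop_cons s P D D' D'' t t' x l hs hP hQ ihP ihQ =>
    intro emb next hst v
    obtain ⟨v', h1⟩ := ihP (fun p => emb (Sum.inr ⟨x, p⟩)) _
      (fun p v S => hst (Sum.inr ⟨x, p⟩) v S) (update v s (some x))
    obtain ⟨v'', h2⟩ := ihQ emb next hst v'
    have h0 : Run st 1 ⟨some (emb (Sum.inl ())), v, D⟩
        ⟨some (emb (Sum.inr ⟨x, (P x).entry⟩)), update v s (some x), update D s l⟩ := by
      apply Run.one
      rw [hst (Sum.inl ()) v D]
      simp only [Prog.code, TM2.stepAux, update_self, hs, List.head?_cons, nextLabel, List.tail_cons]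
    refine ⟨v'', ?_⟩
    have := (h0.trans h1).trans h2
    rwa [add_comm 1 t] at this

end

end Vale.Agent.P337.Lang
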