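import Vale.Agent.P337.OracleDef
import Vale.Agent.P337.OracleLang

/-!
# From stack programs to oracle machines
-/

namespace Vale.Agent.P337.Lang

open Function Turing

/-- the stacks -/
inductive Stk (d : ℕ) : Type
  | inp | X | U | out | res
  | cnt (i : Fin d) | aux (i : Fin d)
  deriving DecidableEq

instance (d : ℕ) : Finite (Stk d) :=
  Finite.of_injective (β := Option (Option (Option (Option (Option (Fin d ⊕ Fin d))))))
    (fun s => match s with
      | .inp => none
      | .X => some none
      | .U => some (some none)
      | .out => some (some (some none))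
      | .res => some (some (some (some none)))
      | .cnt i => some (some (some (some (some (Sum.inl i)))))
      | .aux i => some (some (some (some (some (Sum.inr i))))))
    (by intro a b; cases a <;> cases b <;> simp)

/-- the alphabets -/
def Al (α β : Type) (d : ℕ) : Stk d → Type
  | .inp => α ⊕ Bool
  | .X => α
  | .U => Bool
  | .out => β
  | .res => Bool
  | .cnt _ => Unit
  | .aux _ => Unit

instance finite_al {α β : Type} [Finite α] [Finite β] {d : ℕ} (s : Stk d) :
    Finite (Al α β d s) := by
  cases s <;> unfold Al <;> infer_instance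

/-- the contents of the stacks -/
def mk {α β : Type} {d : ℕ} (inp : List (α ⊕ Bool)) (X : List α) (U : List Bool) (o : List β)
    (c a : Fin d → ℕ) : ∀ s : Stk d, List (Al α β d s)
  | .inp => inp
  | .X => X
  | .U => U
  | .out => o
  | .res => ([] : List Bool)
  | .cnt i => List.replicate (c i) ()
  | .aux i => List.replicate (a i) ()

section
variable {α β : Type} {d : ℕ} (inp : List (α ⊕ Bool)) (X : List α) (U : List Bool) (o : List β)
    (c a : Fin d → ℕ)

lemma upd_inp (l : List (α ⊕ Bool)) :
    update (mk inp X U o c a) Stk.inp l = mk l X U o c a := by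
  funext s
  cases s <;> rfl

lemma upd_X (l : List α) :
    update (mk inp X U o c a) Stk.X l = mk inp l U o c a := by
  funext s
  cases s <;> rfl

lemma upd_U (l : List Bool) :
    update (mk inp X U o c a) Stk.U l = mk inp X l o c a := by
  funext s
  cases s <;> rfl

lemma upd_out (l : List β) :
    update (mk inp X U o c a) Stk.out l = mk inp X U l c a := by
  funext s
  cases s <;> rfl

lemma upd_cnt (i : Fin d) (n : ℕ) :
    update (mk inp X U o c a) (Stk.cnt i) (List.replicate n ()) =
      mk inp X U o (update c i n) a := by
  funext s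
  by_cases h : s = Stk.cnt i
  · subst h
    rw [update_self]
    show _ = List.replicate (update c i n i) ()
    rw [update_self]
    rfl
  · rw [update_of_ne h]
    cases s with
    | cnt j =>
      show List.replicate (c j) () = List.replicate (update c i n j) ()
      rw [update_of_ne (by rintro rfl; exact h rfl)]
    | _ => rfl

lemma upd_aux (i : Fin d) (n : ℕ) :
    update (mk inp X U o c a) (Stk.aux i) (List.replicate n ()) =
      mk inp X U o c (update a i n) := by
  funext s
  by_cases h : s = Stk.aux i
  · subst h
    rw [update_self]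
    show _ = List.replicate (update a i n i) ()
    rw [update_self]
    rfl
  · rw [update_of_ne h]
    cases s with
    | aux j =>
      show List.replicate (a j) () = List.replicate (update a i n j) ()
      rw [update_of_ne (by rintro rfl; exact h rfl)]
    | _ => rfl

end

section
variable {α β : Type} [Finite α] [Finite β] {d : ℕ}

/-- the Turing machine of a program; its last labels are `query`, `yes`, `no` -/
noncomputable def machine (P : Prog (Al α β d)) : FinTM2 :=
  letI : Fintype (Stk d) := Fintype.ofFinite _
  letI : Finite P.Pos := P.finite_pos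
  letI : Fintype (P.Pos ⊕ Fin 3) := Fintype.ofFinite _
  letI : Fintype (∀ s, Option (Al α β d s)) := Fintype.ofFinite _
  letI : Fintype (Al α β d Stk.inp) := Fintype.ofFinite _
  { K := Stk d
    k₀ := Stk.inp
    k₁ := Stk.res
    Γ := Al α β d
    Λ := P.Pos ⊕ Fin 3
    main := Sum.inl P.entry
    σ := ∀ s, Option (Al α β d s)
    initialState := fun _ => none
    m := fun l => match l with
      | Sum.inl p => P.code Sum.inl (Sum.inr 0) p
      | Sum.inr i => TM2.Stmt.push Stk.res (fun _ => decide (i = 1))
          (TM2.Stmt.load (fun _ _ => none) TM2.Stmt.halt) }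

/-- the oracle machine of a program -/
noncomputable def oracleMachine (P : Prog (Al α β d)) : OracleTM (α ⊕ Bool) Bool β where
  tm := machine P
  inputAlphabet := Equiv.refl _
  outputAlphabet := Equiv.refl _
  finiteAlphabet := fun k => finite_al (α := α) (β := β) (d := d) k
  kq := Stk.out
  queryAlphabet := Equiv.refl _
  query := Sum.inr 0
  yes := Sum.inr 1
  no := Sum.inr 2

lemma init_eq (P : Prog (Al α β d)) (l : List (α ⊕ Bool)) :
    initList (machine P) l = (⟨some (Sum.inl P.entry), fun _ => none,
      mk l [] [] [] (fun _ => 0) (fun _ => 0)⟩ : TM2.Cfg (Al α β d) (P.Pos ⊕ Fin 3) _) := by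
  unfold initList
  congr 1
  funext (j : Stk d)
  cases j <;> rfl

lemma halt_eq (P : Prog (Al α β d)) (b : Bool) :
    haltList (machine P) [b] = (⟨none, fun _ => none,
      update (mk [] [] [] [] (fun _ => 0) (fun _ => 0)) Stk.res [b]⟩ :
        TM2.Cfg (Al α β d) (P.Pos ⊕ Fin 3) _) := by
  unfold haltList
  congr 1
  funext (j : Stk d)
  cases j <;> rfl

/-- the oracle machine of a program that computes the query -/
theorem oracleMachine_outputs (P : Prog (Al α β d)) (A : Set (List β)) (l : List (α ⊕ Bool))
    (o : List β) (t : ℕ) (h : Big P (mk l [] [] [] (fun _ => 0) (fun _ => 0))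
      (mk [] [] [] o (fun _ => 0) (fun _ => 0)) t) (b : Bool) (hb : b = true ↔ o ∈ A) :
    (oracleMachine P).OutputsInTime A l [b] (t + 2) := by
  classical
  obtain ⟨v', hr⟩ := run_code (Λ := P.Pos ⊕ Fin 3) ((oracleMachine P).step A) h Sum.inl (Sum.inr 0)
    (fun p v S => by
      unfold OracleTM.step
      rw [if_neg (by intro h'; cases h')]
      rfl) (fun _ => none)
  have e : List.map (Equiv.refl β) o = o := List.map_id o
  have e2 : update (mk ([] : List (α ⊕ Bool)) [] [] o (fun _ => 0) (fun _ => 0)) (Stk.out : Stk d) [] =
      mk [] [] [] [] (fun _ => 0) (fun _ => 0) := upd_out _ _ _ _ _ _ _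
  have h1 : Run ((oracleMachine P).step A)
      1 ⟨some (Sum.inr 0), v', mk [] [] [] o (fun _ => 0) (fun _ => 0)⟩
      ⟨some (Sum.inr (if b = true then 1 else 2)), v',
        mk [] [] [] [] (fun _ => 0) (fun _ => 0)⟩ := by
    apply Run.one
    refine Eq.trans (if_pos rfl) ?_
    refine congrArg some ?_
    have e3 : (if List.map (Equiv.refl β) o ∈ A then (Sum.inr 1 : P.Pos ⊕ Fin 3) else Sum.inr 2) =
        Sum.inr (if b = true then 1 else 2) := by
      rw [e]
      by_cases hA : o ∈ A
      · rw [if_pos hA, if_pos (hb.2 hA)]
      · rw [if_neg hA, if_neg (fun h' => hA (hb.1 h'))]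
    exact congrArg₂ (fun a b => (⟨some a, v', b⟩ : TM2.Cfg (Al α β d) (P.Pos ⊕ Fin 3) _)) e3 e2
  have h2 : Run ((oracleMachine P).step A)
      1 ⟨some (Sum.inr (if b = true then 1 else 2)), v',
        mk [] [] [] [] (fun _ => 0) (fun _ => 0)⟩ (haltList (machine P) [b]) := by
    apply Run.one
    refine Eq.trans (if_neg ?_) ?_
    · intro h'
      have h'' : (some (Sum.inr (if b = true then 1 else 2)) : Option (P.Pos ⊕ Fin 3)) =
        some (Sum.inr 0) := h'
      have h3 := Sum.inr.inj (Option.some.inj h'')
      cases b
      · exact absurd h3 (by decide)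
      · exact absurd h3 (by decide)
    · rw [halt_eq]
      cases b <;> rfl
  refine ⟨t + 1 + 1, le_rfl, ?_⟩
  have h3 := (hr.trans h1).trans h2
  have e4 : l.map (Equiv.refl (α ⊕ Bool)).symm = l := List.map_id l
  have h4 : ∀ l' : List (α ⊕ Bool), l' = l → Run ((oracleMachine P).step A) (t + 1 + 1)
      (initList (machine P) l') (haltList (machine P) [b]) := by
    rintro _ rfl
    rw [init_eq]
    exact h3
  exact h4 _ e4

end

end Vale.Agent.P337.Lang
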