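import Vale.Agent.P337.OracleProg

/-!
# The levels `CHLevel` are contained in the oracle hierarchy
-/

namespace Vale.Agent.P337.Lang

open Function

section
variable {α β : Type} {d : ℕ}

/-- increment the counters `0, …, j - 1` -/
def incAll : ℕ → Prog (Al α β (d + 1))
  | 0 => .skip
  | j + 1 => .seq (incAll j) (.push (Stk.cnt (F d j)) ())

lemma big_incAll (inp : List (α ⊕ Bool)) (X : List α) (p : List Bool × List β)
    (a : Fin (d + 1) → ℕ) (c : Fin (d + 1) → ℕ) : ∀ (j : ℕ), j ≤ d + 1 →
    Big (incAll j) (st inp X p c a) (st inp X p (fun i => if i.1 < j then c i + 1 else c i) a)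
      (j + 1)
  | 0, _ => Big.skip _
  | j + 1, hj => by
    have h1 := big_incAll inp X p a c j (by omega)
    have h2 := push_cnt inp X p (fun i : Fin (d + 1) => if i.1 < j then c i + 1 else c i) a (F d j)
    have hF : (F d j).1 = j := by
      simp only [F, Fin.ofNat]
      exact Nat.mod_eq_of_lt (by omega)
    have e : update (fun i : Fin (d + 1) => if i.1 < j then c i + 1 else c i) (F d j)
        ((fun i : Fin (d + 1) => if i.1 < j then c i + 1 else c i) (F d j) + 1) =
        fun i : Fin (d + 1) => if i.1 < j + 1 then c i + 1 else c i := by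
      funext i
      by_cases hi : i = F d j
      · subst hi
        rw [update_self]
        simp only [hF]
        rw [if_neg (lt_irrefl j), if_pos (Nat.lt_succ_self j)]
      · rw [update_of_ne hi]
        have : i.1 ≠ j := fun h => hi (Fin.ext (by rw [hF]; exact h))
        by_cases h3 : i.1 < j
        · simp only [if_pos h3, if_pos (Nat.lt_succ_of_lt h3)]
        · simp only [if_neg h3, if_neg (show ¬ i.1 < j + 1 by omega)]
    rw [e] at h2
    exact Big.seq h1 h2

/-- read one letter -/
def readLetter (L : α → Bool) : α ⊕ Bool → Prog (Al α β (d + 1))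
  | Sum.inl x => .seq (.push Stk.X x) (if L x then incAll (d + 1) else .skip)
  | Sum.inr b => .push Stk.U b

/-- read the input -/
def readAll (L : α → Bool) : Prog (Al α β (d + 1)) := .loop Stk.inp (readLetter L)

lemma big_readCoins (L : α → Bool) (X : List α) (o : List β) (c a : Fin (d + 1) → ℕ) :
    ∀ (u U : List Bool), Big (readAll L) (st (u.map Sum.inr) X (U, o) c a)
      (st [] X (u.reverse ++ U, o) c a) (2 * u.length + 1)
  | [], U => by
    apply Big.loop_nil
    rfl
  | b :: u, U => by
    have h1 := big_readCoins L X o c a u (b :: U)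
    have h0 := Big.push (Γ := Al α β (d + 1)) Stk.U b (st (u.map Sum.inr) X (U, o) c a)
    have e0 : update (st (u.map Sum.inr) X (U, o) c a) (Stk.U : Stk (d + 1))
      (b :: (st (u.map Sum.inr) X (U, o) c a Stk.U)) = st (u.map Sum.inr) X (b :: U, o) c a :=
        upd_U (u.map Sum.inr) X U o c a (b :: U)
    rw [e0] at h0
    have e1 : update (st ((b :: u).map Sum.inr) X (U, o) c a) (Stk.inp : Stk (d + 1))
      (u.map Sum.inr) = st (u.map Sum.inr) X (U, o) c a := upd_inp _ X U o c a _
    rw [← e1] at h0
    have h2 := Big.loop_cons (Γ := Al α β (d + 1)) (s := Stk.inp) (P := readLetter L)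
      (D := st ((b :: u).map Sum.inr) X (U, o) c a) (x := Sum.inr b) (l := u.map Sum.inr) rfl h0 h1
    have e2 : 1 + 1 + (2 * u.length + 1) = 2 * (b :: u).length + 1 := by
      rw [List.length_cons]; ring
    have e3 : (b :: u).reverse ++ U = u.reverse ++ b :: U := by simp
    rw [e2] at h2
    rw [e3]
    exact h2

lemma big_readAll (L : α → Bool) (o : List β) (a : Fin (d + 1) → ℕ) (u U : List Bool) :
    ∀ (x : List α) (X : List α) (c : Fin (d + 1) → ℕ),
    ∃ t ≤ (d + 5) * x.length + (2 * u.length + 1),
    Big (readAll L) (st (x.map Sum.inl ++ u.map Sum.inr) X (U, o) c a)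
      (st [] (x.reverse ++ X) (u.reverse ++ U, o) (fun i => c i + x.countP L) a) t
  | [], X, c => ⟨2 * u.length + 1, by simp, big_readCoins L X o c a u U⟩
  | y :: x, X, c => by
    set inp : List (α ⊕ Bool) := x.map Sum.inl ++ u.map Sum.inr with hinp
    set c' : Fin (d + 1) → ℕ := fun i => if L y then c i + 1 else c i with hc'
    obtain ⟨t1, ht1, h1⟩ := big_readAll L o a u U x (y :: X) c'
    have h0 : ∃ t ≤ d + 3, Big (readLetter L (Sum.inl y)) (st inp X (U, o) c a)
        (st inp (y :: X) (U, o) c' a) t := by
      have h0 := Big.push (Γ := Al α β (d + 1)) Stk.X y (st inp X (U, o) c a)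
      have e0 : update (st inp X (U, o) c a) (Stk.X : Stk (d + 1))
        (y :: (st inp X (U, o) c a Stk.X)) = st inp (y :: X) (U, o) c a :=
          upd_X inp X U o c a (y :: X)
      rw [e0] at h0
      by_cases hy : L y = true
      · have h2 := big_incAll inp (y :: X) (U, o) a c (d + 1) le_rfl
        have e1 : (fun i : Fin (d + 1) => if i.1 < d + 1 then c i + 1 else c i) = c' := by
          funext i
          simp only [hc', if_pos i.2, if_pos hy]
        rw [e1] at h2
        have h3 := Big.seq h0 h2
        refine ⟨1 + (d + 1 + 1), ?_, ?_⟩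
        · omega
        · show Big (.seq (.push Stk.X y) (if L y then incAll (d + 1) else .skip)) _ _ _
          rw [if_pos hy]
          exact h3
      · have e1 : c = c' := by
          funext i
          simp only [hc', if_neg hy]
        have h3 := Big.seq h0 (Big.skip (st inp (y :: X) (U, o) c a))
        refine ⟨1 + 1, ?_, ?_⟩
        · omega
        · show Big (.seq (.push Stk.X y) (if L y then incAll (d + 1) else .skip)) _ _ _
          rw [if_neg hy, ← e1]
          exact h3
    obtain ⟨t0, ht0, h0⟩ := h0
    have e1 : update (st ((y :: x).map Sum.inl ++ u.map Sum.inr) X (U, o) c a) (Stk.inp : Stk (d + 1))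
      inp = st inp X (U, o) c a := upd_inp _ X U o c a _
    rw [← e1] at h0
    have h2 := Big.loop_cons (Γ := Al α β (d + 1)) (s := Stk.inp) (P := readLetter L)
      (D := st ((y :: x).map Sum.inl ++ u.map Sum.inr) X (U, o) c a) (x := Sum.inl y) (l := inp)
      rfl h0 h1
    have e3 : (y :: x).reverse ++ X = x.reverse ++ y :: X := by simp
    have e4 : (fun i => c' i + x.countP L) = fun i => c i + (y :: x).countP L := by
      funext i
      simp only [hc', List.countP_cons]
      split_ifs <;> omega
    rw [e3, ← e4]
    refine ⟨_, ?_, h2⟩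
    rw [List.length_cons]
    nlinarith

/-- push a word -/
def pushL : List β → Prog (Al α β (d + 1))
  | [] => .skip
  | b :: l => .seq (pushL l) (.push Stk.out b)

lemma big_pushL (inp : List (α ⊕ Bool)) (X : List α) (U : List Bool) (o : List β)
    (c a : Fin (d + 1) → ℕ) : ∀ l : List β,
    Big (pushL l) (st inp X (U, o) c a) (st inp X (U, l ++ o) c a) (l.length + 1)
  | [] => Big.skip _
  | b :: l => by
    have h1 := big_pushL inp X U o c a l
    have h0 := Big.push (Γ := Al α β (d + 1)) Stk.out b (st inp X (U, l ++ o) c a)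
    have e0 : update (st inp X (U, l ++ o) c a) (Stk.out : Stk (d + 1))
      (b :: (st inp X (U, l ++ o) c a Stk.out)) = st inp X (U, (b :: l) ++ o) c a :=
        upd_out inp X U (l ++ o) c a (b :: (l ++ o))
    rw [e0] at h0
    exact Big.seq h1 h0

/-- clear the stack of the remaining coins -/
def clearU : Prog (Al α β (d + 1)) := .loop Stk.U fun _ => .skip

lemma big_clearU (inp : List (α ⊕ Bool)) (X : List α) (o : List β)
    (c a : Fin (d + 1) → ℕ) : ∀ U : List Bool,
    Big clearU (st inp X (U, o) c a) (st inp X ([], o) c a) (2 * U.length + 1)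
  | [] => by
    apply Big.loop_nil
    rfl
  | b :: U => by
    have h1 := big_clearU inp X o c a U
    have h0 := Big.skip (Γ := Al α β (d + 1)) (st inp X (U, o) c a)
    have e1 : update (st inp X (b :: U, o) c a) (Stk.U : Stk (d + 1))
      U = st inp X (U, o) c a := upd_U _ _ _ _ _ _ _
    have h0' : Big (.skip) (update (st inp X (b :: U, o) c a) (Stk.U : Stk (d + 1)) U)
      (st inp X (U, o) c a) 1 := by rw [e1]; exact h0
    have h2 := Big.loop_cons (Γ := Al α β (d + 1)) (s := Stk.U) (P := fun _ => .skip)
      (D := st inp X (b :: U, o) c a) (x := b) (l := U) rfl h0' h1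
    have e2 : 1 + 1 + (2 * U.length + 1) = 2 * (b :: U).length + 1 := by
      rw [List.length_cons]; ring
    rw [e2] at h2
    exact h2

/-- write the letters on the stack `X` to the output -/
def outX (g : α → β) : Prog (Al α β (d + 1)) := .loop Stk.X fun x => .push Stk.out (g x)

lemma big_outX (g : α → β) (inp : List (α ⊕ Bool)) (U : List Bool)
    (c a : Fin (d + 1) → ℕ) : ∀ (X : List α) (o : List β),
    Big (outX g) (st inp X (U, o) c a) (st inp [] (U, (X.map g).reverse ++ o) c a)
      (2 * X.length + 1)
  | [], o => by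
    apply Big.loop_nil
    rfl
  | x :: X, o => by
    have h1 := big_outX g inp U c a X (g x :: o)
    have h0 := Big.push (Γ := Al α β (d + 1)) Stk.out (g x) (st inp X (U, o) c a)
    have e0 : update (st inp X (U, o) c a) (Stk.out : Stk (d + 1))
      (g x :: (st inp X (U, o) c a Stk.out)) = st inp X (U, g x :: o) c a :=
        upd_out inp X U o c a (g x :: o)
    rw [e0] at h0
    have e1 : update (st inp (x :: X) (U, o) c a) (Stk.X : Stk (d + 1))
      X = st inp X (U, o) c a := upd_X _ _ _ _ _ _ _
    rw [← e1] at h0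
    have h2 := Big.loop_cons (Γ := Al α β (d + 1)) (s := Stk.X) (P := fun x => .push Stk.out (g x))
      (D := st inp (x :: X) (U, o) c a) (x := x) (l := X) rfl h0 h1
    have e2 : 1 + 1 + (2 * X.length + 1) = 2 * (x :: X).length + 1 := by
      rw [List.length_cons]; ring
    have e3 : ((x :: X).map g).reverse ++ o = (X.map g).reverse ++ g x :: o := by simp
    rw [e2] at h2
    rw [e3]
    exact h2

lemma big_clearOne (inp : List (α ⊕ Bool)) (X : List α) (p : List Bool × List β)
    (a : Fin (d + 1) → ℕ) (i : Fin (d + 1)) : ∀ (r : ℕ) (c : Fin (d + 1) → ℕ), c i = r →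
    Big (.loop (Stk.cnt i) fun _ => .skip) (st inp X p c a) (st inp X p (update c i 0) a)
      (2 * r + 1)
  | 0, c, hc => by
    have e1 : update c i 0 = c := by rw [← hc, update_eq_self]
    rw [e1]
    apply Big.loop_nil
    show List.replicate (c i) () = []
    rw [hc]; rfl
  | r + 1, c, hc => by
    have h1 := big_clearOne inp X p a i r (update c i r) (update_self _ _ _)
    rw [update_idem] at h1
    have e1 : update (st inp X p c a) (Stk.cnt i : Stk (d + 1)) (List.replicate r ()) =
      st inp X p (update c i r) a := upd_cnt _ _ _ _ _ _ _ _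
    have h0 : Big (.skip) (update (st inp X p c a) (Stk.cnt i : Stk (d + 1)) (List.replicate r ()))
      (st inp X p (update c i r) a) 1 := by rw [e1]; exact Big.skip _
    have h2 := Big.loop_cons (Γ := Al α β (d + 1)) (s := Stk.cnt i) (P := fun _ => .skip)
      (D := st inp X p c a) (x := ()) (l := List.replicate r ()) (by
        show List.replicate (c i) () = _
        rw [hc]; rfl) h0 h1
    have e2 : 1 + 1 + (2 * r + 1) = 2 * (r + 1) + 1 := by ring
    rw [e2] at h2
    exact h2

/-- clear the counters `0, …, j - 1` -/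
def clearCnts : ℕ → Prog (Al α β (d + 1))
  | 0 => .skip
  | j + 1 => .seq (clearCnts j) (.loop (Stk.cnt (F d j)) fun _ => .skip)

lemma big_clearCnts (inp : List (α ⊕ Bool)) (X : List α) (p : List Bool × List β)
    (a : Fin (d + 1) → ℕ) (n : ℕ) : ∀ (j : ℕ), j ≤ d + 1 →
    Big (clearCnts j) (st inp X p (fun _ => n) a) (st inp X p (fun i => if i.1 < j then 0 else n) a)
      (j * (2 * n + 1) + 1)
  | 0, _ => by
    rw [zero_mul]
    exact Big.skip _
  | j + 1, hj => by
    have h1 := big_clearCnts inp X p a n j (by omega)
    have hF : (F d j).1 = j := by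
      simp only [F, Fin.ofNat]
      exact Nat.mod_eq_of_lt (by omega)
    have h2 := big_clearOne inp X p a (F d j) n (fun i : Fin (d + 1) => if i.1 < j then 0 else n)
      (by simp only [hF]; rw [if_neg (lt_irrefl j)])
    have e : update (fun i : Fin (d + 1) => if i.1 < j then 0 else n) (F d j) 0 =
        fun i : Fin (d + 1) => if i.1 < j + 1 then 0 else n := by
      funext i
      by_cases hi : i = F d j
      · subst hi
        rw [update_self]
        simp only [hF]
        rw [if_pos (Nat.lt_succ_self j)]
      · rw [update_of_ne hi]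
        have : i.1 ≠ j := fun h => hi (Fin.ext (by rw [hF]; exact h))
        by_cases h3 : i.1 < j
        · simp only [if_pos h3, if_pos (Nat.lt_succ_of_lt h3)]
        · simp only [if_neg h3, if_neg (show ¬ i.1 < j + 1 by omega)]
    rw [e] at h2
    have h3 := Big.seq h1 h2
    have e2 : j * (2 * n + 1) + 1 + (2 * n + 1) = (j + 1) * (2 * n + 1) + 1 := by ring
    rw [e2] at h3
    exact h3

/-- the program -/
noncomputable def mainProg (L : α → Bool) (g : α → β) (h : Bool → β) (sep : List β)
    (q : Polynomial ℕ) : Prog (Al α β (q.natDegree + 1)) :=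
  .seq (readAll L) (.seq (polyProg h q (q.natDegree + 1)) (.seq clearU (.seq (pushL sep)
    (.seq (outX g) (clearCnts (q.natDegree + 1))))))

end

lemma eval_mono (q : Polynomial ℕ) {m n : ℕ} (h : m ≤ n) : q.eval m ≤ q.eval n := by
  rw [Polynomial.eval_eq_sum_range, Polynomial.eval_eq_sum_range]
  exact Finset.sum_le_sum fun i _ => Nat.mul_le_mul_left _ (Nat.pow_le_pow_left h i)

/-- the time bound -/
noncomputable def mainTime (q : Polynomial ℕ) (s : ℕ) : Polynomial ℕ :=
  Polynomial.C (q.natDegree + 5) * Polynomial.X + Polynomial.C 2 * q + tauP q (q.natDegree + 1) +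
    Polynomial.C 2 * q + Polynomial.C 2 * Polynomial.X +
    Polynomial.C (q.natDegree + 1) * (Polynomial.C 2 * Polynomial.X + Polynomial.C 1) +
    Polynomial.C (s + 10)

theorem big_mainProg {α β : Type} (L : α → Bool) (g : α → β) (h : Bool → β) (sep : List β)
    (q : Polynomial ℕ) (x : List α) (u : List Bool) (hu : u.length = q.eval x.length) :
    ∃ t ≤ (mainTime q sep.length).eval x.length,
    Big (mainProg L g h sep q) (mk (x.map Sum.inl ++ u.map Sum.inr) [] [] [] (fun _ => 0) (fun _ => 0))
      (mk [] [] [] (x.map g ++ sep ++ (u.drop (u.length - q.eval (x.countP L))).map h)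
        (fun _ => 0) (fun _ => 0)) t := by
  set d := q.natDegree with hd
  have hle : x.countP L ≤ x.length := List.countP_le_length
  have hm : q.eval (x.countP L) ≤ u.length := by
    rw [hu]
    exact eval_mono q hle
  obtain ⟨t1, ht1, h1⟩ := big_readAll (d := d) (β := β) L [] (fun _ => 0) u [] x [] (fun _ => 0)
  simp only [List.append_nil, zero_add] at h1
  obtain ⟨t2, ht2, h2⟩ := big_polyProg (d := d) ([] : List (α ⊕ Bool)) x.reverse h q
    (fun _ => x.countP L) (fun _ => 0) (x.countP L) (fun _ => rfl) (fun _ => rfl) (d + 1) le_rfl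
    (u.reverse, [])
  rw [hd, ← Polynomial.eval_eq_sum_range, ← hd, T_iter, List.append_nil] at h2
  have h3 := big_clearU (d := d) ([] : List (α ⊕ Bool)) x.reverse
    (((u.reverse.take (q.eval (x.countP L))).reverse.map h)) (fun _ => x.countP L) (fun _ => 0)
    (u.reverse.drop (q.eval (x.countP L)))
  have h4 := big_pushL (d := d) ([] : List (α ⊕ Bool)) x.reverse []
    (((u.reverse.take (q.eval (x.countP L))).reverse.map h)) (fun _ => x.countP L) (fun _ => 0) sep
  have h5 := big_outX (d := d) g ([] : List (α ⊕ Bool)) [] (fun _ => x.countP L) (fun _ => 0)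
    x.reverse (sep ++ ((u.reverse.take (q.eval (x.countP L))).reverse.map h))
  have h6 := big_clearCnts (d := d) ([] : List (α ⊕ Bool)) ([] : List α)
    (([] : List Bool), (x.reverse.map g).reverse ++
      (sep ++ ((u.reverse.take (q.eval (x.countP L))).reverse.map h))) (fun _ => 0)
    (x.countP L) (d + 1) le_rfl
  have e1 : (x.reverse.map g).reverse ++
      (sep ++ ((u.reverse.take (q.eval (x.countP L))).reverse.map h)) =
      x.map g ++ sep ++ (u.drop (u.length - q.eval (x.countP L))).map h := by
    rw [List.map_reverse, List.reverse_reverse, List.append_assoc, List.take_reverse,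
      List.reverse_reverse]
  have e2 : (fun i : Fin (d + 1) => if i.1 < d + 1 then 0 else x.countP L) = fun _ => 0 := by
    funext i
    rw [if_pos i.2]
  rw [e1, e2] at h6
  rw [e1] at h5
  refine ⟨_, ?_, Big.seq h1 (Big.seq h2 (Big.seq h3 (Big.seq h4 (Big.seq h5 h6))))⟩
  have e3 : (tauP q (d + 1)).eval (x.countP L) ≤ (tauP q (d + 1)).eval x.length := eval_mono _ hle
  have e4 : (d + 1) * (2 * x.countP L + 1) ≤ (d + 1) * (2 * x.length + 1) :=
    Nat.mul_le_mul_left _ (by omega)
  have e5 : (u.reverse.drop (q.eval (x.countP L))).length ≤ u.length := by simp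
  simp only [mainTime, Polynomial.eval_add, Polynomial.eval_mul, Polynomial.eval_X,
    Polynomial.eval_C, List.length_reverse, ← hd]
  omega

end Vale.Agent.P337.Lang
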