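import Vale.Agent.P337.OracleMach

/-!
# The program that prepares the query
-/

namespace Vale.Agent.P337.Lang

open Function

section
variable {α β : Type} {d : ℕ}

/-- the counter with number `j` -/
def F (d j : ℕ) : Fin (d + 1) := Fin.ofNat (d + 1) j

lemma F_ne {d i j : ℕ} (hi : i ≤ d) (hj : j < i) : F d j ≠ F d i := by
  intro h
  have h1 : (F d j).1 = (F d i).1 := by rw [h]
  simp only [F, Fin.ofNat] at h1
  rw [Nat.mod_eq_of_lt (by omega), Nat.mod_eq_of_lt (by omega)] at h1
  omega

/-- move a letter from the stack `U` to the output -/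
def T (h : Bool → β) (p : List Bool × List β) : List Bool × List β :=
  match p.1 with
  | [] => p
  | b :: l => (l, h b :: p.2)

lemma T_iter (h : Bool → β) : ∀ (m : ℕ) (V : List Bool) (o : List β),
    (T h)^[m] (V, o) = (V.drop m, (V.take m).reverse.map h ++ o)
  | 0, V, o => by simp
  | m + 1, [], o => by
    rw [iterate_succ_apply]
    have : T h (([] : List Bool), o) = ([], o) := rfl
    rw [this, T_iter h m]
    simp
  | m + 1, b :: V, o => by
    rw [iterate_succ_apply]
    have : T h (b :: V, o) = (V, h b :: o) := rfl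
    rw [this, T_iter h m]
    simp

/-- the state with given `U` and output -/
def st (inp : List (α ⊕ Bool)) (X : List α) (p : List Bool × List β) (c a : Fin (d + 1) → ℕ) :
    ∀ s : Stk (d + 1), List (Al α β (d + 1) s) := mk inp X p.1 p.2 c a

/-- the stacks of a state -/
def take1 (h : Bool → β) : Prog (Al α β (d + 1)) :=
  .pop Stk.U fun o => match o with
    | none => .skip
    | some b => .push Stk.out (h b)

variable (inp : List (α ⊕ Bool)) (X : List α)

lemma big_take1 (h : Bool → β) (p : List Bool × List β) (c a : Fin (d + 1) → ℕ) :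
    Big (take1 h) (st inp X p c a) (st inp X (T h p) c a) 2 := by
  obtain ⟨U, o⟩ := p
  cases U with
  | nil =>
    apply Big.pop
    have e : update (st inp X (([] : List Bool), o) c a) (Stk.U : Stk (d + 1))
      (List.tail (st inp X (([] : List Bool), o) c a Stk.U)) = st inp X ([], o) c a :=
        upd_U _ _ _ _ _ _ _
    rw [e]
    exact Big.skip _
  | cons b V =>
    apply Big.pop
    have e : update (st inp X (b :: V, o) c a) (Stk.U : Stk (d + 1))
      (List.tail (st inp X (b :: V, o) c a Stk.U)) = st inp X (V, o) c a :=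
        upd_U _ _ _ _ _ _ _
    rw [e]
    have e2 := Big.push (Γ := Al α β (d + 1)) Stk.out (h b) (st inp X (V, o) c a)
    have e3 : update (st inp X (V, o) c a) (Stk.out : Stk (d + 1))
      (h b :: (st inp X (V, o) c a Stk.out)) = st inp X (V, h b :: o) c a :=
        upd_out _ _ _ _ _ _ _
    rw [e3] at e2
    exact e2

/-- `n ^ i` copies of `take1` -/
def nested (h : Bool → β) : ℕ → Prog (Al α β (d + 1))
  | 0 => take1 h
  | i + 1 => .seq (.loop (Stk.cnt (F d i)) fun _ => .seq (.push (Stk.aux (F d i)) ()) (nested h i))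
      (.loop (Stk.aux (F d i)) fun _ => .push (Stk.cnt (F d i)) ())

/-- a time bound -/
noncomputable def tau : ℕ → Polynomial ℕ
  | 0 => Polynomial.C 2
  | i + 1 => Polynomial.X * (tau i + Polynomial.C 4) + Polynomial.C 2

lemma push_cnt (p : List Bool × List β) (c a : Fin (d + 1) → ℕ) (i : Fin (d + 1)) :
    Big (.push (Stk.cnt i) ()) (st inp X p c a) (st inp X p (update c i (c i + 1)) a) 1 := by
  have e2 := Big.push (Γ := Al α β (d + 1)) (Stk.cnt i) () (st inp X p c a)
  have e3 : update (st inp X p c a) (Stk.cnt i : Stk (d + 1))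
    (() :: (st inp X p c a (Stk.cnt i))) = st inp X p (update c i (c i + 1)) a :=
      upd_cnt inp X p.1 p.2 c a i (c i + 1)
  rwa [e3] at e2

lemma push_aux (p : List Bool × List β) (c a : Fin (d + 1) → ℕ) (i : Fin (d + 1)) :
    Big (.push (Stk.aux i) ()) (st inp X p c a) (st inp X p c (update a i (a i + 1))) 1 := by
  have e2 := Big.push (Γ := Al α β (d + 1)) (Stk.aux i) () (st inp X p c a)
  have e3 : update (st inp X p c a) (Stk.aux i : Stk (d + 1))
    (() :: (st inp X p c a (Stk.aux i))) = st inp X p c (update a i (a i + 1)) :=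
      upd_aux inp X p.1 p.2 c a i (a i + 1)
  rwa [e3] at e2

/-- the loop on an auxiliary counter that restores the counter -/
lemma big_restore (p : List Bool × List β) (i : Fin (d + 1)) : ∀ (r : ℕ) (c a : Fin (d + 1) → ℕ),
    a i = r → Big (.loop (Stk.aux i) fun _ => .push (Stk.cnt i) ()) (st inp X p c a)
      (st inp X p (update c i (c i + r)) (update a i 0)) (2 * r + 1)
  | 0, c, a, ha => by
    have e1 : update c i (c i + 0) = c := by rw [add_zero, update_eq_self]
    have e2 : update a i 0 = a := by rw [← ha, update_eq_self]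
    rw [e1, e2]
    apply Big.loop_nil
    show List.replicate (a i) () = []
    rw [ha]; rfl
  | r + 1, c, a, ha => by
    have h1 := big_restore p i r (update c i (c i + 1)) (update a i r) (update_self _ _ _)
    rw [update_self, update_idem, update_idem] at h1
    have e : c i + 1 + r = c i + (r + 1) := by ring
    rw [e] at h1
    have h2 := push_cnt inp X p c (update a i r) i
    have e3 : update (st inp X p c a) (Stk.aux i : Stk (d + 1)) (List.replicate r ()) =
      st inp X p c (update a i r) := upd_aux _ _ _ _ _ _ _ _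
    rw [← e3] at h2
    have h3 := Big.loop_cons (Γ := Al α β (d + 1)) (s := Stk.aux i)
      (P := fun _ => .push (Stk.cnt i) ()) (D := st inp X p c a) (x := ())
      (l := List.replicate r ()) (by
        show List.replicate (a i) () = _
        rw [ha]; rfl) h2 h1
    have e4 : 1 + 1 + (2 * r + 1) = 2 * (r + 1) + 1 := by ring
    rw [e4] at h3
    exact h3

lemma big_nested (h : Bool → β) : ∀ (i : ℕ) (_ : i ≤ d + 1) (p : List Bool × List β)
    (c a : Fin (d + 1) → ℕ) (n : ℕ), (∀ j < i, c (F d j) = n) → (∀ j < i, a (F d j) = 0) →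
    ∃ t ≤ (tau i).eval n, Big (nested h i) (st inp X p c a)
      (st inp X ((T h)^[n ^ i] p) c a) t
  | 0, _, p, c, a, n, _, _ => by
    refine ⟨2, by simp [tau], ?_⟩
    exact big_take1 inp X h p c a
  | i + 1, hi, p, c, a, n, hc, ha => by
    have key : ∀ (r : ℕ) (p : List Bool × List β) (c a : Fin (d + 1) → ℕ), c (F d i) = r →
        (∀ j < i, c (F d j) = n) → (∀ j < i, a (F d j) = 0) →
        ∃ t ≤ r * ((tau i).eval n + 2) + 1,
          Big (.loop (Stk.cnt (F d i)) fun _ => .seq (.push (Stk.aux (F d i)) ()) (nested h i))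
          (st inp X p c a) (st inp X ((T h)^[r * n ^ i] p) (update c (F d i) 0)
            (update a (F d i) (a (F d i) + r))) t := by
      intro r
      induction r with
      | zero =>
        intro p c a hc' _ _
        have e1 : update c (F d i) 0 = c := by rw [← hc', update_eq_self]
        have e2 : update a (F d i) (a (F d i) + 0) = a := by rw [add_zero, update_eq_self]
        have e0 : (T h)^[0 * n ^ i] p = p := by rw [zero_mul]; rfl
        rw [e1, e2, e0]
        refine ⟨1, by omega, ?_⟩
        apply Big.loop_nil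
        show List.replicate (c (F d i)) () = []
        rw [hc']; rfl
      | succ r ih =>
        intro p c a hc' hc2 ha2
        have hne : ∀ j < i, F d j ≠ F d i := fun j hj => F_ne (by omega) hj
        obtain ⟨t1, ht1, h1⟩ := big_nested h i (by omega) p (update c (F d i) r)
          (update a (F d i) (a (F d i) + 1)) n
          (fun j hj => by rw [update_of_ne (hne j hj), hc2 j hj])
          (fun j hj => by rw [update_of_ne (hne j hj), ha2 j hj])
        obtain ⟨t2, ht2, h2⟩ := ih ((T h)^[n ^ i] p) (update c (F d i) r)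
          (update a (F d i) (a (F d i) + 1)) (update_self _ _ _)
          (fun j hj => by rw [update_of_ne (hne j hj), hc2 j hj])
          (fun j hj => by rw [update_of_ne (hne j hj), ha2 j hj])
        rw [update_self, update_idem, update_idem, ← iterate_add_apply] at h2
        have e : a (F d i) + 1 + r = a (F d i) + (r + 1) := by ring
        have e' : r * n ^ i + n ^ i = (r + 1) * n ^ i := by ring
        rw [e, e'] at h2
        have h0 := push_aux inp X p (update c (F d i) r) a (F d i)
        have h01 := Big.seq h0 h1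
        have e3 : update (st inp X p c a) (Stk.cnt (F d i) : Stk (d + 1)) (List.replicate r ()) =
          st inp X p (update c (F d i) r) a := upd_cnt _ _ _ _ _ _ _ _
        rw [← e3] at h01
        have h3 := Big.loop_cons (Γ := Al α β (d + 1)) (s := Stk.cnt (F d i))
          (P := fun _ => .seq (.push (Stk.aux (F d i)) ()) (nested h i)) (D := st inp X p c a)
          (x := ()) (l := List.replicate r ()) (by
            show List.replicate (c (F d i)) () = _
            rw [hc']; rfl) h01 h2
        refine ⟨_, ?_, h3⟩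
        nlinarith
    obtain ⟨t1, ht1, h1⟩ := key n p c a (hc i (Nat.lt_succ_self i))
      (fun j hj => hc j (by omega)) (fun j hj => ha j (by omega))
    have h2 := big_restore inp X ((T h)^[n * n ^ i] p) (F d i) n (update c (F d i) 0)
      (update a (F d i) (a (F d i) + n)) (by rw [update_self, ha i (Nat.lt_succ_self i), zero_add])
    rw [update_self, update_idem, update_idem, zero_add] at h2
    have e1 : update c (F d i) n = c := by rw [← hc i (Nat.lt_succ_self i), update_eq_self]
    have e2 : update a (F d i) 0 = a := by rw [← ha i (Nat.lt_succ_self i), update_eq_self]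
    rw [e1, e2] at h2
    have e3 : n * n ^ i = n ^ (i + 1) := by ring
    have h3 := Big.seq h1 h2
    rw [e3] at h3
    refine ⟨_, ?_, h3⟩
    simp only [tau, Polynomial.eval_add, Polynomial.eval_mul, Polynomial.eval_X, Polynomial.eval_C]
    nlinarith

/-- `k` copies of a program -/
def reps : ℕ → Prog (Al α β (d + 1)) → Prog (Al α β (d + 1))
  | 0, _ => .skip
  | k + 1, P => .seq P (reps k P)

lemma big_reps (h : Bool → β) (P : Prog (Al α β (d + 1))) (c a : Fin (d + 1) → ℕ) (m b : ℕ)
    (hP : ∀ p, ∃ t ≤ b, Big P (st inp X p c a) (st inp X ((T h)^[m] p) c a) t) :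
    ∀ (k : ℕ) (p : List Bool × List β), ∃ t ≤ k * b + 1,
      Big (reps k P) (st inp X p c a) (st inp X ((T h)^[k * m] p) c a) t
  | 0, p => by
    rw [zero_mul, zero_mul]
    exact ⟨1, by omega, Big.skip _⟩
  | k + 1, p => by
    obtain ⟨t1, ht1, h1⟩ := hP p
    obtain ⟨t2, ht2, h2⟩ := big_reps h P c a m b hP k ((T h)^[m] p)
    rw [← iterate_add_apply] at h2
    have e : k * m + m = (k + 1) * m := by ring
    rw [e] at h2
    refine ⟨_, ?_, Big.seq h1 h2⟩
    nlinarith

/-- `q(n)` copies of `take1` (the first `i` coefficients of `q`) -/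
noncomputable def polyProg (h : Bool → β) (q : Polynomial ℕ) : ℕ → Prog (Al α β (d + 1))
  | 0 => .skip
  | i + 1 => .seq (polyProg h q i) (reps (q.coeff i) (nested h i))

/-- time bound -/
noncomputable def tauP (q : Polynomial ℕ) : ℕ → Polynomial ℕ
  | 0 => Polynomial.C 1
  | i + 1 => tauP q i + (Polynomial.C (q.coeff i) * tau i + Polynomial.C 1)

lemma big_polyProg (h : Bool → β) (q : Polynomial ℕ) (c a : Fin (d + 1) → ℕ) (n : ℕ)
    (hc : ∀ j, c j = n) (ha : ∀ j, a j = 0) : ∀ (i : ℕ) (_ : i ≤ d + 1) (p : List Bool × List β),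
    ∃ t ≤ (tauP q i).eval n, Big (polyProg h q i) (st inp X p c a)
      (st inp X ((T h)^[∑ j ∈ Finset.range i, q.coeff j * n ^ j] p) c a) t
  | 0, _, p => by
    refine ⟨1, by simp [tauP], ?_⟩
    rw [Finset.sum_range_zero]
    exact Big.skip _
  | i + 1, hi, p => by
    obtain ⟨t1, ht1, h1⟩ := big_polyProg h q c a n hc ha i (by omega) p
    obtain ⟨t2, ht2, h2⟩ := big_reps inp X h (nested h i) c a (n ^ i) ((tau i).eval n)
      (fun p => big_nested inp X h i (by omega) p c a n (fun j _ => hc _) (fun j _ => ha _))
      (q.coeff i) ((T h)^[∑ j ∈ Finset.range i, q.coeff j * n ^ j] p)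
    rw [← iterate_add_apply, add_comm (q.coeff i * n ^ i), ← Finset.sum_range_succ] at h2
    refine ⟨_, ?_, Big.seq h1 h2⟩
    simp only [tauP, Polynomial.eval_add, Polynomial.eval_mul, Polynomial.eval_C]
    omega

end

end Vale.Agent.P337.Lang
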