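import Vale.Agent.P337.OracleDef

/-!
# Polynomial time many-one reductions and the class `∃ℝ`
-/

namespace Vale.Agent.P337

/-- A function on words is computable in (deterministic) polynomial time. -/
def PolyTimeFun {α β : Type} (f : List α → List β) : Prop :=
  ∃ M : Turing.TM2ComputableInPolyTime (id : List α → List α) (id : List β → List β) f,
    ∀ k, Finite (M.tm.Γ k)

/-- Polynomial time many-one reducibility: `L` reduces to `A`. -/
def Reduces {α β : Type} (L : Set (List α)) (A : Set (List β)) : Prop :=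
  ∃ f : List α → List β, PolyTimeFun f ∧ ∀ w, w ∈ L ↔ f w ∈ A

/-- The class `∃ℝ`: the languages that reduce in polynomial time to the existential theory of the
reals. -/
def ExR (α : Type) : Set (Set (List α)) := {L | Reduces L ETR}

namespace Red

open Turing Function

section

variable {α β : Type}

/-- the stacks: input, scratch, answer, and the stacks of the given machine -/
inductive Stk (K : Type) : Type
  | inp | tmp | res
  | st (k : K)
  deriving DecidableEq

instance (K : Type) [Finite K] : Finite (Stk K) :=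
  Finite.of_injective (β := Option (Option (Option K)))
    (fun s => match s with
      | .inp => none
      | .tmp => some none
      | .res => some (some none)
      | .st i => some (some (some i)))
    (by intro a b; cases a <;> cases b <;> simp)

/-- the labels -/
inductive Lab (α Λ : Type) : Type
  | rd | rdP (a : α) | mv | mvP (a : α) | run (l : Λ) | query | yes | no

instance (α Λ : Type) [Finite α] [Finite Λ] : Finite (Lab α Λ) :=
  Finite.of_injective (β := Fin 5 ⊕ α ⊕ α ⊕ Λ)
    (fun s => match s with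
      | .rd => Sum.inl 0
      | .mv => Sum.inl 1
      | .query => Sum.inl 2
      | .yes => Sum.inl 3
      | .no => Sum.inl 4
      | .rdP a => Sum.inr (Sum.inl a)
      | .mvP a => Sum.inr (Sum.inr (Sum.inl a))
      | .run l => Sum.inr (Sum.inr (Sum.inr l)))
    (by intro a b; cases a <;> cases b <;> simp)

/-- the alphabets -/
abbrev Al (α : Type) {K : Type} (Γ : K → Type) : Stk K → Type
  | .inp => α ⊕ Bool
  | .tmp => α
  | .res => Bool
  | .st k => Γ k

instance finite_al [Finite α] {K : Type} (Γ : K → Type) [∀ k, Finite (Γ k)] (s : Stk K) :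
    Finite (Al α Γ s) := by
  cases s <;> unfold Al <;> infer_instance

/-- the contents of the stacks -/
def mk {K : Type} {Γ : K → Type} (inp : List (α ⊕ Bool)) (tmp : List α) (res : List Bool)
    (S : ∀ k, List (Γ k)) : ∀ s : Stk K, List (Al α Γ s)
  | .inp => inp
  | .tmp => tmp
  | .res => res
  | .st k => S k

section
variable {K : Type} [DecidableEq K] {Γ : K → Type} (inp : List (α ⊕ Bool)) (tmp : List α)
    (res : List Bool) (S : ∀ k, List (Γ k))

lemma upd_inp (l : List (α ⊕ Bool)) :
    update (mk inp tmp res S) Stk.inp l = mk l tmp res S := by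
  funext s
  cases s <;> rfl

lemma upd_tmp (l : List α) :
    update (mk inp tmp res S) Stk.tmp l = mk inp l res S := by
  funext s
  cases s <;> rfl

lemma upd_res (l : List Bool) :
    update (mk inp tmp res S) Stk.res l = mk inp tmp l S := by
  funext s
  cases s <;> rfl

lemma upd_st (k : K) (l : List (Γ k)) :
    update (mk inp tmp res S) (Stk.st k) l = mk inp tmp res (update S k l) := by
  funext s
  by_cases h : s = Stk.st k
  · subst h
    rw [update_self]
    show l = update S k l k
    rw [update_self]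
  · rw [update_of_ne h]
    cases s with
    | st j =>
      show S j = update S k l j
      rw [update_of_ne (by rintro rfl; exact h rfl)]
    | _ => rfl

/-- the statements of the given machine, in the new machine -/
def lift {Λ σ : Type} : TM2.Stmt Γ Λ σ →
    TM2.Stmt (Al α Γ) (Lab α Λ) (Option (α ⊕ Bool) × σ)
  | .push k f q => .push (Stk.st k) (fun v => f v.2) (lift q)
  | .peek k f q => .peek (Stk.st k) (fun v x => (v.1, f v.2 x)) (lift q)
  | .pop k f q => .pop (Stk.st k) (fun v x => (v.1, f v.2 x)) (lift q)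
  | .load f q => .load (fun v => (v.1, f v.2)) (lift q)
  | .branch p q₁ q₂ => .branch (fun v => p v.2) (lift q₁) (lift q₂)
  | .goto l => .goto fun v => Lab.run (l v.2)
  | .halt => .goto fun _ => Lab.query

/-- the label of the new machine -/
def lab {Λ : Type} : Option Λ → Lab α Λ
  | none => Lab.query
  | some l => Lab.run l

/-- the configuration of the new machine -/
def emb {Λ σ : Type} (c : TM2.Cfg Γ Λ σ) :
    TM2.Cfg (Al α Γ) (Lab α Λ) (Option (α ⊕ Bool) × σ) :=
  ⟨some (lab c.l), (none, c.var), mk [] [] [] c.stk⟩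

lemma stepAux_lift {Λ σ : Type} (q : TM2.Stmt Γ Λ σ) : ∀ (v : σ) (S : ∀ k, List (Γ k)),
    TM2.stepAux (lift (α := α) q) (none, v) (mk [] [] [] S) = emb (TM2.stepAux q v S) := by
  induction q with
  | push k f q ih =>
    intro v S
    show TM2.stepAux (lift q) (none, v) (update (mk [] [] [] S) (Stk.st k) (f v :: S k)) = _
    rw [upd_st, ih]
    rfl
  | peek k f q ih =>
    intro v S
    exact ih _ _
  | pop k f q ih =>
    intro v S
    show TM2.stepAux (lift q) (none, f v (S k).head?)
      (update (mk [] [] [] S) (Stk.st k) (S k).tail) = _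
    rw [upd_st, ih]
    rfl
  | load f q ih =>
    intro v S
    exact ih _ _
  | branch p q₁ q₂ ih₁ ih₂ =>
    intro v S
    show cond (p v) (TM2.stepAux (lift q₁) (none, v) (mk [] [] [] S))
      (TM2.stepAux (lift q₂) (none, v) (mk [] [] [] S)) =
      emb (cond (p v) (TM2.stepAux q₁ v S) (TM2.stepAux q₂ v S))
    cases p v
    · exact ih₂ v S
    · exact ih₁ v S
  | goto l => intro v S; rfl
  | halt => intro v S; rfl

end

/-- the program of the new machine -/
def prog (M : TM2ComputableAux α β) : Lab α M.tm.Λ →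
    TM2.Stmt (Al α M.tm.Γ) (Lab α M.tm.Λ) (Option (α ⊕ Bool) × M.tm.σ)
  | .rd => .pop Stk.inp (fun v x => (x, v.2)) (.goto fun v => match v.1 with
      | some (Sum.inl a) => Lab.rdP a
      | some (Sum.inr _) => Lab.rd
      | none => Lab.mv)
  | .rdP a => .push Stk.tmp (fun _ => a) (.goto fun _ => Lab.rd)
  | .mv => .pop Stk.tmp (fun v x => (x.map Sum.inl, v.2)) (.goto fun v => match v.1 with
      | some (Sum.inl a) => Lab.mvP a
      | some (Sum.inr _) => Lab.mv
      | none => Lab.run M.tm.main)
  | .mvP a => .push (Stk.st M.tm.k₀) (fun _ => M.inputAlphabet.symm a) (.goto fun _ => Lab.mv)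
  | .run l => lift (M.tm.m l)
  | .query => .halt
  | .yes => .push Stk.res (fun _ => true) .halt
  | .no => .push Stk.res (fun _ => false) .halt

/-- `t` steps of a step function -/
def Run {C : Type} (st : C → Option C) (t : ℕ) (a b : C) : Prop :=
  (fun c : Option C => c.bind st)^[t] (some a) = some b

lemma Run.trans {C : Type} {st : C → Option C} {t t' : ℕ} {a b c : C} (h : Run st t a b)
    (h' : Run st t' b c) : Run st (t + t') a c := by
  unfold Run at *
  rw [add_comm, Function.iterate_add_apply, h, h']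

lemma Run.one {C : Type} {st : C → Option C} {a b : C} (h : st a = some b) : Run st 1 a b := h

lemma iterate_none {C : Type} (st : C → Option C) (n : ℕ) :
    (fun c : Option C => c.bind st)^[n] none = none := by
  induction n with
  | zero => rfl
  | succ n ih => rw [iterate_succ_apply]; exact ih

section
variable (M : TM2ComputableAux α β)
  (st : TM2.Cfg (Al α M.tm.Γ) (Lab α M.tm.Λ) (Option (α ⊕ Bool) × M.tm.σ) →
    Option (TM2.Cfg (Al α M.tm.Γ) (Lab α M.tm.Λ) (Option (α ⊕ Bool) × M.tm.σ)))
  (hst : ∀ (l : Lab α M.tm.Λ) v S, l ≠ Lab.query →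
    st ⟨some l, v, S⟩ = some (TM2.stepAux (prog M l) v S))

include hst

lemma sim : ∀ (n : ℕ) (c d : TM2.Cfg M.tm.Γ M.tm.Λ M.tm.σ),
    (fun c : Option (TM2.Cfg M.tm.Γ M.tm.Λ M.tm.σ) => c.bind (TM2.step M.tm.m))^[n] (some c) =
      some d → Run st n (emb c) (emb d)
  | 0, c, d, h => by
    have : c = d := Option.some.inj h
    subst this
    rfl
  | n + 1, c, d, h => by
    rw [iterate_succ_apply] at h
    obtain ⟨l, v, S⟩ := c
    cases l with
    | none =>
      exfalso
      have h1 : (some (⟨none, v, S⟩ : TM2.Cfg M.tm.Γ M.tm.Λ M.tm.σ)).bind (TM2.step M.tm.m) =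
        none := rfl
      rw [h1, iterate_none] at h
      cases h
    | some l =>
      have h1 : (some (⟨some l, v, S⟩ : TM2.Cfg M.tm.Γ M.tm.Λ M.tm.σ)).bind (TM2.step M.tm.m) =
        some (TM2.stepAux (M.tm.m l) v S) := rfl
      rw [h1] at h
      have h2 := sim n _ _ h
      have h3 : Run st 1 (emb (⟨some l, v, S⟩ : TM2.Cfg M.tm.Γ M.tm.Λ M.tm.σ))
          (emb (TM2.stepAux (M.tm.m l) v S)) := by
        apply Run.one
        rw [← stepAux_lift]
        exact hst (Lab.run l) _ _ (by intro h; cases h)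
      have h4 := h3.trans h2
      rwa [add_comm] at h4

lemma read (S : ∀ k, List (M.tm.Γ k)) : ∀ (x T : List α) (v : Option (α ⊕ Bool) × M.tm.σ),
    Run st (2 * x.length + 1) ⟨some Lab.rd, v, mk (x.map Sum.inl) T [] S⟩
      ⟨some Lab.mv, (none, v.2), mk [] (x.reverse ++ T) [] S⟩
  | [], T, v => by
    apply Run.one
    rw [hst Lab.rd _ _ (by intro h; cases h)]
    show some (_ : TM2.Cfg (Al α M.tm.Γ) (Lab α M.tm.Λ) (Option (α ⊕ Bool) × M.tm.σ)) = _
    refine congrArg (fun X => some (⟨some Lab.mv, (none, v.2), X⟩ :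
      TM2.Cfg (Al α M.tm.Γ) (Lab α M.tm.Λ) (Option (α ⊕ Bool) × M.tm.σ))) ?_
    exact upd_inp _ _ _ _ _
  | a :: x, T, v => by
    have h1 : Run st 1 ⟨some Lab.rd, v, mk ((a :: x).map Sum.inl) T [] S⟩
        ⟨some (Lab.rdP a), (some (Sum.inl a), v.2), mk (x.map Sum.inl) T [] S⟩ := by
      apply Run.one
      rw [hst Lab.rd _ _ (by intro h; cases h)]
      refine congrArg (fun X => some (⟨some (Lab.rdP a), (some (Sum.inl a), v.2), X⟩ :
        TM2.Cfg (Al α M.tm.Γ) (Lab α M.tm.Λ) (Option (α ⊕ Bool) × M.tm.σ))) ?_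
      exact upd_inp _ _ _ _ _
    have h2 : Run st 1 ⟨some (Lab.rdP a), (some (Sum.inl a), v.2), mk (x.map Sum.inl) T [] S⟩
        ⟨some Lab.rd, (some (Sum.inl a), v.2), mk (x.map Sum.inl) (a :: T) [] S⟩ := by
      apply Run.one
      rw [hst (Lab.rdP a) _ _ (by intro h; cases h)]
      refine congrArg (fun X => some (⟨some Lab.rd, (some (Sum.inl a), v.2), X⟩ :
        TM2.Cfg (Al α M.tm.Γ) (Lab α M.tm.Λ) (Option (α ⊕ Bool) × M.tm.σ))) ?_
      exact upd_tmp _ _ _ _ _
    have h3 := read S x (a :: T) (some (Sum.inl a), v.2)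
    have h4 := (h1.trans h2).trans h3
    have e1 : 1 + 1 + (2 * x.length + 1) = 2 * (a :: x).length + 1 := by
      rw [List.length_cons]; ring
    have e2 : (a :: x).reverse ++ T = x.reverse ++ a :: T := by simp
    rw [e1] at h4
    rw [e2]
    exact h4

lemma move : ∀ (T : List α) (S : ∀ k, List (M.tm.Γ k)) (v : Option (α ⊕ Bool) × M.tm.σ),
    Run st (2 * T.length + 1) ⟨some Lab.mv, v, mk [] T [] S⟩
      ⟨some (Lab.run M.tm.main), (none, v.2), mk [] [] []
        (update S M.tm.k₀ ((T.reverse.map M.inputAlphabet.symm) ++ S M.tm.k₀))⟩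
  | [], S, v => by
    apply Run.one
    rw [hst Lab.mv _ _ (by intro h; cases h)]
    have e : update S M.tm.k₀ ((([] : List α).reverse.map M.inputAlphabet.symm) ++ S M.tm.k₀) = S := by
      rw [List.reverse_nil, List.map_nil, List.nil_append, update_eq_self]
    rw [e]
    refine congrArg (fun X => some (⟨some (Lab.run M.tm.main), (none, v.2), X⟩ :
      TM2.Cfg (Al α M.tm.Γ) (Lab α M.tm.Λ) (Option (α ⊕ Bool) × M.tm.σ))) ?_
    exact upd_tmp _ _ _ _ _
  | a :: T, S, v => by
    have h1 : Run st 1 ⟨some Lab.mv, v, mk [] (a :: T) [] S⟩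
        ⟨some (Lab.mvP a), (some (Sum.inl a), v.2), mk [] T [] S⟩ := by
      apply Run.one
      rw [hst Lab.mv _ _ (by intro h; cases h)]
      refine congrArg (fun X => some (⟨some (Lab.mvP a), (some (Sum.inl a), v.2), X⟩ :
        TM2.Cfg (Al α M.tm.Γ) (Lab α M.tm.Λ) (Option (α ⊕ Bool) × M.tm.σ))) ?_
      exact upd_tmp _ _ _ _ _
    have h2 : Run st 1 ⟨some (Lab.mvP a), (some (Sum.inl a), v.2), mk [] T [] S⟩
        ⟨some Lab.mv, (some (Sum.inl a), v.2), mk [] T []
          (update S M.tm.k₀ (M.inputAlphabet.symm a :: S M.tm.k₀))⟩ := by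
      apply Run.one
      rw [hst (Lab.mvP a) _ _ (by intro h; cases h)]
      refine congrArg (fun X => some (⟨some Lab.mv, (some (Sum.inl a), v.2), X⟩ :
        TM2.Cfg (Al α M.tm.Γ) (Lab α M.tm.Λ) (Option (α ⊕ Bool) × M.tm.σ))) ?_
      exact upd_st _ _ _ _ _ _
    have h3 := move T (update S M.tm.k₀ (M.inputAlphabet.symm a :: S M.tm.k₀))
      (some (Sum.inl a), v.2)
    have h4 := (h1.trans h2).trans h3
    have e1 : 1 + 1 + (2 * T.length + 1) = 2 * (a :: T).length + 1 := by
      rw [List.length_cons]; ring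
    have e2 : update (update S M.tm.k₀ (M.inputAlphabet.symm a :: S M.tm.k₀)) M.tm.k₀
        ((T.reverse.map M.inputAlphabet.symm) ++
          (update S M.tm.k₀ (M.inputAlphabet.symm a :: S M.tm.k₀)) M.tm.k₀) =
        update S M.tm.k₀ (((a :: T).reverse.map M.inputAlphabet.symm) ++ S M.tm.k₀) := by
      rw [update_self, update_idem]
      simp
    rw [e1, e2] at h4
    exact h4

end

/-- the new machine -/
noncomputable def machine [Finite α] (M : TM2ComputableAux α β) : FinTM2 :=
  letI : Fintype (Stk M.tm.K) := by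
    haveI := M.tm.kFin
    exact Fintype.ofFinite _
  letI : Fintype (Lab α M.tm.Λ) := by
    haveI := M.tm.ΛFin
    exact Fintype.ofFinite _
  letI : Fintype (Option (α ⊕ Bool) × M.tm.σ) := by
    haveI := M.tm.σFin
    exact Fintype.ofFinite _
  letI : Fintype (Al α M.tm.Γ Stk.inp) := Fintype.ofFinite (α ⊕ Bool)
  { K := Stk M.tm.K
    k₀ := Stk.inp
    k₁ := Stk.res
    Γ := Al α M.tm.Γ
    Λ := Lab α M.tm.Λ
    main := Lab.rd
    σ := Option (α ⊕ Bool) × M.tm.σ
    initialState := (none, M.tm.initialState)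
    m := prog M }

/-- the oracle machine that computes the query with `M` -/
noncomputable def oracleMachine [Finite α] (M : TM2ComputableAux α β)
    (hM : ∀ k, Finite (M.tm.Γ k)) : OracleTM (α ⊕ Bool) Bool β where
  tm := machine M
  inputAlphabet := Equiv.refl _
  outputAlphabet := Equiv.refl _
  finiteAlphabet := fun k => finite_al (α := α) M.tm.Γ k
  kq := Stk.st M.tm.k₁
  queryAlphabet := M.outputAlphabet
  query := Lab.query
  yes := Lab.yes
  no := Lab.no

lemma init_eq [Finite α] (M : TM2ComputableAux α β) (l : List (α ⊕ Bool)) :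
    initList (machine M) l = (⟨some Lab.rd, (none, M.tm.initialState), mk l [] [] (fun _ => [])⟩ :
      TM2.Cfg (Al α M.tm.Γ) (Lab α M.tm.Λ) (Option (α ⊕ Bool) × M.tm.σ)) := by
  unfold initList
  congr 1
  funext (j : Stk M.tm.K)
  cases j <;> rfl

lemma halt_eq [Finite α] (M : TM2ComputableAux α β) (b : Bool) :
    haltList (machine M) [b] = (⟨none, (none, M.tm.initialState), mk [] [] [b] (fun _ => [])⟩ :
      TM2.Cfg (Al α M.tm.Γ) (Lab α M.tm.Λ) (Option (α ⊕ Bool) × M.tm.σ)) := by
  unfold haltList
  congr 1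
  funext (j : Stk M.tm.K)
  cases j <;> rfl

lemma initList_eq (tm : FinTM2) (s : List (tm.Γ tm.k₀)) :
    initList tm s = (⟨some tm.main, tm.initialState, update (fun _ => []) tm.k₀ s⟩ :
      TM2.Cfg tm.Γ tm.Λ tm.σ) := by
  unfold initList
  congr 1
  funext k
  by_cases h : k = tm.k₀
  · subst h
    simp
  · simp [h]

lemma haltList_eq (tm : FinTM2) (s : List (tm.Γ tm.k₁)) :
    haltList tm s = (⟨none, tm.initialState, update (fun _ => []) tm.k₁ s⟩ :
      TM2.Cfg tm.Γ tm.Λ tm.σ) := by
  unfold haltList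
  congr 1
  funext k
  by_cases h : k = tm.k₁
  · subst h
    simp
  · simp [h]

/-- the oracle machine that computes the query `f x` and outputs the answer -/
theorem oracleMachine_outputs [Finite α] (M : TM2ComputableAux α β)
    (hM : ∀ k, Finite (M.tm.Γ k)) (A : Set (List β)) (x : List α) (y : List β) (t : ℕ)
    (h : (fun c : Option (TM2.Cfg M.tm.Γ M.tm.Λ M.tm.σ) => c.bind (TM2.step M.tm.m))^[t]
      (some (initList M.tm (x.map M.inputAlphabet.symm))) =
        some (haltList M.tm (y.map M.outputAlphabet.symm))) (b : Bool) (hb : b = true ↔ y ∈ A) :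
    (oracleMachine M hM).OutputsInTime A (x.map Sum.inl) [b] (4 * x.length + t + 4) := by
  classical
  let st : TM2.Cfg (Al α M.tm.Γ) (Lab α M.tm.Λ) (Option (α ⊕ Bool) × M.tm.σ) →
    Option (TM2.Cfg (Al α M.tm.Γ) (Lab α M.tm.Λ) (Option (α ⊕ Bool) × M.tm.σ)) :=
    (oracleMachine M hM).step A
  have hst : ∀ (l : Lab α M.tm.Λ) (v : Option (α ⊕ Bool) × M.tm.σ)
      (S : ∀ k, List (Al α M.tm.Γ k)), l ≠ Lab.query →
      st ⟨some l, v, S⟩ = some (TM2.stepAux (prog M l) v S) := by
    intro l v S hl
    refine Eq.trans (if_neg ?_) rfl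
    intro h'
    exact hl (Option.some.inj h')
  have h1 := read M st hst (fun _ => []) x [] (none, M.tm.initialState)
  rw [List.append_nil] at h1
  have h2 := move M st hst x.reverse (fun _ => []) (none, M.tm.initialState)
  rw [List.reverse_reverse, List.append_nil] at h2
  rw [initList_eq, haltList_eq] at h
  have h3 := sim M st hst t _ _ h
  have h4 : Run st 1 (emb (⟨none, M.tm.initialState, update (fun _ => []) M.tm.k₁
      (y.map M.outputAlphabet.symm)⟩ : TM2.Cfg M.tm.Γ M.tm.Λ M.tm.σ))
      ⟨some (if b = true then Lab.yes else Lab.no), (none, M.tm.initialState),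
        mk [] [] [] (fun _ => [])⟩ := by
    apply Run.one
    refine Eq.trans (if_pos rfl) ?_
    refine congrArg some ?_
    have e0 : List.map M.outputAlphabet
        (update (fun k => ([] : List (M.tm.Γ k))) M.tm.k₁ (y.map M.outputAlphabet.symm) M.tm.k₁) =
        y := by
      rw [update_self, List.map_map]
      simp
    have e3 : (if List.map M.outputAlphabet
        (update (fun k => ([] : List (M.tm.Γ k))) M.tm.k₁ (y.map M.outputAlphabet.symm) M.tm.k₁) ∈ A
        then (Lab.yes : Lab α M.tm.Λ) else Lab.no) = if b = true then Lab.yes else Lab.no := by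
      rw [e0]
      by_cases hA : y ∈ A
      · rw [if_pos hA, if_pos (hb.2 hA)]
      · rw [if_neg hA, if_neg (fun h' => hA (hb.1 h'))]
    have e2 : update (mk ([] : List (α ⊕ Bool)) [] [] (update (fun k => ([] : List (M.tm.Γ k)))
        M.tm.k₁ (y.map M.outputAlphabet.symm))) (Stk.st M.tm.k₁) [] =
        mk [] [] [] (fun _ => []) := by
      rw [upd_st, update_idem]
      congr 1
      exact update_eq_self_iff.2 rfl
    exact congrArg₂ (fun a b => (⟨some a, (none, M.tm.initialState), b⟩ :
      TM2.Cfg (Al α M.tm.Γ) (Lab α M.tm.Λ) (Option (α ⊕ Bool) × M.tm.σ))) e3 e2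
  have h5 : Run st 1 ⟨some (if b = true then Lab.yes else Lab.no), (none, M.tm.initialState),
        mk [] [] [] (fun _ => [])⟩ (haltList (machine M) [b]) := by
    apply Run.one
    rw [halt_eq]
    cases b
    · refine (hst Lab.no _ _ (by intro h'; cases h')).trans ?_
      refine congrArg (fun X => some (⟨none, (none, M.tm.initialState), X⟩ :
        TM2.Cfg (Al α M.tm.Γ) (Lab α M.tm.Λ) (Option (α ⊕ Bool) × M.tm.σ))) ?_
      exact upd_res _ _ _ _ _
    · refine (hst Lab.yes _ _ (by intro h'; cases h')).trans ?_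
      refine congrArg (fun X => some (⟨none, (none, M.tm.initialState), X⟩ :
        TM2.Cfg (Al α M.tm.Γ) (Lab α M.tm.Λ) (Option (α ⊕ Bool) × M.tm.σ))) ?_
      exact upd_res _ _ _ _ _
  have h6 := (((h1.trans h2).trans h3).trans h4).trans h5
  have hle : 2 * x.length + 1 + (2 * x.reverse.length + 1) + t + 1 + 1 ≤ 4 * x.length + t + 4 := by
    rw [List.length_reverse]
    omega
  refine ⟨2 * x.length + 1 + (2 * x.reverse.length + 1) + t + 1 + 1, hle, ?_⟩
  have e4 : (x.map Sum.inl).map (Equiv.refl (α ⊕ Bool)).symm = (x.map Sum.inl : List (α ⊕ Bool)) :=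
    List.map_id _
  have h7 : ∀ l' : List (α ⊕ Bool), l' = x.map Sum.inl → Run st
      (2 * x.length + 1 + (2 * x.reverse.length + 1) + t + 1 + 1)
      (initList (machine M) l') (haltList (machine M) [b]) := by
    rintro _ rfl
    rw [init_eq]
    exact h6
  exact h7 _ e4

end

end Red

/-- a language that reduces to the oracle is decided by a machine that asks one question -/
theorem Reduces.pp {α β : Type} [Finite α] {L : Set (List α)} {A : Set (List β)}
    (h : Reduces L A) : PP A L := by
  classical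
  obtain ⟨f, ⟨M, hM⟩, hf⟩ := h
  refine ⟨Red.oracleMachine M.toTM2ComputableAux hM,
    Polynomial.C 4 * Polynomial.X + M.time + Polynomial.C 4, 0, fun x _ => decide (f x ∈ A), ?_, ?_⟩
  · intro x u hu
    rw [Polynomial.eval_zero, List.length_eq_zero_iff] at hu
    subst hu
    have h1 := M.outputsFun x
    obtain ⟨n, hn, hr⟩ := Red.oracleMachine_outputs M.toTM2ComputableAux hM A x (f x)
      h1.steps h1.evals_in_steps (decide (f x ∈ A)) decide_eq_true_iff
    have h2 : h1.steps ≤ M.time.eval x.length := h1.steps_le_m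
    refine ⟨n, ?_, ?_⟩
    · rw [Polynomial.eval_add, Polynomial.eval_add, Polynomial.eval_mul, Polynomial.eval_C,
        Polynomial.eval_X]
      omega
    · rw [List.map_nil, List.append_nil]
      exact hr
  · intro x
    rw [hf x, Polynomial.eval_zero, pow_zero]
    by_cases hx : f x ∈ A
    · have e : Nat.card {u : List Bool // u.length = 0 ∧ decide (f x ∈ A) = true} = 1 := by
        rw [Nat.card_eq_one_iff_unique]
        refine ⟨⟨fun a b => Subtype.ext ?_⟩, ⟨⟨[], rfl, decide_eq_true hx⟩⟩⟩
        rw [List.length_eq_zero_iff.1 a.2.1, List.length_eq_zero_iff.1 b.2.1]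
      rw [e]
      exact ⟨fun _ => by norm_num, fun _ => hx⟩
    · have e : Nat.card {u : List Bool // u.length = 0 ∧ decide (f x ∈ A) = true} = 0 := by
        rw [Nat.card_eq_zero]
        left
        exact ⟨fun a => hx (of_decide_eq_true a.2.2)⟩
      rw [e]
      exact ⟨fun h => absurd h hx, fun h => absurd h (by norm_num)⟩

/-- languages that reduce to a language of `C_j` are in `C_{j+1}` -/
theorem Reduces.mem_CClass {α β : Type} [Finite α] [Finite β] {L : Set (List α)}
    {A : Set (List β)} (h : Reduces L A) {j : ℕ} (hA : A ∈ CClass j β) : L ∈ CClass (j + 1) α :=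
  ⟨β, inferInstance, A, hA, h.pp⟩

/-- if `ETR` is in the counting hierarchy, then the class `∃ℝ` is contained in a level of it -/
theorem ExR_subset (h : ∃ k, ETR ∈ CClass k Tok) :
    ∃ j, ∀ (α : Type) [Finite α], ExR α ⊆ CClass j α := by
  obtain ⟨k, hk⟩ := h
  exact ⟨k + 1, fun α _ L hL => Reduces.mem_CClass hL hk⟩

/-- `ETR` itself is in `∃ℝ` -/
theorem ETR_mem_ExR : ETR ∈ ExR Tok :=
  ⟨id, ⟨Turing.idComputableInPolyTime id, fun _ => inferInstanceAs (Finite Tok)⟩, fun _ => Iff.rfl⟩

end Vale.Agent.P337
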