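import Vale.Agent.P337.Arith
import Vale.Agent.P337.Pipe

/-!
# The algorithm is in the counting hierarchy: elementary functions (module PF1)
-/

namespace Vale.Agent.P337

/-- a family of systems of quadratic equations with coefficients computable in CH -/
structure Fam (α : Type) where
  J : List α → Inst
  nP : Polynomial ℕ
  aP : Polynomial ℕ
  hn : ∀ w, (J w).n = nP.eval w.length
  hA : ∀ w, (J w).A = aP.eval w.length
  hc : FCH (k := 3) fun w a => (J w).cN (a 0) (a 1) (a 2)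

/-- multiplication by the indicator of `p` being prime -/
theorem fch_gate {α : Type} {k : ℕ} {p f g : List α → (Fin k → ℕ) → ℕ}
    [∀ w e, Decidable (p w e).Prime] (hp : FCH p) (hf : FCH f)
    (h : ∀ w e, (p w e).Prime → f w e = g w e) :
    FCH fun w e => if (p w e).Prime then g w e else 0 := by
  refine (FCH.ite_dec (InCH.prime hp) hf (FCH.const 0)).congr fun w e => ?_
  by_cases hq : (p w e).Prime
  · rw [if_pos hq, if_pos hq, h w e hq]
  · rw [if_neg hq, if_neg hq]

/-- squares, etc. -/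
theorem fch_pow {α : Type} {k : ℕ} {f : List α → (Fin k → ℕ) → ℕ} (hf : FCH f) :
    ∀ m : ℕ, FCH fun w e => f w e ^ m
  | 0 => (FCH.const 1).congr fun w e => by rw [pow_zero]
  | m + 1 => (FCH.mul (fch_pow hf m) hf).congr fun w e => by rw [pow_succ]

namespace Fam

variable {α : Type} (M : Fam α) {k : ℕ} {p X Y Z s t r a i j c z : List α → (Fin k → ℕ) → ℕ}

/-! ### PF1: elementary functions. Everything that is reduced modulo `p` is multiplied by the
indicator of `p` being prime (`m % 0 = m` would be too large, and `FCH.prodMod` needs a prime) -/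

theorem fch_n : FCH (α := α) (k := k) fun w _ => (M.J w).n :=
  (FCH.poly M.nP).congr fun w _ => (M.hn w).symm

theorem fch_A : FCH (α := α) (k := k) fun w _ => (M.J w).A :=
  (FCH.poly M.aP).congr fun w _ => (M.hA w).symm

/-- the polynomial for `q` -/
noncomputable def qP : Polynomial ℕ := Polynomial.C 10 * M.nP + Polynomial.C 16

theorem hq (w : List α) : (M.J w).q = M.qP.eval w.length := by
  simp only [Inst.q, qP, Polynomial.eval_add, Polynomial.eval_mul, Polynomial.eval_C, M.hn w]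

theorem fch_q : FCH (α := α) (k := k) fun w _ => (M.J w).q :=
  (FCH.poly M.qP).congr fun w _ => (M.hq w).symm

theorem fch_two_pow_q (a b : ℕ) : FCH (α := α) (k := k) fun w _ => 2 ^ (a * (M.J w).q + b) :=
  (FCH.two_pow (Polynomial.C a * M.qP + Polynomial.C b)).congr fun w _ => by
    rw [M.hq w, Polynomial.eval_add, Polynomial.eval_mul, Polynomial.eval_C, Polynomial.eval_C]

theorem fch_D : FCH (α := α) (k := k) fun w _ => (M.J w).D := by
  have h1 : PolyBdd (α := α) (k := k) fun w _ => 5 ^ (M.J w).n := by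
    refine fun r => ⟨Polynomial.C 3 * M.nP + Polynomial.C 1, fun w a _ => ?_⟩
    rw [Polynomial.eval_add, Polynomial.eval_mul, Polynomial.eval_C, Polynomial.eval_C, ← M.hn w,
      pow_succ, pow_mul]
    have h2 : 5 ^ (M.J w).n ≤ (2 ^ 3) ^ (M.J w).n := Nat.pow_le_pow_left (by norm_num) _
    have h3 : 0 < (2 ^ 3) ^ (M.J w).n := by positivity
    show 5 ^ (M.J w).n < (2 ^ 3) ^ (M.J w).n * 2 ^ 1
    omega
  exact FCH.pow_bdd (f := fun _ _ => 5) (e := fun w _ => (M.J w).n) (FCH.const 5) M.fch_n h1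

theorem fch_B : FCH (α := α) (k := k) fun w _ => (M.J w).B := M.fch_two_pow_q 16 64

theorem fch_two_pow_n (a b : ℕ) : FCH (α := α) (k := k) fun w _ => 2 ^ (a * (M.J w).n + b) :=
  (FCH.two_pow (Polynomial.C a * M.nP + Polynomial.C b)).congr fun w _ => by
    rw [M.hn w, Polynomial.eval_add, Polynomial.eval_mul, Polynomial.eval_C, Polynomial.eval_C]

theorem fch_lE : FCH (α := α) (k := k) fun w _ => (M.J w).lE := M.fch_two_pow_n 7 10

theorem fch_thE : FCH (α := α) (k := k) fun w _ => (M.J w).thE :=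
  FCH.add (M.fch_two_pow_n 4 8) (FCH.const 7)

theorem fch_bb : FCH (α := α) (k := k) fun w _ => (M.J w).bb :=
  FCH.add (FCH.mul (FCH.const 2) (FCH.add (FCH.mul (FCH.const 18) M.fch_q) (FCH.const 80)))
    (FCH.const 1)

theorem fch_dg (hX : FCH X) (hi : FCH i) :
    FCH fun w e => Inst.dg (M.J w).bb (X w e) (i w e) :=
  FCH.mod_two_pow (FCH.div_two_pow hX (FCH.mul M.fch_bb hi)) M.fch_bb

theorem fch_dgn (hX : FCH X) (hi : FCH i) :
    FCH fun w e => Inst.dg (M.J w).n (X w e) (i w e) :=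
  FCH.mod_two_pow (FCH.div_two_pow hX (FCH.mul M.fch_n hi)) M.fch_n

theorem inCH_valid (hp : FCH p) (hX : FCH X) :
    InCH fun w e => (M.J w).Valid (p w e) (X w e) :=
  InCH.forall_lt (S := fun w e i => 0 < Inst.dg (M.J w).bb (X w e) i ∧
      Inst.dg (M.J w).bb (X w e) i < p w e) M.fch_n
    (InCH.and (InCH.lt (FCH.const 0) (M.fch_dg (FCH.weaken hX) (FCH.proj 0)))
      (InCH.lt (M.fch_dg (FCH.weaken hX) (FCH.proj 0)) (FCH.weaken hp)))

/-! auxiliary functions -/

theorem fch_cN (ha : FCH a) (hi : FCH i) (hj : FCH j) :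
    FCH fun w e => (M.J w).cN (a w e) (i w e) (j w e) := by
  refine (FCH.comp M.hc (g := ![a, i, j]) fun u => ?_)
  fin_cases u
  · exact ha
  · exact hi
  · exact hj

theorem fch_zN (hX : FCH X) (hi : FCH i) : FCH fun w e => (M.J w).zN (X w e) (i w e) :=
  FCH.ite_dec (InCH.eq hi (FCH.const 0)) (FCH.const 1)
    (FCH.ite_dec (InCH.lt (FCH.sub hi (FCH.const 1)) M.fch_n)
      (M.fch_dg hX (FCH.sub hi (FCH.const 1))) (FCH.const 0))

theorem fch_pvN (hp : FCH p) (hX : FCH X) (ha : FCH a) :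
    FCH fun w e => (M.J w).pvN (p w e) (X w e) (a w e) := by
  have h2 : FCH (k := k + 2) fun w c =>
      ((M.J w).cN (a w (Fin.tail (Fin.tail c))) (c 1) (c 0) + (p w (Fin.tail (Fin.tail c)) - 2)) *
        (M.J w).zN (X w (Fin.tail (Fin.tail c))) (c 1) *
        (M.J w).zN (X w (Fin.tail (Fin.tail c))) (c 0) :=
    FCH.mul (FCH.mul (FCH.add (M.fch_cN ha.weaken.weaken (FCH.proj 1) (FCH.proj 0))
      (FCH.sub hp.weaken.weaken (FCH.const 2))) (M.fch_zN hX.weaken.weaken (FCH.proj 1)))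
      (M.fch_zN hX.weaken.weaken (FCH.proj 0))
  have h1 := FCH.sum (F := fun w c v =>
    ((M.J w).cN (a w (Fin.tail c)) (c 0) v + (p w (Fin.tail c) - 2)) *
        (M.J w).zN (X w (Fin.tail c)) (c 0) *
        (M.J w).zN (X w (Fin.tail c)) v) (FCH.add M.fch_n (FCH.const 1)) h2
  exact FCH.mod (FCH.sum (F := fun w e u => ∑ v ∈ Finset.range ((M.J w).n + 1),
    ((M.J w).cN (a w e) u v + (p w e - 2)) * (M.J w).zN (X w e) u * (M.J w).zN (X w e) v)
    (FCH.add M.fch_n (FCH.const 1)) h1) hp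

theorem fch_dpN (hp : FCH p) (hX : FCH X) (ha : FCH a) (hi : FCH i) :
    FCH fun w e => (M.J w).dpN (p w e) (X w e) (a w e) (i w e) := by
  have h1 : FCH (k := k + 1) fun w c =>
      ((M.J w).cN (a w (Fin.tail c)) (i w (Fin.tail c) + 1) (c 0) + (p w (Fin.tail c) - 2) +
        ((M.J w).cN (a w (Fin.tail c)) (c 0) (i w (Fin.tail c) + 1) + (p w (Fin.tail c) - 2))) *
        (M.J w).zN (X w (Fin.tail c)) (c 0) :=
    FCH.mul (FCH.add
      (FCH.add (M.fch_cN ha.weaken (FCH.add hi.weaken (FCH.const 1)) (FCH.proj 0))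
        (FCH.sub hp.weaken (FCH.const 2)))
      (FCH.add (M.fch_cN ha.weaken (FCH.proj 0) (FCH.add hi.weaken (FCH.const 1)))
        (FCH.sub hp.weaken (FCH.const 2)))) (M.fch_zN hX.weaken (FCH.proj 0))
  exact FCH.mod (FCH.sum (F := fun w e v =>
    ((M.J w).cN (a w e) (i w e + 1) v + (p w e - 2) +
      ((M.J w).cN (a w e) v (i w e + 1) + (p w e - 2))) * (M.J w).zN (X w e) v)
    (FCH.add M.fch_n (FCH.const 1)) h1) hp

theorem fch_FN (hp : FCH p) (hX : FCH X) :
    FCH fun w e => (M.J w).FN (p w e) (X w e) :=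
  FCH.mod (FCH.sum (F := fun w e a => (M.J w).pvN (p w e) (X w e) a ^ 2) M.fch_A
    (fch_pow (M.fch_pvN hp.weaken hX.weaken (FCH.proj 0)) 2)) hp

theorem fch_dFN (hp : FCH p) (hX : FCH X) (hi : FCH i) :
    FCH fun w e => (M.J w).dFN (p w e) (X w e) (i w e) :=
  FCH.mod (FCH.mul (FCH.const 2) (FCH.sum (F := fun w e a => (M.J w).pvN (p w e) (X w e) a *
    (M.J w).dpN (p w e) (X w e) a (i w e)) M.fch_A
    (FCH.mul (M.fch_pvN hp.weaken hX.weaken (FCH.proj 0))
      (M.fch_dpN hp.weaken hX.weaken (FCH.proj 0) hi.weaken)))) hp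

theorem fch_HN (hp : FCH p) (hX : FCH X) (hi : FCH i) (hj : FCH j) :
    FCH fun w e => (M.J w).HN (p w e) (X w e) (i w e) (j w e) :=
  FCH.mod (FCH.mul (FCH.const 2) (FCH.sum (F := fun w e a =>
    (M.J w).dpN (p w e) (X w e) a (i w e) * (M.J w).dpN (p w e) (X w e) a (j w e) +
      (M.J w).pvN (p w e) (X w e) a *
      ((M.J w).cN a (i w e + 1) (j w e + 1) + (p w e - 2) +
        ((M.J w).cN a (j w e + 1) (i w e + 1) + (p w e - 2)))) M.fch_A
    (FCH.add (FCH.mul (M.fch_dpN hp.weaken hX.weaken (FCH.proj 0) hi.weaken)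
      (M.fch_dpN hp.weaken hX.weaken (FCH.proj 0) hj.weaken))
      (FCH.mul (M.fch_pvN hp.weaken hX.weaken (FCH.proj 0))
        (FCH.add
          (FCH.add (M.fch_cN (FCH.proj 0) (FCH.add hi.weaken (FCH.const 1))
            (FCH.add hj.weaken (FCH.const 1))) (FCH.sub hp.weaken (FCH.const 2)))
          (FCH.add (M.fch_cN (FCH.proj 0) (FCH.add hj.weaken (FCH.const 1))
            (FCH.add hi.weaken (FCH.const 1))) (FCH.sub hp.weaken (FCH.const 2)))))))) hp

/-- powers modulo `p` (with the value `0` for `p = 0`) -/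
theorem fch_pw {f e' : List α → (Fin k → ℕ) → ℕ} (hf : FCH f) (he : FCH e') (hp : FCH p) :
    FCH fun w e => if p w e = 0 then 0 else f w e ^ e' w e % p w e :=
  FCH.powMod0 hf he hp

theorem fch_lamN (hp : FCH p) :
    FCH fun w e => if p w e = 0 then 0 else (M.J w).lamN (p w e) :=
  FCH.powMod0 (f := fun _ _ => 2) (FCH.const 2) M.fch_lE hp

open Classical in
theorem fch_hhN (hp : FCH p) (hX : FCH X) (hi : FCH i) :
    FCH fun w e => if (p w e).Prime then (M.J w).hhN (p w e) (X w e) (i w e) else 0 := by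
  refine fch_gate hp (FCH.mod (FCH.mul (FCH.mul (FCH.sub hp (FCH.const 1)) (M.fch_lamN hp))
    (M.fch_dFN hp hX hi)) hp) fun w e hq => ?_
  rw [if_neg hq.ne_zero]
  rfl

open Classical in
theorem fch_GN (hp : FCH p) (hX : FCH X) :
    FCH fun w e => if (p w e).Prime then (M.J w).GN (p w e) (X w e) else 0 := by
  refine fch_gate hp (FCH.mod (FCH.add
    (FCH.sum (F := fun w e i => Inst.dg (M.J w).bb (X w e) i ^ 6) M.fch_n
      (fch_pow (M.fch_dg hX.weaken (FCH.proj 0)) 6))
    (FCH.mul (FCH.mul (FCH.const 6) (M.fch_lamN hp)) (M.fch_FN hp hX))) hp) fun w e hq => ?_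
  rw [if_neg hq.ne_zero]
  rfl

open Classical in
theorem fch_entN (hp : FCH p) (hX : FCH X) (hi : FCH i) (hj : FCH j) :
    FCH fun w e => if (p w e).Prime then (M.J w).entN (p w e) (X w e) (i w e) (j w e) else 0 := by
  refine fch_gate hp (FCH.mod (FCH.add
    (FCH.ite_dec (InCH.eq hi hj) (FCH.mul (FCH.const 5) (fch_pow (M.fch_dg hX hi) 4))
      (FCH.const 0))
    (FCH.mul (M.fch_lamN hp) (M.fch_HN hp hX hi hj))) hp) fun w e hq => ?_
  rw [if_neg hq.ne_zero]
  simp only [Inst.entN]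

end Fam

end Vale.Agent.P337
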