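import Vale.Agent.P337.PipeFA

/-!
# The algorithm is in the counting hierarchy: determinant and weight (module PF2a)
-/

namespace Vale.Agent.P337

namespace Fam

variable {α : Type} (M : Fam α) {k : ℕ} {p X Y Z s t r a i j c z : List α → (Fin k → ℕ) → ℕ}

/-! ### PF2: the weight, the trace and the norm -/

theorem fchB_ifp (hp : FCH p) (ha : FCH a) :
    FCH fun w e => if (p w e).Prime then a w e else 0 :=
  FCH.ite_dec (InCH.prime hp) ha (FCH.const 0)

theorem fchB_pow (hp : FCH p) (ha : FCH a) (hi : FCH i) :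
    FCH fun w e => if (p w e).Prime then a w e ^ i w e % p w e else 0 := by
  refine (fchB_ifp hp (FCH.powMod0 ha hi hp)).congr fun w e => ?_
  by_cases h : (p w e).Prime
  · simp only [h, if_true, h.ne_zero, if_false]
  · simp only [h, if_false]

theorem fchB_sgN (hp : FCH p) (hi : FCH i) (hj : FCH j) :
    FCH fun w e => Inst.sgN (p w e) (i w e) (j w e) := by
  unfold Inst.sgN
  exact FCH.ite_dec (InCH.lt hi hj) (FCH.const 1)
    (FCH.ite_dec (InCH.lt hj hi) (FCH.sub hp (FCH.const 1)) (FCH.const 0))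

/-- the sign part of the Leibniz terms -/
theorem fchB_sign (hp : FCH p) (hY : FCH Y) :
    FCH fun w e => if (p w e).Prime then
      (∏ y ∈ Finset.range ((M.J w).n * (M.J w).n), if y / (M.J w).n < y % (M.J w).n
        then Inst.sgN (p w e) (Inst.dg (M.J w).n (Y w e) (y / (M.J w).n))
          (Inst.dg (M.J w).n (Y w e) (y % (M.J w).n)) else 1) % p w e else 0 := by
  have hn : FCH (α := α) (k := k + 1) fun w _ => (M.J w).n := fch_n M
  have h0 : FCH (α := α) (k := k + 1) fun _ c => c 0 := FCH.proj 0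
  have h1 := FCH.div h0 hn
  have h2 := FCH.mod h0 hn
  refine FCH.prodMod (F := fun w e y => if y / (M.J w).n < y % (M.J w).n
        then Inst.sgN (p w e) (Inst.dg (M.J w).n (Y w e) (y / (M.J w).n))
          (Inst.dg (M.J w).n (Y w e) (y % (M.J w).n)) else 1) hp
    (FCH.mul (fch_n M) (fch_n M)) ?_
  exact FCH.ite_dec (InCH.lt h1 h2)
    (fchB_sgN (FCH.weaken hp) (fch_dgn M (FCH.weaken hY) h1) (fch_dgn M (FCH.weaken hY) h2))
    (FCH.const 1)

theorem fchB_entries (hp : FCH p) (hX : FCH X) (hY : FCH Y) :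
    FCH fun w e => if (p w e).Prime then
      (∏ i ∈ Finset.range (M.J w).n, (M.J w).entN (p w e) (X w e) i
        (Inst.dg (M.J w).n (Y w e) i)) % p w e else 0 := by
  have h0 : FCH (α := α) (k := k + 1) fun _ c => c 0 := FCH.proj 0
  have h1 := FCH.prodMod (F := fun w e y => if (p w e).Prime then
      (M.J w).entN (p w e) (X w e) y (Inst.dg (M.J w).n (Y w e) y) else 0) hp (fch_n M)
    (fch_entN M (FCH.weaken hp) (FCH.weaken hX) h0 (fch_dgn M (FCH.weaken hY) h0))
  refine h1.congr fun w e => ?_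
  by_cases h : (p w e).Prime
  · simp only [h, if_true]
  · simp only [h, if_false]

theorem fchB_detTerm (hp : FCH p) (hX : FCH X) (hY : FCH Y) :
    FCH fun w e => if (p w e).Prime then (M.J w).detTerm (p w e) (X w e) (Y w e) else 0 := by
  refine (fchB_ifp hp (FCH.mod (FCH.mul (fchB_sign M hp hY) (fchB_entries M hp hX hY)) hp)).congr
    fun w e => ?_
  by_cases h : (p w e).Prime
  · simp only [h, if_true, Inst.detTerm]
  · simp only [h, if_false]

open Classical in
theorem fch_detN (hp : FCH p) (hX : FCH X) :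
    FCH fun w e => if (p w e).Prime then (M.J w).detN (p w e) (X w e) else 0 := by
  have hn : FCH (α := α) (k := k + 1) fun w _ => (M.J w).n := fch_n M
  have h0 : FCH (α := α) (k := k + 1) fun _ c => c 0 := FCH.proj 0
  have hb : FCH (α := α) (k := k) fun w _ => 2 ^ ((M.J w).n * (M.J w).n) :=
    (FCH.two_pow (M.nP * M.nP)).congr fun w _ => by rw [M.hn w, Polynomial.eval_mul]
  have hall : InCH (α := α) (k := k + 1) fun w c =>
      ∀ i < (M.J w).n, Inst.dg (M.J w).n (c 0) i < (M.J w).n :=
    InCH.forall_lt (S := fun w c i => Inst.dg (M.J w).n (c 0) i < (M.J w).n) hn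
      (InCH.lt (fch_dgn M (FCH.proj 1) (FCH.proj 0)) (fch_n M))
  have h1 := FCH.sum (F := fun w e y => if ∀ i < (M.J w).n, Inst.dg (M.J w).n y i < (M.J w).n then
      (if (p w e).Prime then (M.J w).detTerm (p w e) (X w e) y else 0) else 0) hb
    (FCH.ite_dec hall (fchB_detTerm M (FCH.weaken hp) (FCH.weaken hX) h0) (FCH.const 0))
  refine (fchB_ifp hp (FCH.mod h1 hp)).congr fun w e => ?_
  by_cases h : (p w e).Prime
  · simp only [h, if_true, Inst.detN]
  · simp only [h, if_false]

theorem fchB_wfN (hp : FCH p) (hX : FCH X) (hi : FCH i) :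
    FCH fun w e => if (p w e).Prime then (M.J w).wfN (p w e) (X w e) (i w e) else 0 := by
  have h0 : FCH (α := α) (k := k + 1) fun _ c => c 0 := FCH.proj 0
  have hp' := FCH.weaken hp
  have hdg := fch_dg M (FCH.weaken hX) (FCH.weaken hi)
  have h1 := fchB_pow hp' (fch_hhN M hp' (FCH.weaken hX) (FCH.weaken hi)) h0
  have h2 := fchB_pow hp' hdg (FCH.sub hp' (FCH.const 2))
  have h3 := fchB_pow hp' h2 (FCH.mul (FCH.const 5) (FCH.add h0 (FCH.const 1)))
  have h4 := FCH.sum (F := fun w e y =>
      (if (p w e).Prime then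
        (if (p w e).Prime then (M.J w).hhN (p w e) (X w e) (i w e) else 0) ^ y % p w e else 0) *
      (if (p w e).Prime then
        (if (p w e).Prime then Inst.dg (M.J w).bb (X w e) (i w e) ^ (p w e - 2) % p w e else 0) ^
          (5 * (y + 1)) % p w e else 0))
    (FCH.add (fch_B M) (FCH.const 1)) (FCH.mul h1 h3)
  refine (fchB_ifp hp (FCH.mod (FCH.mul (fch_dg M hX hi) h4) hp)).congr fun w e => ?_
  by_cases h : (p w e).Prime
  · simp only [h, if_true, Inst.wfN]
  · simp only [h, if_false]

open Classical in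
theorem fch_wtN (hp : FCH p) (hX : FCH X) :
    FCH fun w e => if (p w e).Prime then (M.J w).wtN (p w e) (X w e) else 0 := by
  have h0 : FCH (α := α) (k := k + 1) fun _ c => c 0 := FCH.proj 0
  have h1 := fchB_pow hp (FCH.sub hp (FCH.const 1)) (fch_n M)
  have h2 := FCH.prodMod (F := fun w e y => if (p w e).Prime then
      (M.J w).wfN (p w e) (X w e) y else 0) hp (fch_n M)
    (fchB_wfN M (FCH.weaken hp) (FCH.weaken hX) h0)
  refine (fchB_ifp hp (FCH.mod (FCH.mul (FCH.mul h1 (fch_detN M hp hX)) h2) hp)).congr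
    fun w e => ?_
  by_cases h : (p w e).Prime
  · simp only [h, if_true, Inst.wtN]
  · simp only [h, if_false]

end Fam

end Vale.Agent.P337
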