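import Vale.Agent.P337.PipeFB

/-!
# The algorithm is in the counting hierarchy: the norm (module PF2b)
-/

namespace Vale.Agent.P337

/-- the value guarded by the primality of `p` -/
def gd (p x : ℕ) : ℕ := if p.Prime then x else 0

theorem gd_prime {p x : ℕ} (h : p.Prime) : gd p x = x := if_pos h

theorem gd_not {p x : ℕ} (h : ¬ p.Prime) : gd p x = 0 := if_neg h

section guard

variable {α : Type} {k : ℕ} {p x y : List α → (Fin k → ℕ) → ℕ}

theorem fchG_congr (h : FCH fun w a => gd (p w a) (x w a))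
    (e : ∀ w a, (p w a).Prime → x w a = y w a) : FCH fun w a => gd (p w a) (y w a) := by
  refine h.congr fun w a => ?_
  by_cases hp : (p w a).Prime
  · rw [gd_prime hp, gd_prime hp, e w a hp]
  · rw [gd_not hp, gd_not hp]

theorem fchG_of (hp : FCH p) (hx : FCH x) : FCH fun w a => gd (p w a) (x w a) := by
  classical
  refine (FCH.ite (InCH.prime hp) hx (FCH.const 0)).congr fun w a => ?_
  by_cases h : (p w a).Prime
  · rw [gd_prime h, if_pos h]
  · rw [gd_not h, if_neg h]

theorem fchG_mul (hx : FCH fun w a => gd (p w a) (x w a))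
    (hy : FCH fun w a => gd (p w a) (y w a)) :
    FCH fun w a => gd (p w a) (x w a * y w a) := by
  refine (hx.mul hy).congr fun w a => ?_
  by_cases h : (p w a).Prime
  · rw [gd_prime h, gd_prime h, gd_prime h]
  · rw [gd_not h, gd_not h, gd_not h, zero_mul]

theorem fchG_add (hx : FCH fun w a => gd (p w a) (x w a))
    (hy : FCH fun w a => gd (p w a) (y w a)) :
    FCH fun w a => gd (p w a) (x w a + y w a) := by
  refine (hx.add hy).congr fun w a => ?_
  by_cases h : (p w a).Prime
  · rw [gd_prime h, gd_prime h, gd_prime h]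
  · rw [gd_not h, gd_not h, gd_not h]

theorem fchG_mod (hp : FCH p) (hx : FCH fun w a => gd (p w a) (x w a)) :
    FCH fun w a => gd (p w a) (x w a % p w a) := by
  refine (hx.mod hp).congr fun w a => ?_
  by_cases h : (p w a).Prime
  · rw [gd_prime h, gd_prime h]
  · rw [gd_not h, gd_not h, Nat.zero_mod]

theorem fchG_pow (hp : FCH p) (hx : FCH fun w a => gd (p w a) (x w a)) (hy : FCH y) :
    FCH fun w a => gd (p w a) (x w a ^ y w a % p w a) := by
  have h1 := fchG_of hp (FCH.powMod0 hx hy hp)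
  refine fchG_congr h1 fun w a h => ?_
  rw [if_neg h.ne_zero, gd_prime h]

theorem fchG_ite {S : List α → (Fin k → ℕ) → Prop} [∀ w a, Decidable (S w a)] (hS : InCH S)
    (hx : FCH fun w a => gd (p w a) (x w a)) :
    FCH fun w a => gd (p w a) (if S w a then 0 else x w a) := by
  classical
  refine (FCH.ite hS (FCH.const 0) hx).congr fun w a => ?_
  by_cases h : (p w a).Prime
  · by_cases hs : S w a
    · rw [if_pos hs, gd_prime h, if_pos hs]
    · rw [if_neg hs, gd_prime h, gd_prime h, if_neg hs]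
  · by_cases hs : S w a
    · rw [if_pos hs, gd_not h]
    · rw [if_neg hs, gd_not h, gd_not h]

theorem fchG_sum {b : List α → (Fin k → ℕ) → ℕ} {F : List α → (Fin k → ℕ) → ℕ → ℕ} (hb : FCH b)
    (hF : FCH (k := k + 1) fun w e => gd (p w (Fin.tail e)) (F w (Fin.tail e) (e 0))) :
    FCH fun w a => gd (p w a) (∑ z ∈ Finset.range (b w a), F w a z) := by
  refine (FCH.sum (F := fun w a z => gd (p w a) (F w a z)) hb hF).congr fun w a => ?_
  by_cases h : (p w a).Prime
  · simp only [gd_prime h]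
  · simp only [gd_not h, Finset.sum_const_zero]

theorem fchG_prod {b : List α → (Fin k → ℕ) → ℕ} {F : List α → (Fin k → ℕ) → ℕ → ℕ}
    (hp : FCH p) (hb : FCH b)
    (hF : FCH (k := k + 1) fun w e => gd (p w (Fin.tail e)) (F w (Fin.tail e) (e 0))) :
    FCH fun w a => gd (p w a) ((∏ z ∈ Finset.range (b w a), F w a z) % p w a) := by
  refine (FCH.prodMod (F := fun w a z => gd (p w a) (F w a z)) hp hb hF).congr fun w a => ?_
  by_cases h : (p w a).Prime
  · simp only [gd_prime h, if_pos h]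
  · simp only [gd_not h, if_neg h]

end guard

namespace Fam

variable {α : Type} (M : Fam α) {k : ℕ} {p X Y Z s t r a i j c z : List α → (Fin k → ℕ) → ℕ}

theorem fch_pow_bbn : FCH (α := α) (k := k) fun w _ => 2 ^ ((M.J w).bb * (M.J w).n) := by
  refine (FCH.two_pow ((2 * (18 * (10 * M.nP + 16) + 80) + 1) * M.nP)).congr fun w _ => ?_
  have e : ((2 * (18 * (10 * M.nP + 16) + 80) + 1) * M.nP).eval w.length =
      (M.J w).bb * (M.J w).n := by
    simp only [Inst.bb, Inst.P, Inst.q, M.hn, Polynomial.eval_mul, Polynomial.eval_add,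
      Polynomial.eval_ofNat, Polynomial.eval_one]
  rw [e]

/-- the trace -/
theorem fch_trN {H : List α → (Fin k → ℕ) → ℕ → ℕ} (hp : FCH p)
    (hH : FCH (k := k + 1) fun w e => gd (p w (Fin.tail e)) (H w (Fin.tail e) (e 0))) :
    FCH fun w e => gd (p w e) ((M.J w).trN (p w e) (H w e)) := by
  classical
  have hpt : FCH (k := k + 1) fun w e => p w (Fin.tail e) := hp.arBtail
  have h1 : FCH (k := k + 1) fun w e => gd (p w (Fin.tail e)) ((M.J w).wtN (p w (Fin.tail e)) (e 0)) :=
    (M.fch_wtN hpt (FCH.proj 0)).congr fun w e => rfl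
  have h2 : FCH (k := k + 1) fun w e => gd (p w (Fin.tail e))
      (if (M.J w).Valid (p w (Fin.tail e)) (e 0) then
        (M.J w).wtN (p w (Fin.tail e)) (e 0) * H w (Fin.tail e) (e 0) else 0) := by
    refine fchG_congr (fchG_ite (InCH.not (M.inCH_valid hpt (FCH.proj 0))) (fchG_mul h1 hH))
      fun w e _ => ?_
    by_cases h : (M.J w).Valid (p w (Fin.tail e)) (e 0)
    · simp [h]
    · simp [h]
  refine fchG_congr (fchG_mod hp (fchG_sum (F := fun w e X => if (M.J w).Valid (p w e) X then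
    (M.J w).wtN (p w e) X * H w e X else 0) M.fch_pow_bbn h2)) fun w e _ => ?_
  rw [Inst.trN]

theorem fch_ptN {H : List α → (Fin k → ℕ) → ℕ → ℕ} {m : List α → (Fin k → ℕ) → ℕ} (hp : FCH p)
    (hH : FCH (k := k + 1) fun w e => gd (p w (Fin.tail e)) (H w (Fin.tail e) (e 0)))
    (ht : FCH t) (hm : FCH m) :
    FCH fun w e => gd (p w e) ((M.J w).ptN (p w e) (H w e) (t w e) (m w e)) := by
  have hpt : FCH (k := k + 1) fun w e => p w (Fin.tail e) := hp.arBtail
  have hm1 := hm.add (FCH.const 1)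
  have h1 := fchG_pow hp (fchG_of hp (hp.sub (FCH.const 1))) hm
  have h2 := fchG_pow hp (fchG_of hp hm1) (hp.sub (FCH.const 2))
  have h3 := fchG_pow hp (fchG_of hp ht) hm1
  have h4 := M.fch_trN (H := fun w e X => H w e X ^ (m w e + 1) % p w e) hp
    (fchG_pow hpt hH hm1.arBtail)
  exact fchG_congr (fchG_mod hp (fchG_mul (fchG_mul (fchG_mul h1 h2) h3) h4)) fun w e _ => rfl

theorem fch_ptS {H : List α → (Fin k → ℕ) → ℕ → ℕ} (hp : FCH p)
    (hH : FCH (k := k + 1) fun w e => gd (p w (Fin.tail e)) (H w (Fin.tail e) (e 0)))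
    (ht : FCH t) :
    FCH fun w e => gd (p w e)
      (∑ m ∈ Finset.range (M.J w).D, (M.J w).ptN (p w e) (H w e) (t w e) m) := by
  apply fchG_sum (F := fun w e m => (M.J w).ptN (p w e) (H w e) (t w e) m) M.fch_D
  exact M.fch_ptN (H := fun w e => H w (Fin.tail e)) hp.arBtail
    (FCH.arBskip (F := fun w e X => gd (p w e) (H w e X)) hH) ht.arBtail (FCH.proj 0)

open Classical in
theorem fch_nmN {H : List α → (Fin k → ℕ) → ℕ → ℕ} (hp : FCH p)
    (hH : FCH (k := k + 1) fun w e =>
      if (p w (Fin.tail e)).Prime then H w (Fin.tail e) (e 0) else 0) :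
    FCH fun w e => if (p w e).Prime then (M.J w).nmN (p w e) (H w e) else 0 := by
  have hH' : FCH (k := k + 1) fun w e => gd (p w (Fin.tail e)) (H w (Fin.tail e) (e 0)) :=
    hH.congr fun w e => rfl
  have hp1 : FCH (k := k + 1) fun w e => p w (Fin.tail e) := hp.arBtail
  have hp2 : FCH (k := k + 2) fun w e => p w (Fin.tail (Fin.tail e)) := hp1.arBtail
  -- the part depending on `t` and `l` (`l = e 0`, `t = e 1`)
  have hB : FCH (k := k + 2) fun w e => gd (p w (Fin.tail (Fin.tail e)))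
      (((∏ i ∈ Finset.range (e 0), (i + 1)) % p w (Fin.tail (Fin.tail e))) ^
        (p w (Fin.tail (Fin.tail e)) - 2) % p w (Fin.tail (Fin.tail e))) := by
    apply fchG_pow hp2 _ (hp2.sub (FCH.const 2))
    exact fchG_prod (F := fun _ _ i => i + 1) hp2 (FCH.proj 0)
      (fchG_of hp2.arBtail ((FCH.proj 0).add (FCH.const 1)))
  have hC : FCH (k := k + 2) fun w e => gd (p w (Fin.tail (Fin.tail e)))
      ((∑ m ∈ Finset.range (M.J w).D, (M.J w).ptN (p w (Fin.tail (Fin.tail e)))
        (H w (Fin.tail (Fin.tail e))) (e 1) m) ^ e 0 % p w (Fin.tail (Fin.tail e))) := by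
    apply fchG_pow hp2 _ (FCH.proj 0)
    apply M.fch_ptS (H := fun w e => H w (Fin.tail (Fin.tail e))) hp2 _ (FCH.proj 1)
    have s1 := FCH.arBskip (F := fun w e X => gd (p w e) (H w e X)) hH'
    exact FCH.arBskip (F := fun w e X => gd (p w (Fin.tail e)) (H w (Fin.tail e) X)) s1
  have hS : FCH (k := k + 1) fun w e => gd (p w (Fin.tail e))
      (∑ l ∈ Finset.range ((M.J w).D + 1),
      (((∏ i ∈ Finset.range l, (i + 1)) % p w (Fin.tail e)) ^ (p w (Fin.tail e) - 2) %
        p w (Fin.tail e)) *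
        ((∑ m ∈ Finset.range (M.J w).D, (M.J w).ptN (p w (Fin.tail e)) (H w (Fin.tail e)) (e 0) m)
          ^ l % p w (Fin.tail e))) := by
    apply fchG_sum (p := fun w e => p w (Fin.tail e)) (F := fun w e l =>
      (((∏ i ∈ Finset.range l, (i + 1)) % p w (Fin.tail e)) ^ (p w (Fin.tail e) - 2) %
        p w (Fin.tail e)) *
        ((∑ m ∈ Finset.range (M.J w).D, (M.J w).ptN (p w (Fin.tail e)) (H w (Fin.tail e)) (e 0) m)
          ^ l % p w (Fin.tail e))) (M.fch_D.add (FCH.const 1))
    exact fchG_mul hB hC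
  have hA : FCH (k := k + 1) fun w e => gd (p w (Fin.tail e))
      ((e 0 ^ (p w (Fin.tail e) - 2) % p w (Fin.tail e)) ^ (M.J w).D % p w (Fin.tail e)) :=
    fchG_pow hp1 (fchG_pow hp1 (fchG_of hp1 (FCH.proj 0)) (hp1.sub (FCH.const 2))) M.fch_D
  have hT := fchG_ite (InCH.eq (FCH.proj 0) (FCH.const 0)) (fchG_mul hA hS)
  have hfin := fchG_mod hp (fchG_mul (fchG_of hp (hp.sub (FCH.const 1)))
    (fchG_sum (p := p) (F := fun w e t => if t = 0 then 0 else
      ((t ^ (p w e - 2) % p w e) ^ (M.J w).D % p w e) * ∑ l ∈ Finset.range ((M.J w).D + 1),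
      (((∏ i ∈ Finset.range l, (i + 1)) % p w e) ^ (p w e - 2) % p w e) *
        ((∑ m ∈ Finset.range (M.J w).D, (M.J w).ptN (p w e) (H w e) t m) ^ l % p w e)) hp hT))
  refine hfin.congr fun w e => ?_
  rw [gd, Inst.nmN]

end Fam

end Vale.Agent.P337
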