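import Vale.Agent.P337.PipeFB2

/-!
# The algorithm is in the counting hierarchy: the values of the filters (module PF3a)
-/

namespace Vale.Agent.P337

namespace Fam

variable {α : Type} (M : Fam α) {k : ℕ} {p X Y Z s t r a i j c z : List α → (Fin k → ℕ) → ℕ}

/-! ### PF3: the filters -/

open Classical in
/-- a prime or one -/
noncomputable def pfcOne (p : ℕ) : ℕ := if p.Prime then p else 1

theorem pfcOne_pos (p : ℕ) : 0 < pfcOne p := by
  unfold pfcOne
  split_ifs with h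
  · exact h.pos
  · exact Nat.one_pos

theorem pfcOne_eq {p : ℕ} (h : p.Prime) : pfcOne p = p := by
  unfold pfcOne
  rw [if_pos h]

theorem pfc_one (hp : FCH p) : FCH fun w e => pfcOne (p w e) := by
  classical
  refine (FCH.ite (InCH.prime hp) hp (FCH.const 1)).congr fun w e => ?_
  unfold pfcOne
  by_cases h : (p w e).Prime
  · rw [if_pos h, if_pos h]
  · rw [if_neg h, if_neg h]

theorem pfc_cS : FCH (α := α) (k := k) fun w _ => cS (M.J w).q := M.fch_two_pow_q 4 8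

theorem pfc_cT : FCH (α := α) (k := k) fun w _ => cT (M.J w).q := M.fch_two_pow_q 3 8

theorem pfc_cL : FCH (α := α) (k := k) fun w _ => cL (M.J w).q :=
  (M.fch_two_pow_q 1 0).congr fun w _ => by simp [cL]

theorem pfc_cK0 : FCH (α := α) (k := k) fun w _ => cK0 (M.J w).q :=
  FCH.add (FCH.mul (FCH.const 2) M.pfc_cL) (FCH.const 2)

theorem pfc_cK : FCH (α := α) (k := k) fun w _ => cK (M.J w).q := M.fch_two_pow_q 5 8

theorem pfc_cNu : FCH (α := α) (k := k) fun w _ => cNu (M.J w).q :=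
  FCH.add (FCH.mul (FCH.const 6) M.fch_q) (FCH.const 14)

theorem pfc_cMu : FCH (α := α) (k := k) fun w _ => cMu (M.J w).q :=
  FCH.add (FCH.mul (FCH.const 5) M.fch_q) (FCH.const 13)

theorem pfc_cK2 : FCH (α := α) (k := k) fun w _ => cK2 (M.J w).q := M.fch_two_pow_q 4 10

theorem pfc_subN (hp : FCH p) (hX : FCH X) (hz : FCH z) :
    FCH fun w e => Inst.subN (p w e) (X w e) (z w e) :=
  FCH.mod (FCH.add hX (FCH.sub hp (FCH.mod hz hp))) hp

theorem pfc_rhoN (hp : FCH p) (h0 : ∀ w e, 0 < p w e) (hs : FCH s) (hr : FCH r) :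
    FCH fun w e => (M.J w).rhoN (p w e) (s w e) (r w e) :=
  FCH.mod (FCH.mul (FCH.add M.pfc_cS hs)
    (FCH.powMod (FCH.const 2) (FCH.sub M.pfc_cK0 hr) hp h0)) hp

theorem pfc_facAN (hp : FCH p) (h0 : ∀ w e, 0 < p w e) (hs : FCH s) (hr : FCH r) (hX : FCH X) :
    FCH fun w e => (M.J w).facAN (p w e) (s w e) (r w e) (X w e) :=
  FCH.mod (FCH.mul (FCH.powMod (FCH.const 2) M.pfc_cNu hp h0)
    (FCH.add (FCH.powMod (M.pfc_rhoN hp h0 hs hr) M.pfc_cK hp h0)
      (FCH.powMod (FCH.mul (FCH.powMod (FCH.const 2) M.pfc_cL hp h0) hX) M.pfc_cK hp h0))) hp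

theorem pfc_facA1N (hp : FCH p) (h0 : ∀ w e, 0 < p w e) (hs : FCH s) (hr : FCH r) (hX : FCH X) :
    FCH fun w e => (M.J w).facA1N (p w e) (s w e) (r w e) (X w e) :=
  FCH.mod (FCH.add (M.pfc_facAN hp h0 hs hr hX)
    (FCH.mul (FCH.powMod (M.pfc_rhoN hp h0 hs hr) (FCH.sub M.pfc_cK (FCH.const 1)) hp h0)
      (FCH.mul (FCH.powMod (FCH.const 2) M.pfc_cL hp h0) hX))) hp

open Classical in
theorem fch_AN (hp : FCH p) (hs : FCH s) (hr : FCH r) (hc : FCH c) (hz : FCH z) :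
    FCH fun w e => if (p w e).Prime then
      (M.J w).AN (p w e) (s w e) (r w e) (c w e) (z w e) else 0 := by
  refine M.fch_nmN (H := fun w e X => (M.J w).facAN (p w e) (s w e) (r w e)
    (Inst.subN (p w e) (Inst.dg (M.J w).bb X (c w e)) (z w e))) hp ?_
  have hp' := pfc_one (FCH.weaken hp)
  refine (FCH.ite_dec (InCH.prime (FCH.weaken hp))
    (M.pfc_facAN hp' (fun w e => pfcOne_pos _) (FCH.weaken hs) (FCH.weaken hr)
      (pfc_subN hp' (M.fch_dg (FCH.proj 0) (FCH.weaken hc)) (FCH.weaken hz)))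
    (FCH.const 0)).congr fun w e => ?_
  by_cases h : (p w (Fin.tail e)).Prime
  · rw [if_pos h, if_pos h, pfcOne_eq h]
  · rw [if_neg h, if_neg h]

open Classical in
theorem fch_A1N (hp : FCH p) (hs : FCH s) (hr : FCH r) (hc : FCH c) (hz : FCH z) :
    FCH fun w e => if (p w e).Prime then
      (M.J w).A1N (p w e) (s w e) (r w e) (c w e) (z w e) else 0 := by
  refine M.fch_nmN (H := fun w e X => (M.J w).facA1N (p w e) (s w e) (r w e)
    (Inst.subN (p w e) (Inst.dg (M.J w).bb X (c w e)) (z w e))) hp ?_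
  have hp' := pfc_one (FCH.weaken hp)
  refine (FCH.ite_dec (InCH.prime (FCH.weaken hp))
    (M.pfc_facA1N hp' (fun w e => pfcOne_pos _) (FCH.weaken hs) (FCH.weaken hr)
      (pfc_subN hp' (M.fch_dg (FCH.proj 0) (FCH.weaken hc)) (FCH.weaken hz)))
    (FCH.const 0)).congr fun w e => ?_
  by_cases h : (p w (Fin.tail e)).Prime
  · rw [if_pos h, if_pos h, pfcOne_eq h]
  · rw [if_neg h, if_neg h]

theorem pfc_fUN (hp : FCH p) (h0 : ∀ w e, 0 < p w e) (ht : FCH t) (hY : FCH Y) :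
    FCH fun w e => (M.J w).fUN (p w e) (t w e) (Y w e) :=
  FCH.powMod (FCH.mul (FCH.mul (FCH.const 2) (FCH.add M.pfc_cT ht))
    (FCH.powMod (FCH.mul M.fch_D hY) (M.fch_two_pow_q 5 13) hp h0)) M.pfc_cK2 hp h0

/-- a power of two with a truncated exponent -/
theorem pfc_two_pow_min (hi : FCH i) :
    FCH fun w e => 2 ^ Min.min (i w e) (cMu (M.J w).q) := by
  refine FCH.pow_bdd (FCH.const 2) (FCH.min hi M.pfc_cMu) fun r => ?_
  obtain ⟨s, hs⟩ := (M.fch_two_pow_q (k := k) 5 13).1 r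
  refine ⟨s, fun w e he => lt_of_le_of_lt ?_ (hs w e he)⟩
  exact Nat.pow_le_pow_right (by norm_num) (min_le_right _ _)

theorem pfc_chN_lt {p : ℕ} (h0 : 0 < p) (a b : ℕ) : ∀ i, Inst.chN p a b i < p
  | 0 => Nat.mod_lt _ h0
  | _ + 1 => Nat.mod_lt _ h0

theorem pfc_cMu_eval (w : List α) :
    (5 * (10 * M.nP + 16) + 13 : Polynomial ℕ).eval w.length = cMu (M.J w).q := by
  simp [cMu, Inst.q, M.hn]

theorem pfc_chN (hp : FCH p) (h0 : ∀ w e, 0 < p w e) (hX : FCH X) (hY : FCH Y) :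
    FCH fun w e => Inst.chN (p w e) (X w e) (Y w e) (cMu (M.J w).q) := by
  have hp2 : FCH (k := k + 2) fun w c => p w (fun i => c i.succ.succ) :=
    hp.comp (g := fun i w c => c i.succ.succ) fun i => FCH.proj _
  have hY2 : FCH (k := k + 2) fun w c => Y w (fun i => c i.succ.succ) :=
    hY.comp (g := fun i w c => c i.succ.succ) fun i => FCH.proj _
  have key := FCH.iter (k := k)
    (F := fun w e i => Inst.chN (p w e) (X w e) (Y w e) (Min.min i (cMu (M.J w).q)))
    (G := fun w e => X w e % p w e)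
    (H := fun w c => if c 0 < cMu (M.J w).q then
      (2 * (c 1 * c 1) + (p w (fun i => c i.succ.succ) - 1) *
        ((Y w (fun i => c i.succ.succ) ^ 2 ^ Min.min (c 0) (cMu (M.J w).q) %
            p w (fun i => c i.succ.succ)) *
          (Y w (fun i => c i.succ.succ) ^ 2 ^ Min.min (c 0) (cMu (M.J w).q) %
            p w (fun i => c i.succ.succ)))) % p w (fun i => c i.succ.succ) else c 1)
    (FCH.mod hX hp) ?_ ?_ ?_ ?_ (5 * (10 * M.nP + 16) + 13) M.pfc_cMu
  · refine key.congr fun w e => ?_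
    rw [M.pfc_cMu_eval w, min_self, min_self]
  · have hpw : FCH (k := k + 2) fun w c => Y w (fun i => c i.succ.succ) ^
        2 ^ Min.min (c 0) (cMu (M.J w).q) % p w (fun i => c i.succ.succ) :=
      FCH.powMod hY2 (M.pfc_two_pow_min (FCH.proj 0)) hp2 fun w e => h0 _ _
    exact FCH.ite_dec (InCH.lt (FCH.proj 0) M.pfc_cMu)
      (FCH.mod (FCH.add (FCH.mul (FCH.const 2) (FCH.mul (FCH.proj 1) (FCH.proj 1)))
        (FCH.mul (FCH.sub hp2 (FCH.const 1)) (FCH.mul hpw hpw))) hp2) (FCH.proj 1)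
  · intro w e
    simp [Inst.chN]
  · intro w e i
    by_cases hi : i < cMu (M.J w).q
    · have e1 : Min.min (i + 1) (cMu (M.J w).q) = i + 1 := min_eq_left hi
      have e2 : Min.min i (cMu (M.J w).q) = i := min_eq_left hi.le
      simp [hi, e2, Inst.chN, pow_two]
    · have e1 : Min.min (i + 1) (cMu (M.J w).q) = cMu (M.J w).q := min_eq_right (by omega)
      have e2 : Min.min i (cMu (M.J w).q) = cMu (M.J w).q := min_eq_right (by omega)
      simp [hi, e1, e2]
  · intro r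
    obtain ⟨s, hs⟩ := hp.1 r
    exact ⟨s, fun w e i he => lt_trans (pfc_chN_lt (h0 w e) _ _ _) (hs w e he)⟩

theorem pfc_fVN (hp : FCH p) (h0 : ∀ w e, 0 < p w e) (ht : FCH t) (hY : FCH Y) (hZ : FCH Z) :
    FCH fun w e => (M.J w).fVN (p w e) (t w e) (Y w e) (Z w e) :=
  FCH.mod (FCH.add (M.pfc_fUN hp h0 ht hY)
    (FCH.powMod (FCH.mul M.pfc_cT (M.pfc_chN hp h0
      (FCH.mul (M.fch_two_pow_q 6 14) (pfc_subN hp hZ hY)) (FCH.mul M.fch_D hY)))
      M.pfc_cK2 hp h0)) hp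

open Classical in
theorem fch_fUN (hp : FCH p) (ht : FCH t) (hY : FCH Y) :
    FCH fun w e => if (p w e).Prime then (M.J w).fUN (p w e) (t w e) (Y w e) else 0 := by
  refine (FCH.ite_dec (InCH.prime hp)
    (M.pfc_fUN (pfc_one hp) (fun w e => pfcOne_pos _) ht hY) (FCH.const 0)).congr fun w e => ?_
  by_cases h : (p w e).Prime
  · rw [if_pos h, if_pos h, pfcOne_eq h]
  · rw [if_neg h, if_neg h]

open Classical in
theorem fch_fVN (hp : FCH p) (ht : FCH t) (hY : FCH Y) (hZ : FCH Z) :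
    FCH fun w e => if (p w e).Prime then (M.J w).fVN (p w e) (t w e) (Y w e) (Z w e) else 0 := by
  refine (FCH.ite_dec (InCH.prime hp)
    (M.pfc_fVN (pfc_one hp) (fun w e => pfcOne_pos _) ht hY hZ) (FCH.const 0)).congr
      fun w e => ?_
  by_cases h : (p w e).Prime
  · rw [if_pos h, if_pos h, pfcOne_eq h]
  · rw [if_neg h, if_neg h]

end Fam

end Vale.Agent.P337
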