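import Vale.Agent.P337.PipeFC

/-!
# The algorithm is in the counting hierarchy: the numbers to be compared (module PF3b)
-/

namespace Vale.Agent.P337

namespace Fam

variable {α : Type} (M : Fam α) {k : ℕ} {p X Y Z s t r a i j c z : List α → (Fin k → ℕ) → ℕ}

theorem fch_cK0 : FCH (α := α) (k := k) fun w _ => cK0 (M.J w).q := by
  refine ((FCH.const 2).mul (M.fch_two_pow_q 1 0) |>.add (FCH.const 2)).congr fun w e => ?_
  rw [cK0, one_mul, add_zero]

theorem fch_numF : FCH (α := α) (k := k) fun w _ => (M.J w).n * (cK0 (M.J w).q + 1) :=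
  M.fch_n.mul (M.fch_cK0.add (FCH.const 1))

open Classical in
theorem fch_AN' (hp : FCH p) (hs : FCH s) (hX : FCH X) :
    FCH (k := k + 1) fun w e => if (p w (Fin.tail e)).Prime then
      (M.J w).AN (p w (Fin.tail e)) (s w (Fin.tail e)) (e 0 / (M.J w).n) (e 0 % (M.J w).n)
        (Inst.dg (M.J w).bb (X w (Fin.tail e)) (e 0 % (M.J w).n)) else 0 :=
  M.fch_AN hp.weaken hs.weaken ((FCH.proj 0).div M.fch_n) ((FCH.proj 0).mod M.fch_n)
    (M.fch_dg hX.weaken ((FCH.proj 0).mod M.fch_n))

open Classical in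
theorem fch_A1N' (hp : FCH p) (hs : FCH s) (hX : FCH X) :
    FCH (k := k + 1) fun w e => if (p w (Fin.tail e)).Prime then
      (M.J w).A1N (p w (Fin.tail e)) (s w (Fin.tail e)) (e 0 / (M.J w).n) (e 0 % (M.J w).n)
        (Inst.dg (M.J w).bb (X w (Fin.tail e)) (e 0 % (M.J w).n)) else 0 :=
  M.fch_A1N hp.weaken hs.weaken ((FCH.proj 0).div M.fch_n) ((FCH.proj 0).mod M.fch_n)
    (M.fch_dg hX.weaken ((FCH.proj 0).mod M.fch_n))

open Classical in
theorem fch_UN (hp : FCH p) (hs : FCH s) (ht : FCH t) (hX : FCH X) :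
    FCH fun w e => if (p w e).Prime then
      (M.J w).UN (p w e) (s w e) (t w e) (X w e) else 0 := by
  have h1 := M.fch_fUN hp.weaken ht.weaken (M.fch_AN' hp hs hX)
  refine (FCH.prodMod (F := fun w e y => if (p w e).Prime then (M.J w).fUN (p w e) (t w e)
    (if (p w e).Prime then (M.J w).AN (p w e) (s w e) (y / (M.J w).n) (y % (M.J w).n)
      (Inst.dg (M.J w).bb (X w e) (y % (M.J w).n)) else 0) else 0) hp M.fch_numF h1).congr fun w e => ?_
  by_cases h : (p w e).Prime
  · simp only [if_pos h]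
    rfl
  · simp only [if_neg h]

open Classical in
theorem fch_VN (hp : FCH p) (hs : FCH s) (ht : FCH t) (hX : FCH X) :
    FCH fun w e => if (p w e).Prime then
      (M.J w).VN (p w e) (s w e) (t w e) (X w e) else 0 := by
  have h1 := M.fch_fVN hp.weaken ht.weaken (M.fch_AN' hp hs hX) (M.fch_A1N' hp hs hX)
  refine (FCH.prodMod (F := fun w e y => if (p w e).Prime then (M.J w).fVN (p w e) (t w e)
    (if (p w e).Prime then (M.J w).AN (p w e) (s w e) (y / (M.J w).n) (y % (M.J w).n)
      (Inst.dg (M.J w).bb (X w e) (y % (M.J w).n)) else 0)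
    (if (p w e).Prime then (M.J w).A1N (p w e) (s w e) (y / (M.J w).n) (y % (M.J w).n)
      (Inst.dg (M.J w).bb (X w e) (y % (M.J w).n)) else 0) else 0) hp M.fch_numF h1).congr fun w e => ?_
  by_cases h : (p w e).Prime
  · simp only [if_pos h]
    rfl
  · simp only [if_neg h]

open Classical in
theorem fch_X2A (hp : FCH p) (hs : FCH s) (ht : FCH t) :
    FCH (k := k + 1) fun w e => (2 * (if (p w (Fin.tail e)).Prime then
      (M.J w).GN (p w (Fin.tail e)) (e 0) else 0) + 1) * (if (p w (Fin.tail e)).Prime then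
      (M.J w).VN (p w (Fin.tail e)) (s w (Fin.tail e)) (t w (Fin.tail e)) (e 0) else 0) :=
  (((FCH.const 2).mul (M.fch_GN hp.weaken (FCH.proj 0))).add (FCH.const 1)).mul
    (M.fch_VN hp.weaken hs.weaken ht.weaken (FCH.proj 0))

open Classical in
theorem fch_X1N (hp : FCH p) (hs : FCH s) (ht : FCH t) :
    FCH fun w e => if (p w e).Prime then
      (M.J w).X1N (s w e) (t w e) (p w e) else 0 := by
  have h2 := FCH.powMod0 (FCH.const (k := k) 2) M.fch_thE hp
  have h3 := (h2.weaken).mul (M.fch_UN hp.weaken hs.weaken ht.weaken (FCH.proj 0))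
  have h4 := FCH.ite (InCH.prime hp.weaken) (((M.fch_X2A hp hs ht).add h3).mod hp.weaken) (FCH.const 0)
  refine (M.fch_nmN (H := fun w e X => ((2 * (M.J w).GN (p w e) X + 1) *
    (M.J w).VN (p w e) (s w e) (t w e) X + (2 ^ (M.J w).thE % p w e) *
      (M.J w).UN (p w e) (s w e) (t w e) X) % p w e) hp (h4.congr fun w e => ?_)).congr fun w e => ?_
  · by_cases h : (p w (Fin.tail e)).Prime
    · simp only [if_pos h, if_neg h.ne_zero]
    · simp only [if_neg h]
  · by_cases h : (p w e).Prime
    · simp only [if_pos h]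
      rfl
    · simp only [if_neg h]

open Classical in
theorem fch_X2N (hp : FCH p) (hs : FCH s) (ht : FCH t) :
    FCH fun w e => if (p w e).Prime then
      (M.J w).X2N (s w e) (t w e) (p w e) else 0 := by
  have h4 := FCH.ite (InCH.prime hp.weaken) ((M.fch_X2A hp hs ht).mod hp.weaken) (FCH.const 0)
  refine (M.fch_nmN (H := fun w e X => ((2 * (M.J w).GN (p w e) X + 1) *
    (M.J w).VN (p w e) (s w e) (t w e) X) % p w e) hp (h4.congr fun w e => ?_)).congr fun w e => ?_
  · by_cases h : (p w (Fin.tail e)).Prime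
    · simp only [if_pos h]
    · simp only [if_neg h]
  · by_cases h : (p w e).Prime
    · simp only [if_pos h]
      rfl
    · simp only [if_neg h]

end Fam

end Vale.Agent.P337
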