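import Vale.Agent.P337.Alg

/-!
# The points are exactly the solutions (modules C2, C3)
-/

namespace Vale.Agent.P337

open MvPolynomial

variable {n : ℕ}

/-- module C2: every one of the points is a solution -/
theorem pts_sol (h : Fin n → MvPolynomial (Fin n) ℂ) (_hd : ∀ i, (h i).totalDegree ≤ 3)
    (pts : Fin (5 ^ n) → Fin n → ℂ) (hp : ∀ H, nm h H = ∏ j, eval (pts j) H) (j : Fin (5 ^ n))
    (i : Fin n) : pts j i ^ 5 = eval (pts j) (h i) := by
  by_contra hne
  have hc0 : pts j i ^ 5 - eval (pts j) (h i) ≠ 0 := sub_ne_zero.mpr hne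
  set c : ℂ := pts j i ^ 5 - eval (pts j) (h i) with hc
  have h1 : nm h (1 - C c⁻¹ * (X i ^ 5 - h i)) = 1 := by
    have hm : Ideal.Quotient.mk (relIdeal h) (X i ^ 5 - h i) = 0 :=
      Ideal.Quotient.eq_zero_iff_mem.mpr (Ideal.subset_span ⟨i, rfl⟩)
    have : Ideal.Quotient.mk (relIdeal h) (1 - C c⁻¹ * (X i ^ 5 - h i)) = 1 := by
      rw [map_sub, map_mul, hm, mul_zero, sub_zero, map_one]
    rw [nm, this, map_one]
  have h2 : eval (pts j) (1 - C c⁻¹ * (X i ^ 5 - h i)) = 0 := by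
    simp only [map_sub, map_one, map_mul, eval_C, map_pow, eval_X]
    rw [← hc, inv_mul_cancel₀ hc0, sub_self]
  have h3 := hp (1 - C c⁻¹ * (X i ^ 5 - h i))
  rw [h1, Finset.prod_eq_zero (Finset.mem_univ j) h2] at h3
  exact one_ne_zero h3

/-- module C3: every solution is one of the points -/
theorem sol_pts (h : Fin n → MvPolynomial (Fin n) ℂ) (hd : ∀ i, (h i).totalDegree ≤ 3)
    (pts : Fin (5 ^ n) → Fin n → ℂ) (hp : ∀ H, nm h H = ∏ j, eval (pts j) H) (x : Fin n → ℂ)
    (hx : ∀ i, x i ^ 5 = eval x (h i)) : ∃ j, pts j = x := by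
  by_contra hne
  push Not at hne
  have hc : ∀ j, ∃ c, pts j c ≠ x c := fun j => Function.ne_iff.mp (hne j)
  choose c hc using hc
  let H : MvPolynomial (Fin n) ℂ :=
    1 - ∏ j, (C (x (c j) - pts j (c j))⁻¹ * (X (c j) - C (pts j (c j))))
  have h1 : eval x H = 0 := by
    simp only [H, map_sub, map_one, map_prod, map_mul, eval_C, eval_X]
    rw [Finset.prod_eq_one, sub_self]
    intro j _
    exact inv_mul_cancel₀ (sub_ne_zero.mpr (hc j).symm)
  have h2 : ∀ j, eval (pts j) H = 1 := by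
    intro j
    simp only [H, map_sub, map_one, map_prod, map_mul, eval_C, eval_X]
    rw [Finset.prod_eq_zero (Finset.mem_univ j), sub_zero]
    rw [sub_self, mul_zero]
  have h3 := hp H
  rw [nm_eq_zero h hd x hx H h1, Finset.prod_congr rfl (fun j _ => h2 j)] at h3
  simp at h3

end Vale.Agent.P337
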