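import Vale.Agent.P337.QuadDefs

/-!
# Solutions of the equations evaluate the polynomials (module J1a)
-/

namespace Vale.Agent.P337

namespace Quad

section steps

theorem vix_other {w : List Tok} {i : ℕ} (h1 : w[i]? ≠ some .next) (h2 : w[i]? ≠ some .plus)
    (h3 : w[i]? ≠ some .minus) : vix w (i + 1) = vix w i := by
  classical
  unfold vix
  congr 1
  ext j
  simp only [Finset.mem_filter, Finset.mem_range]
  constructor
  · rintro ⟨hj, hn, hl⟩
    have hji : j ≠ i := by
      rintro rfl
      exact h1 hn
    exact ⟨by omega, hn, fun l hl' hjl => hl l (by omega) hjl⟩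
  · rintro ⟨hj, hn, hl⟩
    refine ⟨by omega, hn, fun l hl' hjl => ?_⟩
    rcases Nat.lt_or_ge l i with h | h
    · exact hl l h hjl
    · have : l = i := by omega
      subst this
      exact ⟨h2, h3⟩

theorem vix_next {w : List Tok} {i : ℕ} (h1 : w[i]? = some .next) :
    vix w (i + 1) = vix w i + 1 := by
  classical
  have h : ((Finset.range (i + 1)).filter fun j => w[j]? = some .next ∧
      ∀ l < i + 1, j < l → w[l]? ≠ some .plus ∧ w[l]? ≠ some .minus) =
      insert i ((Finset.range i).filter fun j => w[j]? = some .next ∧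
      ∀ l < i, j < l → w[l]? ≠ some .plus ∧ w[l]? ≠ some .minus) := by
    ext j
    simp only [Finset.mem_filter, Finset.mem_range, Finset.mem_insert]
    constructor
    · rintro ⟨hj, hn, hl⟩
      rcases Nat.lt_or_ge j i with h | h
      · exact Or.inr ⟨h, hn, fun l hl' hjl => hl l (by omega) hjl⟩
      · exact Or.inl (by omega)
    · rintro (rfl | ⟨hj, hn, hl⟩)
      · exact ⟨by omega, h1, fun l hl' hjl => by omega⟩
      · refine ⟨by omega, hn, fun l hl' hjl => ?_⟩
        rcases Nat.lt_or_ge l i with h | h
        · exact hl l h hjl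
        · have : l = i := by omega
          subst this
          rw [h1]
          exact ⟨by simp, by simp⟩
  unfold vix
  rw [h, Finset.card_insert_of_notMem]
  simp

theorem vix_sign {w : List Tok} {i : ℕ} (h1 : w[i]? = some .plus ∨ w[i]? = some .minus) :
    vix w (i + 1) = 0 := by
  classical
  unfold vix
  rw [Finset.card_eq_zero]
  rw [Finset.filter_eq_empty_iff]
  rintro j hj ⟨hn, hl⟩
  rw [Finset.mem_range] at hj
  rcases Nat.lt_or_ge j i with h | h
  · have := hl i (by omega) h
    rcases h1 with h1 | h1
    · exact this.1 h1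
    · exact this.2 h1
  · have : j = i := by omega
    subst this
    rcases h1 with h1 | h1 <;> rw [h1] at hn <;> simp at hn

end steps

section eqs

variable {w : List Tok} {V : Asg}

theorem pe_eq0 (hV : ∀ i ≤ w.length, ∀ e, e ≠ 8 → Eqn w V i e) {i : ℕ} (hi : i ≤ w.length)
    {t : Option Tok} (ht : w[i]? = t) :
    tval w V i (tab0 t).1 + tval w V i (tab0 t).2.1 =
      tval w V i (tab0 t).2.2.1 + tval w V i (tab0 t).2.2.2 := by
  have := hV i hi 0 (by decide)
  unfold Eqn at this
  rw [ht] at this
  exact this

theorem pe_eq1 (hV : ∀ i ≤ w.length, ∀ e, e ≠ 8 → Eqn w V i e) {i : ℕ} (hi : i ≤ w.length)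
    {t : Option Tok} (ht : w[i]? = t) :
    tval w V i (tab1 t).1 + tval w V i (tab1 t).2.1 =
      tval w V i (tab1 t).2.2.1 + tval w V i (tab1 t).2.2.2 := by
  have := hV i hi 1 (by decide)
  unfold Eqn at this
  rw [ht] at this
  exact this

theorem pe_eq2 (hV : ∀ i ≤ w.length, ∀ e, e ≠ 8 → Eqn w V i e) {i : ℕ} (hi : i ≤ w.length)
    {t : Option Tok} (ht : w[i]? = t) :
    tval w V i (tab2 t).1 + tval w V i (tab2 t).2.1 =
      tval w V i (tab2 t).2.2.1 + tval w V i (tab2 t).2.2.2 := by
  have := hV i hi 2 (by decide)
  unfold Eqn at this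
  rw [ht] at this
  exact this

/-- the token at the position of the beginning of the second part -/
theorem pe_get (A B : List Tok) : (A ++ B)[A.length]? = B.head? := by
  rw [List.getElem?_append_right le_rfl, Nat.sub_self, List.head?_eq_getElem?]

/-- the head of `R` is a sign, a token of the formula structure or missing -/
def Stop (R : List Tok) : Prop :=
  ∀ t, R.head? = some t → isF t = true ∨ t = .plus ∨ t = .minus

theorem pe_stop (hV : ∀ i ≤ w.length, ∀ e, e ≠ 8 → Eqn w V i e) {A R : List Tok}
    (hw : w = A ++ R) (hR : Stop R) : V.y A.length = 1 ∧ V.q A.length = 0 := by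
  have hi : A.length ≤ w.length := by rw [hw]; simp
  have ht : w[A.length]? = R.head? := by rw [hw]; exact pe_get A R
  have h1 := pe_eq1 hV hi ht
  have h2 := pe_eq2 hV hi ht
  rcases hh : R.head? with _ | t
  · rw [hh] at h1 h2
    simp [tab1, tab2, tval, Sym.val] at h1 h2
    exact ⟨h1, h2⟩
  · have h3 := hR t hh
    rw [hh] at h1 h2
    cases t <;> simp [isF] at h3 <;> simp [tab1, tab2, tval, Sym.val] at h1 h2 <;> exact ⟨h1, h2⟩

theorem pe_end (hV : ∀ i ≤ w.length, ∀ e, e ≠ 8 → Eqn w V i e) {A R : List Tok}
    (hw : w = A ++ R) (hr : ∀ t, R.head? = some t → isF t = true) : V.s A.length = 0 := by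
  have hi : A.length ≤ w.length := by rw [hw]; simp
  have ht : w[A.length]? = R.head? := by rw [hw]; exact pe_get A R
  have h1 := pe_eq0 hV hi ht
  rcases hh : R.head? with _ | t
  · rw [hh] at h1
    simpa [tab0, tval, Sym.val] using h1
  · have h3 := hr t hh
    rw [hh] at h1
    cases t <;> simp [isF] at h3 <;> simpa [tab0, tval, Sym.val] using h1

/-- code of the exponents -/
def expsCode (l : List ℕ) : List Tok := l.flatMap fun e => List.replicate e Tok.var ++ [Tok.next]

theorem pe_next (hV : ∀ i ≤ w.length, ∀ e, e ≠ 8 → Eqn w V i e) {A R : List Tok}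
    (hw : w = A ++ (Tok.next :: R)) :
    V.y A.length = V.y (A.length + 1) ∧ V.q A.length = 0 ∧ V.s A.length = V.s (A.length + 1) ∧
      vix w (A.length + 1) = vix w A.length + 1 := by
  have hi : A.length ≤ w.length := by rw [hw]; simp
  have ht : w[A.length]? = some .next := by rw [hw]; exact pe_get A _
  have h0 := pe_eq0 hV hi ht
  have h1 := pe_eq1 hV hi ht
  have h2 := pe_eq2 hV hi ht
  simp [tab0, tab1, tab2, tval, Sym.val] at h0 h1 h2
  exact ⟨h1, h2, h0, vix_next ht⟩

theorem pe_var (hV : ∀ i ≤ w.length, ∀ e, e ≠ 8 → Eqn w V i e) {A R : List Tok}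
    (hw : w = A ++ (Tok.var :: R)) :
    V.y A.length = V.y (A.length + 1) * V.x (vix w A.length) ∧ V.q A.length = 0 ∧
      V.s A.length = V.s (A.length + 1) ∧ vix w (A.length + 1) = vix w A.length := by
  have hi : A.length ≤ w.length := by rw [hw]; simp
  have ht : w[A.length]? = some .var := by rw [hw]; exact pe_get A _
  have h0 := pe_eq0 hV hi ht
  have h1 := pe_eq1 hV hi ht
  have h2 := pe_eq2 hV hi ht
  simp [tab0, tab1, tab2, tval, Sym.val] at h0 h1 h2
  exact ⟨h1, h2, h0, vix_other (by rw [ht]; simp) (by rw [ht]; simp) (by rw [ht]; simp)⟩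

theorem pe_vars (hV : ∀ i ≤ w.length, ∀ e, e ≠ 8 → Eqn w V i e) (e : ℕ) :
    ∀ {A R : List Tok}, w = A ++ (List.replicate e Tok.var ++ (Tok.next :: R)) →
    V.y A.length = V.x (vix w A.length) ^ e * V.y (A.length + e + 1) ∧ V.q A.length = 0 ∧
      V.s A.length = V.s (A.length + e + 1) ∧
      vix w (A.length + e + 1) = vix w A.length + 1 := by
  induction e with
  | zero =>
    intro A R hw
    simp only [List.replicate_zero, List.nil_append] at hw
    obtain ⟨h1, h2, h3, h4⟩ := pe_next hV hw
    exact ⟨by simpa using h1, h2, by simpa using h3, by simpa using h4⟩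
  | succ e ih =>
    intro A R hw
    rw [List.replicate_succ, List.cons_append] at hw
    obtain ⟨h1, h2, h3, h4⟩ := pe_var hV hw
    have hw' : w = (A ++ [Tok.var]) ++ (List.replicate e Tok.var ++ (Tok.next :: R)) := by
      rw [hw]; simp
    obtain ⟨k1, k2, k3, k4⟩ := ih hw'
    have hlen : (A ++ [Tok.var]).length = A.length + 1 := by simp
    rw [hlen] at k1 k2 k3 k4
    have e1 : A.length + 1 + e + 1 = A.length + (e + 1) + 1 := by ring
    rw [e1] at k1 k3 k4
    refine ⟨?_, h2, by rw [h3, k3], by rw [k4, h4]⟩
    rw [h1, k1, h4]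
    ring

theorem pe_exps (hV : ∀ i ≤ w.length, ∀ e, e ≠ 8 → Eqn w V i e) (l : List ℕ) :
    ∀ {A R : List Tok}, w = A ++ (expsCode l ++ R) → Stop R →
    V.y A.length = powProd V.x (vix w A.length) l ∧ V.q A.length = 0 ∧
      V.s A.length = V.s (A.length + (expsCode l).length) := by
  induction l with
  | nil =>
    intro A R hw hR
    have hw' : w = A ++ R := by rw [hw]; simp [expsCode]
    obtain ⟨h1, h2⟩ := pe_stop hV hw' hR
    refine ⟨by simpa [powProd] using h1, h2, by simp [expsCode]⟩
  | cons e l ih =>
    intro A R hw hR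
    have hc : expsCode (e :: l) = List.replicate e Tok.var ++ (Tok.next :: expsCode l) := by
      simp [expsCode]
    rw [hc] at hw
    have hw1 : w = A ++ (List.replicate e Tok.var ++ (Tok.next :: (expsCode l ++ R))) := by
      rw [hw]; simp
    obtain ⟨h1, h2, h3, h4⟩ := pe_vars hV e hw1
    have hw2 : w = (A ++ List.replicate e Tok.var ++ [Tok.next]) ++ (expsCode l ++ R) := by
      rw [hw]; simp
    have hlen : (A ++ List.replicate e Tok.var ++ [Tok.next]).length = A.length + e + 1 := by
      simp
      ring
    obtain ⟨k1, k2, k3⟩ := ih hw2 hR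
    rw [hlen] at k1 k2 k3
    refine ⟨?_, h2, ?_⟩
    · rw [h1, k1, h4]
      rfl
    · rw [h3, k3, hc]
      congr 1
      simp
      ring

theorem pe_foldl (ds : List Bool) (a : ℕ) :
    ds.foldl (fun r b => 2 * r + b.toNat) a = a * 2 ^ ds.length +
      ds.foldl (fun r b => 2 * r + b.toNat) 0 := by
  induction ds generalizing a with
  | nil => simp
  | cons d ds ih =>
    rw [List.foldl_cons, List.foldl_cons, ih (2 * a + d.toNat), ih (2 * 0 + d.toNat),
      List.length_cons]
    ring

theorem pe_binVal_cons (d : Bool) (ds : List Bool) :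
    binVal (d :: ds) = d.toNat * 2 ^ ds.length + binVal ds := by
  unfold binVal
  rw [List.foldl_cons, pe_foldl]
  ring

theorem pe_digits (hV : ∀ i ≤ w.length, ∀ e, e ≠ 8 → Eqn w V i e) (ds : List Bool) :
    ∀ {A R : List Tok},
    w = A ++ ((ds.map fun b => if b then Tok.one else Tok.zero) ++ R) →
    V.q (A.length + ds.length) = 0 →
    V.y A.length = 2 ^ ds.length * V.y (A.length + ds.length) ∧
      V.q A.length = (binVal ds : ℝ) * V.y (A.length + ds.length) ∧
      V.s A.length = V.s (A.length + ds.length) ∧
      vix w (A.length + ds.length) = vix w A.length := by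
  induction ds with
  | nil =>
    intro A R hw hq
    simp only [List.length_nil, Nat.add_zero] at hq
    refine ⟨by simp, ?_, by simp, by simp⟩
    rw [hq]
    simp [binVal]
  | cons d ds ih =>
    intro A R hw hq
    have hw1 : w = A ++ ((if d then Tok.one else Tok.zero) ::
        ((ds.map fun b => if b then Tok.one else Tok.zero) ++ R)) := by
      rw [hw]; simp
    have hw2 : w = (A ++ [if d then Tok.one else Tok.zero]) ++
        ((ds.map fun b => if b then Tok.one else Tok.zero) ++ R) := by
      rw [hw]; simp
    have hlen : (A ++ [if d then Tok.one else Tok.zero]).length = A.length + 1 := by simp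
    have e1 : A.length + 1 + ds.length = A.length + (d :: ds).length := by simp; ring
    obtain ⟨k1, k2, k3, k4⟩ := ih hw2 (by rw [hlen, e1]; exact hq)
    rw [hlen] at k1 k2 k3 k4
    rw [e1] at k1 k2 k3 k4
    have hi : A.length ≤ w.length := by rw [hw]; simp
    have ht : w[A.length]? = some (if d then Tok.one else Tok.zero) := by
      rw [hw1]; exact pe_get A _
    have h0 := pe_eq0 hV hi ht
    have h1 := pe_eq1 hV hi ht
    have h2 := pe_eq2 hV hi ht
    have h4 : vix w (A.length + 1) = vix w A.length := by
      apply vix_other <;> rw [ht] <;> cases d <;> simp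
    rw [h4] at k4
    cases d
    · simp [tab0, tab1, tab2, tval, Sym.val] at h0 h1 h2
      refine ⟨?_, ?_, by rw [h0, k3], k4⟩
      · rw [h1, k1, List.length_cons]; ring
      · rw [h2, k2, pe_binVal_cons]
        simp
    · simp [tab0, tab1, tab2, tval, Sym.val] at h0 h1 h2
      refine ⟨?_, ?_, by rw [h0, k3], k4⟩
      · rw [h1, k1, List.length_cons]; ring
      · rw [h2, k2, k1, pe_binVal_cons]
        push_cast
        simp
        ring

end eqs

/-- module J1a: the value of a polynomial. `pre` is the part of the word before the polynomial,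
`rest` the part after it. Induction on `p`; inside a monomial: `q = 0`, `y = powProd x v l`,
`vix = v` at the beginning of the exponents `l` of `x v, x (v + 1), …`; for the digits `ds` (from
right to left) `q = binVal ds * Y`, `y = 2 ^ ds.length * Y`. -/
theorem poly_eval (w : List Tok) (V : Asg) (hV : ∀ i ≤ w.length, ∀ e, e ≠ 8 → Eqn w V i e)
    (pre rest : List Tok) (p : List Mono) (hw : w = pre ++ (p.flatMap Mono.code ++ rest))
    (hr : ∀ t, rest.head? = some t → isF t = true) :
    V.s pre.length = polyVal V.x p := by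
  induction p generalizing pre with
  | nil =>
    have hw' : w = pre ++ rest := by rw [hw]; simp
    rw [pe_end hV hw' hr]
    simp [polyVal]
  | cons m p ih =>
    set R := p.flatMap Mono.code ++ rest with hR
    have hstop : Stop R := by
      intro t ht
      cases p with
      | nil =>
        left
        apply hr
        rw [hR] at ht
        simpa using ht
      | cons m' p' =>
        right
        rw [hR] at ht
        simp only [List.flatMap_cons, Mono.code, List.cons_append, List.head?_cons,
          Option.some.injEq] at ht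
        rw [← ht]
        cases m'.neg <;> simp
    set dg := m.digits.map fun b => if b then Tok.one else Tok.zero with hdg
    set sgn := if m.neg then Tok.minus else Tok.plus with hsgn
    have hcode : (m :: p).flatMap Mono.code ++ rest = sgn :: (dg ++ (expsCode m.exps ++ R)) := by
      rw [hR, hdg, hsgn]
      simp [Mono.code, expsCode, List.append_assoc]
    rw [hcode] at hw
    have hi : pre.length ≤ w.length := by rw [hw]; simp
    have ht : w[pre.length]? = some sgn := by rw [hw]; exact pe_get pre _
    have hlen1 : (pre ++ [sgn]).length = pre.length + 1 := by simp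
    have hdl : dg.length = m.digits.length := by rw [hdg]; simp
    -- digits
    have hw1 : w = (pre ++ [sgn]) ++ (dg ++ (expsCode m.exps ++ R)) := by rw [hw]; simp
    have hw2 : w = (pre ++ [sgn] ++ dg) ++ (expsCode m.exps ++ R) := by rw [hw]; simp
    have hlen2 : (pre ++ [sgn] ++ dg).length = pre.length + 1 + m.digits.length := by
      rw [List.length_append, hlen1, hdl]
    obtain ⟨y1, q1, s1⟩ := pe_exps hV m.exps hw2 hstop
    rw [hlen2] at y1 q1 s1
    obtain ⟨y2, q2, s2, v2⟩ := pe_digits hV m.digits (A := pre ++ [sgn]) hw1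
      (by rw [hlen1]; exact q1)
    rw [hlen1] at y2 q2 s2 v2
    have hv : vix w (pre.length + 1) = 0 := by
      apply vix_sign
      rw [ht, hsgn]
      cases m.neg <;> simp
    rw [v2, hv] at y1
    -- the rest
    have hw3 : w = (pre ++ [sgn] ++ dg ++ expsCode m.exps) ++ (p.flatMap Mono.code ++ rest) := by
      rw [hw]; simp [hR]
    have ih' := ih (pre ++ [sgn] ++ dg ++ expsCode m.exps) hw3
    rw [List.length_append, hlen2] at ih'
    have hs : V.s (pre.length + 1) = polyVal V.x p := by rw [s2, s1, ih']
    have hq : V.q (pre.length + 1) = (binVal m.digits : ℝ) * powProd V.x 0 m.exps := by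
      rw [q2, y1]
    have h0 := pe_eq0 hV hi ht
    have hpv : polyVal V.x (m :: p) = Mono.val V.x m + polyVal V.x p := by
      simp [polyVal]
    rw [hpv]
    rw [hsgn] at h0
    unfold Mono.val
    cases hneg : m.neg
    · rw [hneg] at h0
      simp [tab0, tval, Sym.val] at h0
      rw [h0, hs, hq]
      simp
      ring
    · rw [hneg] at h0
      simp [tab0, tval, Sym.val] at h0
      rw [hs, hq] at h0
      simp
      linarith

end Quad

end Vale.Agent.P337
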