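import Vale.Agent.P337.QuadDefs

/-!
# Prefixes of codes of formulas (module J1b)
-/

namespace Vale.Agent.P337

namespace Quad

/-- the weight of a token -/
def cpf : Tok → ℤ
  | .eq => 1
  | .gt => 1
  | .and => -1
  | .or => -1
  | _ => 0

/-- the weight of a word -/
def cpw (l : List Tok) : ℤ := (l.map cpf).sum

theorem cpw_nil : cpw [] = 0 := rfl

theorem cpw_cons (t : Tok) (l : List Tok) : cpw (t :: l) = cpf t + cpw l := by
  simp [cpw]

theorem cpw_append (l l' : List Tok) : cpw (l ++ l') = cpw l + cpw l' := by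
  simp [cpw]

theorem cpw_cnt (w : List Tok) (k : ℕ) : (cntAt w k : ℤ) - cntBin w k = cpw (w.take k) := by
  classical
  induction k with
  | zero => simp [cntAt, cntBin, cpw]
  | succ k ih =>
    have hA : cntAt w (k + 1) = cntAt w k + if (w[k]? = some .eq ∨ w[k]? = some .gt) then 1 else 0 := by
      unfold cntAt
      rw [Finset.range_add_one, Finset.filter_insert]
      split_ifs with h
      · rw [Finset.card_insert_of_notMem (by simp)]
      · rfl
    have hB : cntBin w (k + 1) = cntBin w k +
        if (w[k]? = some .and ∨ w[k]? = some .or) then 1 else 0 := by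
      unfold cntBin
      rw [Finset.range_add_one, Finset.filter_insert]
      split_ifs with h
      · rw [Finset.card_insert_of_notMem (by simp)]
      · rfl
    rw [hA, hB, List.take_add_one, cpw_append, ← ih]
    rcases h : w[k]? with _ | t
    · simp [cpw]
    · cases t <;> simp [cpw, cpf] <;> ring

theorem cp_mono (p : List Mono) : ∀ t ∈ p.flatMap Mono.code, isF t = false := by
  intro t ht
  rw [List.mem_flatMap] at ht
  obtain ⟨m, -, ht⟩ := ht
  unfold Mono.code at ht
  simp only [List.mem_cons, List.mem_append, List.mem_map, List.mem_flatMap] at ht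
  rcases ht with (ht | ⟨b, -, ht⟩) | ⟨e, -, ht⟩
  · subst ht; split_ifs <;> rfl
  · subst ht; cases b <;> rfl
  · rcases ht with ht | ht
    · rw [List.eq_of_mem_replicate ht]; rfl
    · simp only [List.mem_nil_iff, or_false] at ht
      subst ht; rfl

theorem cpw_zero (l : List Tok) (h : ∀ t ∈ l, isF t = false) : cpw l = 0 := by
  induction l with
  | nil => rfl
  | cons t l ih =>
    rw [cpw_cons, ih fun s hs => h s (List.mem_cons_of_mem _ hs)]
    have := h t List.mem_cons_self
    cases t <;> simp_all [isF, cpf]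

/-- the property proved by induction -/
def CP (u : List Tok) : Prop :=
  ∃ m, 0 < m ∧ m ≤ u.length ∧ (∀ k < m, 0 < k → cpw (u.take k) ≤ 0) ∧
    (∀ k, m ≤ k → cpw (u.take k) = 1) ∧ ∀ k, m ≤ k → ∀ t, u[k]? = some t → isF t = false

theorem CP.le_one {u : List Tok} (h : CP u) (k : ℕ) : cpw (u.take k) ≤ 1 := by
  obtain ⟨m, h0, hm, h1, h2, h3⟩ := h
  rcases Nat.eq_zero_or_pos k with rfl | hk
  · simp [cpw]
  rcases lt_or_ge k m with hkm | hkm
  · exact (h1 k hkm hk).trans zero_le_one
  · exact (h2 k hkm).le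

theorem CP.full {u : List Tok} (h : CP u) : cpw u = 1 := by
  obtain ⟨m, h0, hm, h1, h2, h3⟩ := h
  have := h2 u.length hm
  rwa [List.take_length] at this

theorem cp_atom {a : Tok} (ha : cpf a = 1) (l : List Tok) (hl : ∀ t ∈ l, isF t = false) :
    CP (a :: l) := by
  refine ⟨1, one_pos, by simp, ?_, ?_, ?_⟩
  · intro k hk hk0
    omega
  · intro k hk
    obtain ⟨k', rfl⟩ : ∃ k', k = k' + 1 := ⟨k - 1, by omega⟩
    rw [List.take_succ_cons, cpw_cons, ha,
      cpw_zero _ fun t ht => hl t (List.mem_of_mem_take ht), add_zero]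
  · intro k hk t ht
    obtain ⟨k', rfl⟩ : ∃ k', k = k' + 1 := ⟨k - 1, by omega⟩
    rw [List.getElem?_cons_succ] at ht
    exact hl t (List.mem_of_getElem? ht)

theorem cp_not {u : List Tok} (h : CP u) : CP (Tok.not :: u) := by
  obtain ⟨m, h0, hm, h1, h2, h3⟩ := h
  have hf : cpf Tok.not = 0 := rfl
  refine ⟨m + 1, by omega, by simpa using hm, ?_, ?_, ?_⟩
  · intro k hk hk0
    obtain ⟨k', rfl⟩ : ∃ k', k = k' + 1 := ⟨k - 1, by omega⟩
    rw [List.take_succ_cons, cpw_cons, hf, zero_add]
    rcases Nat.eq_zero_or_pos k' with rfl | hk'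
    · simp [cpw]
    · exact h1 k' (by omega) hk'
  · intro k hk
    obtain ⟨k', rfl⟩ : ∃ k', k = k' + 1 := ⟨k - 1, by omega⟩
    rw [List.take_succ_cons, cpw_cons, hf, zero_add]
    exact h2 k' (by omega)
  · intro k hk t ht
    obtain ⟨k', rfl⟩ : ∃ k', k = k' + 1 := ⟨k - 1, by omega⟩
    rw [List.getElem?_cons_succ] at ht
    exact h3 k' (by omega) t ht

theorem cp_bin {a : Tok} (ha : cpf a = -1) {u v : List Tok} (h : CP u) (h' : CP v) :
    CP (a :: (u ++ v)) := by
  have hle := h.le_one
  have hfull := h.full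
  obtain ⟨m, h0, hm, h1, h2, h3⟩ := h'
  refine ⟨u.length + m + 1, by omega, by simp; omega, ?_, ?_, ?_⟩
  · intro k hk hk0
    obtain ⟨k', rfl⟩ : ∃ k', k = k' + 1 := ⟨k - 1, by omega⟩
    rw [List.take_succ_cons, cpw_cons, ha]
    rcases le_or_gt k' u.length with hk' | hk'
    · rw [List.take_append_of_le_length hk']
      linarith [hle k']
    · obtain ⟨k'', rfl⟩ : ∃ k'', k' = u.length + k'' := ⟨k' - u.length, by omega⟩
      rw [List.take_length_add_append, cpw_append, hfull]
      linarith [h1 k'' (by omega) (by omega)]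
  · intro k hk
    obtain ⟨k', rfl⟩ : ∃ k', k = u.length + k' + 1 := ⟨k - 1 - u.length, by omega⟩
    rw [List.take_succ_cons, cpw_cons, ha, List.take_length_add_append, cpw_append, hfull,
      h2 k' (by omega)]
    norm_num
  · intro k hk t ht
    obtain ⟨k', rfl⟩ : ∃ k', k = u.length + k' + 1 := ⟨k - 1 - u.length, by omega⟩
    rw [List.getElem?_cons_succ, List.getElem?_append_right (by omega)] at ht
    exact h3 k' (by omega) t (by simpa using ht)

theorem cp_code (φ : Fml) : CP φ.code := by
  induction φ with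
  | eq p => exact cp_atom rfl _ (cp_mono p)
  | gt p => exact cp_atom rfl _ (cp_mono p)
  | not φ ih => exact cp_not ih
  | and φ ψ ih ih' => exact cp_bin rfl ih ih'
  | or φ ψ ih ih' => exact cp_bin rfl ih ih'

/-- the prefixes of codes (for module J1b): the weight (number of atoms minus number of binary
connectives) of a prefix is at most `0` until it becomes `1`, and then only tokens of monomials
follow -/
theorem code_prefix (φ : Fml) : ∃ m, 0 < m ∧ m ≤ φ.code.length ∧
    cntAt φ.code m = cntBin φ.code m + 1 ∧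
    (∀ k < m, 0 < k → cntAt φ.code k ≤ cntBin φ.code k) ∧
    ∀ k, m ≤ k → ∀ t, φ.code[k]? = some t → isF t = false := by
  obtain ⟨m, h0, hm, h1, h2, h3⟩ := cp_code φ
  refine ⟨m, h0, hm, ?_, ?_, h3⟩
  · have h4 := h2 m le_rfl
    rw [← cpw_cnt] at h4
    omega
  · intro k hk hk0
    have h4 := h1 k hk hk0
    rw [← cpw_cnt] at h4
    omega

end Quad

end Vale.Agent.P337
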