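import Vale.Agent.P337.QuadA
import Vale.Agent.P337.QuadA2

/-!
# Solutions of the equations evaluate the formula (module J1c)
-/

namespace Vale.Agent.P337

namespace Quad

open Classical in
private theorem cntAt_succ_A3 (w : List Tok) (i : ℕ) : cntAt w (i + 1) = cntAt w i +
    if w[i]? = some .eq ∨ w[i]? = some .gt then 1 else 0 := by
  unfold cntAt
  rw [Finset.range_add_one, Finset.filter_insert]
  split_ifs with h
  · rw [Finset.card_insert_of_notMem (by simp)]
  · rfl

open Classical in
private theorem cntBin_succ_A3 (w : List Tok) (i : ℕ) : cntBin w (i + 1) = cntBin w i +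
    if w[i]? = some .and ∨ w[i]? = some .or then 1 else 0 := by
  unfold cntBin
  rw [Finset.range_add_one, Finset.filter_insert]
  split_ifs with h
  · rw [Finset.card_insert_of_notMem (by simp)]
  · rfl

private theorem cntAt_zero_A3 (w : List Tok) : cntAt w 0 = 0 := by simp [cntAt]

private theorem cntBin_zero_A3 (w : List Tok) : cntBin w 0 = 0 := by simp [cntBin]

private theorem cntAt_add_A3 (w u : List Tok) (a k : ℕ) (h : ∀ j < k, w[a + j]? = u[j]?) :
    cntAt w (a + k) = cntAt w a + cntAt u k := by
  induction k with
  | zero => simp [cntAt_zero_A3]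
  | succ k ih =>
    rw [← add_assoc, cntAt_succ_A3, ih fun j hj => h j (by omega), cntAt_succ_A3, h k (by omega),
      add_assoc]

private theorem cntBin_add_A3 (w u : List Tok) (a k : ℕ) (h : ∀ j < k, w[a + j]? = u[j]?) :
    cntBin w (a + k) = cntBin w a + cntBin u k := by
  induction k with
  | zero => simp [cntBin_zero_A3]
  | succ k ih =>
    rw [← add_assoc, cntBin_succ_A3, ih fun j hj => h j (by omega), cntBin_succ_A3, h k (by omega),
      add_assoc]

/-- the least number with the property -/
private theorem leastLt_eq_A3 {b : ℕ} {S : ℕ → Prop} {m : ℕ} (hm : m < b) (h1 : S m)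
    (h2 : ∀ j < m, ¬ S j) : leastLt b S = m := by
  classical
  unfold leastLt
  have : ((Finset.range b).filter fun y => ∀ y' < y + 1, ¬ S y') = Finset.range m := by
    ext y
    simp only [Finset.mem_filter, Finset.mem_range]
    constructor
    · rintro ⟨_, hy⟩
      by_contra hc
      exact hy m (by omega) h1
    · intro hy
      exact ⟨by omega, fun y' hy' => h2 y' (by omega)⟩
  rw [this, Finset.card_range]

/-- the first token of a code -/
private theorem code_head_A3 (φ : Fml) : ∃ t l, φ.code = t :: l ∧ isF t = true := by
  cases φ <;> exact ⟨_, _, rfl, rfl⟩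

private theorem getElem?_mid_A3 (pre l rest : List Tok) (j : ℕ) (hj : j < l.length) :
    (pre ++ (l ++ rest))[pre.length + j]? = l[j]? := by
  rw [List.getElem?_append_right (by omega), Nat.add_sub_cancel_left,
    List.getElem?_append_left hj]

/-- the equation number 3 at tokens of monomials -/
private theorem b_skip_A3 {w : List Tok} {V : Asg} {i : ℕ} {t : Tok} (h : Eqn w V i 3)
    (ht : w[i]? = some t) (hF : isF t = false) : V.b i = V.b (i + 1) := by
  have h3 : tab 3 w[i]? = tab3 w[i]? := rfl
  rw [Eqn, h3, ht] at h
  cases t <;> simp [isF] at hF <;> simpa [tab3, tval, Sym.val] using h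

/-- the second argument of a connective -/
theorem ptr_spec (w pre rest : List Tok) (t : Tok) (φ ψ : Fml) (V : Asg)
    (hV : ∀ i ≤ w.length, ∀ e, e ≠ 8 → Eqn w V i e)
    (hw : w = pre ++ (t :: (φ.code ++ ψ.code) ++ rest)) :
    V.b (ptr w pre.length) = V.b (pre ++ t :: φ.code).length := by
  obtain ⟨m, hm0, hml, hm1, hm2, hm3⟩ := code_prefix φ
  obtain ⟨t', l', hψ, -⟩ := code_head_A3 ψ
  have hlen : w.length = pre.length + (1 + (φ.code.length + ψ.code.length) + rest.length) := by
    rw [hw]; simp; omega
  have hψ0 : 0 < ψ.code.length := by rw [hψ]; simp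
  have hget : ∀ j < φ.code.length, w[pre.length + 1 + j]? = φ.code[j]? := by
    intro j hj
    have : w = (pre ++ [t]) ++ (φ.code ++ (ψ.code ++ rest)) := by rw [hw]; simp
    rw [this]
    have h := getElem?_mid_A3 (pre ++ [t]) φ.code (ψ.code ++ rest) j hj
    simpa using h
  have hA : ∀ k ≤ φ.code.length, cntAt w (pre.length + 1 + k) =
      cntAt w (pre.length + 1) + cntAt φ.code k := fun k hk =>
    cntAt_add_A3 _ _ _ _ fun j hj => hget j (by omega)
  have hB : ∀ k ≤ φ.code.length, cntBin w (pre.length + 1 + k) =
      cntBin w (pre.length + 1) + cntBin φ.code k := fun k hk =>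
    cntBin_add_A3 _ _ _ _ fun j hj => hget j (by omega)
  have hptr : ptr w pre.length = pre.length + 1 + m := by
    unfold ptr
    apply leastLt_eq_A3
    · omega
    · refine ⟨by omega, ?_⟩
      rw [hA m hml, hB m hml, hm1]
      omega
    · rintro j hj ⟨hj1, hj2⟩
      obtain ⟨k, rfl⟩ : ∃ k, j = pre.length + 1 + k := ⟨j - (pre.length + 1), by omega⟩
      have hk : k < m := by omega
      rw [hA k (by omega), hB k (by omega)] at hj2
      have := hm2 k hk (by omega)
      omega
  rw [hptr]
  have hstep : ∀ d, m + d ≤ φ.code.length →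
      V.b (pre.length + 1 + m) = V.b (pre.length + 1 + (m + d)) := by
    intro d
    induction d with
    | zero => intro _; rfl
    | succ d ih =>
      intro hd
      rw [ih (by omega)]
      have hd' : m + d < φ.code.length := by omega
      have hg := hget (m + d) hd'
      rw [List.getElem?_eq_getElem hd'] at hg
      have hF := hm3 (m + d) (by omega) _ (List.getElem?_eq_getElem hd')
      have := b_skip_A3 (hV (pre.length + 1 + (m + d)) (by omega) 3 (by decide)) hg hF
      rw [this]
      congr 1
  have := hstep (φ.code.length - m) (by omega)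
  rw [this]
  congr 1
  simp
  omega

/-- module J1c: the value of a formula -/
theorem fml_eval (w : List Tok) (V : Asg) (hV : ∀ i ≤ w.length, ∀ e, e ≠ 8 → Eqn w V i e)
    (φ : Fml) (pre rest : List Tok) (hw : w = pre ++ (φ.code ++ rest))
    (hr : ∀ t, rest.head? = some t → isF t = true) :
    (φ.holds V.x → V.b pre.length = 1) ∧ (¬ φ.holds V.x → V.b pre.length = 0) := by
  induction φ generalizing pre rest with
  | eq p =>
    have hi : pre.length ≤ w.length := by rw [hw]; simp
    have hwi : w[pre.length]? = some .eq := by rw [hw]; simp [Fml.code]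
    have hs := poly_eval w V hV (pre ++ [.eq]) rest p (by rw [hw]; simp [Fml.code]) hr
    rw [List.length_append, List.length_singleton] at hs
    have h3 := hV pre.length hi 3 (by decide)
    have h4 := hV pre.length hi 4 (by decide)
    have e3 : tab 3 w[pre.length]? = tab3 w[pre.length]? := rfl
    have e4 : tab 4 w[pre.length]? = tab4 w[pre.length]? := rfl
    rw [Eqn, e3, hwi] at h3
    rw [Eqn, e4, hwi] at h4
    simp only [tab3, tab4, tval, Sym.val, hs, mul_one, mul_zero, zero_mul, add_zero] at h3 h4
    constructor
    · intro h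
      rw [Fml.holds] at h
      rw [h, zero_mul, zero_add] at h4
      exact h4
    · intro h
      rw [Fml.holds] at h
      exact (mul_eq_zero.mp h3).resolve_left h
  | gt p =>
    have hi : pre.length ≤ w.length := by rw [hw]; simp
    have hwi : w[pre.length]? = some .gt := by rw [hw]; simp [Fml.code]
    have hs := poly_eval w V hV (pre ++ [.gt]) rest p (by rw [hw]; simp [Fml.code]) hr
    rw [List.length_append, List.length_singleton] at hs
    have h3 := hV pre.length hi 3 (by decide)
    have h4 := hV pre.length hi 4 (by decide)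
    have h6 := hV pre.length hi 6 (by decide)
    have h7 := hV pre.length hi 7 (by decide)
    have e3 : tab 3 w[pre.length]? = tab3 w[pre.length]? := rfl
    have e4 : tab 4 w[pre.length]? = tab4 w[pre.length]? := rfl
    have e6 : tab 6 w[pre.length]? = tab6 w[pre.length]? := rfl
    have e7 : tab 7 w[pre.length]? = tab7 w[pre.length]? := rfl
    rw [Eqn, e3, hwi] at h3
    rw [Eqn, e4, hwi] at h4
    rw [Eqn, e6, hwi] at h6
    rw [Eqn, e7, hwi] at h7
    simp only [tab3, tab4, tab6, tab7, tval, Sym.val, hs, mul_one, mul_zero, zero_mul,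
      add_zero] at h3 h4 h6 h7
    constructor
    · intro h
      rw [Fml.holds] at h
      have ht : V.t1 pre.length ≠ 0 := by
        intro h0
        rw [h0] at h6
        nlinarith [mul_self_nonneg (V.t2 pre.length)]
      have : V.t1 pre.length * V.b pre.length = V.t1 pre.length * 1 := by rw [h3, mul_one]
      exact mul_left_cancel₀ ht this
    · intro h
      rw [Fml.holds] at h
      rcases eq_or_ne (V.t1 pre.length) 0 with h0 | h0
      · rw [← h4, h0, zero_mul]
      · exfalso
        have h2 := (mul_eq_zero.mp h7).resolve_left h0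
        rw [h2, mul_zero, add_zero] at h6
        apply h
        rw [h6]
        exact mul_self_pos.mpr h0
  | not φ ih =>
    have hi : pre.length ≤ w.length := by rw [hw]; simp
    have hwi : w[pre.length]? = some .not := by rw [hw]; simp [Fml.code]
    have hs := ih (pre ++ [.not]) rest (by rw [hw]; simp [Fml.code]) hr
    rw [List.length_append, List.length_singleton] at hs
    have h3 := hV pre.length hi 3 (by decide)
    have e3 : tab 3 w[pre.length]? = tab3 w[pre.length]? := rfl
    rw [Eqn, e3, hwi] at h3
    simp only [tab3, tval, Sym.val, mul_one, mul_zero, zero_mul, add_zero] at h3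
    rw [Fml.holds, not_not]
    constructor
    · intro h
      have := hs.2 h
      linarith
    · intro h
      have := hs.1 h
      linarith
  | and φ ψ ih1 ih2 =>
    have hi : pre.length ≤ w.length := by rw [hw]; simp
    have hwi : w[pre.length]? = some .and := by rw [hw]; simp [Fml.code]
    have hs1 := ih1 (pre ++ [.and]) (ψ.code ++ rest) (by rw [hw]; simp [Fml.code]) (by
      obtain ⟨t', l', h', hF⟩ := code_head_A3 ψ
      intro t ht
      rw [h'] at ht
      simp only [List.cons_append, List.head?_cons, Option.some.injEq] at ht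
      rw [← ht, hF])
    rw [List.length_append, List.length_singleton] at hs1
    have hs2 := ih2 (pre ++ .and :: φ.code) rest (by rw [hw]; simp [Fml.code]) hr
    have hp := ptr_spec w pre rest .and φ ψ V hV (by rw [hw]; simp [Fml.code])
    rw [← hp] at hs2
    have h3 := hV pre.length hi 3 (by decide)
    have e3 : tab 3 w[pre.length]? = tab3 w[pre.length]? := rfl
    rw [Eqn, e3, hwi] at h3
    simp only [tab3, tval, Sym.val, mul_one, mul_zero, zero_mul, add_zero] at h3
    rw [Fml.holds]
    constructor
    · rintro ⟨ha, hb⟩
      rw [h3, hs1.1 ha, hs2.1 hb, mul_one]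
    · intro h
      by_cases ha : φ.holds V.x
      · have hb : ¬ ψ.holds V.x := fun hb => h ⟨ha, hb⟩
        rw [h3, hs2.2 hb, mul_zero]
      · rw [h3, hs1.2 ha, zero_mul]
  | or φ ψ ih1 ih2 =>
    have hi : pre.length ≤ w.length := by rw [hw]; simp
    have hwi : w[pre.length]? = some .or := by rw [hw]; simp [Fml.code]
    have hs1 := ih1 (pre ++ [.or]) (ψ.code ++ rest) (by rw [hw]; simp [Fml.code]) (by
      obtain ⟨t', l', h', hF⟩ := code_head_A3 ψ
      intro t ht
      rw [h'] at ht
      simp only [List.cons_append, List.head?_cons, Option.some.injEq] at ht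
      rw [← ht, hF])
    rw [List.length_append, List.length_singleton] at hs1
    have hs2 := ih2 (pre ++ .or :: φ.code) rest (by rw [hw]; simp [Fml.code]) hr
    have hp := ptr_spec w pre rest .or φ ψ V hV (by rw [hw]; simp [Fml.code])
    rw [← hp] at hs2
    have h3 := hV pre.length hi 3 (by decide)
    have e3 : tab 3 w[pre.length]? = tab3 w[pre.length]? := rfl
    rw [Eqn, e3, hwi] at h3
    simp only [tab3, tval, Sym.val, mul_one, mul_zero, zero_mul, add_zero] at h3
    rw [Fml.holds]
    by_cases ha : φ.holds V.x <;> by_cases hb : ψ.holds V.x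
    · rw [hs1.1 ha, hs2.1 hb] at h3
      refine ⟨fun _ => by linarith, fun h => absurd (Or.inl ha) h⟩
    · rw [hs1.1 ha, hs2.2 hb] at h3
      refine ⟨fun _ => by linarith, fun h => absurd (Or.inl ha) h⟩
    · rw [hs1.2 ha, hs2.1 hb] at h3
      refine ⟨fun _ => by linarith, fun h => absurd (Or.inr hb) h⟩
    · rw [hs1.2 ha, hs2.2 hb] at h3
      refine ⟨fun h => absurd h (not_or.mpr ⟨ha, hb⟩), fun _ => by linarith⟩

end Quad

end Vale.Agent.P337
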