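import Vale.Agent.P337.QuadDefs

/-!
# The equations can be solved from right to left (module J2)
-/

namespace Vale.Agent.P337

namespace Quad

open Classical in
theorem leastLt_le (b : ℕ) (S : ℕ → Prop) : leastLt b S ≤ b := by
  unfold leastLt
  refine (Finset.card_filter_le _ _).trans ?_
  rw [Finset.card_range]

open Classical in
theorem le_leastLt {b m : ℕ} {S : ℕ → Prop} (h : ∀ y < m, ¬ S y) : min b m ≤ leastLt b S := by
  unfold leastLt
  refine le_trans (le_of_eq (Finset.card_range (min b m)).symm) (Finset.card_le_card ?_)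
  intro y hy
  have hy' := Finset.mem_range.mp hy
  rw [Finset.mem_filter, Finset.mem_range]
  exact ⟨by omega, fun y' hy1 => h y' (by omega)⟩

theorem ptr_ge_min (w : List Tok) (i : ℕ) : min w.length (i + 2) ≤ ptr w i :=
  le_leastLt fun y hy hc => by omega

theorem ptr_gt (w : List Tok) (i : ℕ) (hi : i < w.length) : i < ptr w i := by
  have := ptr_ge_min w i
  omega

theorem ptr_le (w : List Tok) (i : ℕ) : ptr w i ≤ w.length := leastLt_le _ _

theorem vix_le (w : List Tok) (i : ℕ) : vix w i ≤ i := by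
  unfold vix
  refine (Finset.card_filter_le _ _).trans ?_
  rw [Finset.card_range]

/-- the equation number `e` for the values `f` of the symbols -/
def EqF (f : Sym → ℝ) (o : Option Tok) (e : Fin 9) : Prop :=
  f (tab e o).1.1 * f (tab e o).1.2 + f (tab e o).2.1.1 * f (tab e o).2.1.2 =
    f (tab e o).2.2.1.1 * f (tab e o).2.2.1.2 + f (tab e o).2.2.2.1 * f (tab e o).2.2.2.2

theorem eqn_iff (w : List Tok) (V : Asg) (i : ℕ) (e : Fin 9) :
    Eqn w V i e ↔ EqF (fun σ => σ.val w V i) w[i]? e := Iff.rfl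

theorem tab_ne_b0 (e : Fin 9) (he : e ≠ 8) (o : Option Tok) :
    (tab e o).1.1 ≠ .b0 ∧ (tab e o).1.2 ≠ .b0 ∧ (tab e o).2.1.1 ≠ .b0 ∧ (tab e o).2.1.2 ≠ .b0 ∧
    (tab e o).2.2.1.1 ≠ .b0 ∧ (tab e o).2.2.1.2 ≠ .b0 ∧ (tab e o).2.2.2.1 ≠ .b0 ∧
    (tab e o).2.2.2.2 ≠ .b0 := by
  fin_cases e
  all_goals first
    | exact absurd rfl he
    | (rcases o with _ | t
       · decide
       · cases t <;> decide)

theorem eqF_congr {f g : Sym → ℝ} (h : ∀ σ, σ ≠ .b0 → f σ = g σ) (o : Option Tok) (e : Fin 9)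
    (he : e ≠ 8) (hf : EqF f o e) : EqF g o e := by
  obtain ⟨h1, h2, h3, h4, h5, h6, h7, h8⟩ := tab_ne_b0 e he o
  unfold EqF at hf ⊢
  rw [← h _ h1, ← h _ h2, ← h _ h3, ← h _ h4, ← h _ h5, ← h _ h6, ← h _ h7, ← h _ h8]
  exact hf

theorem solve_none {f : Sym → ℝ} (h0 : f .no = 0) (h1 : f .one = 1) (hs : f .s = 0)
    (hy : f .y = 1) (hq : f .q = 0) (hb : f .b = 0) (e : Fin 9) (he : e ≠ 8) :
    EqF f none e := by
  fin_cases e
  · show f .s * f .one + f .no * f .no = f .no * f .no + f .no * f .no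
    rw [h0, h1, hs]; norm_num
  · show f .y * f .one + f .no * f .no = f .one * f .one + f .no * f .no
    rw [h0, h1, hy]
  · show f .q * f .one + f .no * f .no = f .no * f .no + f .no * f .no
    rw [h0, h1, hq]; norm_num
  · show f .b * f .one + f .no * f .no = f .no * f .no + f .no * f .no
    rw [h0, h1, hb]; norm_num
  · rfl
  · rfl
  · rfl
  · rfl
  · exact absurd rfl he

/-- values at one position -/
structure Loc where
  s : ℝ
  y : ℝ
  q : ℝ
  b : ℝ
  t1 : ℝ
  t2 : ℝ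
  t3 : ℝ

/-- the symbols have the given values -/
structure Fits (f : Sym → ℝ) (l : Loc) (xv s' y' q' b' bp : ℝ) : Prop where
  no : f .no = 0
  one : f .one = 1
  x : f .x = xv
  s : f .s = l.s
  s' : f .s' = s'
  y : f .y = l.y
  y' : f .y' = y'
  q : f .q = l.q
  q' : f .q' = q'
  b : f .b = l.b
  b' : f .b' = b'
  bp : f .bp = bp
  t1 : f .t1 = l.t1
  t2 : f .t2 = l.t2
  t3 : f .t3 = l.t3

theorem solve_some (t : Tok) (xv s' y' q' b' bp : ℝ) : ∃ l : Loc, ∀ f : Sym → ℝ,
    Fits f l xv s' y' q' b' bp → ∀ e : Fin 9, e ≠ 8 → EqF f (some t) e := by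
  cases t
  case eq =>
    by_cases hz : s' = 0
    · refine ⟨⟨0, 1, 0, 1, 0, 0, 0⟩, fun f hf e he => ?_⟩
      unfold EqF
      fin_cases e
      all_goals first
        | exact absurd rfl he
        | (simp [tab, tab0, tab1, tab2, tab3, tab4, tab5, tab6, tab7, hf.no, hf.one, hf.x, hf.s,
            hf.s', hf.y, hf.y', hf.q, hf.q', hf.b, hf.b', hf.bp, hf.t1, hf.t2, hf.t3, hz])
    · refine ⟨⟨0, 1, 0, 0, 0, 0, 1 / s'⟩, fun f hf e he => ?_⟩
      unfold EqF
      fin_cases e
      all_goals first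
        | exact absurd rfl he
        | (simp [tab, tab0, tab1, tab2, tab3, tab4, tab5, tab6, tab7, hf.no, hf.one, hf.x, hf.s,
            hf.s', hf.y, hf.y', hf.q, hf.q', hf.b, hf.b', hf.bp, hf.t1, hf.t2, hf.t3, hz])
  case gt =>
    by_cases hz : 0 < s'
    · have h1 : Real.sqrt s' ≠ 0 := (Real.sqrt_pos.mpr hz).ne'
      have h2 : Real.sqrt s' * Real.sqrt s' = s' := Real.mul_self_sqrt hz.le
      refine ⟨⟨0, 1, 0, 1, Real.sqrt s', 0, 1 / Real.sqrt s'⟩, fun f hf e he => ?_⟩
      unfold EqF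
      fin_cases e
      all_goals first
        | exact absurd rfl he
        | (simp [tab, tab0, tab1, tab2, tab3, tab4, tab5, tab6, tab7, hf.no, hf.one, hf.x, hf.s,
            hf.s', hf.y, hf.y', hf.q, hf.q', hf.b, hf.b', hf.bp, hf.t1, hf.t2, hf.t3, h1, h2])
    · have h2 : Real.sqrt (-s') * Real.sqrt (-s') = -s' := Real.mul_self_sqrt (by linarith)
      refine ⟨⟨0, 1, 0, 0, 0, Real.sqrt (-s'), 0⟩, fun f hf e he => ?_⟩
      unfold EqF
      fin_cases e
      all_goals first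
        | exact absurd rfl he
        | (simp [tab, tab0, tab1, tab2, tab3, tab4, tab5, tab6, tab7, hf.no, hf.one, hf.x, hf.s,
            hf.s', hf.y, hf.y', hf.q, hf.q', hf.b, hf.b', hf.bp, hf.t1, hf.t2, hf.t3, h2])
  case not =>
    refine ⟨⟨0, 1, 0, 1 - b', 0, 0, 0⟩, fun f hf e he => ?_⟩
    unfold EqF
    fin_cases e
    all_goals first
      | exact absurd rfl he
      | (simp [tab, tab0, tab1, tab2, tab3, tab4, tab5, tab6, tab7, hf.no, hf.one, hf.x, hf.s,
          hf.s', hf.y, hf.y', hf.q, hf.q', hf.b, hf.b', hf.bp, hf.t1, hf.t2, hf.t3])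
  case and =>
    refine ⟨⟨0, 1, 0, b' * bp, 0, 0, 0⟩, fun f hf e he => ?_⟩
    unfold EqF
    fin_cases e
    all_goals first
      | exact absurd rfl he
      | (simp [tab, tab0, tab1, tab2, tab3, tab4, tab5, tab6, tab7, hf.no, hf.one, hf.x, hf.s,
          hf.s', hf.y, hf.y', hf.q, hf.q', hf.b, hf.b', hf.bp, hf.t1, hf.t2, hf.t3])
  case or =>
    refine ⟨⟨0, 1, 0, b' + bp - b' * bp, 0, 0, 0⟩, fun f hf e he => ?_⟩
    unfold EqF
    fin_cases e
    all_goals first
      | exact absurd rfl he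
      | (simp [tab, tab0, tab1, tab2, tab3, tab4, tab5, tab6, tab7, hf.no, hf.one, hf.x, hf.s,
          hf.s', hf.y, hf.y', hf.q, hf.q', hf.b, hf.b', hf.bp, hf.t1, hf.t2, hf.t3])
  case plus =>
    refine ⟨⟨s' + q', 1, 0, b', 0, 0, 0⟩, fun f hf e he => ?_⟩
    unfold EqF
    fin_cases e
    all_goals first
      | exact absurd rfl he
      | (simp [tab, tab0, tab1, tab2, tab3, tab4, tab5, tab6, tab7, hf.no, hf.one, hf.x, hf.s,
          hf.s', hf.y, hf.y', hf.q, hf.q', hf.b, hf.b', hf.bp, hf.t1, hf.t2, hf.t3])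
  case minus =>
    refine ⟨⟨s' - q', 1, 0, b', 0, 0, 0⟩, fun f hf e he => ?_⟩
    unfold EqF
    fin_cases e
    all_goals first
      | exact absurd rfl he
      | (simp [tab, tab0, tab1, tab2, tab3, tab4, tab5, tab6, tab7, hf.no, hf.one, hf.x, hf.s,
          hf.s', hf.y, hf.y', hf.q, hf.q', hf.b, hf.b', hf.bp, hf.t1, hf.t2, hf.t3])
  case zero =>
    refine ⟨⟨s', y' + y', q', b', 0, 0, 0⟩, fun f hf e he => ?_⟩
    unfold EqF
    fin_cases e
    all_goals first
      | exact absurd rfl he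
      | (simp [tab, tab0, tab1, tab2, tab3, tab4, tab5, tab6, tab7, hf.no, hf.one, hf.x, hf.s,
          hf.s', hf.y, hf.y', hf.q, hf.q', hf.b, hf.b', hf.bp, hf.t1, hf.t2, hf.t3])
  case one =>
    refine ⟨⟨s', y' + y', q' + y', b', 0, 0, 0⟩, fun f hf e he => ?_⟩
    unfold EqF
    fin_cases e
    all_goals first
      | exact absurd rfl he
      | (simp [tab, tab0, tab1, tab2, tab3, tab4, tab5, tab6, tab7, hf.no, hf.one, hf.x, hf.s,
          hf.s', hf.y, hf.y', hf.q, hf.q', hf.b, hf.b', hf.bp, hf.t1, hf.t2, hf.t3])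
  case var =>
    refine ⟨⟨s', y' * xv, 0, b', 0, 0, 0⟩, fun f hf e he => ?_⟩
    unfold EqF
    fin_cases e
    all_goals first
      | exact absurd rfl he
      | (simp [tab, tab0, tab1, tab2, tab3, tab4, tab5, tab6, tab7, hf.no, hf.one, hf.x, hf.s,
          hf.s', hf.y, hf.y', hf.q, hf.q', hf.b, hf.b', hf.bp, hf.t1, hf.t2, hf.t3])
  case next =>
    refine ⟨⟨s', y', 0, b', 0, 0, 0⟩, fun f hf e he => ?_⟩
    unfold EqF
    fin_cases e
    all_goals first
      | exact absurd rfl he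
      | (simp [tab, tab0, tab1, tab2, tab3, tab4, tab5, tab6, tab7, hf.no, hf.one, hf.x, hf.s,
          hf.s', hf.y, hf.y', hf.q, hf.q', hf.b, hf.b', hf.bp, hf.t1, hf.t2, hf.t3])

/-- change the values at one position -/
noncomputable def upd (V : Asg) (i : ℕ) (l : Loc) : Asg where
  x := V.x
  s := Function.update V.s i l.s
  y := Function.update V.y i l.y
  q := Function.update V.q i l.q
  b := Function.update V.b i l.b
  t1 := Function.update V.t1 i l.t1
  t2 := Function.update V.t2 i l.t2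
  t3 := Function.update V.t3 i l.t3

theorem upd_val (w : List Tok) (V : Asg) (i : ℕ) (l : Loc) (j : ℕ) (hij : i < j)
    (hj : j ≤ w.length) (σ : Sym) (hσ : σ ≠ .b0) : σ.val w V j = σ.val w (upd V i l) j := by
  have hp : ptr w j ≠ i := by
    have := ptr_ge_min w j
    omega
  have h1 : j ≠ i := by omega
  have h2 : j + 1 ≠ i := by omega
  cases σ
  case b0 => exact absurd rfl hσ
  all_goals simp [Sym.val, upd, Function.update_of_ne, hp, h1, h2]

theorem upd_fits (w : List Tok) (V : Asg) (i : ℕ) (hi : i < w.length) (l : Loc) :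
    Fits (fun σ => σ.val w (upd V i l) i) l (V.x (vix w i)) (V.s (i + 1)) (V.y (i + 1))
      (V.q (i + 1)) (V.b (i + 1)) (V.b (ptr w i)) := by
  have hp : ptr w i ≠ i := (ptr_gt w i hi).ne'
  have h2 : i + 1 ≠ i := by omega
  constructor <;> simp [Sym.val, upd, Function.update_of_ne, hp, h2]

theorem exists_asg_aux (w : List Tok) (x : ℕ → ℝ) (k : ℕ) :
    ∃ V : Asg, V.x = x ∧ ∀ i ≤ w.length, w.length ≤ i + k → ∀ e, e ≠ 8 → Eqn w V i e := by
  induction k with
  | zero =>
    refine ⟨⟨x, fun _ => 0, fun _ => 1, fun _ => 0, fun _ => 0, fun _ => 0, fun _ => 0,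
      fun _ => 0⟩, rfl, fun i hi hk e he => ?_⟩
    have hiN : i = w.length := by omega
    rw [eqn_iff, hiN, List.getElem?_eq_none (le_refl _)]
    exact solve_none rfl rfl rfl rfl rfl rfl e he
  | succ k ih =>
    obtain ⟨V, hVx, hV⟩ := ih
    rcases Nat.lt_or_ge k w.length with hk | hk
    · obtain ⟨i, hi⟩ : ∃ i, i + (k + 1) = w.length := ⟨w.length - (k + 1), by omega⟩
      have hiN : i < w.length := by omega
      have hget : w[i]? = some w[i] := List.getElem?_eq_getElem hiN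
      obtain ⟨l, hl⟩ := solve_some w[i] (V.x (vix w i)) (V.s (i + 1)) (V.y (i + 1))
        (V.q (i + 1)) (V.b (i + 1)) (V.b (ptr w i))
      refine ⟨upd V i l, hVx, fun j hj hjk e he => ?_⟩
      rcases Nat.eq_or_lt_of_le (show i ≤ j by omega) with hij | hij
      · rw [← hij, eqn_iff, hget]
        exact hl _ (upd_fits w V i hiN l) e he
      · have h1 := hV j hj (by omega) e he
        rw [eqn_iff] at h1 ⊢
        exact eqF_congr (fun σ hσ => upd_val w V i l j hij hj σ hσ) _ e he h1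
    · exact ⟨V, hVx, fun i hi _ e he => hV i hi (by omega) e he⟩

/-- module J2 -/
theorem exists_asg (w : List Tok) (x : ℕ → ℝ) :
    ∃ V : Asg, V.x = x ∧ ∀ i ≤ w.length, ∀ e, e ≠ 8 → Eqn w V i e := by
  obtain ⟨V, hVx, hV⟩ := exists_asg_aux w x w.length
  exact ⟨V, hVx, fun i hi e he => hV i hi (by omega) e he⟩

end Quad

end Vale.Agent.P337
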