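import Vale.Agent.P337.QuadDefs
import Vale.Agent.P337.PipeFA

/-!
# The coefficients are computable in the counting hierarchy (module J4a)
-/

namespace Vale.Agent.P337

variable {α : Type} {k : ℕ}

open Classical in
theorem j4a_cases_aux {T : Type} {τ : List α → (Fin k → ℕ) → T}
    (hτ : ∀ t, InCH fun w a => τ w a = t) {F : T → List α → (Fin k → ℕ) → ℕ}
    (hF : ∀ t, FCH (F t)) (s : Finset T) :
    FCH fun w a => if τ w a ∈ s then F (τ w a) w a else 0 := by
  induction s using Finset.induction_on with
  | empty => exact (FCH.const 0).congr fun w a => by simp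
  | insert t s _ ih =>
    refine (FCH.ite (hτ t) (hF t) ih).congr fun w a => ?_
    by_cases h : τ w a = t
    · simp [h]
    · by_cases h2 : τ w a ∈ s <;> simp [h, h2]

open Classical in
/-- definition by cases (induction on the finite set of values that are different from a fixed
value) -/
theorem FCH.cases {T : Type} [Fintype T] {τ : List α → (Fin k → ℕ) → T}
    (hτ : ∀ t, InCH fun w a => τ w a = t) {F : T → List α → (Fin k → ℕ) → ℕ}
    (hF : ∀ t, FCH (F t)) : FCH fun w a => F (τ w a) w a :=
  (j4a_cases_aux hτ hF Finset.univ).congr fun w a => by simp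

open Classical in
theorem j4a_cases_aux' {T : Type} {τ : List α → (Fin k → ℕ) → T}
    (hτ : ∀ t, InCH fun w a => τ w a = t) {F : T → List α → (Fin k → ℕ) → Prop}
    (hF : ∀ t, InCH (F t)) (s : Finset T) :
    InCH fun w a => τ w a ∈ s ∧ F (τ w a) w a := by
  induction s using Finset.induction_on with
  | empty => exact (InCH.const False).congr fun w a => by simp
  | insert t s _ ih =>
    refine (InCH.or (InCH.and (hτ t) (hF t)) ih).congr fun w a => ?_
    by_cases h : τ w a = t
    · simp only [h, true_and, Finset.mem_insert, true_or]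
      tauto
    · by_cases h2 : τ w a ∈ s <;> simp [h, h2]

theorem InCH.cases {T : Type} [Fintype T] {τ : List α → (Fin k → ℕ) → T}
    (hτ : ∀ t, InCH fun w a => τ w a = t) {F : T → List α → (Fin k → ℕ) → Prop}
    (hF : ∀ t, InCH (F t)) : InCH fun w a => F (τ w a) w a :=
  (j4a_cases_aux' hτ hF Finset.univ).congr fun w a => by simp

namespace Quad

theorem fch_cntAt {f : List Tok → (Fin k → ℕ) → ℕ} (hf : FCH f) :
    FCH fun w a => cntAt w (f w a) :=
  (FCH.card (S := fun (w : List Tok) _ j => w[j]? = some .eq ∨ w[j]? = some .gt) hf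
    (InCH.or (InCH.letter Tok.eq (FCH.proj 0)) (InCH.letter Tok.gt (FCH.proj 0)))).congr fun w a => by
      unfold cntAt
      congr

theorem fch_cntBin {f : List Tok → (Fin k → ℕ) → ℕ} (hf : FCH f) :
    FCH fun w a => cntBin w (f w a) :=
  (FCH.card (S := fun (w : List Tok) _ j => w[j]? = some .and ∨ w[j]? = some .or) hf
    (InCH.or (InCH.letter Tok.and (FCH.proj 0)) (InCH.letter Tok.or (FCH.proj 0)))).congr fun w a => by
      unfold cntBin
      congr

theorem j4a_leastLt {α : Type} {b : List α → (Fin k → ℕ) → ℕ} (hb : FCH b)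
    {S : List α → (Fin k → ℕ) → ℕ → Prop}
    (hS : InCH (k := k + 1) fun w c => S w (Fin.tail c) (c 0)) :
    FCH fun w a => leastLt (b w a) (S w a) := by
  refine (FCH.card (S := fun w a y => ∀ y' < y + 1, ¬ S w a y') hb ?_).congr fun w a => by
    unfold leastLt
    congr
  exact InCH.forall_lt (S := fun w c y' => ¬ S w (Fin.tail c) y')
    (b := fun _ c => c 0 + 1) (FCH.add (FCH.proj 0) (FCH.const 1)) (InCH.not hS.arBskip)

theorem fch_ptr {f : List Tok → (Fin k → ℕ) → ℕ} (hf : FCH f) :
    FCH fun w a => ptr w (f w a) :=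
  j4a_leastLt (S := fun w a j => f w a + 1 < j ∧
      cntAt w j + cntBin w (f w a + 1) = cntBin w j + cntAt w (f w a + 1) + 1) FCH.length
    (InCH.and (InCH.lt (FCH.add hf.weaken (FCH.const 1)) (FCH.proj 0))
      (InCH.eq
        (FCH.add (fch_cntAt (FCH.proj 0)) (fch_cntBin (FCH.add hf.weaken (FCH.const 1))))
        (FCH.add (FCH.add (fch_cntBin (FCH.proj 0))
          (fch_cntAt (FCH.add hf.weaken (FCH.const 1)))) (FCH.const 1))))

theorem fch_vix {f : List Tok → (Fin k → ℕ) → ℕ} (hf : FCH f) :
    FCH fun w a => vix w (f w a) := by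
  refine (FCH.card (S := fun (w : List Tok) a j => w[j]? = some .next ∧
    ∀ l < f w a, j < l → w[l]? ≠ some .plus ∧ w[l]? ≠ some .minus) hf ?_).congr fun w a => by
      unfold vix
      congr
  refine InCH.and (InCH.letter Tok.next (FCH.proj 0)) ?_
  exact InCH.forall_lt (S := fun (w : List Tok) (c : Fin (k + 1) → ℕ) l => c 0 < l →
    w[l]? ≠ some .plus ∧ w[l]? ≠ some .minus) hf.weaken
    (InCH.imp (InCH.lt (FCH.proj 1) (FCH.proj 0))
      (InCH.and (InCH.not (InCH.letter Tok.plus (FCH.proj 0)))
        (InCH.not (InCH.letter Tok.minus (FCH.proj 0)))))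

theorem inCH_tok {f : List Tok → (Fin k → ℕ) → ℕ} (hf : FCH f) (t : Option Tok) :
    InCH fun w a => w[f w a]? = t := by
  cases t with
  | none => exact (InCH.le FCH.length hf).congr fun w a => by simp
  | some c => exact InCH.letter c hf

end Quad

end Vale.Agent.P337
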