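import Vale.Agent.P337.Defs
import Vale.Agent.P337.Inst

/-!
# The quadratic system of a word (definitions)

The word is evaluated from right to left. For every position `i` (and the end of the word) there
are the unknowns `s i` (the sum of the monomials to the right of `i` in the current polynomial),
`y i` (the product of the powers in the current monomial times a power of two), `q i` (the value of
the current monomial without sign), `b i` (the truth value of the first complete formula to the
right of `i`), and `t1 i`, `t2 i`, `t3 i` (auxiliary unknowns at the atoms); `x v` are the variables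
of the formula.
-/

namespace Vale.Agent.P337

namespace Quad

/-- the symbols of the equations at the position `i`: `0`, `1`, `x v(i)`, `s i`, `s (i+1)`, `y i`,
`y (i+1)`, `q i`, `q (i+1)`, `b i`, `b (i+1)`, `b (ptr i)`, `b 0`, `t1 i`, `t2 i`, `t3 i` -/
inductive Sym : Type
  | no | one | x | s | s' | y | y' | q | q' | b | b' | bp | b0 | t1 | t2 | t3
  deriving DecidableEq

open Classical in
/-- a number `< b` with the property `S` that is as small as possible, or `b` -/
noncomputable def leastLt (b : ℕ) (S : ℕ → Prop) : ℕ :=
  ((Finset.range b).filter fun y => ∀ y' < y + 1, ¬ S y').card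

open Classical in
/-- the number of tokens `eq`, `gt` before the position `i` -/
noncomputable def cntAt (w : List Tok) (i : ℕ) : ℕ :=
  ((Finset.range i).filter fun j => w[j]? = some .eq ∨ w[j]? = some .gt).card

open Classical in
/-- the number of tokens `and`, `or` before the position `i` -/
noncomputable def cntBin (w : List Tok) (i : ℕ) : ℕ :=
  ((Finset.range i).filter fun j => w[j]? = some .and ∨ w[j]? = some .or).card

/-- the beginning of the second argument of the connective at the position `i` (or of the tokens of
monomials before it) -/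
noncomputable def ptr (w : List Tok) (i : ℕ) : ℕ :=
  leastLt w.length fun j => i + 1 < j ∧
    cntAt w j + cntBin w (i + 1) = cntBin w j + cntAt w (i + 1) + 1

open Classical in
/-- the index of the variable of the token `var` at the position `i`: the number of tokens `next`
since the last sign -/
noncomputable def vix (w : List Tok) (i : ℕ) : ℕ :=
  ((Finset.range i).filter fun j => w[j]? = some .next ∧
    ∀ l < i, j < l → w[l]? ≠ some .plus ∧ w[l]? ≠ some .minus).card

/-- a product -/
abbrev Term := Sym × Sym

/-- a linear term -/
abbrev L (a : Sym) : Term := (a, Sym.one)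

/-- the zero term -/
abbrev Z : Term := (Sym.no, Sym.no)

/-- the sum of the first two terms is the sum of the last two terms; equation for `s` -/
def tab0 : Option Tok → Term × Term × Term × Term
  | some .plus => (L .s, Z, L .s', L .q')
  | some .minus => (L .s, L .q', L .s', Z)
  | some .zero => (L .s, Z, L .s', Z)
  | some .one => (L .s, Z, L .s', Z)
  | some .var => (L .s, Z, L .s', Z)
  | some .next => (L .s, Z, L .s', Z)
  | _ => (L .s, Z, Z, Z)

/-- equation for `y` -/
def tab1 : Option Tok → Term × Term × Term × Term
  | some .zero => (L .y, Z, L .y', L .y')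
  | some .one => (L .y, Z, L .y', L .y')
  | some .var => (L .y, Z, (.y', .x), Z)
  | some .next => (L .y, Z, L .y', Z)
  | _ => (L .y, Z, L .one, Z)

/-- equation for `q` -/
def tab2 : Option Tok → Term × Term × Term × Term
  | some .zero => (L .q, Z, L .q', Z)
  | some .one => (L .q, Z, L .q', L .y')
  | _ => (L .q, Z, Z, Z)

/-- first equation for `b` -/
def tab3 : Option Tok → Term × Term × Term × Term
  | none => (L .b, Z, Z, Z)
  | some .not => (L .b, L .b', L .one, Z)
  | some .and => (L .b, Z, (.b', .bp), Z)
  | some .or => (L .b, (.b', .bp), L .b', L .bp)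
  | some .eq => ((.s', .b), Z, Z, Z)
  | some .gt => ((.t1, .b), Z, L .t1, Z)
  | _ => (L .b, Z, L .b', Z)

/-- second equation for `b` at the atoms -/
def tab4 : Option Tok → Term × Term × Term × Term
  | some .eq => ((.s', .t3), L .b, L .one, Z)
  | some .gt => ((.t1, .t3), Z, L .b, Z)
  | _ => (Z, Z, Z, Z)

/-- `b ^ 2 = b` at the atoms -/
def tab5 : Option Tok → Term × Term × Term × Term
  | some .eq => ((.b, .b), Z, L .b, Z)
  | some .gt => ((.b, .b), Z, L .b, Z)
  | _ => (Z, Z, Z, Z)

/-- the value of the polynomial is `t1 ^ 2 - t2 ^ 2` -/
def tab6 : Option Tok → Term × Term × Term × Term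
  | some .gt => (L .s', (.t2, .t2), (.t1, .t1), Z)
  | _ => (Z, Z, Z, Z)

/-- `t1 * t2 = 0` -/
def tab7 : Option Tok → Term × Term × Term × Term
  | some .gt => ((.t1, .t2), Z, Z, Z)
  | _ => (Z, Z, Z, Z)

/-- the equation number `e` at a position with the token `t`: the sum of the first two terms is the
sum of the last two -/
def tab (e : Fin 9) (t : Option Tok) : Term × Term × Term × Term :=
  ![tab0 t, tab1 t, tab2 t, tab3 t, tab4 t, tab5 t, tab6 t, tab7 t, (L .b0, Z, L .one, Z)] e

/-- values of the unknowns -/
structure Asg where
  x : ℕ → ℝ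
  s : ℕ → ℝ
  y : ℕ → ℝ
  q : ℕ → ℝ
  b : ℕ → ℝ
  t1 : ℕ → ℝ
  t2 : ℕ → ℝ
  t3 : ℕ → ℝ

/-- the value of a symbol -/
noncomputable def Sym.val (w : List Tok) (V : Asg) (i : ℕ) : Sym → ℝ
  | .no => 0
  | .one => 1
  | .x => V.x (vix w i)
  | .s => V.s i
  | .s' => V.s (i + 1)
  | .y => V.y i
  | .y' => V.y (i + 1)
  | .q => V.q i
  | .q' => V.q (i + 1)
  | .b => V.b i
  | .b' => V.b (i + 1)
  | .bp => V.b (ptr w i)
  | .b0 => V.b 0
  | .t1 => V.t1 i
  | .t2 => V.t2 i
  | .t3 => V.t3 i

/-- the value of a product -/
noncomputable def tval (w : List Tok) (V : Asg) (i : ℕ) (t : Term) : ℝ :=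
  t.1.val w V i * t.2.val w V i

/-- the equation number `e` at the position `i` holds -/
def Eqn (w : List Tok) (V : Asg) (i : ℕ) (e : Fin 9) : Prop :=
  tval w V i (tab e w[i]?).1 + tval w V i (tab e w[i]?).2.1 =
    tval w V i (tab e w[i]?).2.2.1 + tval w V i (tab e w[i]?).2.2.2

/-- the indices of the symbols in the system of quadratic equations: `N = w.length` -/
noncomputable def ix (w : List Tok) (i : ℕ) : Sym → ℕ
  | .no => 8 * (w.length + 1) + 1
  | .one => 0
  | .x => 1 + vix w i
  | .s => 1 + (w.length + 1) + i
  | .s' => 1 + (w.length + 1) + (i + 1)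
  | .y => 1 + 2 * (w.length + 1) + i
  | .y' => 1 + 2 * (w.length + 1) + (i + 1)
  | .q => 1 + 3 * (w.length + 1) + i
  | .q' => 1 + 3 * (w.length + 1) + (i + 1)
  | .b => 1 + 4 * (w.length + 1) + i
  | .b' => 1 + 4 * (w.length + 1) + (i + 1)
  | .bp => 1 + 4 * (w.length + 1) + ptr w i
  | .b0 => 1 + 4 * (w.length + 1)
  | .t1 => 1 + 5 * (w.length + 1) + i
  | .t2 => 1 + 6 * (w.length + 1) + i
  | .t3 => 1 + 7 * (w.length + 1) + i

/-- `1` if the product is `z_u * z_v`, otherwise `0` -/
noncomputable def ind (w : List Tok) (i u v : ℕ) (t : Term) : ℕ :=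
  if u = ix w i t.1 ∧ v = ix w i t.2 then 1 else 0

/-- the position of the equation number `a` -/
def pos (w : List Tok) (a : ℕ) : ℕ := a % (w.length + 1)

/-- the number of the equation number `a` at its position -/
def num (w : List Tok) (a : ℕ) : Fin 9 := Fin.ofNat 9 (a / (w.length + 1))

/-- the products of the equation number `a` -/
def trm (w : List Tok) (a : ℕ) : Term × Term × Term × Term := tab (num w a) w[pos w a]?

/-- the system of quadratic equations -/
noncomputable def inst (w : List Tok) : Inst where
  n := 8 * (w.length + 1)
  A := 9 * (w.length + 1)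
  c a u v := ((ind w (pos w a) u v (trm w a).1 + ind w (pos w a) u v (trm w a).2.1 : ℕ) : ℤ) -
    (ind w (pos w a) u v (trm w a).2.2.1 + ind w (pos w a) u v (trm w a).2.2.2 : ℕ)
  hc a u v := by
    have h : ∀ t, ind w (pos w a) u v t ≤ 1 := fun t => by unfold ind; split_ifs <;> omega
    have h1 := h (trm w a).1
    have h2 := h (trm w a).2.1
    have h3 := h (trm w a).2.2.1
    have h4 := h (trm w a).2.2.2
    rw [abs_le]
    constructor <;> omega
  hA := by
    have h : w.length + 1 ≤ 2 ^ (w.length + 1) := Nat.lt_two_pow_self.le
    calc 9 * (w.length + 1) ≤ 2 ^ (4 * (w.length + 1)) * 2 ^ (w.length + 1) :=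
          Nat.mul_le_mul ((by norm_num : 9 ≤ 2 ^ 4).trans
            (Nat.pow_le_pow_right (by norm_num) (by omega))) h
      _ = 2 ^ (5 * (w.length + 1)) := by rw [← pow_add]; congr 1; ring
      _ ≤ 2 ^ (8 * (w.length + 1)) := Nat.pow_le_pow_right (by norm_num) (by omega)
  hn := by omega

/-! ### Words that are codes of formulas -/

/-- the token `u` may follow the token `t` (`none`: the beginning or the end of the word) -/
def adj (t u : Option Tok) : Bool :=
  match t with
  | none | some .not | some .and | some .or =>
    match u with
    | some .eq | some .gt | some .not | some .and | some .or => true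
    | _ => false
  | some .eq | some .gt =>
    match u with
    | some .zero | some .one | some .var | some .next => false
    | _ => true
  | some .plus | some .minus | some .zero | some .one => true
  | some .var =>
    match u with
    | some .var | some .next => true
    | _ => false
  | some .next =>
    match u with
    | some .zero | some .one => false
    | _ => true

/-- tokens of the formula structure -/
def isF : Tok → Bool
  | .eq | .gt | .not | .and | .or => true
  | _ => false

/-- the rest `l` of the word can follow the token `t` and consists of the rest of a polynomial and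
`c` formulas -/
def Ok : Option Tok → ℕ → List Tok → Prop
  | t, c, [] => adj t none = true ∧ c = 0
  | t, c, u :: l => adj t (some u) = true ∧ (isF u = true → 1 ≤ c) ∧
      Ok (some u) (if u = .eq ∨ u = .gt then c - 1 else if u = .and ∨ u = .or then c + 1 else c) l

/-- the word is the code of a formula, described by local conditions -/
def WF (w : List Tok) : Prop :=
  (∀ i < w.length + 1, adj (if i = 0 then none else w[i - 1]?) w[i]? = true ∧
    ((∃ t, w[i]? = some t ∧ isF t = true) → cntAt w i ≤ cntBin w i)) ∧
  cntAt w w.length = cntBin w w.length + 1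

end Quad

end Vale.Agent.P337
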