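import Vale.Agent.P337.ExactB
import Vale.Agent.P337.Points
import Vale.Agent.P337.Cluster

/-!
# The exact integers as products over the complex points (module S1)
-/

namespace Vale.Agent.P337

open MvPolynomial

namespace Inst

variable (I : Inst) (pts : Fin (5 ^ I.n) → Fin I.n → ℂ)

private theorem Apoly_pts (hp : ∀ H, nm (I.h (I.lam ℂ)) H = ∏ j, eval (pts j) H) (s k : ℕ)
    (c : Fin I.n) (z : ℂ) :
    (I.Apoly s k c).eval₂ (Int.castRingHom ℂ) z = ptA pts I.q s k c z := by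
  rw [I.Apoly_eval, hp]
  unfold ptA
  refine Finset.prod_congr rfl fun j _ => ?_
  rw [map_facA, map_sub, eval_X, eval_C]

private theorem A1poly_pts (hp : ∀ H, nm (I.h (I.lam ℂ)) H = ∏ j, eval (pts j) H) (s k : ℕ)
    (c : Fin I.n) (z : ℂ) :
    (I.A1poly s k c).eval₂ (Int.castRingHom ℂ) z = ptA1 pts I.q s k c z := by
  rw [I.A1poly_eval, hp]
  unfold ptA1
  refine Finset.prod_congr rfl fun j _ => ?_
  rw [map_facA1, map_sub, eval_X, eval_C]

private theorem Upoly_pts (hp : ∀ H, nm (I.h (I.lam ℂ)) H = ∏ j, eval (pts j) H) (s t : ℕ)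
    (x : Fin I.n → ℂ) :
    eval x (map (Int.castRingHom ℂ) (I.Upoly s t)) = ptU pts I.q s t x := by
  rw [I.Upoly_eval]
  unfold ptU
  refine Finset.prod_congr rfl fun c _ => Finset.prod_congr rfl fun k _ => ?_
  rw [Apoly_pts I pts hp]
  rfl

private theorem Vpoly_pts (hp : ∀ H, nm (I.h (I.lam ℂ)) H = ∏ j, eval (pts j) H) (s t : ℕ)
    (x : Fin I.n → ℂ) :
    eval x (map (Int.castRingHom ℂ) (I.Vpoly s t)) = ptV pts I.q s t x := by
  rw [I.Vpoly_eval]
  unfold ptV
  refine Finset.prod_congr rfl fun c _ => Finset.prod_congr rfl fun k _ => ?_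
  rw [Apoly_pts I pts hp, A1poly_pts I pts hp]
  rfl

/-- module S1 -/
theorem X2Z_eq (hp : ∀ H, nm (I.h (I.lam ℂ)) H = ∏ j, eval (pts j) H) (s t : ℕ) :
    (I.X2Z s t : ℂ) = ptX2 pts (fun i => eval (pts i) (I.G (I.lam ℂ))) I.q s t := by
  unfold X2Z ptX2
  rw [I.cast_nm, hp]
  refine Finset.prod_congr rfl fun j _ => ?_
  rw [map_mul, map_mul, Vpoly_pts I pts hp, map_add, map_mul, I.map_G_lam]
  simp only [map_add, map_mul, map_one, map_ofNat]

theorem X1Z_eq (hp : ∀ H, nm (I.h (I.lam ℂ)) H = ∏ j, eval (pts j) H) (s t : ℕ) :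
    (I.X1Z s t : ℂ) =
      ptX1 pts (fun i => eval (pts i) (I.G (I.lam ℂ))) (2 ^ I.thE) I.q s t := by
  unfold X1Z ptX1
  rw [I.cast_nm, hp]
  refine Finset.prod_congr rfl fun j _ => ?_
  rw [map_add, map_add, map_mul, map_mul, Vpoly_pts I pts hp, map_mul, map_mul,
    Upoly_pts I pts hp, map_add, map_mul, I.map_G_lam]
  simp only [map_add, map_mul, map_one, map_ofNat, map_pow, Nat.cast_pow, Nat.cast_ofNat]

end Inst

end Vale.Agent.P337
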