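import Vale.Agent.P337.Exact

/-!
# The algorithm modulo `p`: elementary functions (module S2a)
-/

namespace Vale.Agent.P337

open MvPolynomial

namespace Inst

noncomputable section

variable (I : Inst) {p : ℕ} [Fact p.Prime]

/-- the point coded by `X` -/
def pt (p X : ℕ) (i : Fin I.n) : ZMod p := (dg I.bb X i : ZMod p)

/-- the relations modulo `p` -/
abbrev hp (p : ℕ) (i : Fin I.n) : MvPolynomial (Fin I.n) (ZMod p) := I.h (I.lam (ZMod p)) i

section derivatives

variable {R : Type*} [CommRing R]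

theorem pderiv_z {n : ℕ} (i : Fin n) (u : ℕ) :
    pderiv i (z (fun i => (MvPolynomial.X i : MvPolynomial (Fin n) R)) u) =
      if u = i + 1 then 1 else 0 := by
  unfold z
  by_cases h0 : u = 0
  · rw [if_pos h0, if_neg (by omega), ← C_1, pderiv_C]
  · rw [if_neg h0]
    by_cases h1 : u - 1 < n
    · rw [dif_pos h1, pderiv_X]
      by_cases h2 : u = i + 1
      · rw [if_pos h2]
        have h3 : (⟨u - 1, h1⟩ : Fin n) = i := by
          apply Fin.ext
          simp only
          omega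
        rw [h3, Pi.single_eq_same]
      · rw [if_neg h2, Pi.single_eq_of_ne]
        intro h3
        have h4 := congrArg Fin.val h3
        simp only at h4
        omega
    · rw [dif_neg h1, map_zero, if_neg]
      have := i.2
      omega

/-- the derivative of an equation -/
def dpP (R : Type*) [CommRing R] (a : ℕ) (i : Fin I.n) : MvPolynomial (Fin I.n) R :=
  ∑ v ∈ Finset.range (I.n + 1), (((I.c a (i + 1) v : MvPolynomial (Fin I.n) R) +
    (I.c a v (i + 1) : MvPolynomial (Fin I.n) R)) * z (fun i => MvPolynomial.X i) v)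

theorem pderiv_intCast' {n : ℕ} (i : Fin n) (m : ℤ) :
    pderiv i (m : MvPolynomial (Fin n) R) = 0 := by
  rw [← map_intCast (C : R →+* MvPolynomial (Fin n) R), pderiv_C]

theorem pderiv_pv (a : ℕ) (i : Fin I.n) :
    pderiv i (I.pv (fun i => (MvPolynomial.X i : MvPolynomial (Fin I.n) R)) a) = I.dpP R a i := by
  unfold pv
  have h1 : ∀ u v : ℕ, pderiv i ((I.c a u v : MvPolynomial (Fin I.n) R) *
      z (fun i => MvPolynomial.X i) u * z (fun i => MvPolynomial.X i) v) =
      (if u = i + 1 then (I.c a (i + 1) v : MvPolynomial (Fin I.n) R) *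
        z (fun i => MvPolynomial.X i) v else 0) +
      (if v = i + 1 then (I.c a u (i + 1) : MvPolynomial (Fin I.n) R) *
        z (fun i => MvPolynomial.X i) u else 0) := by
    intro u v
    rw [pderiv_mul, pderiv_mul, pderiv_intCast', pderiv_z, pderiv_z]
    split_ifs with h2 h3 h3
    · rw [h2, h3]
      ring
    · rw [h2]
      ring
    · rw [h3]
      ring
    · ring
  rw [map_sum]
  simp only [map_sum, h1, Finset.sum_add_distrib]
  have h2 : (i : ℕ) + 1 ∈ Finset.range (I.n + 1) := by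
    have := i.2
    rw [Finset.mem_range]
    omega
  rw [Finset.sum_comm]
  simp only [Finset.sum_ite_eq', h2, if_true]
  rw [← Finset.sum_add_distrib]
  unfold dpP
  refine Finset.sum_congr rfl fun v _ => ?_
  ring

theorem pderiv_dpP (a : ℕ) (i j : Fin I.n) :
    pderiv j (I.dpP R a i) = (I.c a (i + 1) (j + 1) : MvPolynomial (Fin I.n) R) +
      (I.c a (j + 1) (i + 1) : MvPolynomial (Fin I.n) R) := by
  unfold dpP
  rw [map_sum]
  have h1 : ∀ v : ℕ, pderiv j (((I.c a (i + 1) v : MvPolynomial (Fin I.n) R) +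
      (I.c a v (i + 1) : MvPolynomial (Fin I.n) R)) * z (fun i => MvPolynomial.X i) v) =
      if v = j + 1 then ((I.c a (i + 1) (j + 1) : MvPolynomial (Fin I.n) R) +
        (I.c a (j + 1) (i + 1) : MvPolynomial (Fin I.n) R)) else 0 := by
    intro v
    rw [pderiv_mul, map_add, pderiv_intCast', pderiv_intCast', pderiv_z]
    split_ifs with h
    · rw [h]
      ring
    · ring
  simp only [h1]
  have h2 : (j : ℕ) + 1 ∈ Finset.range (I.n + 1) := by
    have := j.2
    rw [Finset.mem_range]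
    omega
  rw [Finset.sum_ite_eq' , if_pos h2]

theorem pderiv_F (i : Fin I.n) :
    pderiv i (I.F R) = 2 * ∑ a ∈ Finset.range I.A,
      I.pv (fun i => (MvPolynomial.X i : MvPolynomial (Fin I.n) R)) a * I.dpP R a i := by
  unfold F
  rw [map_sum, Finset.mul_sum]
  refine Finset.sum_congr rfl fun a _ => ?_
  rw [pow_two, pderiv_mul, pderiv_pv]
  ring

theorem pderiv_pderiv_F (i j : Fin I.n) :
    pderiv j (pderiv i (I.F R)) = 2 * ∑ a ∈ Finset.range I.A,
      (I.dpP R a i * I.dpP R a j +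
        I.pv (fun i => (MvPolynomial.X i : MvPolynomial (Fin I.n) R)) a *
        ((I.c a (i + 1) (j + 1) : MvPolynomial (Fin I.n) R) +
          (I.c a (j + 1) (i + 1) : MvPolynomial (Fin I.n) R))) := by
  rw [pderiv_F, pderiv_mul]
  have h0 : pderiv j (2 : MvPolynomial (Fin I.n) R) = 0 := by
    have := pderiv_intCast' (R := R) j 2
    simpa using this
  rw [h0, zero_mul, zero_add, map_sum]
  congr 1
  refine Finset.sum_congr rfl fun a _ => ?_
  rw [pderiv_mul, pderiv_pv, pderiv_dpP]
  ring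

theorem eval_z {n : ℕ} (x : Fin n → R) (u : ℕ) :
    eval x (z (fun i => (MvPolynomial.X i : MvPolynomial (Fin n) R)) u) = z x u := by
  unfold z
  split_ifs
  · exact map_one _
  · exact eval_X _
  · exact map_zero _

theorem eval_pv (x : Fin I.n → R) (a : ℕ) :
    eval x (I.pv (fun i => (MvPolynomial.X i : MvPolynomial (Fin I.n) R)) a) = I.pv x a := by
  unfold pv
  simp only [map_sum, map_mul, eval_z, map_intCast]

end derivatives

theorem cast_sub_two (h2 : 2 < p) : ((p - 2 : ℕ) : ZMod p) = -2 := by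
  rw [Nat.cast_sub h2.le]
  simp

theorem cast_cN (a u v : ℕ) : (I.cN a u v : ZMod p) = (I.c a u v : ZMod p) + 2 := by
  have h1 : ((I.cN a u v : ℕ) : ℤ) = I.c a u v + 2 := by
    unfold cN
    rw [Int.toNat_of_nonneg]
    have := (abs_le.1 (I.hc a u v)).1
    omega
  have h2 := congrArg (fun z : ℤ => (z : ZMod p)) h1
  simpa using h2

theorem cast_zN (X u : ℕ) : (I.zN X u : ZMod p) = z (I.pt p X) u := by
  unfold zN z pt
  split_ifs
  · simp
  · rfl
  · simp

theorem cast_pvN (h2 : 2 < p) (X a : ℕ) : (I.pvN p X a : ZMod p) = I.pv (I.pt p X) a := by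
  unfold pvN pv
  rw [ZMod.natCast_mod]
  push_cast
  refine Finset.sum_congr rfl fun u _ => Finset.sum_congr rfl fun v _ => ?_
  rw [cast_cN, cast_sub_two h2, cast_zN, cast_zN]
  ring

theorem cast_dpN (h2 : 2 < p) (X a : ℕ) (i : Fin I.n) :
    (I.dpN p X a i : ZMod p) = eval (I.pt p X) (I.dpP (ZMod p) a i) := by
  unfold dpN dpP
  rw [ZMod.natCast_mod, map_sum]
  push_cast
  refine Finset.sum_congr rfl fun v _ => ?_
  rw [cast_cN, cast_cN, cast_sub_two h2, cast_zN, map_mul, map_add, map_intCast, map_intCast,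
    eval_z]
  ring

theorem cast_FN (h2 : 2 < p) (X : ℕ) :
    (I.FN p X : ZMod p) = eval (I.pt p X) (I.F (ZMod p)) := by
  unfold FN F
  rw [ZMod.natCast_mod, map_sum, Nat.cast_sum]
  refine Finset.sum_congr rfl fun a _ => ?_
  rw [Nat.cast_pow, cast_pvN _ h2, map_pow, eval_pv]

theorem cast_dFN (h2 : 2 < p) (X : ℕ) (i : Fin I.n) :
    (I.dFN p X i : ZMod p) = eval (I.pt p X) (pderiv i (I.F (ZMod p))) := by
  unfold dFN
  rw [ZMod.natCast_mod, pderiv_F, map_mul, map_sum, map_ofNat, Nat.cast_mul, Nat.cast_sum]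
  congr 1
  refine Finset.sum_congr rfl fun a _ => ?_
  rw [Nat.cast_mul, cast_pvN _ h2, cast_dpN _ h2, map_mul, eval_pv]

theorem cast_HN (h2 : 2 < p) (X : ℕ) (i j : Fin I.n) :
    (I.HN p X i j : ZMod p) = eval (I.pt p X) (pderiv j (pderiv i (I.F (ZMod p)))) := by
  unfold HN
  rw [ZMod.natCast_mod, pderiv_pderiv_F, map_mul, map_sum, map_ofNat, Nat.cast_mul, Nat.cast_sum]
  congr 1
  refine Finset.sum_congr rfl fun a _ => ?_
  push_cast
  rw [cast_pvN _ h2, cast_dpN _ h2, cast_dpN _ h2, cast_cN, cast_cN, cast_sub_two h2]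
  simp only [map_add, map_mul, eval_pv, map_intCast]
  ring

theorem cast_lamN : (I.lamN p : ZMod p) = I.lam (ZMod p) := by
  unfold lamN lam
  rw [ZMod.natCast_mod]
  simp

theorem cast_sub_one : ((p - 1 : ℕ) : ZMod p) = -1 := by
  have hp := (Fact.out : p.Prime).one_le
  rw [Nat.cast_sub hp]
  simp

/-- S2a: elementary functions -/
theorem cast_hhN (h2 : 2 < p) (X : ℕ) (i : Fin I.n) :
    (I.hhN p X i : ZMod p) = eval (I.pt p X) (I.hp p i) := by
  unfold hhN hp h
  rw [ZMod.natCast_mod, Nat.cast_mul, Nat.cast_mul, cast_sub_one, cast_lamN, cast_dFN _ h2,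
    map_neg, map_mul, eval_C]
  ring

theorem cast_GN (h2 : 2 < p) (X : ℕ) :
    (I.GN p X : ZMod p) = eval (I.pt p X) (I.G (I.lam (ZMod p))) := by
  unfold GN G
  rw [ZMod.natCast_mod, Nat.cast_add, Nat.cast_sum, Nat.cast_mul, Nat.cast_mul, cast_lamN,
    cast_FN _ h2, map_add, map_sum, map_mul, eval_C, Finset.sum_range]
  congr 1
  refine Finset.sum_congr rfl fun i _ => ?_
  rw [map_pow, eval_X, Nat.cast_pow]
  rfl

theorem cast_entN (h2 : 2 < p) (X : ℕ) (i j : Fin I.n) :
    (I.entN p X i j : ZMod p) =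
      (if i = j then 5 * I.pt p X i ^ 4 else 0) - eval (I.pt p X) (pderiv j (I.hp p i)) := by
  unfold entN hp h
  rw [ZMod.natCast_mod, Nat.cast_add, Nat.cast_mul, cast_lamN, cast_HN _ h2, map_neg,
    pderiv_C_mul, map_neg, map_mul, eval_C]
  by_cases h : i = j
  · rw [if_pos h, if_pos (congrArg Fin.val h), sub_neg_eq_add, Nat.cast_mul, Nat.cast_pow]
    rfl
  · rw [if_neg h, if_neg (fun h' => h (Fin.ext h')), sub_neg_eq_add, Nat.cast_zero]

end

end Inst

end Vale.Agent.P337
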