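import Vale.Agent.P337.TraceA

/-!
# The trace formula (module B3) is in TraceA.lean; its version modulo a prime (module B4) is in
TraceP.lean
-/

namespace Vale.Agent.P337

open MvPolynomial

variable {n : ℕ}

/-- the weight of a point with nonzero coordinates modulo `p` -/
noncomputable def wt {p : ℕ} [Fact p.Prime] (h : Fin n → MvPolynomial (Fin n) (ZMod p)) (B : ℕ)
    (x : Fin n → ZMod p) : ZMod p :=
  (-1) ^ n * eval x (jac h) *
    ∏ i, (x i * ∑ k ∈ Finset.range (B + 1), eval x (h i) ^ k * (x i)⁻¹ ^ (5 * (k + 1)))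

end Vale.Agent.P337
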