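import Vale.Agent.P337.SemPA
import Vale.Agent.P337.Trace

/-!
# The algorithm modulo `p`: the determinant (module S2b)
-/

namespace Vale.Agent.P337

open MvPolynomial

/-- the digits of a coded function -/
theorem dg_code {b n c : ℕ} (hc : c ≤ 2 ^ b) (g : Fin n → Fin c) (i : Fin n) :
    Inst.dg b (finFunctionFinEquiv fun i => Fin.castLE hc (g i) : Fin ((2 ^ b) ^ n)).val i
      = (g i).val := by
  have h1 := finFunctionFinEquiv_symm_apply_val
    (finFunctionFinEquiv fun i => Fin.castLE hc (g i) : Fin ((2 ^ b) ^ n)) i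
  rw [Equiv.symm_apply_apply] at h1
  rw [Inst.dg, pow_mul, ← h1]
  rfl

/-- sums over codes of functions -/
theorem sum_codes {M : Type*} [AddCommMonoid M] {b n c : ℕ} (hc : c ≤ 2 ^ b) (F : ℕ → M)
    (G : (Fin n → Fin c) → M)
    (hFG : ∀ (Y : ℕ) (g : Fin n → Fin c), (∀ i : Fin n, Inst.dg b Y i = (g i).val) → F Y = G g)
    (P : ℕ → Prop) [DecidablePred P] (hP : ∀ Y, P Y ↔ ∀ i < n, Inst.dg b Y i < c) :
    ∑ Y ∈ Finset.range (2 ^ (b * n)), (if P Y then F Y else 0) = ∑ g, G g := by
  rw [pow_mul, Finset.sum_range]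
  symm
  apply Fintype.sum_of_injective
    (fun g : Fin n → Fin c => (finFunctionFinEquiv fun i => Fin.castLE hc (g i)))
  · intro g g' h
    have h1 := finFunctionFinEquiv.injective h
    funext i
    exact Fin.castLE_injective hc (congrFun h1 i)
  · intro Y hY
    rw [if_neg]
    intro hY'
    rw [hP] at hY'
    apply hY
    refine ⟨fun i => ⟨Inst.dg b Y i, hY' i i.2⟩, ?_⟩
    rw [← Equiv.eq_symm_apply]
    funext i
    apply Fin.ext
    rw [finFunctionFinEquiv_symm_apply_val]
    show Inst.dg b Y i = _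
    rw [Inst.dg, pow_mul]
  · intro g
    rw [if_pos]
    · exact (hFG _ g fun i => dg_code hc g i).symm
    · rw [hP]
      intro i hi
      rw [dg_code hc g ⟨i, hi⟩]
      exact (g ⟨i, hi⟩).2

/-- products over pairs -/
theorem prod_pairs {M : Type*} [CommMonoid M] {n : ℕ} (f : ℕ → ℕ → M) :
    ∏ y ∈ Finset.range (n * n), f (y / n) (y % n) = ∏ i : Fin n, ∏ j : Fin n, f i j := by
  rw [Finset.prod_range, ← Fintype.prod_prod_type' (f := fun i j : Fin n => f i j)]
  refine Fintype.prod_equiv finProdFinEquiv.symm _ _ fun y => ?_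
  rfl

namespace Inst

noncomputable section

variable (I : Inst) {p : ℕ} [Fact p.Prime]

theorem cast_sgN (i j : ℕ) :
    (sgN p i j : ZMod p) = if i < j then 1 else if j < i then -1 else 0 := by
  have hp := (Fact.out : p.Prime).one_le
  unfold sgN
  split_ifs
  · simp
  · simp [Nat.cast_sub hp]
  · simp

/-- the sign product of a permutation -/
theorem sgn_perm {n : ℕ} (σ : Equiv.Perm (Fin n)) :
    (∏ i : Fin n, ∏ j : Fin n, if (i : ℕ) < j then
      (sgN p (σ i) (σ j) : ZMod p) else 1) = ((Equiv.Perm.sign σ : ℤ) : ZMod p) := by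
  rw [Equiv.Perm.sign_eq_prod_prod_Ioi, Units.coe_prod, Int.cast_prod]
  refine Finset.prod_congr rfl fun i _ => ?_
  rw [Units.coe_prod, Int.cast_prod, ← Finset.prod_filter]
  have h1 : (Finset.univ.filter fun j : Fin n => (i : ℕ) < j) = Finset.Ioi i := by
    ext j
    simp
  rw [h1]
  refine Finset.prod_congr rfl fun j hj => ?_
  rw [Finset.mem_Ioi] at hj
  rw [cast_sgN]
  rcases lt_trichotomy (σ i) (σ j) with h | h | h
  · rw [if_pos h, if_pos (by exact h)]
    simp
  · exact absurd (σ.injective h) hj.ne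
  · rw [if_neg (not_lt.2 h.le), if_neg (not_lt.2 (by exact h.le)), if_pos (by exact h)]
    simp

/-- the sign product of a map which is not injective -/
theorem sgn_not_inj {n : ℕ} (g : Fin n → Fin n) (hg : ¬ Function.Injective g) :
    (∏ i : Fin n, ∏ j : Fin n, if (i : ℕ) < j then
      (sgN p (g i) (g j) : ZMod p) else 1) = 0 := by
  unfold Function.Injective at hg
  push Not at hg
  obtain ⟨i, j, h1, h2⟩ := hg
  wlog hij : i < j generalizing i j
  · exact this j i h1.symm h2.symm (lt_of_le_of_ne (not_lt.1 hij) h2.symm)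
  refine Finset.prod_eq_zero (Finset.mem_univ i) (Finset.prod_eq_zero (Finset.mem_univ j) ?_)
  rw [if_pos (by exact hij), cast_sgN, h1]
  simp

/-- S2b: the determinant -/
theorem cast_detN (h2 : 2 < p) (X : ℕ) :
    (I.detN p X : ZMod p) = eval (I.pt p X) (jac (I.hp p)) := by
  have hR : eval (I.pt p X) (jac (I.hp p)) =
      ∑ σ : Equiv.Perm (Fin I.n), ((Equiv.Perm.sign σ : ℤ) : ZMod p) *
        ∏ i : Fin I.n, (I.entN p X i (σ i) : ZMod p) := by
    rw [jac, RingHom.map_det, ← Matrix.det_transpose, Matrix.det_apply']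
    refine Finset.sum_congr rfl fun σ _ => ?_
    congr 1
    refine Finset.prod_congr rfl fun i _ => ?_
    rw [I.cast_entN h2]
    by_cases h : i = σ i
    · rw [if_pos h]
      simp only [RingHom.mapMatrix_apply, Matrix.transpose_apply, Matrix.map_apply,
        Matrix.of_apply, if_pos h]
      simp
    · rw [if_neg h]
      simp only [RingHom.mapMatrix_apply, Matrix.transpose_apply, Matrix.map_apply,
        Matrix.of_apply, if_neg h]
      simp
  have hL : (I.detN p X : ZMod p) = ∑ g : Fin I.n → Fin I.n,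
      (∏ i : Fin I.n, ∏ j : Fin I.n, if (i : ℕ) < j then
        (sgN p (g i) (g j) : ZMod p) else 1) *
          ∏ i : Fin I.n, (I.entN p X i (g i) : ZMod p) := by
    rw [detN, ZMod.natCast_mod, Nat.cast_sum]
    rw [← sum_codes (b := I.n) (n := I.n) (c := I.n) Nat.lt_two_pow_self.le
      (fun Y => (I.detTerm p X Y : ZMod p)) _ ?_ (fun Y => ∀ i < I.n, dg I.n Y i < I.n)
      (fun Y => Iff.rfl)]
    · refine Finset.sum_congr rfl fun Y _ => ?_
      split_ifs <;> simp
    · intro Y g hg
      simp only [detTerm]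
      rw [ZMod.natCast_mod, Nat.cast_mul, ZMod.natCast_mod, ZMod.natCast_mod, Nat.cast_prod,
        Nat.cast_prod]
      congr 1
      · rw [prod_pairs (fun i j => ((if i < j then
          sgN p (dg I.n Y i) (dg I.n Y j) else 1 : ℕ) : ZMod p))]
        refine Finset.prod_congr rfl fun i _ => Finset.prod_congr rfl fun j _ => ?_
        rw [hg, hg]
        split_ifs <;> simp
      · rw [Finset.prod_range]
        refine Finset.prod_congr rfl fun i _ => ?_
        rw [hg]
  rw [hR, hL]
  symm
  apply Fintype.sum_of_injective (fun σ : Equiv.Perm (Fin I.n) => (σ : Fin I.n → Fin I.n))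
  · exact DFunLike.coe_injective
  · intro g hg
    rw [sgn_not_inj, zero_mul]
    intro h
    apply hg
    exact ⟨Equiv.ofBijective g ((Finite.injective_iff_bijective).1 h), rfl⟩
  · intro σ
    rw [sgn_perm]

end

end Inst

end Vale.Agent.P337
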