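import Vale.Agent.P337.SemPB

/-!
# The algorithm modulo `p`: the weight (module S2c)
-/

namespace Vale.Agent.P337

open MvPolynomial

namespace Inst

noncomputable section

variable (I : Inst) {p : ℕ} [Fact p.Prime]

theorem cast_pow_inv (h2 : 2 < p) (x : ZMod p) (hx : x ≠ 0) : x ^ (p - 2) = x⁻¹ := by
  have h1 : x ^ (p - 2) * x = 1 := by
    rw [← pow_succ]
    have h3 : p - 2 + 1 = p - 1 := by omega
    rw [h3, ZMod.pow_card_sub_one_eq_one hx]
  exact eq_inv_of_mul_eq_one_left h1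

theorem cast_dg_ne (X : ℕ) (hX : I.Valid p X) (i : Fin I.n) :
    ((dg I.bb X i : ℕ) : ZMod p) ≠ 0 := by
  intro h0
  rw [ZMod.natCast_eq_zero_iff] at h0
  obtain ⟨h3, h4⟩ := hX i i.2
  exact absurd (Nat.le_of_dvd h3 h0) (not_le.2 h4)

theorem cast_wfN (h2 : 2 < p) (X : ℕ) (hX : I.Valid p X) (i : Fin I.n) :
    (I.wfN p X i : ZMod p) = I.pt p X i * ∑ k ∈ Finset.range (I.B + 1),
      eval (I.pt p X) (I.hp p i) ^ k * (I.pt p X i)⁻¹ ^ (5 * (k + 1)) := by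
  have h3 : ∀ k, (((I.hhN p X i ^ k % p) * ((dg I.bb X i ^ (p - 2) % p) ^ (5 * (k + 1)) % p) : ℕ) :
      ZMod p) = eval (I.pt p X) (I.hp p i) ^ k * (I.pt p X i)⁻¹ ^ (5 * (k + 1)) := by
    intro k
    rw [Nat.cast_mul, ZMod.natCast_mod, ZMod.natCast_mod, Nat.cast_pow, Nat.cast_pow,
      ZMod.natCast_mod, Nat.cast_pow, I.cast_hhN h2, cast_pow_inv h2 _ (I.cast_dg_ne X hX i)]
    rfl
  unfold wfN
  rw [ZMod.natCast_mod, Nat.cast_mul, Nat.cast_sum, Finset.sum_congr rfl fun k _ => h3 k]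
  rfl

/-- S2c: the weight -/
theorem cast_wtN (h2 : 2 < p) (X : ℕ) (hX : I.Valid p X) :
    (I.wtN p X : ZMod p) = wt (I.hp p) I.B (I.pt p X) := by
  unfold wtN wt
  have h1 : ((p - 1 : ℕ) : ZMod p) = -1 := by
    rw [Nat.cast_sub (by omega), ZMod.natCast_self, Nat.cast_one, zero_sub]
  rw [ZMod.natCast_mod, Nat.cast_mul, Nat.cast_mul, ZMod.natCast_mod, ZMod.natCast_mod,
    Nat.cast_pow, h1, Nat.cast_prod, I.cast_detN h2, Finset.prod_range,
    Finset.prod_congr rfl fun i _ => I.cast_wfN h2 X hX i]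

end

end Inst

end Vale.Agent.P337
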