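import Vale.Agent.P337.Trace

/-!
# The trace formula modulo a prime (module B4)
-/

namespace Vale.Agent.P337

open MvPolynomial

namespace TraceP

variable {n : ℕ} {p : ℕ} [Fact p.Prime]

theorem inv_pow_eq (t : ZMod p) (ht : t ≠ 0) (m : ℕ) (hm : m ≤ p - 1) :
    t⁻¹ ^ m = t ^ (p - 1 - m) := by
  have h1 : t ^ (p - 1 - m) * t ^ m = 1 := by
    rw [← pow_add, Nat.sub_add_cancel hm, ZMod.pow_card_sub_one_eq_one ht]
  rw [inv_pow]
  exact (eq_inv_of_mul_eq_one_left h1).symm

theorem sum_one (s m : ℕ) (hs : s < p - 1) (hm : m < p - 1) :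
    (∑ t : ZMod p, if t ≠ 0 then t ^ s * t⁻¹ ^ m else 0) = if s = m then -1 else 0 := by
  classical
  have h1 : (∑ t : ZMod p, if t ≠ 0 then t ^ s * t⁻¹ ^ m else 0) =
      ∑ u : (ZMod p)ˣ, (u : ZMod p) ^ (s + (p - 1 - m)) := by
    rw [← Finset.sum_filter]
    symm
    refine Finset.sum_bij (fun u _ => (u : ZMod p)) ?_ ?_ ?_ ?_
    · intro u _
      exact Finset.mem_filter.mpr ⟨Finset.mem_univ _, u.ne_zero⟩
    · intro u _ v _ h
      exact Units.ext h
    · intro t ht
      exact ⟨Units.mk0 t (Finset.mem_filter.mp ht).2, Finset.mem_univ _, rfl⟩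
    · intro u _
      rw [inv_pow_eq _ u.ne_zero m hm.le, pow_add]
  have h2 := FiniteField.sum_pow_units (ZMod p) (s + (p - 1 - m))
  rw [ZMod.card] at h2
  rw [h1, h2]
  by_cases hsm : s = m
  · subst hsm
    rw [if_pos rfl, if_pos]
    rw [Nat.add_sub_cancel' hs.le]
  · rw [if_neg hsm, if_neg]
    intro hd
    apply hsm
    obtain ⟨c, hc⟩ := hd
    have hc0 : c ≠ 0 := by
      rintro rfl
      omega
    have hc2 : c < 2 := by
      by_contra hcc
      have : (p - 1) * 2 ≤ (p - 1) * c := Nat.mul_le_mul_left _ (by omega)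
      omega
    have hc1 : c = 1 := by omega
    rw [hc1, mul_one] at hc
    omega

theorem sum_prod (φ : Fin n → ZMod p → ZMod p) :
    (∑ x : Fin n → ZMod p, if ∀ i, x i ≠ 0 then ∏ i, φ i (x i) else 0) =
      ∏ i, ∑ t : ZMod p, if t ≠ 0 then φ i t else 0 := by
  classical
  rw [Finset.prod_univ_sum, Fintype.piFinset_univ]
  refine Finset.sum_congr rfl fun x _ => ?_
  rw [Finset.prod_ite_zero]
  simp

theorem coeff_eq_sum (f : MvPolynomial (Fin n) (ZMod p)) (m : Fin n → ℕ)
    (hf : f.totalDegree < p - 1) (hm : ∀ i, m i < p - 1) :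
    (∑ x : Fin n → ZMod p, if ∀ i, x i ≠ 0 then eval x f * ∏ i, (x i)⁻¹ ^ m i else 0) =
      (-1) ^ n * coeff (Finsupp.equivFunOnFinite.symm m) f := by
  classical
  have h1 : ∀ x : Fin n → ZMod p, (if ∀ i, x i ≠ 0 then eval x f * ∏ i, (x i)⁻¹ ^ m i else 0) =
      ∑ s ∈ f.support, coeff s f *
        (if ∀ i, x i ≠ 0 then ∏ i, (x i ^ s i * (x i)⁻¹ ^ m i) else 0) := by
    intro x
    split_ifs with hx
    · rw [eval_eq', Finset.sum_mul]
      refine Finset.sum_congr rfl fun s _ => ?_
      rw [Finset.prod_mul_distrib, mul_assoc]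
    · simp
  rw [Finset.sum_congr rfl (fun x _ => h1 x), Finset.sum_comm]
  have h2 : ∀ s ∈ f.support, (∑ x : Fin n → ZMod p, coeff s f *
        (if ∀ i, x i ≠ 0 then ∏ i, (x i ^ s i * (x i)⁻¹ ^ m i) else 0)) =
      if s = Finsupp.equivFunOnFinite.symm m then
        (-1) ^ n * coeff (Finsupp.equivFunOnFinite.symm m) f else 0 := by
    intro s hs
    rw [← Finset.mul_sum, sum_prod (fun i t => t ^ s i * t⁻¹ ^ m i)]
    have hsi : ∀ i, s i < p - 1 := by
      intro i
      refine lt_of_le_of_lt ?_ hf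
      refine le_trans ?_ (le_totalDegree hs)
      exact Finsupp.le_degree i s
    rw [Finset.prod_congr rfl fun i _ => sum_one (s i) (m i) (hsi i) (hm i)]
    rw [Finset.prod_ite_zero]
    by_cases h : s = Finsupp.equivFunOnFinite.symm m
    · rw [if_pos h, if_pos]
      · rw [Finset.prod_const, Finset.card_univ, Fintype.card_fin, ← h, mul_comm]
      · intro i _
        rw [h]
        rfl
    · rw [if_neg h, if_neg, mul_zero]
      intro hall
      apply h
      ext i
      exact hall i (Finset.mem_univ i)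
  rw [Finset.sum_congr rfl h2, Finset.sum_ite_eq']
  split_ifs with h
  · rfl
  · rw [notMem_support_iff.mp h, mul_zero]

theorem totalDegree_pderiv (f : MvPolynomial (Fin n) (ZMod p)) (j : Fin n) :
    (pderiv j f).totalDegree ≤ f.totalDegree := by
  conv_lhs => rw [← support_sum_monomial_coeff f]
  rw [map_sum]
  refine totalDegree_finsetSum_le fun s hs => ?_
  rw [pderiv_monomial]
  refine le_trans (totalDegree_monomial_le _ _) ?_
  refine le_trans ?_ (le_totalDegree hs)
  exact Finsupp.degree_mono tsub_le_self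

theorem totalDegree_jac (h : Fin n → MvPolynomial (Fin n) (ZMod p))
    (hd : ∀ i, (h i).totalDegree ≤ 3) : (jac h).totalDegree ≤ 4 * n := by
  classical
  unfold jac
  rw [Matrix.det_apply]
  refine totalDegree_finsetSum_le fun σ _ => ?_
  refine le_trans (totalDegree_smul_le _ _) ?_
  refine le_trans (totalDegree_finsetProd _ _) ?_
  have h1 : ∀ i ∈ (Finset.univ : Finset (Fin n)), (Matrix.of (fun i j =>
      (if i = j then 5 * X i ^ 4 else 0) - pderiv j (h i)) (σ i) i).totalDegree ≤ 4 := by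
    intro i _
    rw [Matrix.of_apply]
    refine le_trans (totalDegree_sub _ _) (max_le ?_ ?_)
    · split_ifs
      · have h5 : (5 : MvPolynomial (Fin n) (ZMod p)) = C 5 := (map_ofNat C 5).symm
        refine le_trans (totalDegree_mul _ _) ?_
        rw [h5, totalDegree_C, zero_add, totalDegree_X_pow]
      · rw [totalDegree_zero]
        omega
    · exact le_trans (totalDegree_pderiv _ _) (le_trans (hd _) (by norm_num))
  refine le_trans (Finset.sum_le_sum h1) ?_
  simp [mul_comm]

end TraceP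

/-- module B4: `ρ` as a sum over all points with nonzero coordinates modulo a large prime
(orthogonality of characters: the sum of a Laurent polynomial, all of whose exponents are smaller
than `p - 1` in absolute value, over `(F_p^*)^n` is `(-1)^n` times the constant coefficient) -/
theorem trc_eq_sum {n p : ℕ} [Fact p.Prime] (h : Fin n → MvPolynomial (Fin n) (ZMod p))
    (hd : ∀ i, (h i).totalDegree ≤ 3) (g : MvPolynomial (Fin n) (ZMod p)) (B : ℕ)
    (hB : g.totalDegree + 4 * n ≤ B) (hp : (3 * n + 5) * (B + 1) + B + 5 < p - 1) :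
    trc h g = ∑ x : Fin n → ZMod p, if ∀ i, x i ≠ 0 then wt h B x * eval x g else 0 := by
  classical
  have hgj : (g * jac h).totalDegree ≤ B :=
    le_trans (totalDegree_mul _ _) (le_trans (Nat.add_le_add_left (TraceP.totalDegree_jac h hd) _) hB)
  rw [trc_eq h hd, rho_eq h hd _ B hgj]
  have hnn : ((-1 : ZMod p) ^ n) * (-1) ^ n = 1 := by
    rw [← mul_pow]
    simp
  have h1 : ∀ k : Fin n → Fin (B + 1),
      coeff (Finsupp.equivFunOnFinite.symm fun i => 5 * (k i : ℕ) + 4)
        (g * jac h * ∏ i, h i ^ (k i : ℕ)) =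
      ∑ x : Fin n → ZMod p, (-1) ^ n * (if ∀ i, x i ≠ 0 then
        eval x (g * jac h * ∏ i, h i ^ (k i : ℕ)) * ∏ i, (x i)⁻¹ ^ (5 * (k i : ℕ) + 4) else 0) := by
    intro k
    rw [← Finset.mul_sum, TraceP.coeff_eq_sum, ← mul_assoc, hnn, one_mul]
    · refine lt_of_le_of_lt (totalDegree_mul _ _) ?_
      have h2 : (∏ i, h i ^ (k i : ℕ)).totalDegree ≤ 3 * B * n := by
        refine le_trans (totalDegree_finsetProd _ _) ?_
        have h3 : ∀ i ∈ (Finset.univ : Finset (Fin n)), (h i ^ (k i : ℕ)).totalDegree ≤ 3 * B := by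
          intro i _
          refine le_trans (totalDegree_pow _ _) ?_
          have := (k i).2
          rw [mul_comm]
          exact Nat.mul_le_mul (hd i) (by omega)
        refine le_trans (Finset.sum_le_sum h3) ?_
        simp [mul_comm]
      have h4 : 3 * B * n ≤ (3 * n + 5) * (B + 1) := by nlinarith
      omega
    · intro i
      have := (k i).2
      have h4 : 5 * (B + 1) ≤ (3 * n + 5) * (B + 1) := Nat.mul_le_mul_right _ (by omega)
      omega
  rw [Finset.sum_congr rfl fun k _ => h1 k, Finset.sum_comm]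
  refine Finset.sum_congr rfl fun x _ => ?_
  by_cases hx : ∀ i, x i ≠ 0
  · simp only [if_pos hx]
    rw [← Finset.mul_sum]
    unfold wt
    have h2 : ∀ i, x i * ∑ k ∈ Finset.range (B + 1), eval x (h i) ^ k * (x i)⁻¹ ^ (5 * (k + 1)) =
        ∑ k : Fin (B + 1), eval x (h i) ^ (k : ℕ) * (x i)⁻¹ ^ (5 * (k : ℕ) + 4) := by
      intro i
      rw [Finset.sum_range, Finset.mul_sum]
      refine Finset.sum_congr rfl fun k _ => ?_
      have : (x i)⁻¹ ^ (5 * ((k : ℕ) + 1)) = (x i)⁻¹ ^ (5 * (k : ℕ) + 4) * (x i)⁻¹ := by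
        rw [← pow_succ]
        ring_nf
      rw [this]
      have hxi := hx i
      field_simp
    rw [Finset.prod_congr rfl fun i _ => h2 i, Finset.prod_univ_sum, Fintype.piFinset_univ]
    have h3 : ∀ k : Fin n → Fin (B + 1),
        eval x (g * jac h * ∏ i, h i ^ (k i : ℕ)) * ∏ i, (x i)⁻¹ ^ (5 * (k i : ℕ) + 4) =
        eval x g * eval x (jac h) *
          ∏ i, (eval x (h i) ^ (k i : ℕ) * (x i)⁻¹ ^ (5 * (k i : ℕ) + 4)) := by
      intro k
      rw [Finset.prod_mul_distrib, map_mul, map_mul, map_prod]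
      simp only [map_pow]
      ring
    rw [Finset.sum_congr rfl fun k _ => h3 k, ← Finset.mul_sum]
    ring
  · simp only [if_neg hx, mul_zero, Finset.sum_const_zero]

end Vale.Agent.P337
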