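import Vale.Agent.P337.SemPC
import Vale.Agent.P337.CRR
import Vale.Agent.P337.TraceP

/-!
# The algorithm modulo `p`: the trace (module S2d)
-/

namespace Vale.Agent.P337

open MvPolynomial

namespace Inst

noncomputable section

variable (I : Inst) {p : ℕ} [Fact p.Prime]

/-- sums over the codes of the points with nonzero coordinates are sums over these points -/
theorem sum_valid (hpb : p ≤ 2 ^ I.bb) (f : (Fin I.n → ZMod p) → ZMod p) :
    (∑ X ∈ Finset.range (2 ^ (I.bb * I.n)),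
      @ite _ (I.Valid p X) (Classical.propDecidable _) (f (I.pt p X)) 0) =
      ∑ x : Fin I.n → ZMod p, if ∀ i, x i ≠ 0 then f x else 0 := by
  classical
  have hp2 : 0 < p := (Fact.out : p.Prime).pos
  rw [pow_mul, Finset.sum_range]
  rw [← (finFunctionFinEquiv (m := 2 ^ I.bb) (n := I.n)).sum_comp]
  have hdg : ∀ (y : Fin I.n → Fin (2 ^ I.bb)) (i : Fin I.n),
      dg I.bb (finFunctionFinEquiv y : Fin ((2 ^ I.bb) ^ I.n)) (i : ℕ) = (y i : ℕ) := by
    intro y i
    have h := finFunctionFinEquiv_symm_apply_val (m := 2 ^ I.bb) (n := I.n)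
      (finFunctionFinEquiv y) i
    rw [Equiv.symm_apply_apply] at h
    unfold dg
    rw [pow_mul, h]
  have hpt : ∀ (y : Fin I.n → Fin (2 ^ I.bb)),
      I.pt p (finFunctionFinEquiv y : Fin ((2 ^ I.bb) ^ I.n)) = fun i => ((y i : ℕ) : ZMod p) := by
    intro y
    funext i
    unfold pt
    rw [hdg]
  have hval : ∀ (y : Fin I.n → Fin (2 ^ I.bb)),
      I.Valid p (finFunctionFinEquiv y : Fin ((2 ^ I.bb) ^ I.n)) ↔
        ∀ i, 0 < (y i : ℕ) ∧ (y i : ℕ) < p := by
    intro y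
    unfold Valid
    constructor
    · intro h i
      have := h i i.2
      rwa [hdg] at this
    · intro h i hi
      have := hdg y ⟨i, hi⟩
      simp only at this
      rw [this]
      exact h _
  rw [← Finset.sum_filter, ← Finset.sum_filter]
  refine Finset.sum_nbij' (fun y i => ((y i : ℕ) : ZMod p))
    (fun x i => ⟨(x i).val, (ZMod.val_lt (x i)).trans_le hpb⟩) ?_ ?_ ?_ ?_ ?_
  · intro y hy
    rw [Finset.mem_filter] at hy ⊢
    refine ⟨Finset.mem_univ _, fun i h => ?_⟩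
    have h1 := (hval y).1 hy.2 i
    rw [ZMod.natCast_eq_zero_iff] at h
    exact absurd (Nat.le_of_dvd h1.1 h) (by omega)
  · intro x hx
    rw [Finset.mem_filter] at hx ⊢
    refine ⟨Finset.mem_univ _, (hval _).2 fun i => ⟨?_, ZMod.val_lt _⟩⟩
    exact Nat.pos_of_ne_zero fun h => hx.2 i ((ZMod.val_eq_zero _).1 h)
  · intro y hy
    rw [Finset.mem_filter] at hy
    funext i
    have h1 := (hval y).1 hy.2 i
    apply Fin.ext
    exact ZMod.val_cast_of_lt h1.2
  · intro x _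
    funext i
    exact ZMod.natCast_zmod_val _
  · intro y _
    rw [hpt]

omit [Fact p.Prime] in
theorem two_lt_prs (hp : p ∈ prs I.P) : 2 < p := by
  have h1 := (Finset.mem_Ioc.1 (Finset.mem_filter.1 hp).1).1
  have h2 : 2 ^ 2 ≤ 2 ^ I.P := Nat.pow_le_pow_right (by norm_num) (by unfold P; omega)
  omega

/-- S2d: the trace -/
theorem cast_trN (h2 : p ∈ prs I.P) (H : ℕ → ℕ) (g : MvPolynomial (Fin I.n) (ZMod p))
    (hg : g.totalDegree ≤ 2 ^ (16 * I.q + 63))
    (hH : ∀ X, I.Valid p X → (H X : ZMod p) = eval (I.pt p X) g) :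
    (I.trN p H : ZMod p) = trc (I.hp p) g := by
  have hlt := (Finset.mem_Ioc.1 (Finset.mem_filter.1 h2).1)
  have h2' := I.two_lt_prs h2
  have hq : I.q = 10 * I.n + 16 := rfl
  have hn : I.n < 2 ^ I.n := Nat.lt_two_pow_self
  have hnq : I.n < 2 ^ I.q := hn.trans (Nat.pow_lt_pow_right (by norm_num) (by omega))
  have hB : I.B = 2 ^ (16 * I.q + 64) := rfl
  have hP : I.P = 18 * I.q + 80 := rfl
  rw [trc_eq_sum (I.hp p) (fun i => I.totalDegree_h_le _ i) g I.B]
  · rw [← I.sum_valid (p := p) ?_ (fun x => wt (I.hp p) I.B x * eval x g)]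
    · unfold trN
      rw [ZMod.natCast_mod, Nat.cast_sum]
      refine Finset.sum_congr rfl fun X _ => ?_
      by_cases hX : I.Valid p X
      · rw [if_pos hX, if_pos hX, Nat.cast_mul, I.cast_wtN h2' X hX, hH X hX]
      · rw [if_neg hX, if_neg hX, Nat.cast_zero]
    · refine hlt.2.trans (Nat.pow_le_pow_right (by norm_num) ?_)
      unfold bb
      omega
  · have e1 : 2 ^ (16 * I.q + 64) = 2 ^ (16 * I.q + 63) + 2 ^ (16 * I.q + 63) := by
      rw [← two_mul, ← pow_succ']
    have e2 : 2 ^ (16 * I.q + 63) = 2 ^ I.q * 2 ^ (15 * I.q + 63) := by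
      rw [← pow_add]; exact congrArg (fun k => 2 ^ k) (by ring)
    have e3 : 4 ≤ 2 ^ (15 * I.q + 63) := by
      calc 4 = 2 ^ 2 := rfl
        _ ≤ _ := Nat.pow_le_pow_right (by norm_num) (by omega)
    have e4 : 4 * I.n ≤ 2 ^ (16 * I.q + 63) := by
      rw [e2]
      nlinarith
    rw [hB, e1]
    omega
  · have e1 : 2 ^ I.P = 2 ^ (2 * I.q + 16) * 2 ^ (16 * I.q + 64) := by
      rw [← pow_add, hP]; exact congrArg (fun k => 2 ^ k) (by ring)
    have e2 : 2 ^ (2 * I.q + 16) = 2 ^ I.q * 2 ^ (I.q + 16) := by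
      rw [← pow_add]; exact congrArg (fun k => 2 ^ k) (by ring)
    have e3 : 1024 ≤ 2 ^ (I.q + 16) := by
      calc 1024 = 2 ^ 10 := rfl
        _ ≤ _ := Nat.pow_le_pow_right (by norm_num) (by omega)
    have e4 : (I.n + 1) * 1024 ≤ 2 ^ (2 * I.q + 16) := by
      rw [e2]
      exact Nat.mul_le_mul hnq e3
    have e5 : 1 ≤ 2 ^ (16 * I.q + 64) := Nat.one_le_two_pow
    have e6 : (I.n + 1) * 1024 * I.B ≤ 2 ^ I.P := by
      rw [e1, hB]
      exact Nat.mul_le_mul_right _ e4
    rw [← hB] at e5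
    have e7 := hlt.1
    have e8 : (3 * I.n + 5) * (I.B + 1) + I.B + 5 + 2 ≤ (I.n + 1) * 1024 * I.B := by
      nlinarith [Nat.zero_le (I.n * I.B)]
    omega

end

end Inst

end Vale.Agent.P337
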