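import Vale.Agent.P337.SemPD
import Vale.Agent.P337.NormP

/-!
# The algorithm modulo `p`: the norm (module S2e)
-/

namespace Vale.Agent.P337

open MvPolynomial

/-- Fermat inverses -/
theorem zmod_pow_sub_two {p : ℕ} [Fact p.Prime] (h2 : 2 < p) (a : ZMod p) : a ^ (p - 2) = a⁻¹ := by
  by_cases ha : a = 0
  · rw [ha, inv_zero, zero_pow (by omega)]
  · refine eq_inv_of_mul_eq_one_left ?_
    rw [← pow_succ]
    have : p - 2 + 1 = p - 1 := by omega
    rw [this, ZMod.pow_card_sub_one_eq_one ha]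

theorem zmod_cast_pred {p : ℕ} [Fact p.Prime] : ((p - 1 : ℕ) : ZMod p) = -1 := by
  rw [Nat.cast_sub (Fact.out : p.Prime).one_lt.le, ZMod.natCast_self, Nat.cast_one, zero_sub]

theorem zmod_sum_range {p : ℕ} [Fact p.Prime] (f : ZMod p → ZMod p) :
    ∑ t ∈ Finset.range p, f (t : ZMod p) = ∑ t : ZMod p, f t := by
  refine Finset.sum_nbij' (fun t => (t : ZMod p)) (fun t => t.val) ?_ ?_ ?_ ?_ ?_
  · intro t _
    exact Finset.mem_univ _
  · intro t _
    exact Finset.mem_range.2 (ZMod.val_lt t)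
  · intro t ht
    exact ZMod.val_cast_of_lt (Finset.mem_range.1 ht)
  · intro t _
    exact ZMod.natCast_zmod_val _
  · intro t _
    rfl

namespace Inst

noncomputable section

variable (I : Inst) {p : ℕ} [Fact p.Prime]

/-- S2e: the norm -/
theorem cast_nmN (h2 : p ∈ prs I.P) (H : ℕ → ℕ) (g : MvPolynomial (Fin I.n) (ZMod p))
    (hg : g.totalDegree * I.D ≤ 2 ^ (16 * I.q + 63))
    (hH : ∀ X, I.Valid p X → (H X : ZMod p) = eval (I.pt p X) g) :
    (I.nmN p H : ZMod p) = nm (I.hp p) g := by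
  have hlt := (Finset.mem_Ioc.1 (Finset.mem_filter.1 h2).1)
  have h2' := I.two_lt_prs h2
  have hD : I.D = 5 ^ I.n := rfl
  have hpt : ∀ t m : ℕ, m < I.D → (I.ptN p H t m : ZMod p) =
      (-1) ^ m * ((m + 1 : ℕ) : ZMod p)⁻¹ * (t : ZMod p) ^ (m + 1) *
        trc (I.hp p) (g ^ (m + 1)) := by
    intro t m hm
    unfold ptN
    simp only [ZMod.natCast_mod, Nat.cast_mul, Nat.cast_pow]
    rw [zmod_cast_pred, zmod_pow_sub_two h2',
      I.cast_trN h2 (fun X => H X ^ (m + 1) % p) (g ^ (m + 1))]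
    · refine (totalDegree_pow _ _).trans (le_trans ?_ hg)
      rw [mul_comm]
      exact Nat.mul_le_mul_left _ hm
    · intro X hX
      simp only [ZMod.natCast_mod, Nat.cast_pow]
      rw [hH X hX, map_pow]
  have hsum : ∀ t : ℕ, ((∑ m ∈ Finset.range I.D, I.ptN p H t m : ℕ) : ZMod p) =
      ∑ m ∈ Finset.Icc 1 (5 ^ I.n), (-1) ^ (m - 1) * ((m : ℕ) : ZMod p)⁻¹ * (t : ZMod p) ^ m *
          trc (I.hp p) (g ^ m) := by
    intro t
    rw [Nat.cast_sum, Finset.sum_congr rfl fun m hm => hpt t m (Finset.mem_range.1 hm), hD]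
    have hI : Finset.Icc 1 (5 ^ I.n) = Finset.Ico (0 + 1) (5 ^ I.n + 1) := by
      ext x
      simp only [Finset.mem_Icc, Finset.mem_Ico]
      omega
    rw [hI, ← Finset.sum_Ico_add' (fun m => (-1) ^ (m - 1) * ((m : ℕ) : ZMod p)⁻¹ *
      (t : ZMod p) ^ m * trc (I.hp p) (g ^ m)) 0 (5 ^ I.n) 1, Finset.range_eq_Ico]
    refine Finset.sum_congr rfl fun m _ => ?_
    rw [Nat.add_sub_cancel]
  rw [nm_eq_sum (I.hp p) (fun i => I.totalDegree_h_le _ i) g]
  · rw [← zmod_sum_range]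
    unfold nmN
    rw [ZMod.natCast_mod, Nat.cast_mul, zmod_cast_pred, neg_one_mul, Nat.cast_sum]
    refine congrArg Neg.neg (Finset.sum_congr rfl fun t ht => ?_)
    have ht' := Finset.mem_range.1 ht
    by_cases ht0 : t = 0
    · rw [if_pos ht0, if_pos (by rw [ht0, Nat.cast_zero]), Nat.cast_zero]
    · have ht1 : (t : ZMod p) ≠ 0 := by
        intro h
        rw [ZMod.natCast_eq_zero_iff] at h
        exact absurd (Nat.le_of_dvd (Nat.pos_of_ne_zero ht0) h) (by omega)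
      rw [if_neg ht0, if_neg ht1]
      rw [Nat.cast_mul, Nat.cast_sum, ZMod.natCast_mod, Nat.cast_pow, ZMod.natCast_mod,
        Nat.cast_pow, zmod_pow_sub_two h2', hD]
      refine congrArg _ (Finset.sum_congr rfl fun l _ => ?_)
      rw [Nat.cast_mul, ZMod.natCast_mod, Nat.cast_pow, ZMod.natCast_mod, ZMod.natCast_mod,
        Nat.cast_pow, zmod_pow_sub_two h2', Finset.prod_range_add_one_eq_factorial, ← hD, hsum, hD]
  · have e1 : 5 ^ I.n ≤ 2 ^ (3 * I.n) := by
      rw [pow_mul]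
      exact Nat.pow_le_pow_left (by norm_num) _
    have e2 : 2 ^ (6 * I.n + 2) ≤ 2 ^ I.P :=
      Nat.pow_le_pow_right (by norm_num) (by unfold P q; omega)
    have e3 : 2 ^ (6 * I.n + 2) = 4 * (2 ^ (3 * I.n)) ^ 2 := by
      rw [← pow_mul, pow_add, mul_comm]
      refine congrArg₂ _ rfl (congrArg (fun k => 2 ^ k) (by ring))
    have e4 : 1 ≤ 2 ^ (3 * I.n) := Nat.one_le_two_pow
    have e5 := hlt.1
    nlinarith
end

end Inst

end Vale.Agent.P337
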