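import Vale.Agent.P337.ExactB
import Vale.Agent.P337.SemPE

/-!
# The algorithm modulo `p`: the values `A(z)` (module S2f)
-/

namespace Vale.Agent.P337

open MvPolynomial

section deg

variable {R : Type*} [CommRing R] {n : ℕ}

theorem totalDegree_natCast' (a : ℕ) : ((a : ℕ) : MvPolynomial (Fin n) R).totalDegree = 0 := by
  rw [← map_natCast (C : R →+* MvPolynomial (Fin n) R)]
  exact totalDegree_C _

theorem totalDegree_X_sub_C_le (c : Fin n) (z : R) :
    (X c - C z : MvPolynomial (Fin n) R).totalDegree ≤ 1 := by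
  refine (totalDegree_sub _ _).trans (max_le ?_ ?_)
  · refine (totalDegree_monomial_le _ _).trans ?_
    rw [Finsupp.sum_single_index rfl]
    exact le_rfl
  · rw [totalDegree_C]
    norm_num

theorem totalDegree_facA_le (q s k : ℕ) (d : MvPolynomial (Fin n) R) (hd : d.totalDegree ≤ 1) :
    (facA q s k d).totalDegree ≤ cK q := by
  unfold facA
  refine (totalDegree_mul _ _).trans ?_
  have h1 : ((2 : MvPolynomial (Fin n) R) ^ cNu q).totalDegree = 0 := by
    have h := totalDegree_natCast' (R := R) (n := n) (2 ^ cNu q)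
    push_cast at h
    exact h
  have h2 : ((cRho q s k : MvPolynomial (Fin n) R) ^ cK q).totalDegree = 0 := by
    have h := totalDegree_natCast' (R := R) (n := n) (cRho q s k ^ cK q)
    push_cast at h
    exact h
  have h3 : ((2 : MvPolynomial (Fin n) R) ^ cL q).totalDegree = 0 := by
    have h := totalDegree_natCast' (R := R) (n := n) (2 ^ cL q)
    push_cast at h
    exact h
  have h4 : ((2 ^ cL q * d) ^ cK q).totalDegree ≤ cK q := by
    refine (totalDegree_pow _ _).trans ?_
    have h5 : (2 ^ cL q * d).totalDegree ≤ 1 := by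
      refine (totalDegree_mul _ _).trans ?_
      omega
    calc cK q * (2 ^ cL q * d).totalDegree ≤ cK q * 1 := Nat.mul_le_mul_left _ h5
      _ = cK q := mul_one _
  rw [h1, zero_add]
  refine (totalDegree_add _ _).trans (max_le ?_ h4)
  rw [h2]
  exact Nat.zero_le _

theorem totalDegree_facA1_le (q s k : ℕ) (d : MvPolynomial (Fin n) R) (hd : d.totalDegree ≤ 1) :
    (facA1 q s k d).totalDegree ≤ cK q := by
  unfold facA1
  refine (totalDegree_add _ _).trans (max_le (totalDegree_facA_le q s k d hd) ?_)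
  refine (totalDegree_mul _ _).trans ?_
  have h2 : ((cRho q s k : MvPolynomial (Fin n) R) ^ (cK q - 1)).totalDegree = 0 := by
    have h := totalDegree_natCast' (R := R) (n := n) (cRho q s k ^ (cK q - 1))
    push_cast at h
    exact h
  have h3 : ((2 : MvPolynomial (Fin n) R) ^ cL q).totalDegree = 0 := by
    have h := totalDegree_natCast' (R := R) (n := n) (2 ^ cL q)
    push_cast at h
    exact h
  have h5 : (2 ^ cL q * d).totalDegree ≤ 1 := by
    refine (totalDegree_mul _ _).trans ?_
    omega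
  have h6 : 1 ≤ cK q := Nat.one_le_pow _ _ (by norm_num)
  omega

end deg

namespace Inst

noncomputable section

variable (I : Inst) {p : ℕ} [Fact p.Prime]

theorem cast_rhoN (s k : ℕ) : (I.rhoN p s k : ZMod p) = (cRho I.q s k : ZMod p) := by
  unfold rhoN cRho
  rw [ZMod.natCast_mod]
  push_cast
  rw [ZMod.natCast_mod]
  push_cast
  ring

theorem cast_facAN (s k d : ℕ) : (I.facAN p s k d : ZMod p) = facA I.q s k (d : ZMod p) := by
  unfold facAN facA
  rw [ZMod.natCast_mod]
  push_cast
  simp only [ZMod.natCast_mod]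
  push_cast
  simp only [ZMod.natCast_mod]
  push_cast
  rw [I.cast_rhoN]

theorem cast_facA1N (s k d : ℕ) : (I.facA1N p s k d : ZMod p) = facA1 I.q s k (d : ZMod p) := by
  unfold facA1N facA1
  rw [ZMod.natCast_mod]
  push_cast
  rw [I.cast_facAN]
  simp only [ZMod.natCast_mod]
  push_cast
  rw [I.cast_rhoN]

theorem cast_subN (hp : 0 < p) (a z : ℕ) : (subN p a z : ZMod p) = (a : ZMod p) - (z : ZMod p) := by
  unfold subN
  rw [ZMod.natCast_mod]
  have h1 : z % p ≤ p := (Nat.mod_lt _ hp).le
  rw [Nat.cast_add, Nat.cast_sub h1, ZMod.natCast_self, ZMod.natCast_mod]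
  ring

theorem D_le_two_pow : I.D ≤ 2 ^ (3 * I.n) := by
  unfold D
  rw [pow_mul]
  exact Nat.pow_le_pow_left (by norm_num) _

theorem cK_mul_D_le : cK I.q * I.D ≤ 2 ^ (16 * I.q + 63) := by
  calc cK I.q * I.D ≤ 2 ^ (5 * I.q + 8) * 2 ^ (3 * I.n) :=
        Nat.mul_le_mul_left _ I.D_le_two_pow
    _ = 2 ^ (5 * I.q + 8 + 3 * I.n) := by rw [pow_add _ (5 * I.q + 8) (3 * I.n)]
    _ ≤ 2 ^ (16 * I.q + 63) := by
        apply Nat.pow_le_pow_right (by norm_num)
        unfold q
        omega

/-- S2f: `A(z)` modulo `p`, as the reduction of the integer polynomial -/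
theorem cast_AN (h2 : p ∈ prs I.P) (s k z : ℕ) (hk : k ≤ cK0 I.q) (c : Fin I.n) :
    (I.AN p s k c z : ZMod p) =
      (I.Apoly s k c).eval₂ (Int.castRingHom (ZMod p)) (z : ZMod p) := by
  have hp : p.Prime := Fact.out
  rw [I.Apoly_eval]
  unfold AN
  apply I.cast_nmN h2
  · refine (Nat.mul_le_mul_right _ ?_).trans I.cK_mul_D_le
    exact totalDegree_facA_le _ _ _ _ (totalDegree_X_sub_C_le _ _)
  · intro X _
    rw [I.cast_facAN, cast_subN hp.pos, map_facA, map_sub, eval_X, eval_C]
    rfl

theorem cast_A1N (h2 : p ∈ prs I.P) (s k z : ℕ) (hk : k ≤ cK0 I.q) (c : Fin I.n) :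
    (I.A1N p s k c z : ZMod p) =
      (I.A1poly s k c).eval₂ (Int.castRingHom (ZMod p)) (z : ZMod p) := by
  have hp : p.Prime := Fact.out
  rw [I.A1poly_eval]
  unfold A1N
  apply I.cast_nmN h2
  · refine (Nat.mul_le_mul_right _ ?_).trans I.cK_mul_D_le
    exact totalDegree_facA1_le _ _ _ _ (totalDegree_X_sub_C_le _ _)
  · intro X _
    rw [I.cast_facA1N, cast_subN hp.pos, map_facA1, map_sub, eval_X, eval_C]
    rfl

end

end Inst

end Vale.Agent.P337
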