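import Vale.Agent.P337.SemPF

/-!
# The algorithm modulo `p`: the filters (module S2g)
-/

namespace Vale.Agent.P337

open MvPolynomial

/-- splitting of a product over `n * K` indices -/
theorem prod_range_mul_div_mod {M : Type*} [CommMonoid M] (n K : ℕ) (f : ℕ → ℕ → M) :
    ∏ y ∈ Finset.range (n * K), f (y / n) (y % n) =
      ∏ c : Fin n, ∏ k ∈ Finset.range K, f k c := by
  rw [Finset.prod_comm]
  induction K with
  | zero => simp
  | succ K ih =>
    rw [Nat.mul_succ, Finset.prod_range_add, ih, Finset.prod_range_succ]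
    congr 1
    rw [← Finset.prod_range (fun c => f K c)]
    apply Finset.prod_congr rfl
    intro c hc
    rw [Finset.mem_range] at hc
    have h1 : (n * K + c) / n = K := by
      rw [Nat.mul_add_div (by omega), Nat.div_eq_of_lt hc, add_zero]
    have h2 : (n * K + c) % n = c := by
      rw [Nat.mul_add_mod, Nat.mod_eq_of_lt hc]
    rw [h1, h2]

namespace Inst

noncomputable section

variable (I : Inst) {p : ℕ} [Fact p.Prime]

theorem cast_chN (a b m : ℕ) : (chN p a b m : ZMod p) = chA (a : ZMod p) (b : ZMod p) m := by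
  have hp : 1 ≤ p := (Fact.out : p.Prime).one_lt.le
  induction m with
  | zero =>
    unfold chN chA
    rw [ZMod.natCast_mod]
  | succ m ih =>
    unfold chN chA
    rw [ZMod.natCast_mod, Nat.cast_add, Nat.cast_mul, Nat.cast_mul, Nat.cast_pow, ih,
      Nat.cast_sub hp, Nat.cast_pow, ZMod.natCast_mod, ZMod.natCast_self]
    push_cast
    ring

theorem cast_fUN (t A : ℕ) : (I.fUN p t A : ZMod p) = fU I.q I.D t (A : ZMod p) := by
  unfold fUN fU
  rw [ZMod.natCast_mod, Nat.cast_pow, Nat.cast_mul, ZMod.natCast_mod]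
  push_cast
  rfl

theorem cast_fVN (t A A1 : ℕ) :
    (I.fVN p t A A1 : ZMod p) = fV I.q I.D t (A : ZMod p) (A1 : ZMod p) := by
  have hp : 0 < p := (Fact.out : p.Prime).pos
  unfold fVN fV
  rw [ZMod.natCast_mod, Nat.cast_add, I.cast_fUN, ZMod.natCast_mod, Nat.cast_pow, Nat.cast_mul,
    cast_chN, Nat.cast_mul, cast_subN hp, Nat.cast_mul]
  push_cast
  rfl

/-- S2g: the filter products -/
theorem cast_UN (h2 : p ∈ prs I.P) (s t X : ℕ) :
    (I.UN p s t X : ZMod p) =
      eval (I.pt p X) (map (Int.castRingHom (ZMod p)) (I.Upoly s t)) := by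
  rw [I.Upoly_eval]
  unfold UN
  rw [ZMod.natCast_mod, Nat.cast_prod]
  have h3 := prod_range_mul_div_mod I.n (cK0 I.q + 1)
    (fun k c => ((I.fUN p t (I.AN p s k c (dg I.bb X c)) : ℕ) : ZMod p))
  rw [h3]
  refine Finset.prod_congr rfl fun c _ => Finset.prod_congr rfl fun k hk => ?_
  have hk' : k ≤ cK0 I.q := by
    rw [Finset.mem_range] at hk
    omega
  rw [I.cast_fUN, I.cast_AN h2 s k _ hk' c]
  rfl

theorem cast_VN (h2 : p ∈ prs I.P) (s t X : ℕ) :
    (I.VN p s t X : ZMod p) =
      eval (I.pt p X) (map (Int.castRingHom (ZMod p)) (I.Vpoly s t)) := by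
  rw [I.Vpoly_eval]
  unfold VN
  rw [ZMod.natCast_mod, Nat.cast_prod]
  have h3 := prod_range_mul_div_mod I.n (cK0 I.q + 1)
    (fun k c => ((I.fVN p t (I.AN p s k c (dg I.bb X c)) (I.A1N p s k c (dg I.bb X c)) : ℕ) :
      ZMod p))
  rw [h3]
  refine Finset.prod_congr rfl fun c _ => Finset.prod_congr rfl fun k hk => ?_
  have hk' : k ≤ cK0 I.q := by
    rw [Finset.mem_range] at hk
    omega
  rw [I.cast_fVN, I.cast_AN h2 s k _ hk' c, I.cast_A1N h2 s k _ hk' c]
  rfl

end

end Inst

end Vale.Agent.P337
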