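import Vale.Agent.P337.CRR
import Vale.Agent.P337.Pipe

/-!
# The test
-/

namespace Vale.Agent.P337

/-- the test for the parameters `s`, `t` -/
def Inst.Test (I : Inst) (s t : ℕ) : Prop :=
  Cmp I.P (fun p => I.X1N s t p ^ 2 % p) (fun p => I.X2N s t p ^ 2 % p)

end Vale.Agent.P337
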