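import Vale.Agent.P337.Alg

/-!
# The trace formula (module B3)
-/

namespace Vale.Agent.P337

open MvPolynomial

section divided

variable {S : Type*} [CommRing S] {n : ℕ}

/-- divided differences of a monomial at the point `Y` -/
theorem exists_dd_monomial (Y : Fin n → S) (d : ℕ) : ∀ (s : Fin n →₀ ℕ), s.degree = d →
    ∃ D : Fin n → MvPolynomial (Fin n) S,
      monomial s (1 : S) - C (eval Y (monomial s (1 : S))) = ∑ j, D j * (X j - C (Y j)) ∧
      ∀ j, (D j).totalDegree ≤ d - 1 := by
  induction d with
  | zero =>
    intro s hs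
    have h0 : s = 0 := (Finsupp.degree_eq_zero_iff s).1 hs
    subst h0
    refine ⟨fun _ => 0, ?_, fun j => by simp⟩
    have h1 : (monomial (0 : Fin n →₀ ℕ) (1 : S)) = 1 := rfl
    rw [h1]; simp
  | succ d ih =>
    intro s hs
    have h0 : s ≠ 0 := by
      rintro rfl
      simp at hs
    obtain ⟨k, hk⟩ := Finsupp.ne_iff.1 h0
    have hk1 : Finsupp.single k 1 ≤ s := by
      rw [Finsupp.single_le_iff]
      simp at hk
      omega
    obtain ⟨t, rfl⟩ : ∃ t, s = t + Finsupp.single k 1 := ⟨s - Finsupp.single k 1, by
      rw [tsub_add_cancel_of_le hk1]⟩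
    have ht : t.degree = d := by
      rw [map_add, Finsupp.degree_single] at hs
      omega
    obtain ⟨D, hD, hDd⟩ := ih t ht
    have hm : (monomial (t + Finsupp.single k 1) (1 : S)) = monomial t 1 * X k := by
      rw [X, monomial_mul, one_mul]
    refine ⟨fun j => (if j = k then monomial t (1 : S) else 0) + C (Y k) * D j, ?_, ?_⟩
    · rw [hm, map_mul, eval_X, C_mul]
      have h2 : ∑ j, ((if j = k then monomial t (1 : S) else 0) + C (Y k) * D j) *
          (X j - C (Y j)) = monomial t 1 * (X k - C (Y k)) +
            C (Y k) * ∑ j, D j * (X j - C (Y j)) := by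
        simp only [add_mul, Finset.sum_add_distrib, ite_mul, zero_mul, Finset.sum_ite_eq',
          Finset.mem_univ, if_true, Finset.mul_sum]
        congr 1
        refine Finset.sum_congr rfl fun j _ => by ring
      rw [h2, ← hD]
      ring
    · intro j
      refine (totalDegree_add _ _).trans (max_le ?_ ?_)
      · split_ifs
        · refine (totalDegree_monomial_le t (1 : S)).trans ?_
          rw [Finsupp.degree_apply] at ht
          simp only [Finsupp.sum, id]
          exact (le_of_eq ht).trans (by omega)
        · simp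
      · refine (totalDegree_mul _ _).trans ?_
        rw [totalDegree_C, zero_add]
        exact (hDd j).trans (by omega)

/-- divided differences of a polynomial at the point `Y` -/
theorem exists_dd (Y : Fin n → S) (f : MvPolynomial (Fin n) S) :
    ∃ D : Fin n → MvPolynomial (Fin n) S,
      f - C (eval Y f) = ∑ j, D j * (X j - C (Y j)) ∧
      ∀ j, (D j).totalDegree ≤ f.totalDegree - 1 := by
  choose D hD hDd using fun s : Fin n →₀ ℕ => exists_dd_monomial Y s.degree s rfl
  refine ⟨fun j => ∑ s ∈ f.support, C (coeff s f) * D s j, ?_, ?_⟩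
  · have h1 : ∑ j, (∑ s ∈ f.support, C (coeff s f) * D s j) * (X j - C (Y j)) =
        ∑ s ∈ f.support, C (coeff s f) * (monomial s (1 : S) - C (eval Y (monomial s (1 : S)))) := by
      simp only [Finset.sum_mul]
      rw [Finset.sum_comm]
      refine Finset.sum_congr rfl fun s _ => ?_
      rw [hD s, Finset.mul_sum]
      exact Finset.sum_congr rfl fun j _ => by ring
    rw [h1]
    have h2 : f = ∑ s ∈ f.support, C (coeff s f) * monomial s (1 : S) := by
      conv_lhs => rw [← support_sum_monomial_coeff f]
      refine Finset.sum_congr rfl fun s _ => ?_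
      rw [C_mul_monomial, mul_one]
    have h3 : eval Y f = ∑ s ∈ f.support, coeff s f * eval Y (monomial s (1 : S)) := by
      conv_lhs => rw [h2]
      rw [map_sum]
      refine Finset.sum_congr rfl fun s _ => ?_
      rw [map_mul, eval_C]
    simp only [mul_sub, Finset.sum_sub_distrib]
    rw [← h2, h3, map_sum]
    simp only [C_mul]
  · intro j
    refine (totalDegree_finsetSum _ _).trans (Finset.sup_le fun s hs => ?_)
    refine (totalDegree_mul _ _).trans ?_
    rw [totalDegree_C, zero_add]
    refine (hDd s j).trans (Nat.sub_le_sub_right ?_ 1)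
    have := le_totalDegree hs
    rw [Finsupp.degree_apply]
    simpa only [Finsupp.sum] using this

theorem eval_dd {Y : Fin n → S} {f : MvPolynomial (Fin n) S}
    {D : Fin n → MvPolynomial (Fin n) S}
    (h : f - C (eval Y f) = ∑ j, D j * (X j - C (Y j))) (k : Fin n) :
    eval Y (D k) = eval Y (pderiv k f) := by
  have h1 := congrArg (fun g => eval Y (pderiv k g)) h
  simp only [map_sub, pderiv_C, sub_zero, map_sum, Derivation.leibniz, pderiv_X, smul_eq_mul,
    map_add, map_mul, eval_X, eval_C, sub_self, zero_mul, add_zero] at h1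
  rw [h1]
  simp only [Pi.single_apply, apply_ite (eval Y), map_one, map_zero, mul_ite, mul_one, mul_zero]
  simp

end divided

section top

variable {S : Type*} [CommRing S] {n : ℕ}

/-- the exponent `(4,...,4)` -/
noncomputable def four (n : ℕ) : Fin n →₀ ℕ := Finsupp.equivFunOnFinite.symm fun _ => 4

theorem four_degree : (four n).degree = 4 * n := by
  rw [Finsupp.degree_eq_sum]
  simp [four, mul_comm]

theorem rho_low (h : Fin n → MvPolynomial (Fin n) S) (hd : ∀ i, (h i).totalDegree ≤ 3)
    (f : MvPolynomial (Fin n) S) (hf : f.totalDegree ≤ 4 * n) :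
    rho h f = coeff (four n) f := by
  have h2 : f = ∑ s ∈ f.support, C (coeff s f) * monomial s (1 : S) := by
    conv_lhs => rw [← support_sum_monomial_coeff f]
    refine Finset.sum_congr rfl fun s _ => ?_
    rw [C_mul_monomial, mul_one]
  have h0 : rho h (0 : MvPolynomial (Fin n) S) = 0 := by
    have := rho_smul h hd 0 0
    simpa using this
  have hsum : ∀ (T : Finset (Fin n →₀ ℕ)) (F : (Fin n →₀ ℕ) → MvPolynomial (Fin n) S),
      rho h (∑ s ∈ T, F s) = ∑ s ∈ T, rho h (F s) := by
    intro T F
    induction T using Finset.induction_on with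
    | empty => simpa using h0
    | insert a T ha ih => rw [Finset.sum_insert ha, Finset.sum_insert ha, rho_add h hd, ih]
  conv_lhs => rw [h2]
  rw [hsum]
  have h3 : ∀ s ∈ f.support, rho h (C (coeff s f) * monomial s (1 : S)) =
      if s = four n then coeff s f else 0 := by
    intro s hs
    rw [rho_smul h hd, rho_monomial h hd s]
    · simp only [four, mul_ite, mul_one, mul_zero]
      congr
    · have := le_totalDegree hs
      rw [Finsupp.degree_apply]
      simp only [Finsupp.sum] at this
      exact this.trans hf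
  rw [Finset.sum_congr rfl h3, Finset.sum_ite_eq']
  split_ifs with h4
  · rfl
  · rw [notMem_support_iff.1 h4]

theorem rho_sum {ι : Type*} (h : Fin n → MvPolynomial (Fin n) S)
    (hd : ∀ i, (h i).totalDegree ≤ 3) (T : Finset ι) (F : ι → MvPolynomial (Fin n) S) :
    rho h (∑ s ∈ T, F s) = ∑ s ∈ T, rho h (F s) := by
  classical
  have h0 : rho h (0 : MvPolynomial (Fin n) S) = 0 := by
    have := rho_smul h hd 0 0
    simpa using this
  induction T using Finset.induction_on with
  | empty => simpa using h0
  | insert a T ha ih => rw [Finset.sum_insert ha, Finset.sum_insert ha, rho_add h hd, ih]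

theorem totX (i : Fin n) : (X i : MvPolynomial (Fin n) S).totalDegree ≤ 1 := by
  refine (totalDegree_monomial_le _ (1 : S)).trans ?_
  simp

/-- a product of polynomials of the form `x_i ^ 4 + lower` -/
theorem coeff_prod_top (E : Fin n → MvPolynomial (Fin n) S) (hE : ∀ i, (E i).totalDegree ≤ 3) :
    coeff (four n) (∏ i, (X i ^ 4 + E i)) = 1 := by
  classical
  rw [Finset.prod_add, coeff_sum]
  rw [Finset.sum_eq_single (Finset.univ : Finset (Fin n))]
  · simp only [Finset.sdiff_self, Finset.prod_empty, mul_one]
    have h1 : (∏ i : Fin n, (X i : MvPolynomial (Fin n) S) ^ 4) = monomial (four n) 1 := by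
      rw [monomial_eq, C_1, one_mul, Finsupp.prod_fintype]
      · simp [four]
      · simp
    rw [h1, coeff_monomial, if_pos rfl]
  · intro T _ hT
    refine coeff_eq_zero_of_totalDegree_lt ?_
    have h2 : ((∏ i ∈ T, (X i : MvPolynomial (Fin n) S) ^ 4) *
        ∏ i ∈ Finset.univ \ T, E i).totalDegree ≤ 4 * T.card + 3 * (Finset.univ \ T).card := by
      refine (totalDegree_mul _ _).trans (add_le_add ?_ ?_)
      · refine (totalDegree_finsetProd _ _).trans ?_
        refine (Finset.sum_le_card_nsmul T _ 4 fun i _ => ?_).trans (by simp [mul_comm])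
        exact (totalDegree_pow _ _).trans (by
          have := totX (S := S) i
          omega)
      · refine (totalDegree_finsetProd _ _).trans ?_
        exact (Finset.sum_le_card_nsmul _ _ 3 fun i _ => hE i).trans (by simp [mul_comm])
    have h3 : T.card + (Finset.univ \ T).card = n := by
      have := Finset.card_sdiff_add_card_inter (Finset.univ : Finset (Fin n)) T
      have h6 : (Finset.univ : Finset (Fin n)) ∩ T = T := Finset.univ_inter T
      rw [h6, Finset.card_univ, Fintype.card_fin] at this
      omega
    have h4 : T.card < n := by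
      have := Finset.card_lt_univ_of_notMem (s := T) (x := ?_) ?_
      · simpa using this
      · exact (Classical.choose (not_forall.1 fun h => hT (Finset.eq_univ_iff_forall.2 h)))
      · exact Classical.choose_spec (not_forall.1 fun h => hT (Finset.eq_univ_iff_forall.2 h))
    have h5 : ∑ i ∈ (four n).support, (four n) i = 4 * n := by
      rw [← Finsupp.degree_apply, four_degree]
    rw [h5]
    omega
  · simp

theorem coeff_det_top (M : Matrix (Fin n) (Fin n) (MvPolynomial (Fin n) S))
    (E : Fin n → MvPolynomial (Fin n) S) (hE : ∀ i, (E i).totalDegree ≤ 3)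
    (hM : ∀ i, M i i = X i ^ 4 + E i) (hM' : ∀ i j, i ≠ j → (M i j).totalDegree ≤ 3) :
    coeff (four n) M.det = 1 ∧ M.det.totalDegree ≤ 4 * n := by
  classical
  have h4 : ∀ i j, (M i j).totalDegree ≤ 4 := by
    intro i j
    by_cases hij : i = j
    · subst hij
      rw [hM]
      refine (totalDegree_add _ _).trans (max_le ?_ ((hE i).trans (by norm_num)))
      refine (totalDegree_pow _ _).trans ?_
      have := totX (S := S) i
      omega
    · exact (hM' i j hij).trans (by norm_num)
  have hsum : ∀ i ∈ (Finset.univ : Finset (Fin n)), (4 : ℕ) ≤ 4 := fun _ _ => le_rfl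
  have hcast : ∀ (u : ℤˣ) (f : MvPolynomial (Fin n) S),
      (((u : ℤ) : MvPolynomial (Fin n) S) * f).totalDegree ≤ f.totalDegree := by
    intro u f
    rcases Int.units_eq_one_or u with rfl | rfl
    · simp
    · simp [totalDegree_neg]
  have hd : ∀ σ : Equiv.Perm (Fin n), (∏ i, M (σ i) i).totalDegree ≤ 4 * n := by
    intro σ
    refine (totalDegree_finsetProd _ _).trans ?_
    refine (Finset.sum_le_card_nsmul _ _ 4 fun i _ => h4 _ _).trans ?_
    simp [mul_comm]
  have hd' : ∀ σ : Equiv.Perm (Fin n), σ ≠ 1 → (∏ i, M (σ i) i).totalDegree < 4 * n := by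
    intro σ hσ
    obtain ⟨k, hk⟩ : ∃ k, σ k ≠ k := by
      by_contra hcon
      push Not at hcon
      exact hσ (Equiv.ext hcon)
    refine (totalDegree_finsetProd _ _).trans_lt ?_
    rw [← Finset.add_sum_erase _ _ (Finset.mem_univ k)]
    have h5 : (M (σ k) k).totalDegree ≤ 3 := hM' _ _ hk
    have h6 : ∑ i ∈ Finset.univ.erase k, (M (σ i) i).totalDegree ≤ 4 * (n - 1) := by
      refine (Finset.sum_le_card_nsmul _ _ 4 fun i _ => h4 _ _).trans ?_
      rw [Finset.card_erase_of_mem (Finset.mem_univ k)]
      simp [mul_comm]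
    have h7 : 0 < n := k.pos
    omega
  have h8 : ∑ i ∈ (four n).support, (four n) i = 4 * n := by
    rw [← Finsupp.degree_apply, four_degree]
  constructor
  · rw [Matrix.det_apply', coeff_sum, Finset.sum_eq_single (1 : Equiv.Perm (Fin n))]
    · simp only [Equiv.Perm.sign_one, Units.val_one, Int.cast_one, one_mul, Equiv.Perm.coe_one, id]
      simp only [hM]
      exact coeff_prod_top E hE
    · intro σ _ hσ
      apply coeff_eq_zero_of_totalDegree_lt
      rw [h8]
      exact (hcast _ _).trans_lt (hd' σ hσ)
    · simp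
  · rw [Matrix.det_apply']
    exact (totalDegree_finsetSum _ _).trans (Finset.sup_le fun σ _ => (hcast _ _).trans (hd σ))

end top

/-- the Jacobian determinant of the relations -/
noncomputable def jac {R : Type*} [CommRing R] {n : ℕ} (h : Fin n → MvPolynomial (Fin n) R) :
    MvPolynomial (Fin n) R :=
  Matrix.det (Matrix.of fun i j => (if i = j then 5 * X i ^ 4 else 0) - pderiv j (h i))

section main

variable {R : Type*} [CommRing R] {n : ℕ}

theorem totalDegree_map_le' {S : Type*} [CommRing S] (φ : R →+* S) (g : MvPolynomial (Fin n) R) :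
    (map φ g).totalDegree ≤ g.totalDegree :=
  Finset.sup_mono (support_map_subset φ g)

/-- Cramer's rule -/
theorem cramer_mem (h : Fin n → MvPolynomial (Fin n) R) (y : Fin n → MvPolynomial (Fin n) R)
    (M : Matrix (Fin n) (Fin n) (MvPolynomial (Fin n) R))
    (hrow : ∀ i, X i ^ 5 - h i = ∑ j, M i j * y j) (j : Fin n) : y j * M.det ∈ relIdeal h := by
  classical
  have h1 : ∑ i, M.adjugate j i * (X i ^ 5 - h i) = y j * M.det := by
    have h2 := Matrix.adjugate_mul M
    have h3 : ∀ k, ∑ i, M.adjugate j i * M i k = if j = k then M.det else 0 := by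
      intro k
      have h4 := congrFun (congrFun h2 j) k
      rw [Matrix.mul_apply] at h4
      rw [h4]
      simp [Matrix.one_apply]
    simp only [hrow, Finset.mul_sum]
    rw [Finset.sum_comm]
    have h5 : ∀ k, ∑ i, M.adjugate j i * (M i k * y k) =
        (if j = k then M.det else 0) * y k := by
      intro k
      rw [← h3 k, Finset.sum_mul]
      exact Finset.sum_congr rfl fun i _ => by ring
    simp only [h5, ite_mul, zero_mul, Finset.sum_ite_eq, Finset.mem_univ, if_true]
    ring
  rw [← h1]
  exact Ideal.sum_mem _ fun i _ => Ideal.mul_mem_left _ _ (Ideal.subset_span ⟨i, rfl⟩)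

/-- `rho` commutes with base change -/
theorem rho_map {S : Type*} [CommRing S] (φ : R →+* S) (h : Fin n → MvPolynomial (Fin n) R)
    (hd : ∀ i, (h i).totalDegree ≤ 3) (g : MvPolynomial (Fin n) R) :
    rho (fun i => map φ (h i)) (map φ g) = φ (rho h g) := by
  have hd' : ∀ i, (map φ (h i)).totalDegree ≤ 3 := fun i =>
    (totalDegree_map_le' φ (h i)).trans (hd i)
  rw [rho_eq (fun i => map φ (h i)) hd' (map φ g) g.totalDegree (totalDegree_map_le' φ g)]
  unfold rho
  rw [map_sum]
  refine Finset.sum_congr rfl fun k _ => ?_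
  rw [← coeff_map]
  simp [map_mul, map_prod, map_pow]

theorem mem_rel (h : Fin n → MvPolynomial (Fin n) R) (i : Fin n) :
    X i ^ 5 - h i ∈ relIdeal h := Ideal.subset_span ⟨i, rfl⟩

/-- expansion of a polynomial with coefficients in a free algebra -/
theorem exists_expand {S : Type*} [CommRing S] [Algebra R S] {K : Type*} [Fintype K]
    (b : Module.Basis K R S) (Φ : MvPolynomial (Fin n) S) :
    ∃ u : K → MvPolynomial (Fin n) R, Φ = ∑ k, C (b k) * map (algebraMap R S) (u k) := by
  refine ⟨fun k => ∑ s ∈ Φ.support, monomial s (b.repr (coeff s Φ) k), ?_⟩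
  have h1 : ∀ k, C (b k) * map (algebraMap R S)
      (∑ s ∈ Φ.support, monomial s (b.repr (coeff s Φ) k)) =
      ∑ s ∈ Φ.support, monomial s (b.repr (coeff s Φ) k • b k) := by
    intro k
    rw [map_sum, Finset.mul_sum]
    refine Finset.sum_congr rfl fun s _ => ?_
    rw [map_monomial, C_mul_monomial, Algebra.smul_def, mul_comm]
  simp only [h1]
  rw [Finset.sum_comm]
  conv_lhs => rw [← support_sum_monomial_coeff Φ]
  refine Finset.sum_congr rfl fun s _ => ?_
  rw [← map_sum, b.sum_repr]

/-- the Bezoutian argument over an abstract algebra -/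
theorem trace_aux {S : Type*} [CommRing S] [Algebra R S] {K : Type*} [Fintype K] [DecidableEq K]
    (h : Fin n → MvPolynomial (Fin n) R) (hd : ∀ i, (h i).totalDegree ≤ 3)
    (q : MvPolynomial (Fin n) R →+* S) (hqC : ∀ c : R, q (C c) = algebraMap R S c)
    (hq0 : ∀ i, q (X i) ^ 5 = q (h i))
    (b : Module.Basis K R S) (β : K → MvPolynomial (Fin n) R) (hβ : ∀ k, q (β k) = b k) :
    ∃ u : K → MvPolynomial (Fin n) R,
      (∀ f : MvPolynomial (Fin n) R, ∀ k, b.repr (q f) k = rho h (f * u k)) ∧
      q (∑ k, β k * u k) = q (jac h) := by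
  classical
  set φ : R →+* S := algebraMap R S with hφ
  set Y : Fin n → S := fun i => q (X i) with hY
  set h' : Fin n → MvPolynomial (Fin n) S := fun i => map φ (h i) with hh'
  have hd' : ∀ i, (h' i).totalDegree ≤ 3 := fun i =>
    (totalDegree_map_le' φ (h i)).trans (hd i)
  -- evaluation at the generic point
  have hev : ∀ f : MvPolynomial (Fin n) R, eval Y (map φ f) = q f := by
    intro f
    have h1 : (eval Y).comp (map φ) = q := by
      apply MvPolynomial.ringHom_ext
      · intro c
        simp [hqC, hφ]
      · intro i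
        simp [hY]
    exact congrArg (fun F : MvPolynomial (Fin n) R →+* S => F f) h1
  have hrel : ∀ i, Y i ^ 5 = eval Y (h' i) := by
    intro i
    rw [hh', hev]
    exact hq0 i
  -- divided differences
  choose D hD hDd using fun f : MvPolynomial (Fin n) S => exists_dd Y f
  let geo : Fin n → MvPolynomial (Fin n) S := fun i =>
    ∑ a ∈ Finset.range 5, X i ^ a * C (Y i) ^ (5 - 1 - a)
  have hgeo : ∀ i, geo i * (X i - C (Y i)) = X i ^ 5 - C (Y i) ^ 5 := fun i =>
    Commute.geom_sum₂_mul (Commute.all _ _) 5
  let M : Matrix (Fin n) (Fin n) (MvPolynomial (Fin n) S) :=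
    Matrix.of fun i j => (if i = j then geo i else 0) - D (h' i) j
  have hrow : ∀ i, X i ^ 5 - h' i = ∑ j, M i j * (X j - C (Y j)) := by
    intro i
    have h1 := hD (h' i)
    simp only [M, Matrix.of_apply, sub_mul, Finset.sum_sub_distrib, ite_mul, zero_mul,
      Finset.sum_ite_eq, Finset.mem_univ, if_true]
    rw [← h1, hgeo, ← hrel i, C_pow]
    ring
  -- the ideal contains `(X j - Y j) Δ`
  have hcr := cramer_mem h' (fun j => X j - C (Y j)) M hrow
  -- `rho Δ = 1`
  have hone : rho h' M.det = 1 := by
    have hdetail := coeff_det_top M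
      (fun i => (∑ a ∈ Finset.range 4, X i ^ a * C (Y i) ^ (5 - 1 - a)) - D (h' i) i) ?_ ?_ ?_
    · rw [rho_low h' hd' M.det hdetail.2, hdetail.1]
    · intro i
      refine (totalDegree_sub _ _).trans (max_le ?_ ?_)
      · refine (totalDegree_finsetSum _ _).trans (Finset.sup_le fun a ha => ?_)
        refine (totalDegree_mul _ _).trans ?_
        rw [← C_pow, totalDegree_C, add_zero]
        refine (totalDegree_pow _ _).trans ?_
        have h1 := totX (S := S) i
        have h2 := Finset.mem_range.1 ha
        calc a * (X i : MvPolynomial (Fin n) S).totalDegree ≤ a * 1 := Nat.mul_le_mul_left _ h1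
          _ ≤ 3 := by omega
      · exact (hDd _ _).trans ((Nat.sub_le_sub_right (hd' i) 1).trans (by norm_num))
    · intro i
      simp only [M, Matrix.of_apply, if_true, geo]
      rw [Finset.sum_range_succ]
      simp
      ring
    · intro i j hij
      simp only [M, Matrix.of_apply, if_neg hij, zero_sub, totalDegree_neg]
      exact (hDd _ _).trans ((Nat.sub_le_sub_right (hd' i) 1).trans (by norm_num))
  -- reproducing property
  have hrep : ∀ f : MvPolynomial (Fin n) R, rho h' (map φ f * M.det) = q f := by
    intro f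
    have h1 : (map φ f - C (q f)) * M.det ∈ relIdeal h' := by
      have h2 := hD (map φ f)
      rw [hev] at h2
      rw [h2, Finset.sum_mul]
      refine Ideal.sum_mem _ fun j _ => ?_
      rw [mul_assoc]
      exact Ideal.mul_mem_left _ _ (hcr j)
    have h3 : map φ f * M.det = (map φ f - C (q f)) * M.det + C (q f) * M.det := by ring
    rw [h3, rho_add h' hd', rho_ideal h' hd' _ h1, rho_smul h' hd', hone]
    simp
  obtain ⟨u, hu⟩ := exists_expand b M.det
  refine ⟨u, ?_, ?_⟩
  · intro f
    have h1 : q f = ∑ k, rho h (f * u k) • b k := by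
      rw [← hrep f]
      conv_lhs => rw [hu]
      rw [Finset.mul_sum, rho_sum h' hd']
      refine Finset.sum_congr rfl fun k _ => ?_
      have h2 : map φ f * (C (b k) * map φ (u k)) = C (b k) * map φ (f * u k) := by
        rw [map_mul]; ring
      rw [h2, rho_smul h' hd', rho_map φ h hd, Algebra.smul_def, mul_comm]
    intro k
    rw [h1]
    simp [Finsupp.single_apply]
  · have h1 : q (∑ k, β k * u k) = eval Y M.det := by
      conv_rhs => rw [hu]
      rw [map_sum, map_sum]
      refine Finset.sum_congr rfl fun k _ => ?_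
      rw [map_mul, map_mul, eval_C, hev, hβ]
    rw [h1, RingHom.map_det, jac, RingHom.map_det]
    congr 1
    ext i j
    simp only [RingHom.mapMatrix_apply, Matrix.map_apply, M, Matrix.of_apply, map_sub]
    have h2 : eval Y (D (h' i) j) = q (pderiv j (h i)) := by
      rw [eval_dd (hD (h' i)) j, hh', pderiv_map, hev]
    rw [h2]
    congr 1
    split_ifs
    · simp only [geo, map_sum, map_mul, map_pow, eval_X, eval_C, hY]
      have h5 : q 5 = 5 := map_ofNat q 5
      simp [Finset.sum_range_succ, h5]
      ring
    · simp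

theorem trc_eq (h : Fin n → MvPolynomial (Fin n) R) (hd : ∀ i, (h i).totalDegree ≤ 3)
    (g : MvPolynomial (Fin n) R) : trc h g = rho h (g * jac h) := by
  classical
  obtain ⟨b, hb⟩ := exists_basis h hd
  obtain ⟨u, hco, hjac⟩ := trace_aux h hd (Ideal.Quotient.mk (relIdeal h)) (fun c => rfl)
    (fun i => by
      rw [← map_pow]
      exact (Ideal.Quotient.mk_eq_mk_iff_sub_mem _ _).2 (mem_rel h i)) b
    (fun k => monomial (Finsupp.equivFunOnFinite.symm fun i => (k i : ℕ)) 1)
    (fun k => (hb k).symm)
  set β : (Fin n → Fin 5) → MvPolynomial (Fin n) R := fun k =>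
    monomial (Finsupp.equivFunOnFinite.symm fun i => (k i : ℕ)) 1 with hβ
  have htr : trc h g = ∑ k, rho h (g * (β k * u k)) := by
    unfold trc
    rw [Algebra.trace_eq_matrix_trace b, Matrix.trace]
    refine Finset.sum_congr rfl fun k _ => ?_
    rw [Matrix.diag_apply, Algebra.leftMulMatrix_eq_repr_mul, hb k, ← map_mul, hco, mul_assoc]
  have hdiff : (∑ k, β k * u k) - jac h ∈ relIdeal h := by
    rw [← Ideal.Quotient.mk_eq_mk_iff_sub_mem]
    exact hjac
  have hfin : rho h (g * jac h) = rho h (g * ∑ k, β k * u k) := by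
    have h1 : g * ∑ k, β k * u k = g * jac h + g * ((∑ k, β k * u k) - jac h) := by ring
    rw [h1, rho_add h hd, rho_ideal h hd _ (Ideal.mul_mem_left _ _ hdiff), add_zero]
  rw [hfin, htr, Finset.mul_sum, rho_sum h hd]

end main

end Vale.Agent.P337
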